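import Crest.Agent.R163.NetUni

/-! Row 163: polar coordinates and shape nets for three states. -/

set_option autoImplicit false

namespace Crest.Agent.R163.Cover3H

open Finset Crest.Agent.R163.Ck

theorem polar_core {a b c : ℝ} (ha : 0 ≤ a) (hab : a ≤ b) (hac : a ≤ c) (hs : a + b + c = 3) :
    ∃ ρ y : ℝ, 0 ≤ ρ ∧ ρ ≤ 1 ∧ 0 ≤ y ∧ 4 * y ≤ 9 ∧
      ((a - 1) ^ 2 + (b - 1) ^ 2 + (c - 1) ^ 2) / 3 = ρ ^ 2 * (1 / 2 + 2 * y / 3) ∧
      ((a - 1) ^ 3 + (b - 1) ^ 3 + (c - 1) ^ 3) / 3 = ρ ^ 3 * (y - 1 / 4) := by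
  have hρ : 0 ≤ 1 - a := by linarith
  rcases hρ.eq_or_lt with h0 | h0
  · have ha1 : a = 1 := by linarith
    have hb1 : b = 1 := by linarith
    have hc1 : c = 1 := by linarith
    exact ⟨0, 0, le_rfl, zero_le_one, le_rfl, by norm_num, by simp [ha1, hb1, hc1],
      by simp [ha1, hb1, hc1]⟩
  · have hc : c = 3 - a - b := by linarith
    refine ⟨1 - a, ((b - c) / 2 / (1 - a)) ^ 2, hρ, by linarith, sq_nonneg _, ?_, ?_, ?_⟩
    · rw [div_pow, ← mul_div_assoc, div_le_iff₀ (pow_pos h0 2)]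
      nlinarith [mul_nonneg (sub_nonneg.2 hab) (sub_nonneg.2 hac)]
    · subst hc
      field_simp
      ring
    · subst hc
      field_simp
      ring

theorem polar3 {p : Vec 3} (hp : Simp p) : ∃ ρ y : ℝ, 0 ≤ ρ ∧ ρ ≤ 1 ∧ 0 ≤ y ∧ 4 * y ≤ 9 ∧
    fx p = ρ ^ 2 * (1 / 2 + 2 * y / 3) ∧ fm p = ρ ^ 3 * (y - 1 / 4) := by
  have hs : p 0 + p 1 + p 2 = 3 := by
    have := hp.2
    unfold av at this
    rw [Fin.sum_univ_three] at this
    push_cast at this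
    linarith
  have h0 := hp.1 0
  have h1 := hp.1 1
  have h2 := hp.1 2
  unfold fx fm mom
  simp only [Fin.sum_univ_three]
  push_cast
  by_cases c1 : p 0 ≤ p 1 ∧ p 0 ≤ p 2
  · exact polar_core h0 c1.1 c1.2 hs
  by_cases c2 : p 1 ≤ p 0 ∧ p 1 ≤ p 2
  · obtain ⟨ρ, y, r0, r1, y0, y1, e1, e2⟩ := polar_core h1 c2.1 c2.2 (by linarith)
    exact ⟨ρ, y, r0, r1, y0, y1, by rw [← e1]; ring, by rw [← e2]; ring⟩
  · have c3 : p 2 ≤ p 0 ∧ p 2 ≤ p 1 := by
      rw [not_and_or, not_le, not_le] at c1 c2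
      rcases c1 with c1 | c1 <;> rcases c2 with c2 | c2 <;> constructor <;> linarith
    obtain ⟨ρ, y, r0, r1, y0, y1, e1, e2⟩ := polar_core h2 c3.1 c3.2 (by linarith)
    exact ⟨ρ, y, r0, r1, y0, y1, by rw [← e1]; ring, by rw [← e2]; ring⟩

theorem iter_mulLin (lo hi : ℤ) (k : ℕ) {n : ℕ} {l : List ℤ} (h : l.length = n + 1) (b : ℝ) :
    ((mulLin lo hi)^[k] l).length = n + k + 1 ∧
      evB (n + k) ((mulLin lo hi)^[k] l) b = (lo * (1 - b) + hi * b) ^ k * evB n l b := by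
  induction k with
  | zero => simp [h]
  | succ k ih =>
    rw [Function.iterate_succ_apply', length_mulLin, ih.1, ← add_assoc, evB_mulLin _ _ ih.1.le,
      ih.2]
    exact ⟨rfl, by ring⟩

/-- a column of the shape net -/
def col (DY lo hi : ℕ) (a : ℕ × ℕ × ℕ) : List ℤ :=
  (mulLin (6 + 2 * lo) (6 + 2 * hi))^[a.1] ((mulLin (3 * lo - 3) (3 * hi - 3))^[a.2.1]
      ((mulLin 12 12)^[DY - a.1 - a.2.1] [1]))

theorem evB_col {DY : ℕ} (lo hi : ℕ) {a : ℕ × ℕ × ℕ} (ha : a.1 + a.2.1 ≤ DY) {b y : ℝ}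
    (hy : 4 * y = lo * (1 - b) + hi * b) :
    evB DY (col DY lo hi a) b = 12 ^ DY * ((1 / 2 + 2 * y / 3) ^ a.1 * (y - 1 / 4) ^ a.2.1) := by
  obtain ⟨m, hm⟩ := Nat.exists_eq_add_of_le ha
  have e : DY - a.1 - a.2.1 = m := by omega
  have h1 := iter_mulLin 12 12 m (n := 0) (l := [1]) rfl b
  have h2 := iter_mulLin (3 * lo - 3) (3 * hi - 3) a.2.1 h1.1 b
  have h3 := iter_mulLin (6 + 2 * lo) (6 + 2 * hi) a.1 h2.1 b
  have e0 : evB 0 [1] b = 1 := by simp [evB]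
  have e2 : DY = 0 + m + a.2.1 + a.1 := by omega
  unfold col
  rw [e]
  conv_lhs => rw [e2]
  rw [h3.2, h2.2, h1.2, e0]
  have f1 : (((6 + 2 * lo : ℤ) : ℝ) * (1 - b) + ((6 + 2 * hi : ℤ) : ℝ) * b) =
      12 * (1 / 2 + 2 * y / 3) := by push_cast; linarith
  have f2 : (((3 * lo - 3 : ℤ) : ℝ) * (1 - b) + ((3 * hi - 3 : ℤ) : ℝ) * b) =
      12 * (y - 1 / 4) := by push_cast; linarith
  have f3 : (((12 : ℤ) : ℝ) * (1 - b) + ((12 : ℤ) : ℝ) * b) = 12 := by push_cast; ring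
  rw [f1, f2, f3, mul_pow, mul_pow, hm]
  ring

theorem mem_shapes3 (DY : ℕ) (fs : List (ℕ × ℕ × ℕ)) :
    ∀ (brk : List ℕ) (i : ℕ), i + 1 < brk.length →
      ∀ c ∈ shape3 DY fs (brk.getD i 0) (brk.getD (i + 1) 0), c ∈ shapes3 DY fs brk
  | [], _, h => by simp at h
  | [_], _, h => by simp at h
  | a :: b :: l, 0, _ => fun c hc => by
    rw [shapes3]
    exact List.mem_append_left _ (by simpa using hc)
  | a :: b :: l, i + 1, h => fun c hc => by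
    rw [shapes3]
    refine List.mem_append_right _ (mem_shapes3 DY fs (b :: l) i (by simpa using h) c ?_)
    simpa using hc

theorem length_shapes3 (DY : ℕ) (fs : List (ℕ × ℕ × ℕ)) :
    ∀ (brk : List ℕ), ∀ c ∈ shapes3 DY fs brk, c.length = fs.length
  | [] => fun c hc => by simp [shapes3] at hc
  | [_] => fun c hc => by simp [shapes3] at hc
  | a :: b :: l => fun c hc => by
    rw [shapes3] at hc
    rcases List.mem_append.1 hc with h | h
    · unfold shape3 at h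
      obtain ⟨i, _, rfl⟩ := List.mem_map.1 h
      simp
    · exact length_shapes3 DY fs (b :: l) c h

theorem dom_core (DY : ℕ) {fs : List (ℕ × ℕ × ℕ)} (hfs : ∀ a ∈ fs, a.1 + a.2.1 ≤ DY)
    (lo hi : ℕ) {b y : ℝ} (hb0 : 0 ≤ b) (hb1 : b ≤ 1) (hy : 4 * y = lo * (1 - b) + hi * b)
    (w : ℕ → ℝ)
    (hw : ∀ c ∈ shape3 DY fs lo hi, 0 ≤ ∑ k ∈ range fs.length, (c.getD k 0 : ℝ) * w k) :
    0 ≤ ∑ k ∈ range fs.length, ((1 / 2 + 2 * y / 3) ^ (fs.getD k (0, 0, 0)).1 *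
      (y - 1 / 4) ^ (fs.getD k (0, 0, 0)).2.1) * w k := by
  have h12 : (0 : ℝ) < 12 ^ DY := by positivity
  refine le_of_mul_le_mul_left ?_ h12
  rw [mul_zero, mul_sum]
  have e : ∀ k ∈ range fs.length, (12 : ℝ) ^ DY * (((1 / 2 + 2 * y / 3) ^ (fs.getD k (0, 0, 0)).1 *
      (y - 1 / 4) ^ (fs.getD k (0, 0, 0)).2.1) * w k) =
      ∑ i ∈ range (DY + 1), (b ^ i * (1 - b) ^ (DY - i)) *
        ((((fs.map fun a => (col DY lo hi a).getD i 0).getD k 0 : ℤ) : ℝ) * w k) := by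
    intro k hk
    have hk' := mem_range.1 hk
    have hmem : fs.getD k (0, 0, 0) ∈ fs := by
      rw [List.getD_eq_getElem _ _ hk']
      exact List.getElem_mem _
    rw [← mul_assoc, ← evB_col lo hi (hfs _ hmem) hy, evB, sum_mul]
    refine sum_congr rfl fun i _ => ?_
    have : (fs.map fun a => (col DY lo hi a).getD i 0).getD k 0 =
        (col DY lo hi (fs.getD k (0, 0, 0))).getD i 0 := by
      rw [List.getD_eq_getElem _ _ (by simpa using hk'), List.getD_eq_getElem _ _ hk',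
        List.getElem_map]
    rw [this]
    ring
  rw [sum_congr rfl e, sum_comm]
  refine sum_nonneg fun i hi' => ?_
  rw [← mul_sum]
  refine mul_nonneg (mul_nonneg (pow_nonneg hb0 _) (pow_nonneg (by linarith) _)) (hw _ ?_)
  unfold shape3
  exact List.mem_map.2 ⟨i, List.mem_range.2 (mem_range.1 hi'), rfl⟩

theorem exists_bary {lo hi x : ℝ} (h1 : lo ≤ x) (h2 : x ≤ hi) :
    ∃ b : ℝ, 0 ≤ b ∧ b ≤ 1 ∧ x = lo * (1 - b) + hi * b := by
  rcases (h1.trans h2).eq_or_lt with h | h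
  · exact ⟨0, le_rfl, zero_le_one, by linarith⟩
  · have h' : 0 < hi - lo := by linarith
    refine ⟨(x - lo) / (hi - lo), div_nonneg (by linarith) h'.le,
      (div_le_one h').2 (by linarith), ?_⟩
    field_simp
    ring

end Crest.Agent.R163.Cover3H

namespace Crest.Agent.R163.Ck

open Finset Crest.Agent.R163.Cover3H

theorem cover3 (DY : ℕ) {fs : List (ℕ × ℕ × ℕ)} (hfs : ∀ a ∈ fs, a.2.2 = 0 ∧ a.1 + a.2.1 ≤ DY)
    {brk : List ℕ} (hb : brkOK 0 9 brk = true) : Cover 3 fs (shapes3 DY fs brk) := by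
  intro p hp
  obtain ⟨ρ, y, r0, r1, y0, y1, e1, e2⟩ := polar3 hp
  obtain ⟨i, hi, -, c1, c2, -⟩ := exists_cell hb (x := 4 * y) (by push_cast; linarith)
    (by push_cast; linarith)
  obtain ⟨b, b0, b1, hy⟩ := exists_bary c1 c2
  refine ⟨ρ, fun k => (1 / 2 + 2 * y / 3) ^ (fs.getD k (0, 0, 0)).1 *
      (y - 1 / 4) ^ (fs.getD k (0, 0, 0)).2.1, r0, r1,
    ⟨fun c hc => (length_shapes3 DY fs brk c hc).le, fun w hw => ?_⟩, fun k hk => ?_⟩
  · exact dom_core DY (fun a ha => (hfs a ha).2) _ _ b0 b1 hy w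
      fun c hc => hw c (mem_shapes3 DY fs brk i hi c hc)
  · have hmem : fs.getD k (0, 0, 0) ∈ fs := by
      rw [List.getD_eq_getElem _ _ hk]
      exact List.getElem_mem _
    unfold feat fdeg
    rw [e1, e2, (hfs _ hmem).1]
    simp only [mul_pow, ← pow_mul, pow_add]
    ring

end Crest.Agent.R163.Ck
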