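import Crest.Agent.R163.BellPair

/-! Row 163: Bellman certificates: conclusion. -/

set_option autoImplicit false

namespace Crest.Agent.R163.BellCertH

open Finset Crest.Agent.R163.Ck

theorem av_range {ε : ℝ} (h0 : 0 ≤ ε) {w p : Vec 3} (hw : Simp w) (hp : Simp p)
    (σ : Equiv.Perm (Fin 3)) :
    1 - 2 * ε ≤ av (w * perm σ (Tv (-ε) p)) ∧ av (w * perm σ (Tv (-ε) p)) ≤ 1 + ε := by
  have hT : ∀ j, 1 - 2 * ε ≤ Tv (-ε) p j ∧ Tv (-ε) p j ≤ 1 + ε := by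
    intro j
    have h1 := hp.1 j
    have h2 := le_av hp.1 j
    rw [hp.2] at h2
    simp only [Tv, hp.2]
    push_cast at h2
    constructor <;> nlinarith
  have hs : ∑ i, w i = 3 := by
    have := hw.2
    unfold av at this
    push_cast at this
    linarith
  have hlo : ∑ i, w i * (1 - 2 * ε) ≤ ∑ i, (w * perm σ (Tv (-ε) p)) i :=
    sum_le_sum fun i _ => mul_le_mul_of_nonneg_left (hT (σ i)).1 (hw.1 i)
  have hhi : ∑ i, (w * perm σ (Tv (-ε) p)) i ≤ ∑ i, w i * (1 + ε) :=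
    sum_le_sum fun i _ => mul_le_mul_of_nonneg_left (hT (σ i)).2 (hw.1 i)
  rw [← sum_mul, hs] at hlo hhi
  unfold av
  push_cast
  constructor <;> linarith

theorem core {B : Bell} {ε s θmax : ℝ} (h : B.Checked ε s θmax) (h0 : 0 ≤ ε) (h1 : ε ≤ 1 / 2)
    {θ : ℝ} (hθ0 : 0 ≤ θ) (hθ1 : θ ≤ θmax) {w p : Vec 3} (hw : Simp w) (hp : Simp p) :
    sAv (fun r => ∑ j ∈ range (B.R + 1), θ ^ j * B.u ε s j r) w (Tv (-ε) p) ≤
      ∑ j ∈ range (B.R + 1), θ ^ j * B.u ε s j w + ε ^ 2 * (B.u ε s 0 p + B.dU ε s θ w +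
        (fx p - s) * ∑ j ∈ range B.R, θ ^ j * B.γ ε s j w) := by
  have ht : Tok 3 (-ε) := by
    constructor
    · linarith
    · push_cast
      linarith
  obtain ⟨c, hc⟩ := Bell.u_top h
  have e : (fun r => ∑ j ∈ range (B.R + 1), θ ^ j * B.u ε s j r) =
      fun r => (fun r => ∑ j ∈ range B.R, θ ^ j * B.u ε s j r) r + (fun _ => θ ^ B.R * c) r := by
    funext r
    rw [sum_range_succ, hc]
  have hT : Simp (Tv (-ε) p) := hp.Tv ht
  have h2 := tangent_le (q := 3) h.2.1.2.2.2.1 (B.πR ε s θ)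
    (f := fun r => ∑ j ∈ range B.R, θ ^ j * B.u ε s j r) hw.1 hT.1 (av_range h0 hw hp)
    (fun r hr Z hZ0 hZ1 => Bell.one_sided h hθ0 hθ1 hZ0 hZ1 hr)
  have h3 := Bell.pair_ineq h hθ0 hθ1 hw hp ht
  rw [e, sAv_add, sAv_const _ hw hT, sum_range_succ, hc]
  linarith

theorem dU_poi {B : Bell} (hr : B.reg = false) (ε s θ : ℝ) (w : Vec 3) :
    B.dU ε s θ w = ∑ j ∈ range (B.R + 1), j * θ ^ (j - 1) * B.u ε s j w := by
  rw [sum_range_succ', Bell.dU]
  simp only [Nat.cast_zero, zero_mul, add_zero]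
  refine sum_congr rfl fun j hj => ?_
  have hj' : 0 ∈ range (B.R - j) := mem_range.2 (Nat.sub_pos_of_lt (mem_range.1 hj))
  rw [sum_eq_single_of_mem 0 hj']
  · simp [mul_comm]
  · intro m _ hm
    simp [hr, hm]

theorem binom (θ e : ℝ) (n : ℕ) :
    (θ + e) ^ (n + 1) = θ ^ (n + 1) + e * ∑ j ∈ range (n + 1),
      θ ^ j * e ^ (n - j) * ((j + 1 + (n - j)).choose (n - j + 1) : ℝ) := by
  rw [add_pow, sum_range_succ, mul_sum, add_comm]
  simp only [Nat.sub_self, pow_zero, mul_one, Nat.choose_self, Nat.cast_one]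
  congr 1
  refine sum_congr rfl fun j hj => ?_
  have hj' : j ≤ n := Nat.lt_succ_iff.1 (mem_range.1 hj)
  have e1 : j + 1 + (n - j) = n + 1 := by omega
  have e2 : n + 1 - j = n - j + 1 := by omega
  have e3 : (n + 1).choose (n - j + 1) = (n + 1).choose j := by
    rw [← e2]
    exact Nat.choose_symm (by omega)
  rw [e1, e2, e3]
  ring

theorem dU_reg {B : Bell} (hr : B.reg = true) (ε s θ : ℝ) (w : Vec 3) :
    ∑ j ∈ range (B.R + 1), (θ + ε ^ 2) ^ j * B.u ε s j w =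
      ∑ j ∈ range (B.R + 1), θ ^ j * B.u ε s j w + ε ^ 2 * B.dU ε s θ w := by
  have e : B.dU ε s θ w = ∑ n ∈ range B.R, ∑ j ∈ range (n + 1),
      θ ^ j * ε ^ (2 * (n - j)) * ((j + 1 + (n - j)).choose (n - j + 1) : ℝ) *
        B.u ε s (j + 1 + (n - j)) w := by
    rw [Bell.dU, sum_range_diag_flip B.R (fun j m => θ ^ j * ε ^ (2 * m) *
      ((j + 1 + m).choose (m + 1) : ℝ) * B.u ε s (j + 1 + m) w)]
    simp only [hr, true_or, if_true]
  rw [e, sum_range_succ', sum_range_succ' (fun j => θ ^ j * B.u ε s j w), mul_sum]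
  simp only [pow_zero, one_mul]
  rw [add_right_comm, ← sum_add_distrib]
  congr 1
  refine sum_congr rfl fun n _ => ?_
  rw [binom, add_mul, mul_assoc, sum_mul]
  congr 2
  refine sum_congr rfl fun j hj => ?_
  have hj' : j ≤ n := Nat.lt_succ_iff.1 (mem_range.1 hj)
  have e1 : j + 1 + (n - j) = n + 1 := by omega
  rw [← pow_mul, e1]

end Crest.Agent.R163.BellCertH

namespace Crest.Agent.R163.Ck

open Finset

namespace Bell

variable {B : Bell} {ε s θmax : ℝ}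

theorem bellPoi (h : B.Checked ε s 1) (hr : B.reg = false) (h0 : 0 ≤ ε) (h1 : ε ≤ 1 / 2)
    (hs : 0 < s) : BellPoi ε s := by
  choose C hC using fun j => bddS_γ (B := B) (ε := ε) (s := s) j
  refine ⟨B.R, B.u ε s, fun θ w => ∑ j ∈ range B.R, θ ^ j * B.γ ε s j w, ∑ j ∈ range B.R, C j,
    bddS_u, fun θ hθ w hw => ?_, gain h hs, fun θ hθ w p hw hp => ?_⟩
  · refine (abs_sum_le_sum_abs _ _).trans (sum_le_sum fun j _ => ?_)
    rw [abs_mul, abs_of_nonneg (pow_nonneg hθ.1 j)]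
    exact (mul_le_of_le_one_left (abs_nonneg _) (pow_le_one₀ hθ.1 hθ.2)).trans (hC j w hw)
  · rw [← BellCertH.dU_poi hr]
    exact BellCertH.core h h0 h1 hθ.1 hθ.2 hw hp

theorem bellReg (h : B.Checked ε s θmax) (hr : B.reg = true) (h0 : 0 ≤ ε) (h1 : ε ≤ 1 / 2)
    (hs : 0 < s) {b : ℕ} (hb : (b : ℝ) * ε ^ 2 = 1) (hθ : 1 - ε ^ 2 ≤ θmax) : BellReg ε s b := by
  refine ⟨fun k r => ∑ j ∈ range (B.R + 1), ((k : ℝ) * ε ^ 2) ^ j * B.u ε s j r,
    fun k r => ∑ j ∈ range B.R, ((k : ℝ) * ε ^ 2) ^ j * B.γ ε s j r,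
    fun k => BddS.sum _ fun j _ => (bddS_u j).smul _,
    fun k => BddS.sum _ fun j _ => (bddS_γ j).smul _, ?_, fun k hk w p hw hp => ?_⟩
  · simp only [hb, one_pow, one_mul]
    exact gain h hs
  · have hk' : (k : ℝ) + 1 ≤ b := by exact_mod_cast hk
    have h2 : (k : ℝ) * ε ^ 2 ≤ θmax := by nlinarith [sq_nonneg ε]
    have h3 := BellCertH.core h h0 h1 (θ := (k : ℝ) * ε ^ 2) (by positivity) h2 hw hp
    have h4 := BellCertH.dU_reg hr ε s ((k : ℝ) * ε ^ 2) w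
    have e1 : ((k + 1 : ℕ) : ℝ) * ε ^ 2 = (k : ℝ) * ε ^ 2 + ε ^ 2 := by
      push_cast
      ring
    have e2 : ∑ j ∈ range (B.R + 1), (((0 : ℕ) : ℝ) * ε ^ 2) ^ j * B.u ε s j p = B.u ε s 0 p := by
      rw [sum_range_succ']
      simp
    simp only [e1, e2, h4]
    linarith

end Bell

end Crest.Agent.R163.Ck
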