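import Crest.Agent.R163.CkCert

/-! Row 163: soundness of the packed-vector checks (integer level). -/

set_option autoImplicit false

namespace Crest.Agent.R163.PVSoundH

open Finset Crest.Agent.R163.Ck

/-! ### equation lemmas -/

theorem mapL_eq {α β : Type} (f : α → β) (l : List α) : mapL f l = l.map f := by
  induction l with
  | nil => rfl
  | cons a l ih => exact congrArg (f a :: ·) ih

theorem mapL_eq' {α β : Type} (f : α → β) : mapL f = List.map f := funext (mapL_eq f)

theorem allL_cons {α : Type} (p : α → Bool) (a : α) (l : List α) :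
    allL p (a :: l) = (p a && allL p l) := by
  change (Bool.rec false (allL p l) (p a) : Bool) = _
  cases p a <;> rfl

theorem allL_iff {α : Type} {p : α → Bool} {l : List α} :
    allL p l = true ↔ ∀ a ∈ l, p a = true := by
  induction l with
  | nil => simp [allL]
  | cons a l ih => rw [allL_cons]; simp [ih]

theorem combN_nil (c : List ℕ) : combN c [] = 0 := by cases c <;> rfl

theorem combN_cons (x v : ℕ) (c A : List ℕ) : combN (x :: c) (v :: A) = x * v + combN c A := by
  change (Bool.rec (x * v + combN c A) (combN c A) (Nat.beq x 0) : ℕ) = _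
  cases x with
  | zero => simp [Nat.beq]
  | succ x => rfl

theorem combP_eq (c : List ℤ) (A : List ℕ) : combP c A = combN (c.map Int.toNat) A := by
  induction c generalizing A with
  | nil => rfl
  | cons x c ih =>
    cases A with
    | nil => rfl
    | cons v A =>
      rw [List.map_cons, combN_cons, ← ih]
      cases x with
      | ofNat n =>
        change Bool.rec (n * v + combP c A) (combP c A)
          (Bool.rec (Nat.beq v 0) true (Nat.beq n 0)) = n * v + combP c A
        cases n with
        | zero => simp [Nat.beq]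
        | succ n =>
          cases v with
          | zero => simp [Nat.beq]
          | succ v => rfl
      | negSucc n =>
        change combP c A = _
        simp

theorem combM_eq (c : List ℤ) (A : List ℕ) :
    combM c A = combN (c.map fun x => (-x).toNat) A := by
  induction c generalizing A with
  | nil => rfl
  | cons x c ih =>
    cases A with
    | nil => rfl
    | cons v A =>
      rw [List.map_cons, combN_cons, ← ih]
      cases x with
      | ofNat n =>
        change combM c A = _
        simp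
      | negSucc n =>
        change Bool.rec ((n + 1) * v + combM c A) (combM c A) (Nat.beq v 0) =
          (n + 1) * v + combM c A
        cases v with
        | zero => simp [Nat.beq]
        | succ v => rfl

theorem combZ_nil (o sh : ℕ) (c : List ℤ) : combZ o sh c [] = 0 := by
  simp [combZ, combP_eq, combM_eq, combN_nil, negP]

theorem combZ_nil' (o sh : ℕ) (A : List ℕ) : combZ o sh [] A = 0 := by
  change 0 + negP o sh 0 = 0
  simp [negP]

theorem dotZN_nil (c : List ℕ) : dotZN c [] = 0 := by cases c <;> rfl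

theorem dotZN_eq (c : List ℕ) (l : List ℤ) :
    dotZN c l = ∑ k ∈ range c.length, (c.getD k 0 : ℤ) * l.getD k 0 := by
  induction c generalizing l with
  | nil => rfl
  | cons x c ih =>
    cases l with
    | nil => simp [dotZN_nil]
    | cons v l =>
      change (x : ℤ) * v + dotZN c l = _
      rw [ih, List.length_cons, sum_range_succ']
      simp [add_comm]

theorem le_maxAbs (l : List ℤ) (k : ℕ) : (l.getD k 0).natAbs ≤ maxAbs l := by
  induction l generalizing k with
  | nil => simp
  | cons x l ih =>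
    have e : maxAbs (x :: l) = Bool.rec x.natAbs (maxAbs l) (Nat.ble x.natAbs (maxAbs l)) := rfl
    have h : x.natAbs ≤ maxAbs (x :: l) ∧ maxAbs l ≤ maxAbs (x :: l) := by
      rw [e]
      cases hb : Nat.ble x.natAbs (maxAbs l) with
      | false =>
        have : ¬ x.natAbs ≤ maxAbs l := fun h => by simp [Nat.ble_eq_true_of_le h] at hb
        exact ⟨le_rfl, by dsimp only; omega⟩
      | true => exact ⟨Nat.le_of_ble_eq_true hb, le_rfl⟩
    cases k with
    | zero => exact h.1
    | succ k => exact (ih k).trans h.2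

theorem le_maxN (l : List ℕ) : ∀ x ∈ l, x ≤ maxN l := by
  induction l with
  | nil => simp
  | cons x l ih =>
    have e : maxN (x :: l) = Bool.rec x (maxN l) (Nat.ble x (maxN l)) := rfl
    have h : x ≤ maxN (x :: l) ∧ maxN l ≤ maxN (x :: l) := by
      rw [e]
      cases hb : Nat.ble x (maxN l) with
      | false =>
        have : ¬ x ≤ maxN l := fun h => by simp [Nat.ble_eq_true_of_le h] at hb
        exact ⟨le_rfl, by dsimp only; omega⟩
      | true => exact ⟨Nat.le_of_ble_eq_true hb, le_rfl⟩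
    intro y hy
    rcases List.mem_cons.1 hy with rfl | hy
    · exact h.1
    · exact (ih y hy).trans h.2

theorem ones_eq {W : ℕ} (hW : 0 < W) (n : ℕ) : ones W n = ∑ i ∈ range n, 2 ^ (W * i) := by
  have h2 : 2 ≤ 2 ^ W := by
    calc 2 = 2 ^ 1 := rfl
      _ ≤ 2 ^ W := Nat.pow_le_pow_right (by norm_num) hW
  have := Nat.geomSum_eq h2 n
  simp only [← pow_mul] at this
  rw [this]
  change (1 <<< (W * n) - 1) / (1 <<< W - 1) = _
  rw [Nat.one_shiftLeft, Nat.one_shiftLeft]

theorem getD_map {α β : Type} (f : α → β) (l : List α) (j : ℕ) {d : α} {d' : β} (h : f d = d') :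
    (l.map f).getD j d' = f (l.getD j d) := by
  rw [← h, List.getD_map]

theorem getD_mm {α β : Type} (f : α → β) (l : List (List α)) (j : ℕ) :
    (l.map (List.map f)).getD j [] = (l.getD j []).map f := getD_map _ _ _ rfl

theorem sum_range_eq {f : ℕ → ℤ} {p q : ℕ} (hp : ∀ a, p ≤ a → f a = 0)
    (hq : ∀ a, q ≤ a → f a = 0) : ∑ a ∈ range p, f a = ∑ a ∈ range q, f a := by
  rw [sum_subset (range_subset_range.2 (le_max_left p q)) fun a _ h => hp a (by simpa using h),
    sum_subset (range_subset_range.2 (le_max_right p q)) fun a _ h => hq a (by simpa using h)]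

/-! ### encodings -/

variable {W n : ℕ}

theorem enc_zero : Enc W n 0 fun _ => 0 := ⟨0, by simp, by simp⟩

theorem enc_congr {V : ℕ} {e e' : ℕ → ℤ} (h : Enc W n V e) (he : ∀ i < n, e i = e' i) :
    Enc W n V e' := by
  obtain ⟨m, h1, h2⟩ := h
  refine ⟨m, fun i hi => he i hi ▸ h1 i hi, ?_⟩
  rw [h2]
  congr 1
  exact sum_congr rfl fun i hi => by rw [he i (mem_range.1 hi)]

theorem enc_add {V V' : ℕ} {e e' : ℕ → ℤ} (h : Enc W n V e) (h' : Enc W n V' e') :
    Enc W n (V + V') fun i => e i + e' i := by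
  obtain ⟨m, h1, h2⟩ := h
  obtain ⟨m', h1', h2'⟩ := h'
  refine ⟨m + m', fun i hi => ?_, ?_⟩
  · push_cast
    exact (abs_add_le _ _).trans (add_le_add (h1 i hi) (h1' i hi))
  · push_cast
    rw [h2, h2', add_add_add_comm, ← sum_add_distrib]
    congr 1
    · exact sum_congr rfl fun i _ => by ring
    · ring

theorem enc_smul (c : ℕ) {V : ℕ} {e : ℕ → ℤ} (h : Enc W n V e) :
    Enc W n (c * V) fun i => c * e i := by
  obtain ⟨m, h1, h2⟩ := h
  refine ⟨c * m, fun i hi => ?_, ?_⟩
  · push_cast
    rw [abs_mul, Nat.abs_cast]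
    exact mul_le_mul_of_nonneg_left (h1 i hi) (by positivity)
  · push_cast
    rw [h2, mul_add, mul_sum]
    congr 1
    · exact sum_congr rfl fun i _ => by ring
    · ring

theorem off_le {V m : ℕ} {e : ℕ → ℤ} (h1 : ∀ i < n, |e i| ≤ m)
    (h2 : (V : ℤ) = ∑ i ∈ range n, (e i + m) * 2 ^ (W * i) + m * 2 ^ (W * n)) :
    m ≤ V >>> (W * n) := by
  rw [Nat.shiftRight_eq_div_pow, Nat.le_div_iff_mul_le (by positivity)]
  have h3 : 0 ≤ ∑ i ∈ range n, (e i + m) * 2 ^ (W * i) := sum_nonneg fun i hi =>
    mul_nonneg (by have := (abs_le.1 (h1 i (mem_range.1 hi))).1; omega) (by positivity)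
  have : (m : ℤ) * 2 ^ (W * n) ≤ V := by rw [h2]; linarith
  exact_mod_cast this

theorem enc_eq_zero {e : ℕ → ℤ} (h : Enc W n 0 e) : ∀ i < n, e i = 0 := by
  obtain ⟨m, h1, h2⟩ := h
  have h3 := off_le h1 h2
  rw [Nat.zero_shiftRight] at h3
  intro i hi
  have := h1 i hi
  have hm : m = 0 := by omega
  subst hm
  simpa using this

theorem enc_neg (hW : 0 < W) {V : ℕ} {e : ℕ → ℤ} (h : Enc W n V e) :
    Enc W n (negP (ones W (n + 1)) (W * n) V) fun i => -e i := by
  obtain ⟨m, h1, h2⟩ := h
  have h3 := off_le h1 h2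
  have e0 : negP (ones W (n + 1)) (W * n) V = 2 * (V >>> (W * n)) * ones W (n + 1) - V := rfl
  rw [e0]
  generalize V >>> (W * n) = m' at h3
  obtain ⟨d, rfl⟩ := Nat.exists_eq_add_of_le h3
  have h4 : ((2 * (m + d) * ones W (n + 1) : ℕ) : ℤ) - V =
      ∑ i ∈ range n, (-e i + (m + 2 * d : ℕ)) * 2 ^ (W * i) + (m + 2 * d : ℕ) * 2 ^ (W * n) := by
    rw [ones_eq hW, sum_range_succ, h2]
    push_cast
    rw [mul_add, mul_sum, add_sub_add_comm, ← sum_sub_distrib]
    congr 1
    · exact sum_congr rfl fun i _ => by ring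
    · ring
  have h5 : ∀ i < n, |-e i| ≤ (m + 2 * d : ℕ) := fun i hi => by
    rw [abs_neg]
    have := h1 i hi
    push_cast
    omega
  have h6 : 0 ≤ ∑ i ∈ range n, (-e i + (m + 2 * d : ℕ)) * 2 ^ (W * i) +
      ((m + 2 * d : ℕ) : ℤ) * 2 ^ (W * n) :=
    add_nonneg (sum_nonneg fun i hi => mul_nonneg
      (by have := (abs_le.1 (h5 i (mem_range.1 hi))).1; omega) (by positivity)) (by positivity)
  refine ⟨m + 2 * d, h5, ?_⟩
  rw [Nat.cast_sub (by rw [← h4] at h6; omega), h4]

theorem enc_combN (c : List ℕ) {A : List ℕ} {E : ℕ → ℕ → ℤ}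
    (h : ∀ k, Enc W n (A.getD k 0) (E k)) :
    Enc W n (combN c A) fun i => ∑ k ∈ range c.length, (c.getD k 0 : ℤ) * E k i := by
  induction c generalizing A E with
  | nil => exact enc_zero
  | cons x c ih =>
    cases A with
    | nil =>
      rw [combN_nil]
      refine enc_congr enc_zero fun i hi => (sum_eq_zero fun k _ => ?_).symm
      rw [enc_eq_zero (h k) i hi, mul_zero]
    | cons v A =>
      rw [combN_cons]
      refine enc_congr (enc_add (enc_smul x (h 0))
        (ih (A := A) (E := fun k => E (k + 1)) fun k => h (k + 1))) fun i _ => ?_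
      rw [List.length_cons, sum_range_succ']
      simp [add_comm]

theorem enc_combZ (hW : 0 < W) (c : List ℤ) {A : List ℕ} {E : ℕ → ℕ → ℤ}
    (h : ∀ k, Enc W n (A.getD k 0) (E k)) :
    Enc W n (combZ (ones W (n + 1)) (W * n) c A) fun i =>
      ∑ k ∈ range c.length, c.getD k 0 * E k i := by
  have e0 : combZ (ones W (n + 1)) (W * n) c A =
      combP c A + negP (ones W (n + 1)) (W * n) (combM c A) := rfl
  rw [e0, combP_eq, combM_eq]
  refine enc_congr (enc_add (enc_combN _ h) (enc_neg hW (enc_combN _ h))) fun i _ => ?_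
  rw [List.length_map, List.length_map, ← sub_eq_add_neg, ← sum_sub_distrib]
  refine sum_congr rfl fun k _ => ?_
  rw [getD_map Int.toNat c k (d := 0) (d' := 0) rfl,
    getD_map (fun x : ℤ => (-x).toNat) c k (d := 0) (d' := 0) rfl, ← sub_mul,
    Int.toNat_sub_toNat_neg]

theorem enc_combZ' (hW : 0 < W) (c : List ℤ) {A : List ℕ} {E : ℕ → ℕ → ℤ} {N : ℕ}
    (h : ∀ k, Enc W n (A.getD k 0) (E k)) (hN : ∀ k, N ≤ k → ∀ i, E k i = 0) :
    Enc W n (combZ (ones W (n + 1)) (W * n) c A) fun i => ∑ k ∈ range N, c.getD k 0 * E k i :=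
  enc_congr (enc_combZ hW c h) fun i _ => sum_range_eq
    (fun a ha => by rw [List.getD_eq_default _ _ ha, zero_mul])
    fun a ha => by rw [hN a ha, mul_zero]

/-! ### the sign test -/

theorem digits_lt {D : ℕ → ℕ} (h : ∀ i < n, D i < 2 ^ W) :
    ∑ i ∈ range n, D i * 2 ^ (W * i) < 2 ^ (W * n) := by
  induction n with
  | zero => simp
  | succ n ih =>
    have h1 := ih fun i hi => h i (by omega)
    have h2 := h n (by omega)
    rw [sum_range_succ, mul_add, mul_one, pow_add]
    nlinarith [show 0 < 2 ^ (W * n) by positivity]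

theorem digit_eq {D : ℕ → ℕ} (h : ∀ i < n, D i < 2 ^ W) {i : ℕ} (hi : i < n) :
    (∑ j ∈ range n, D j * 2 ^ (W * j)) / 2 ^ (W * i) % 2 ^ W = D i := by
  induction i generalizing n D with
  | zero =>
    obtain ⟨n, rfl⟩ : ∃ k, n = k + 1 := ⟨n - 1, by omega⟩
    have e : ∑ j ∈ range (n + 1), D j * 2 ^ (W * j) =
        D 0 + 2 ^ W * ∑ j ∈ range n, D (j + 1) * 2 ^ (W * j) := by
      rw [sum_range_succ', mul_sum, add_comm]
      simp only [mul_zero, pow_zero, mul_one]
      exact congrArg _ (sum_congr rfl fun j _ => by ring)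
    rw [e]
    simp [Nat.mod_eq_of_lt (h 0 hi)]
  | succ i ih =>
    obtain ⟨n, rfl⟩ : ∃ k, n = k + 1 := ⟨n - 1, by omega⟩
    have e : ∑ j ∈ range (n + 1), D j * 2 ^ (W * j) =
        D 0 + 2 ^ W * ∑ j ∈ range n, D (j + 1) * 2 ^ (W * j) := by
      rw [sum_range_succ', mul_sum, add_comm]
      simp only [mul_zero, pow_zero, mul_one]
      exact congrArg _ (sum_congr rfl fun j _ => by ring)
    rw [e, mul_add, mul_one, pow_add, mul_comm (2 ^ (W * i)), ← Nat.div_div_eq_div_mul,
      Nat.add_mul_div_left _ _ (by positivity), Nat.div_eq_of_lt (h 0 (by omega)), zero_add]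
    exact ih (D := fun j => D (j + 1)) (fun j hj => h (j + 1) (by omega)) (by omega)

theorem testBit_digit (hW : 0 < W) {D : ℕ → ℕ} (h : ∀ i < n, D i < 2 ^ W) {i : ℕ} (hi : i < n) :
    (∑ j ∈ range n, D j * 2 ^ (W * j)).testBit (W - 1 + W * i) = (D i).testBit (W - 1) := by
  rw [← digit_eq h hi, Nat.testBit_mod_two_pow, Nat.testBit_div_two_pow]
  simp [hW]

theorem okP_sound (hW : 0 < W) {V : ℕ} {e : ℕ → ℤ} (h : Enc W n V e)
    (hok : okP (ones W (n + 1)) (W * n) (2 ^ (W - 1)) (2 ^ (W - 1) * ones W (n + 1)) V = true) :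
    ∀ i < n, 0 ≤ e i := by
  obtain ⟨m, h1, h2⟩ := h
  have h3 := off_le h1 h2
  have e0 : okP (ones W (n + 1)) (W * n) (2 ^ (W - 1)) (2 ^ (W - 1) * ones W (n + 1)) V =
      Bool.rec false (Nat.beq ((V + (2 ^ (W - 1) - V >>> (W * n)) * ones W (n + 1)) &&&
        (2 ^ (W - 1) * ones W (n + 1))) (2 ^ (W - 1) * ones W (n + 1)))
        (Nat.ble (V >>> (W * n) + 1) (2 ^ (W - 1))) := rfl
  rw [e0] at hok
  have hH : 2 ^ W = 2 * 2 ^ (W - 1) := by
    rw [← pow_succ']
    congr 1
    omega
  generalize hHH : 2 ^ (W - 1) = H at hok hH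
  cases hb : Nat.ble (V >>> (W * n) + 1) H with
  | false => rw [hb] at hok; exact absurd hok (by simp)
  | true =>
    rw [hb] at hok
    have h4 : V >>> (W * n) + 1 ≤ H := Nat.le_of_ble_eq_true hb
    have h5 := Nat.eq_of_beq_eq_true hok
    have hd : ∀ i < n, ((e i + m).toNat : ℤ) = e i + m := fun i hi =>
      Int.toNat_of_nonneg (by have := (abs_le.1 (h1 i hi)).1; omega)
    have hV : V = ∑ i ∈ range n, (e i + m).toNat * 2 ^ (W * i) + m * 2 ^ (W * n) := by
      zify
      rw [h2]
      congr 1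
      exact sum_congr rfl fun i hi => by rw [hd i (mem_range.1 hi)]
    have h6 : V >>> (W * n) = m := by
      have hlt := digits_lt (W := W) (n := n) (D := fun i => (e i + m).toNat) fun i hi => by
        have := (abs_le.1 (h1 i hi)).2
        have := hd i hi
        omega
      rw [Nat.shiftRight_eq_div_pow, hV, Nat.add_mul_div_right _ _ (by positivity),
        Nat.div_eq_of_lt hlt, zero_add]
    rw [h6] at h4 h5
    let D : ℕ → ℕ := fun i => if i < n then (e i + m).toNat + (H - m) else H
    have hD : ∀ i < n + 1, D i < 2 ^ W := fun i _ => by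
      simp only [D]
      split_ifs with hi
      · have := (abs_le.1 (h1 i hi)).2
        have := hd i hi
        omega
      · omega
    have h7 : V + (H - m) * ones W (n + 1) = ∑ i ∈ range (n + 1), D i * 2 ^ (W * i) := by
      rw [ones_eq hW, hV, sum_range_succ, sum_range_succ, mul_add, mul_sum, add_add_add_comm,
        ← sum_add_distrib]
      congr 1
      · refine sum_congr rfl fun i hi => ?_
        simp only [D, if_pos (mem_range.1 hi)]
        ring
      · simp only [D, lt_irrefl, if_false]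
        rw [← add_mul]
        congr 1
        omega
    have h8 : H * ones W (n + 1) = ∑ i ∈ range (n + 1), H * 2 ^ (W * i) := by
      rw [ones_eq hW, mul_sum]
    intro i hi
    have h9 := congrArg (fun x => Nat.testBit x (W - 1 + W * i)) h5
    simp only [Nat.testBit_and] at h9
    rw [h7, h8, testBit_digit hW hD (by omega),
      testBit_digit hW (D := fun _ => H) (fun _ _ => by omega) (by omega : i < n + 1), ← hHH,
      Nat.testBit_two_pow_self, Bool.and_true] at h9
    have h10 := Nat.ge_two_pow_of_testBit h9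
    simp only [D, if_pos hi] at h10
    have := hd i hi
    omega

/-! ### the packed features -/

theorem packS_eq (m : ℕ) (l : List ℤ) (h : ∀ k, (l.getD k 0).natAbs ≤ m) :
    (packS W m l : ℤ) = ∑ s ∈ range l.length, (l.getD s 0 + m) * 2 ^ (W * s) := by
  induction l with
  | nil => rfl
  | cons x l ih =>
    have e : packS W m (x :: l) = (x + m).toNat + packS W m l <<< W := rfl
    have h0 : x.natAbs ≤ m := h 0
    rw [e, Nat.shiftLeft_eq, List.length_cons, sum_range_succ']
    push_cast
    rw [ih fun k => h (k + 1), Int.toNat_of_nonneg (by omega), sum_mul, add_comm]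
    simp only [List.getD_cons_succ, List.getD_cons_zero, mul_zero, pow_zero, mul_one]
    exact congrArg (· + _) (sum_congr rfl fun s _ => by ring)

theorem packF_aux (hW : 0 < W) {ns M m S : ℕ} {col : ℕ → ℤ}
    (hS : (S : ℤ) = ∑ s ∈ range ns, (col s + m) * 2 ^ (W * s)) (xs : List ℕ)
    (hx : ∀ x ∈ xs, x ≤ M) :
    ((List.rec (motive := fun _ => ℕ) (M * m)
      (fun x _ acc => x * S + (M - x) * m * ones W ns + acc <<< (W * ns)) xs : ℕ) : ℤ) =
      ∑ i ∈ range (xs.length * ns),
        ((xs.getD (i / ns) 0 : ℤ) * col (i % ns) + (M * m : ℕ)) * 2 ^ (W * i) +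
        (M * m : ℕ) * 2 ^ (W * (xs.length * ns)) := by
  induction xs with
  | nil => simp
  | cons x xs ih =>
    have h1 := ih fun y hy => hx y (List.mem_cons_of_mem _ hy)
    have h2 : x ≤ M := hx x List.mem_cons_self
    dsimp only
    rw [Nat.shiftLeft_eq, List.length_cons, add_mul, one_mul, add_comm (xs.length * ns) ns,
      sum_range_add, Nat.cast_add, Nat.cast_mul _ (2 ^ (W * ns)), h1, add_assoc]
    congr 1
    · rw [ones_eq hW]
      push_cast [Nat.cast_sub h2]
      rw [hS, mul_sum, mul_sum, ← sum_add_distrib]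
      refine sum_congr rfl fun s hs => ?_
      rw [Nat.div_eq_of_lt (mem_range.1 hs), Nat.mod_eq_of_lt (mem_range.1 hs),
        List.getD_cons_zero]
      ring
    · rw [add_mul, sum_mul]
      congr 1
      · refine sum_congr rfl fun i hi => ?_
        have hns : 0 < ns := Nat.pos_of_ne_zero fun h0 => by simp [h0] at hi
        rw [Nat.add_div_left _ hns, Nat.add_mod_left, List.getD_cons_succ]
        push_cast
        ring
      · push_cast
        ring

theorem enc_packF (hW : 0 < W) (rp : List (List ℕ)) (d : ℕ) (col : List ℤ) :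
    Enc W (rp.length * col.length)
      (packF W col.length rp d (maxAbs col, packS W (maxAbs col) col)) fun i =>
        ((rp.getD (i / col.length) []).getD d 0 : ℤ) * col.getD (i % col.length) 0 := by
  have h := packF_aux hW (col := fun s => col.getD s 0) (packS_eq (W := W) _ col (le_maxAbs col))
    (mapL (fun r => r.getD d 0) rp) (le_maxN _)
  have hg : ∀ k, (mapL (fun r => r.getD d 0) rp).getD k 0 = (rp.getD k []).getD d 0 := fun k => by
    rw [mapL_eq]
    exact getD_map (fun r : List ℕ => r.getD d 0) rp k (d := []) rfl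
  have hl : (mapL (fun r => r.getD d 0) rp).length = rp.length := by
    rw [mapL_eq, List.length_map]
  refine ⟨maxN (mapL (fun r => r.getD d 0) rp) * maxAbs col, fun i _ => ?_, ?_⟩
  · have h1 : (rp.getD (i / col.length) []).getD d 0 ≤ maxN (mapL (fun r => r.getD d 0) rp) := by
      rw [← hg]
      by_cases hk : i / col.length < (mapL (fun r => r.getD d 0) rp).length
      · rw [List.getD_eq_getElem _ _ hk]
        exact le_maxN _ _ (List.getElem_mem hk)
      · rw [List.getD_eq_default _ _ (not_lt.1 hk)]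
        exact Nat.zero_le _
    have h2 := le_maxAbs col (i % col.length)
    rw [abs_mul, Nat.abs_cast, Int.abs_eq_natAbs]
    exact_mod_cast Nat.mul_le_mul h1 h2
  · simp only [hg, hl] at h
    exact h

/-- The entries of the packed features. -/
def phi (degs : List ℕ) (rp : List (List ℕ)) (sp : L2) (a i : ℕ) : ℤ :=
  if a < degs.length then ((rp.getD (i / sp.length) []).getD (degs.getD a 0) 0 : ℤ) *
    (sp.getD (i % sp.length) []).getD a 0 else 0

theorem phi_zero (degs : List ℕ) (rp : List (List ℕ)) (sp : L2) (a : ℕ) (h : degs.length ≤ a)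
    (i : ℕ) : phi degs rp sp a i = 0 := if_neg (not_lt.2 h)

theorem enc_packFs (hW : 0 < W) (degs : List ℕ) (rp : List (List ℕ)) (sp : L2) (a : ℕ) :
    Enc W (rp.length * sp.length)
      ((packFs W sp.length rp degs (packCols W degs.length sp)).getD a 0) (phi degs rp sp a) := by
  have hl : (packFs W sp.length rp degs (packCols W degs.length sp)).length = degs.length := by
    simp [packFs, packCols]
  by_cases ha : a < degs.length
  · have h := enc_packF hW rp (degs.getD a 0) (sp.map fun c => c.getD a 0)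
    rw [List.length_map] at h
    have e : (packFs W sp.length rp degs (packCols W degs.length sp)).getD a 0 =
        packF W sp.length rp (degs.getD a 0) (maxAbs (sp.map fun c => c.getD a 0),
          packS W (maxAbs (sp.map fun c => c.getD a 0)) (sp.map fun c => c.getD a 0)) := by
      rw [List.getD_eq_getElem _ _ (by rw [hl]; exact ha), List.getD_eq_getElem _ _ ha]
      simp [packFs, packCols]
    rw [e]
    refine enc_congr h fun i _ => ?_
    rw [phi, if_pos ha, getD_map (fun c : List ℤ => c.getD a 0) sp _ (d := []) (d' := 0) rfl]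
  · rw [List.getD_eq_default _ _ (by rw [hl]; exact not_lt.1 ha)]
    exact enc_congr enc_zero fun i _ => (phi_zero _ _ _ _ (not_lt.1 ha) i).symm

theorem exists_idx (degs : List ℕ) {rp : List (List ℕ)} {sp : L2} {r' : List ℕ} {c' : List ℤ}
    (hr : r' ∈ rp) (hc : c' ∈ sp) : ∃ i < rp.length * sp.length, ∀ a < degs.length,
      phi degs rp sp a i = (r'.getD (degs.getD a 0) 0 : ℤ) * c'.getD a 0 := by
  obtain ⟨r, h1, rfl⟩ := List.getElem_of_mem hr
  obtain ⟨s, h2, rfl⟩ := List.getElem_of_mem hc
  refine ⟨s + sp.length * r, by nlinarith, fun a ha => ?_⟩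
  rw [phi, if_pos ha, Nat.add_mul_div_left _ _ (by omega), Nat.div_eq_of_lt h2, zero_add,
    Nat.add_mul_mod_self_left, Nat.mod_eq_of_lt h2, List.getD_eq_getElem _ _ h1,
    List.getD_eq_getElem _ _ h2]

/-! ### the checks -/

theorem pc_sound (hW : 0 < W) {Fs : List ℕ} {E : ℕ → ℕ → ℤ} {N : ℕ}
    (hF : ∀ k, Enc W n (Fs.getD k 0) (E k)) (hN : ∀ k, N ≤ k → ∀ i, E k i = 0) {A : L4}
    {rnet tnet : List (List ℕ)} {sub : L2} (h : pc W n Fs A rnet tnet sub = true) :
    ∀ c ∈ sub, ∀ r ∈ rnet, ∀ t ∈ tnet, ∀ i < n,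
      0 ≤ ∑ j ∈ range t.length, (t.getD j 0 : ℤ) * ∑ k ∈ range r.length, (r.getD k 0 : ℤ) *
        ∑ b ∈ range c.length, c.getD b 0 * ∑ a ∈ range N, (g3 A j k b).getD a 0 * E a i := by
  intro c hc r hr t ht
  have h1 := allL_iff.1 (allL_iff.1 (allL_iff.1 h c hc) r hr) t ht
  simp only [mapL_eq'] at h1
  refine okP_sound hW ?_ (by rw [← Nat.one_shiftLeft]; exact h1)
  refine enc_combN t fun j => ?_
  rw [getD_map _ _ j (d := []) (combN_nil r), getD_mm _ _ j,
    getD_mm _ _ j]
  refine enc_combN r fun k => ?_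
  rw [getD_map _ _ k (d := []) (combZ_nil _ _ c), getD_mm _ _ k]
  refine enc_combZ hW c fun b => ?_
  rw [getD_map _ _ b (d := []) (combZ_nil' _ _ Fs)]
  exact enc_combZ' hW _ hF hN

theorem g3_contr (ce cs : List ℕ) (A : L6) (j k b a : ℕ) :
    (g3 (contr ce cs A) j k b).getD a 0 = ∑ e ∈ range ce.length, (ce.getD e 0 : ℤ) *
      ∑ s ∈ range cs.length, (cs.getD s 0 : ℤ) * g6 A j k b a e s := by
  simp only [g3, contr, mapL_eq']
  rw [getD_mm _ _ j, getD_mm _ _ k, getD_mm _ _ b,
    getD_map (fun l => dotZN ce (List.map (dotZN cs) l)) _ a (d := []) (d' := 0) (dotZN_nil ce),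
    dotZN_eq]
  refine sum_congr rfl fun e _ => ?_
  rw [getD_map _ _ e (d := []) (dotZN_nil cs), dotZN_eq]
  rfl

theorem ec_sound (hW : 0 < W) {Fs : List ℕ} {E : ℕ → ℕ → ℤ} {N : ℕ}
    (hF : ∀ k, Enc W n (Fs.getD k 0) (E k)) (hN : ∀ k, N ≤ k → ∀ i, E k i = 0) {A : L5}
    {znet tnet enet snet : List (List ℕ)} (h : ec W n Fs A znet tnet enet snet = true) :
    ∀ cs ∈ snet, ∀ ce ∈ enet, ∀ ct ∈ tnet, ∀ cz ∈ znet, ∀ i < n,
      0 ≤ ∑ a ∈ range N, (∑ z ∈ range cz.length, (cz.getD z 0 : ℤ) *
        ∑ t ∈ range ct.length, (ct.getD t 0 : ℤ) * ∑ e ∈ range ce.length, (ce.getD e 0 : ℤ) *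
          ∑ s ∈ range cs.length, (cs.getD s 0 : ℤ) * g5 A a z t e s) * E a i := by
  intro cs hcs ce hce ct hct cz hcz
  have h1 := allL_iff.1 (allL_iff.1 (allL_iff.1 (allL_iff.1 h cs hcs) ce hce) ct hct) cz hcz
  simp only [mapL_eq'] at h1
  refine okP_sound hW ?_ (by rw [← Nat.one_shiftLeft]; exact h1)
  refine enc_congr (enc_combZ' hW _ hF hN) fun i _ => sum_congr rfl fun a _ => ?_
  congr 1
  rw [getD_map _ _ a (d := []) (dotZN_nil cz), getD_mm _ _ a,
    getD_mm _ _ a, getD_mm _ _ a, dotZN_eq]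
  refine sum_congr rfl fun z _ => ?_
  rw [getD_map _ _ z (d := []) (dotZN_nil ct), getD_mm _ _ z,
    getD_mm _ _ z, dotZN_eq]
  refine congrArg _ (sum_congr rfl fun t _ => ?_)
  rw [getD_map _ _ t (d := []) (dotZN_nil ce), getD_mm _ _ t, dotZN_eq]
  refine congrArg _ (sum_congr rfl fun e _ => ?_)
  rw [getD_map _ _ e (d := []) (dotZN_nil cs), dotZN_eq]
  rfl

end Crest.Agent.R163.PVSoundH

namespace Crest.Agent.R163.Ck

open Finset PVSoundH

theorem pcAll_sound {W : ℕ} {A : L6} {degs : List ℕ} {rp : List (List ℕ)} {ns : ℕ}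
    {cols : List (ℕ × ℕ)} {rnet tnet : List (List ℕ)} {sub : L2} {enet snet : List (List ℕ)}
    (sp : L2) (hW : 0 < W) (hns : ns = sp.length) (hc : cols = packCols W degs.length sp)
    (h : pcAll W A degs rp ns cols rnet tnet sub enet snet = true) :
    PairOK A degs rp sp rnet tnet sub enet snet := by
  subst hns hc
  intro cs hcs ce hce c hc r hr t ht r' hr' c' hc'
  obtain ⟨i, hi, hφ⟩ := exists_idx degs hr' hc'
  have h1 := pc_sound hW (enc_packFs hW degs rp sp) (phi_zero degs rp sp)
    (allL_iff.1 (allL_iff.1 h cs hcs) ce hce) c hc r hr t ht i hi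
  refine h1.trans_eq (sum_congr rfl fun j _ => ?_)
  rw [mul_sum]
  refine sum_congr rfl fun k _ => ?_
  rw [mul_sum, mul_sum]
  refine sum_congr rfl fun b _ => ?_
  rw [mul_sum, mul_sum, mul_sum]
  refine sum_congr rfl fun a ha => ?_
  rw [hφ a (mem_range.1 ha), g3_contr]
  simp only [mul_sum, sum_mul]
  exact sum_congr rfl fun e _ => sum_congr rfl fun s _ => by ring

theorem ecAll_sound {W : ℕ} {A : L5} {degs : List ℕ} {rp : List (List ℕ)} {ns : ℕ}
    {cols : List (ℕ × ℕ)} {znet tnet enet snet : List (List ℕ)}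
    (sp : L2) (hW : 0 < W) (hns : ns = sp.length) (hc : cols = packCols W degs.length sp)
    (h : ecAll W A degs rp ns cols znet tnet enet snet = true) :
    OneOK A degs rp sp znet tnet enet snet := by
  subst hns hc
  intro cs hcs ce hce ct hct cz hcz r' hr' c' hc'
  obtain ⟨i, hi, hφ⟩ := exists_idx degs hr' hc'
  have h1 := ec_sound hW (enc_packFs hW degs rp sp) (phi_zero degs rp sp) h cs hcs ce hce ct hct
    cz hcz i hi
  refine h1.trans_eq (sum_congr rfl fun a ha => ?_)
  rw [hφ a (mem_range.1 ha)]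
  simp only [mul_sum, sum_mul]
  exact sum_congr rfl fun z _ => sum_congr rfl fun t _ => sum_congr rfl fun e _ =>
    sum_congr rfl fun s _ => by ring

end Crest.Agent.R163.Ck
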