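import Crest.Agent.R163.CkCert

/-! Row 163: symmetrised monomials and the tangent bound. -/

set_option autoImplicit false

namespace Crest.Agent.R163.Ck

open Finset

variable {q : ℕ}

theorem avg_mbar (lam : List ℕ) (p p' : Vec q) :
    (∑ σ : Equiv.Perm (Fin q), mbar lam (p * perm σ p')) / q.factorial =
      mbar lam p * mbar lam p' := by
  have hq : (q.factorial : ℝ) ≠ 0 := by positivity
  unfold mbar
  rw [← sum_div, sum_comm, div_mul_div_comm, div_div, sum_mul]
  congr 1
  refine sum_congr rfl fun τ _ => ?_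
  rw [mul_sum]
  refine Fintype.sum_equiv (Equiv.mulRight τ) _ _ fun σ => ?_
  rw [← prod_mul_distrib]
  refine prod_congr rfl fun i _ => ?_
  simp [perm, mul_pow]

theorem mbar_smul {lam : List ℕ} (hl : lam.length = q) (c : ℝ) (P : Vec q) :
    mbar lam (c • P) = c ^ lam.sum * mbar lam P := by
  subst hl
  have e : ∑ i : Fin lam.length, lam.getD i 0 = lam.sum := by
    rw [← Fin.sum_univ_getElem]
    exact sum_congr rfl fun i _ => by simp
  unfold mbar
  rw [← mul_div_assoc, mul_sum]
  congr 1
  refine sum_congr rfl fun τ _ => ?_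
  rw [← e, ← prod_pow_eq_pow_sum, ← prod_mul_distrib]
  exact prod_congr rfl fun i _ => by simp [mul_pow]

theorem mbar_one (lam : List ℕ) : mbar lam (1 : Vec q) = 1 := by
  have hq : (q.factorial : ℝ) ≠ 0 := by positivity
  unfold mbar
  simp [Fintype.card_perm, hq]

theorem sAv_comm (f : Vec q → ℝ) (hf : ∀ σ p, f (perm σ p) = f p) (p p' : Vec q) :
    sAv f p p' = sAv f p' p := by
  unfold sAv
  congr 1
  refine Fintype.sum_equiv (Equiv.inv _) _ _ fun σ => ?_
  have e : p * perm σ p' = perm σ (p' * perm σ⁻¹ p) := by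
    funext i
    simp [perm, mul_comm]
  change _ = hat f (p' * perm σ⁻¹ p)
  rw [e]
  unfold hat
  rw [av_perm]
  congr 1
  exact hf σ (fun i => (p' * perm σ⁻¹ p) i / av (p' * perm σ⁻¹ p))

theorem sAv_add (f g : Vec q → ℝ) (p p' : Vec q) :
    sAv (fun r => f r + g r) p p' = sAv f p p' + sAv g p p' := by
  simp only [sAv, hat, mul_add, sum_add_distrib, add_div]

theorem sAv_smul (c : ℝ) (f : Vec q → ℝ) (p p' : Vec q) :
    sAv (fun r => c * f r) p p' = c * sAv f p p' := by
  simp only [sAv, hat, mul_left_comm _ c, ← mul_sum, mul_div_assoc]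

theorem sAv_const [NeZero q] (c : ℝ) {p p' : Vec q} (hp : Simp p) (hp' : Simp p') :
    sAv (fun _ => c) p p' = c := by
  have hq : (q.factorial : ℝ) ≠ 0 := by positivity
  have hq' : (q : ℝ) ≠ 0 := Nat.cast_ne_zero.2 (NeZero.ne q)
  have hs : ∑ i, p' i = q := by
    have := hp'.2; unfold av at this; field_simp at this; exact this
  have hs' : ∑ i, p i = q := by
    have := hp.2; unfold av at this; field_simp at this; exact this
  have h1 : ∀ i : Fin q, ∑ σ : Equiv.Perm (Fin q), p' (σ i) = q.factorial := by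
    intro i
    have h2 : ∀ j : Fin q, ∑ σ : Equiv.Perm (Fin q), p' (σ j) =
        ∑ σ : Equiv.Perm (Fin q), p' (σ i) := fun j =>
      Fintype.sum_equiv (Equiv.mulRight (Equiv.swap i j)) _ _ fun σ => by simp
    have h3 : ∑ j : Fin q, ∑ σ : Equiv.Perm (Fin q), p' (σ j) = q * q.factorial := by
      rw [sum_comm]
      simp only [Equiv.sum_comp _ p', hs]
      simp [Fintype.card_perm, mul_comm]
    simp only [h2, sum_const, card_univ, Fintype.card_fin, nsmul_eq_mul] at h3
    exact mul_left_cancel₀ hq' h3
  have h4 : ∑ σ : Equiv.Perm (Fin q), av (p * perm σ p') = q.factorial := by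
    unfold av
    rw [← sum_div, sum_comm]
    simp only [Pi.mul_apply, perm, ← mul_sum, h1, ← sum_mul, hs']
    field_simp
  simp only [sAv, hat, ← sum_mul, h4]
  field_simp

theorem feat_perm (a : ℕ × ℕ × ℕ) (σ : Equiv.Perm (Fin q)) (p : Vec q) :
    feat a (perm σ p) = feat a p := by
  simp only [feat, fx, fm, fe, mom_perm]

theorem feat_one {a : ℕ × ℕ × ℕ} (h : 0 < fdeg a) : feat a (1 : Vec q) = 0 := by
  have h4 : fe (1 : Vec q) = 0 := by
    unfold fe
    rw [mom_one 1, mom_one 3]
    ring
  unfold feat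
  rw [fx_one, fm_one, h4, ← pow_add, ← pow_add]
  unfold fdeg at h
  exact zero_pow (by omega)

/-- tangent bound from below -/
theorem tangent_ge {lams : List (List ℕ)} (hl : ∀ l ∈ lams, l.length = q ∧ 0 < l.sum) (π : ℕ → ℝ)
    {f : Vec q → ℝ} {p p' : Vec q} (hp : Pos p) (hp' : Pos p') {lo hi : ℝ}
    (hZ : ∀ σ, lo ≤ av (p * perm σ p') ∧ av (p * perm σ p') ≤ hi)
    (h : ∀ r, Simp r → ∀ Z, lo ≤ Z → Z ≤ hi →
      ∑ t ∈ range lams.length, π t * (Z ^ (lams.getD t []).sum * mbar (lams.getD t []) r) ≤
        Z * f r) :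
    ∑ t ∈ range lams.length, π t * (mbar (lams.getD t []) p * mbar (lams.getD t []) p') ≤
      sAv f p p' := by
  have hq : (0 : ℝ) < q.factorial := by positivity
  have hl' : ∀ t ∈ range lams.length, (lams.getD t []).length = q ∧ 0 < (lams.getD t []).sum := by
    intro t ht
    refine hl _ ?_
    rw [List.getD_eq_getElem _ _ (mem_range.1 ht)]
    exact List.getElem_mem _
  have key : ∀ σ : Equiv.Perm (Fin q),
      ∑ t ∈ range lams.length, π t * mbar (lams.getD t []) (p * perm σ p') ≤
        hat f (p * perm σ p') := by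
    intro σ
    have hP : Pos (p * perm σ p') := hp.mul (hp'.perm σ)
    obtain ⟨h1, h2⟩ := hZ σ
    generalize p * perm σ p' = P at hP h1 h2
    by_cases h0 : av P = 0
    · have hP0 : P = (0 : ℝ) • P := by
        funext i
        have := le_av hP i
        rw [h0, mul_zero] at this
        simp [le_antisymm this (hP i)]
      have : ∀ t ∈ range lams.length, π t * mbar (lams.getD t []) P = 0 := by
        intro t ht
        rw [hP0, mbar_smul (hl' t ht).1, zero_pow (hl' t ht).2.ne', zero_mul, mul_zero]
      rw [sum_eq_zero this]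
      simp [hat, h0]
    · have h3 := h _ (simp_div hP h0) (av P) h1 h2
      refine le_trans (le_of_eq (sum_congr rfl fun t ht => ?_)) h3
      rw [← mbar_smul (hl' t ht).1]
      congr 2
      funext i
      simp [mul_div_cancel₀ _ h0]
  simp only [← avg_mbar]
  unfold sAv
  refine le_trans (le_of_eq ?_) (div_le_div_of_nonneg_right (sum_le_sum fun σ _ => key σ) hq.le)
  rw [sum_comm, sum_div]
  exact sum_congr rfl fun t _ => by rw [← mul_sum, mul_div_assoc]

/-- tangent bound from above -/
theorem tangent_le {lams : List (List ℕ)} (hl : ∀ l ∈ lams, l.length = q ∧ 0 < l.sum) (π : ℕ → ℝ)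
    {f : Vec q → ℝ} {p p' : Vec q} (hp : Pos p) (hp' : Pos p') {lo hi : ℝ}
    (hZ : ∀ σ, lo ≤ av (p * perm σ p') ∧ av (p * perm σ p') ≤ hi)
    (h : ∀ r, Simp r → ∀ Z, lo ≤ Z → Z ≤ hi → Z * f r ≤
      ∑ t ∈ range lams.length, π t * (Z ^ (lams.getD t []).sum * mbar (lams.getD t []) r)) :
    sAv f p p' ≤
      ∑ t ∈ range lams.length, π t * (mbar (lams.getD t []) p * mbar (lams.getD t []) p') := by
  have := tangent_ge hl (fun t => -π t) (f := fun r => -1 * f r) hp hp' hZ fun r hr Z h1 h2 => by
    have := h r hr Z h1 h2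
    simp only [neg_mul, sum_neg_distrib, one_mul, mul_neg]
    linarith
  rw [sAv_smul] at this
  simp only [neg_mul, sum_neg_distrib] at this
  linarith

/-- restriction of a table to low degrees -/
theorem TabOK.take {fs : List (ℕ × ℕ × ℕ)} {lams : List (List ℕ)} {TT : L2} {DT : ℕ}
    (h : TabOK q fs lams TT DT) (nf n : ℕ)
    (hz : (TT.drop nf).all (fun c => (c.take n).all fun v => decide (v = 0)) = true) :
    TabOK q (fs.take nf) (lams.take n) ((TT.take nf).map (List.take n)) DT := by
  obtain ⟨h0, h1, h2, h3, h4⟩ := h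
  refine ⟨h0, by simp [h1], fun c hc => ?_, fun l hl => h3 l (List.mem_of_mem_take hl),
    fun p hp t ht => ?_⟩
  · obtain ⟨c', hc', rfl⟩ := List.mem_map.1 hc
    simp [h2 c' (List.mem_of_mem_take hc')]
  · rw [List.length_take] at ht
    have ht1 : t < n := by omega
    have ht2 : t < lams.length := by omega
    have e1 : (lams.take n).getD t [] = lams.getD t [] := by
      simp [List.getD_eq_getElem?_getD, ht1]
    rw [e1, h4 p hp t ht2, List.length_take]
    symm
    refine sum_subset_zero_on_sdiff (range_subset_range.2 (min_le_right _ _)) (fun a ha => ?_)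
      (fun a ha => ?_)
    · rw [mem_sdiff, mem_range, mem_range] at ha
      have ha1 : a < TT.length := by omega
      have ha2 : nf ≤ a := by omega
      have hm : TT.getD a [] ∈ TT.drop nf := by
        rw [List.getD_eq_getElem _ _ ha1, List.mem_iff_getElem]
        exact ⟨a - nf, by simp; omega, by simp [Nat.add_sub_cancel' ha2]⟩
      have h5 := List.all_eq_true.1 hz _ hm
      have hlen : t < (TT.getD a []).length := by
        rw [h2 _ (List.mem_of_mem_drop hm)]; exact ht2
      have h6 := List.all_eq_true.1 h5 ((TT.getD a []).getD t 0) (by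
        rw [List.getD_eq_getElem _ _ hlen, List.mem_iff_getElem]
        exact ⟨t, by simp only [List.length_take]; omega, by simp⟩)
      rw [of_decide_eq_true h6]
      simp
    · rw [mem_range] at ha
      have ha1 : a < nf := by omega
      have ha2 : a < TT.length := by omega
      have e2 : (fs.take nf).getD a (0, 0, 0) = fs.getD a (0, 0, 0) := by
        simp [List.getD_eq_getElem?_getD, ha1]
      have e3 : (((TT.take nf).map (List.take n)).getD a []).getD t 0 = (TT.getD a []).getD t 0 := by
        simp [List.getD_eq_getElem?_getD, ha1, ha2, ht1]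
      rw [e2, e3]

end Crest.Agent.R163.Ck
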