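import Crest.Agent.R163.Tab3D

/-! Row 163: symmetrised monomials in terms of the moment features, `q = 3`. -/

set_option autoImplicit false

namespace Crest.Agent.R163.Tab3H

open Finset Crest.Agent.R163.Ck

theorem univ3 : (univ : Finset (Equiv.Perm (Fin 3))) =
    {1, Equiv.swap 0 1, Equiv.swap 0 2, Equiv.swap 1 2, Equiv.swap 0 1 * Equiv.swap 1 2,
      Equiv.swap 1 2 * Equiv.swap 0 1} := by decide

/-- the symmetrised monomial written out -/
noncomputable def M (a b c : ℕ) (x y z : ℝ) : ℝ :=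
  (x ^ a * y ^ b * z ^ c + y ^ a * x ^ b * z ^ c + z ^ a * y ^ b * x ^ c + x ^ a * z ^ b * y ^ c +
    y ^ a * z ^ b * x ^ c + z ^ a * x ^ b * y ^ c) / 6

theorem mbar3 (a b c : ℕ) (p : Vec 3) : mbar [a, b, c] p = M a b c (p 0) (p 1) (p 2) := by
  unfold mbar M
  rw [univ3, sum_insert (by decide), sum_insert (by decide), sum_insert (by decide),
    sum_insert (by decide), sum_insert (by decide), sum_singleton]
  simp only [Fin.prod_univ_three]
  have e : ((Nat.factorial 3 : ℕ) : ℝ) = 6 := by norm_num [Nat.factorial]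
  rw [e]
  show (p 0 ^ a * p 1 ^ b * p 2 ^ c + (p 1 ^ a * p 0 ^ b * p 2 ^ c + (p 2 ^ a * p 1 ^ b * p 0 ^ c +
    (p 0 ^ a * p 2 ^ b * p 1 ^ c + (p 1 ^ a * p 2 ^ b * p 0 ^ c + p 2 ^ a * p 0 ^ b * p 1 ^ c))))) / 6 = _
  ring

/-- the feature combination written out -/
noncomputable def S (c0 c1 c2 c3 c4 c5 c6 c7 c8 c9 c10 c11 c12 c13 : ℝ) (x m : ℝ) : ℝ :=
  c0 + c1 * x + c2 * m + c3 * x ^ 2 + c4 * (x * m) + c5 * x ^ 3 + c6 * m ^ 2 + c7 * (x ^ 2 * m) +
    c8 * x ^ 4 + c9 * (x * m ^ 2) + c10 * (x ^ 3 * m) + c11 * m ^ 3 + c12 * x ^ 5 +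
    c13 * (x ^ 2 * m ^ 2)

theorem sum3 (c : ℕ → ℝ) (p : Vec 3) :
    ∑ a ∈ range fs3.length, c a * feat (fs3.getD a (0, 0, 0)) p =
      S (c 0) (c 1) (c 2) (c 3) (c 4) (c 5) (c 6) (c 7) (c 8) (c 9) (c 10) (c 11) (c 12) (c 13)
        (fx p) (fm p) := by
  have h : fs3.length = 14 := rfl
  rw [h]
  simp only [sum_range_succ, sum_range_zero]
  show 0 + c 0 * feat (0, 0, 0) p + c 1 * feat (1, 0, 0) p + c 2 * feat (0, 1, 0) p +
    c 3 * feat (2, 0, 0) p + c 4 * feat (1, 1, 0) p + c 5 * feat (3, 0, 0) p +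
    c 6 * feat (0, 2, 0) p + c 7 * feat (2, 1, 0) p + c 8 * feat (4, 0, 0) p +
    c 9 * feat (1, 2, 0) p + c 10 * feat (3, 1, 0) p + c 11 * feat (0, 3, 0) p +
    c 12 * feat (5, 0, 0) p + c 13 * feat (2, 2, 0) p = _
  have hf : ∀ i j k : ℕ, feat (i, j, k) p = fx p ^ i * fm p ^ j * fe p ^ k := fun _ _ _ => rfl
  simp only [hf]
  unfold S
  ring

/-- the statement for one column -/
def G (t : ℕ) : Prop := ∀ p : Vec 3, Simp p → ((32 : ℕ) : ℝ) * mbar (lams3.getD t []) p =
  ∑ a ∈ range fs3.length, (((TT3.getD a []).getD t 0 : ℤ) : ℝ) * feat (fs3.getD a (0, 0, 0)) p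

theorem key (t a b c : ℕ) (c0 c1 c2 c3 c4 c5 c6 c7 c8 c9 c10 c11 c12 c13 : ℤ)
    (hl : lams3.getD t [] = [a, b, c])
    (hc : (List.range 14).map (fun a => (TT3.getD a []).getD t 0) =
      [c0, c1, c2, c3, c4, c5, c6, c7, c8, c9, c10, c11, c12, c13])
    (h : ∀ u v : ℝ, 32 * M a b c (1 + u) (1 + v) (1 - u - v) =
      S c0 c1 c2 c3 c4 c5 c6 c7 c8 c9 c10 c11 c12 c13 (2 / 3 * (u ^ 2 + u * v + v ^ 2))
        (-(u * v * (u + v)))) : G t := by
  intro p hp
  have hav : (p 0 + p 1 + p 2) / 3 = 1 := by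
    have := hp.2
    unfold av at this
    rw [Fin.sum_univ_three] at this
    exact_mod_cast this
  have h2 : p 2 = 1 - (p 0 - 1) - (p 1 - 1) := by linarith
  have hx : fx p = 2 / 3 * ((p 0 - 1) ^ 2 + (p 0 - 1) * (p 1 - 1) + (p 1 - 1) ^ 2) := by
    show (∑ i, (p i - 1) ^ 2) / ((3 : ℕ) : ℝ) = _
    rw [Fin.sum_univ_three, h2]; push_cast; ring
  have hm : fm p = -((p 0 - 1) * (p 1 - 1) * ((p 0 - 1) + (p 1 - 1))) := by
    show (∑ i, (p i - 1) ^ 3) / ((3 : ℕ) : ℝ) = _
    rw [Fin.sum_univ_three, h2]; push_cast; ring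
  have hh := h (p 0 - 1) (p 1 - 1)
  rw [← hx, ← hm, ← h2, add_sub_cancel, add_sub_cancel] at hh
  rw [hl, mbar3, sum3 (fun a => (((TT3.getD a []).getD t 0 : ℤ) : ℝ))]
  have hc' : [(TT3.getD 0 []).getD t 0, (TT3.getD 1 []).getD t 0, (TT3.getD 2 []).getD t 0,
      (TT3.getD 3 []).getD t 0, (TT3.getD 4 []).getD t 0, (TT3.getD 5 []).getD t 0,
      (TT3.getD 6 []).getD t 0, (TT3.getD 7 []).getD t 0, (TT3.getD 8 []).getD t 0,
      (TT3.getD 9 []).getD t 0, (TT3.getD 10 []).getD t 0, (TT3.getD 11 []).getD t 0,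
      (TT3.getD 12 []).getD t 0, (TT3.getD 13 []).getD t 0] =
      [c0, c1, c2, c3, c4, c5, c6, c7, c8, c9, c10, c11, c12, c13] := hc
  simp only [List.cons.injEq, and_true] at hc'
  obtain ⟨e0, e1, e2, e3, e4, e5, e6, e7, e8, e9, e10, e11, e12, e13⟩ := hc'
  rw [e0, e1, e2, e3, e4, e5, e6, e7, e8, e9, e10, e11, e12, e13, ← hh]
  norm_num

theorem g0 : G 0 := key 0 1 0 0 32 0 0 0 0 0 0 0 0 0 0 0 0 0 (by decide) (by decide)
  (fun u v => by unfold M S; push_cast; ring)

theorem g1 : G 1 := key 1 2 0 0 32 32 0 0 0 0 0 0 0 0 0 0 0 0 (by decide) (by decide)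
  (fun u v => by unfold M S; push_cast; ring)

theorem g2 : G 2 := key 2 1 1 0 32 (-16) 0 0 0 0 0 0 0 0 0 0 0 0 (by decide) (by decide)
  (fun u v => by unfold M S; push_cast; ring)

theorem g3 : G 3 := key 3 3 0 0 32 96 32 0 0 0 0 0 0 0 0 0 0 0 (by decide) (by decide)
  (fun u v => by unfold M S; push_cast; ring)

theorem g4 : G 4 := key 4 2 1 0 32 0 (-16) 0 0 0 0 0 0 0 0 0 0 0 (by decide) (by decide)
  (fun u v => by unfold M S; push_cast; ring)

theorem g5 : G 5 := key 5 1 1 1 32 (-48) 32 0 0 0 0 0 0 0 0 0 0 0 (by decide) (by decide)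
  (fun u v => by unfold M S; push_cast; ring)

theorem g6 : G 6 := key 6 4 0 0 32 192 128 48 0 0 0 0 0 0 0 0 0 0 (by decide) (by decide)
  (fun u v => by unfold M S; push_cast; ring)

theorem g7 : G 7 := key 7 3 1 0 32 48 (-16) (-24) 0 0 0 0 0 0 0 0 0 0 (by decide) (by decide)
  (fun u v => by unfold M S; push_cast; ring)

theorem g8 : G 8 := key 8 2 2 0 32 0 (-64) 24 0 0 0 0 0 0 0 0 0 0 (by decide) (by decide)
  (fun u v => by unfold M S; push_cast; ring)

theorem g9 : G 9 := key 9 2 1 1 32 (-48) 32 0 0 0 0 0 0 0 0 0 0 0 (by decide) (by decide)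
  (fun u v => by unfold M S; push_cast; ring)

theorem g10 : G 10 := key 10 5 0 0 32 320 320 240 80 0 0 0 0 0 0 0 0 0 (by decide) (by decide)
  (fun u v => by unfold M S; push_cast; ring)

theorem g11 : G 11 := key 11 4 1 0 32 128 32 (-48) (-40) 0 0 0 0 0 0 0 0 0 (by decide) (by decide)
  (fun u v => by unfold M S; push_cast; ring)

theorem g12 : G 12 := key 12 3 2 0 32 32 (-112) 24 8 0 0 0 0 0 0 0 0 0 (by decide) (by decide)
  (fun u v => by unfold M S; push_cast; ring)

theorem g13 : G 13 := key 13 3 1 1 32 (-16) 32 (-48) 32 0 0 0 0 0 0 0 0 0 (by decide) (by decide)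
  (fun u v => by unfold M S; push_cast; ring)

theorem g14 : G 14 := key 14 2 2 1 32 (-64) 32 24 (-16) 0 0 0 0 0 0 0 0 0 (by decide) (by decide)
  (fun u v => by unfold M S; push_cast; ring)

theorem g15 : G 15 := key 15 6 0 0 32 480 640 720 480 72 32 0 0 0 0 0 0 0 (by decide) (by decide)
  (fun u v => by unfold M S; push_cast; ring)

theorem g16 : G 16 := key 16 5 1 0 32 240 160 0 (-120) (-36) (-16) 0 0 0 0 0 0 0 (by decide) (by decide)
  (fun u v => by unfold M S; push_cast; ring)

theorem g17 : G 17 := key 17 4 2 0 32 96 (-128) 0 (-48) 36 (-16) 0 0 0 0 0 0 0 (by decide) (by decide)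
  (fun u v => by unfold M S; push_cast; ring)

theorem g18 : G 18 := key 18 4 1 1 32 48 64 (-144) 48 0 32 0 0 0 0 0 0 0 (by decide) (by decide)
  (fun u v => by unfold M S; push_cast; ring)

theorem g19 : G 19 := key 19 3 3 0 32 48 (-224) 72 48 (-36) 32 0 0 0 0 0 0 0 (by decide) (by decide)
  (fun u v => by unfold M S; push_cast; ring)

theorem g20 : G 20 := key 20 3 2 1 32 (-48) 16 0 24 0 (-16) 0 0 0 0 0 0 0 (by decide) (by decide)
  (fun u v => by unfold M S; push_cast; ring)

theorem g21 : G 21 := key 21 2 2 2 32 (-96) 64 72 (-96) 0 32 0 0 0 0 0 0 0 (by decide) (by decide)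
  (fun u v => by unfold M S; push_cast; ring)

theorem g22 : G 22 := key 22 7 0 0 32 672 1120 1680 1680 504 224 168 0 0 0 0 0 0 (by decide) (by decide)
  (fun u v => by unfold M S; push_cast; ring)

theorem g23 : G 23 := key 23 6 1 0 32 384 400 240 (-120) (-144) (-64) (-84) 0 0 0 0 0 0 (by decide) (by decide)
  (fun u v => by unfold M S; push_cast; ring)

theorem g24 : G 24 := key 24 5 2 0 32 192 (-80) 0 (-240) 108 (-112) 36 0 0 0 0 0 0 (by decide) (by decide)
  (fun u v => by unfold M S; push_cast; ring)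

theorem g25 : G 25 := key 25 5 1 1 32 144 160 (-240) 0 (-72) 128 48 0 0 0 0 0 0 (by decide) (by decide)
  (fun u v => by unfold M S; push_cast; ring)

theorem g26 : G 26 := key 26 4 3 0 32 96 (-320) 96 24 (-36) 80 (-12) 0 0 0 0 0 0 (by decide) (by decide)
  (fun u v => by unfold M S; push_cast; ring)

theorem g27 : G 27 := key 27 4 2 1 32 0 16 (-96) 72 36 (-16) (-24) 0 0 0 0 0 0 (by decide) (by decide)
  (fun u v => by unfold M S; push_cast; ring)

theorem g28 : G 28 := key 28 3 3 1 32 (-48) (-32) 24 96 (-36) (-64) 24 0 0 0 0 0 0 (by decide) (by decide)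
  (fun u v => by unfold M S; push_cast; ring)

theorem g29 : G 29 := key 29 3 2 2 32 (-96) 64 72 (-96) 0 32 0 0 0 0 0 0 0 (by decide) (by decide)
  (fun u v => by unfold M S; push_cast; ring)

theorem g30 : G 30 := key 30 8 0 0 32 896 1792 3360 4480 2016 896 1344 108 128 0 0 0 0 (by decide) (by decide)
  (fun u v => by unfold M S; push_cast; ring)

theorem g31 : G 31 := key 31 7 1 0 32 560 784 840 280 (-252) (-112) (-420) (-54) (-64) 0 0 0 0 (by decide) (by decide)
  (fun u v => by unfold M S; push_cast; ring)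

theorem g32 : G 32 := key 32 6 2 0 32 320 64 120 (-560) 180 (-400) 48 54 (-16) 0 0 0 0 (by decide) (by decide)
  (fun u v => by unfold M S; push_cast; ring)

theorem g33 : G 33 := key 33 6 1 1 32 272 352 (-240) (-80) (-360) 320 120 0 80 0 0 0 0 (by decide) (by decide)
  (fun u v => by unfold M S; push_cast; ring)

theorem g34 : G 34 := key 34 5 3 0 32 176 (-368) 120 (-200) 72 32 48 (-54) 56 0 0 0 0 (by decide) (by decide)
  (fun u v => by unfold M S; push_cast; ring)

theorem g35 : G 35 := key 35 5 2 1 32 80 64 (-240) 40 72 32 12 0 (-40) 0 0 0 0 (by decide) (by decide)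
  (fun u v => by unfold M S; push_cast; ring)

theorem g36 : G 36 := key 36 4 4 0 32 128 (-512) 192 64 (-144) 320 (-96) 54 (-64) 0 0 0 0 (by decide) (by decide)
  (fun u v => by unfold M S; push_cast; ring)

theorem g37 : G 37 := key 37 4 3 1 32 (-16) (-80) (-24) 208 (-36) (-112) 12 0 8 0 0 0 0 (by decide) (by decide)
  (fun u v => by unfold M S; push_cast; ring)

theorem g38 : G 38 := key 38 4 2 2 32 (-64) 64 (-24) (-32) 72 32 (-96) 0 32 0 0 0 0 (by decide) (by decide)
  (fun u v => by unfold M S; push_cast; ring)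

theorem g39 : G 39 := key 39 3 3 2 32 (-112) 64 120 (-128) (-36) 32 48 0 (-16) 0 0 0 0 (by decide) (by decide)
  (fun u v => by unfold M S; push_cast; ring)

theorem g40 : G 40 := key 40 9 0 0 32 1152 2688 6048 10080 6048 2688 6048 972 1152 324 32 0 0 (by decide) (by decide)
  (fun u v => by unfold M S; push_cast; ring)

theorem g41 : G 41 := key 41 8 1 0 32 768 1344 2016 1680 0 0 (-1008) (-324) (-384) (-162) (-16) 0 0 (by decide) (by decide)
  (fun u v => by unfold M S; push_cast; ring)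

theorem g42 : G 42 := key 42 7 2 0 32 480 336 504 (-840) 252 (-1008) (-252) 270 (-240) 90 (-16) 0 0 (by decide) (by decide)
  (fun u v => by unfold M S; push_cast; ring)

theorem g43 : G 43 := key 43 7 1 1 32 432 672 0 0 (-1008) 672 0 (-108) 432 72 32 0 0 (by decide) (by decide)
  (fun u v => by unfold M S; push_cast; ring)

theorem g44 : G 44 := key 44 6 3 0 32 288 (-336) 216 (-720) 324 (-336) 216 (-162) 288 (-54) 32 0 0 (by decide) (by decide)
  (fun u v => by unfold M S; push_cast; ring)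

theorem g45 : G 45 := key 45 6 2 1 32 192 192 (-360) (-120) (-36) 144 180 54 (-96) (-36) (-16) 0 0 (by decide) (by decide)
  (fun u v => by unfold M S; push_cast; ring)

theorem g46 : G 46 := key 46 5 4 0 32 192 (-672) 288 (-120) (-144) 576 (-144) 54 (-96) 18 (-16) 0 0 (by decide) (by decide)
  (fun u v => by unfold M S; push_cast; ring)

theorem g47 : G 47 := key 47 5 3 1 32 48 (-96) (-144) 240 36 (-144) 72 (-54) (-24) 36 (-16) 0 0 (by decide) (by decide)
  (fun u v => by unfold M S; push_cast; ring)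

theorem g48 : G 48 := key 48 5 2 2 32 0 96 (-216) 0 216 96 (-216) 0 0 0 32 0 0 (by decide) (by decide)
  (fun u v => by unfold M S; push_cast; ring)

theorem g49 : G 49 := key 49 4 4 1 32 0 (-192) 0 432 (-144) (-192) 0 54 0 (-36) 32 0 0 (by decide) (by decide)
  (fun u v => by unfold M S; push_cast; ring)

theorem g50 : G 50 := key 50 4 3 2 32 (-96) 48 72 (-48) 0 0 (-36) 0 48 0 (-16) 0 0 (by decide) (by decide)
  (fun u v => by unfold M S; push_cast; ring)

theorem g51 : G 51 := key 51 3 3 3 32 (-144) 96 216 (-288) (-108) 96 216 0 (-144) 0 32 0 0 (by decide) (by decide)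
  (fun u v => by unfold M S; push_cast; ring)

theorem g52 : G 52 := key 52 10 0 0 32 1440 3840 10080 20160 15120 6720 20160 4860 5760 3240 320 162 360 (by decide) (by decide)
  (fun u v => by unfold M S; push_cast; ring)

theorem g53 : G 53 := key 53 9 1 0 32 1008 2112 4032 5040 1512 672 (-1008) (-972) (-1152) (-1134) (-112) (-81) (-180) (by decide) (by decide)
  (fun u v => by unfold M S; push_cast; ring)

theorem g54 : G 54 := key 54 8 2 0 32 672 768 1344 (-672) 504 (-2016) (-1344) 756 (-1344) 396 (-160) 81 12 (by decide) (by decide)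
  (fun u v => by unfold M S; push_cast; ring)

theorem g55 : G 55 := key 55 8 1 1 32 624 1152 672 672 (-2016) 1344 (-672) (-756) 1344 252 224 0 168 (by decide) (by decide)
  (fun u v => by unfold M S; push_cast; ring)

theorem g56 : G 56 := key 56 7 3 0 32 432 (-192) 504 (-1512) 756 (-1344) 252 (-162) 648 (-108) 176 (-81) 72 (by decide) (by decide)
  (fun u v => by unfold M S; push_cast; ring)

theorem g57 : G 57 := key 57 7 2 1 32 336 432 (-336) (-336) (-504) 336 336 216 (-24) (-18) (-64) 0 (-84) (by decide) (by decide)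
  (fun u v => by unfold M S; push_cast; ring)

theorem g58 : G 58 := key 58 6 4 0 32 288 (-768) 432 (-720) 108 528 0 (-162) 288 (-108) 32 81 (-108) (by decide) (by decide)
  (fun u v => by unfold M S; push_cast; ring)

theorem g59 : G 59 := key 59 6 3 1 32 144 (-48) (-288) 72 108 (-192) 396 (-162) (-72) 54 (-112) 0 36 (by decide) (by decide)
  (fun u v => by unfold M S; push_cast; ring)

theorem g60 : G 60 := key 60 6 2 2 32 96 192 (-456) (-96) 288 288 (-192) 108 (-192) (-144) 128 0 48 (by decide) (by decide)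
  (fun u v => by unfold M S; push_cast; ring)

theorem g61 : G 61 := key 61 5 5 0 32 240 (-960) 480 (-240) (-360) 1440 (-480) 270 (-480) 180 (-160) (-81) 120 (by decide) (by decide)
  (fun u v => by unfold M S; push_cast; ring)

theorem g62 : G 62 := key 62 5 4 1 32 48 (-288) (-48) 600 (-180) (-240) 48 54 (-96) (-18) 80 0 (-12) (by decide) (by decide)
  (fun u v => by unfold M S; push_cast; ring)

theorem g63 : G 63 := key 63 5 3 2 32 (-48) 48 (-96) 48 180 0 (-228) (-54) 96 72 (-16) 0 (-24) (by decide) (by decide)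
  (fun u v => by unfold M S; push_cast; ring)

theorem g64 : G 64 := key 64 4 4 2 32 (-96) 0 96 96 (-72) (-96) (-96) 54 192 (-72) (-64) 0 24 (by decide) (by decide)
  (fun u v => by unfold M S; push_cast; ring)

theorem g65 : G 65 := key 65 4 3 3 32 (-144) 96 216 (-288) (-108) 96 216 0 (-144) 0 32 0 0 (by decide) (by decide)
  (fun u v => by unfold M S; push_cast; ring)

theorem all (t : ℕ) (ht : t < 66) : G t := by
  interval_cases t
  · exact g0
  · exact g1
  · exact g2
  · exact g3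
  · exact g4
  · exact g5
  · exact g6
  · exact g7
  · exact g8
  · exact g9
  · exact g10
  · exact g11
  · exact g12
  · exact g13
  · exact g14
  · exact g15
  · exact g16
  · exact g17
  · exact g18
  · exact g19
  · exact g20
  · exact g21
  · exact g22
  · exact g23
  · exact g24
  · exact g25
  · exact g26
  · exact g27
  · exact g28
  · exact g29
  · exact g30
  · exact g31
  · exact g32
  · exact g33
  · exact g34
  · exact g35
  · exact g36
  · exact g37
  · exact g38
  · exact g39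
  · exact g40
  · exact g41
  · exact g42
  · exact g43
  · exact g44
  · exact g45
  · exact g46
  · exact g47
  · exact g48
  · exact g49
  · exact g50
  · exact g51
  · exact g52
  · exact g53
  · exact g54
  · exact g55
  · exact g56
  · exact g57
  · exact g58
  · exact g59
  · exact g60
  · exact g61
  · exact g62
  · exact g63
  · exact g64
  · exact g65

end Crest.Agent.R163.Tab3H

namespace Crest.Agent.R163.Ck

open Finset

theorem tab3 : TabOK 3 fs3 lams3 TT3 32 :=
  ⟨by decide, by decide, by decide, by decide, fun p hp t ht => Tab3H.all t ht p hp⟩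

end Crest.Agent.R163.Ck
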