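import Crest.Agent.R163.TabK3D
import Crest.Agent.R163.Tab3
import Crest.Agent.R163.SymAvg

/-! Row 163: restricted tables (generated). -/

set_option autoImplicit false
set_option Elab.async false
set_option maxRecDepth 100000

namespace Crest.Agent.R163.Ck

theorem tab3_6 : TabOK 3 fs3_6 lams3_6 TT3_6 32 := by
  have h := tab3.take 7 22 (by decide +kernel)
  have e1 : fs3.take 7 = fs3_6 := by decide +kernel
  have e2 : lams3.take 22 = lams3_6 := by decide +kernel
  have e3 : (TT3.take 7).map (List.take 22) = TT3_6 := by decide +kernel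
  rwa [e1, e2, e3] at h

theorem tab3_7 : TabOK 3 fs3_7 lams3_7 TT3_7 32 := by
  have h := tab3.take 8 30 (by decide +kernel)
  have e1 : fs3.take 8 = fs3_7 := by decide +kernel
  have e2 : lams3.take 30 = lams3_7 := by decide +kernel
  have e3 : (TT3.take 8).map (List.take 30) = TT3_7 := by decide +kernel
  rwa [e1, e2, e3] at h

theorem tab3_8 : TabOK 3 fs3_8 lams3_8 TT3_8 32 := by
  have h := tab3.take 10 40 (by decide +kernel)
  have e1 : fs3.take 10 = fs3_8 := by decide +kernel
  have e2 : lams3.take 40 = lams3_8 := by decide +kernel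
  have e3 : (TT3.take 10).map (List.take 40) = TT3_8 := by decide +kernel
  rwa [e1, e2, e3] at h

theorem tab3_9 : TabOK 3 fs3_9 lams3_9 TT3_9 32 := by
  have h := tab3.take 12 52 (by decide +kernel)
  have e1 : fs3.take 12 = fs3_9 := by decide +kernel
  have e2 : lams3.take 52 = lams3_9 := by decide +kernel
  have e3 : (TT3.take 12).map (List.take 52) = TT3_9 := by decide +kernel
  rwa [e1, e2, e3] at h

theorem tab3_10 : TabOK 3 fs3_10 lams3_10 TT3_10 32 := by
  have h := tab3.take 14 66 (by decide +kernel)
  have e1 : fs3.take 14 = fs3_10 := by decide +kernel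
  have e2 : lams3.take 66 = lams3_10 := by decide +kernel
  have e3 : (TT3.take 14).map (List.take 66) = TT3_10 := by decide +kernel
  rwa [e1, e2, e3] at h


end Crest.Agent.R163.Ck
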