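import Crest.Agent.R163.BP2C
import Crest.Agent.R163.B8m1b_256
import Crest.Agent.R163.TabK3
import Crest.Agent.R163.PVSound
import Crest.Agent.R163.BellCert

/-! Row 163: Bellman certificate (generated). -/

set_option autoImplicit false
set_option Elab.async false
set_option maxRecDepth 100000

namespace Crest.Agent.R163.Ck

theorem BP2_P0 : PairOK BP2_A B8m1b_256_degs B8m1b_256_rp B8m1b_256_sp B8m1b_256_rw BP2_tn B8m1b_256_sw BP2_en (chunk 1 0 BP2_sn) :=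
  PairOK.of_enet (m := 1) (n := 8) (AllLt.step (AllLt.step (AllLt.step (AllLt.step (AllLt.step (AllLt.step (AllLt.step (AllLt.step AllLt.zero (PairOK.of_sub (m := 10) (n := 1) (AllLt.step AllLt.zero (pcAll_sound B8m1b_256_sp (by norm_num) B8m1b_256_lenp B8m1b_256_cp_eq BP2_p0_0_0)) (by decide +kernel))) (PairOK.of_sub (m := 10) (n := 1) (AllLt.step AllLt.zero (pcAll_sound B8m1b_256_sp (by norm_num) B8m1b_256_lenp B8m1b_256_cp_eq BP2_p0_1_0)) (by decide +kernel))) (PairOK.of_sub (m := 10) (n := 1) (AllLt.step AllLt.zero (pcAll_sound B8m1b_256_sp (by norm_num) B8m1b_256_lenp B8m1b_256_cp_eq BP2_p0_2_0)) (by decide +kernel))) (PairOK.of_sub (m := 10) (n := 1) (AllLt.step AllLt.zero (pcAll_sound B8m1b_256_sp (by norm_num) B8m1b_256_lenp B8m1b_256_cp_eq BP2_p0_3_0)) (by decide +kernel))) (PairOK.of_sub (m := 10) (n := 1) (AllLt.step AllLt.zero (pcAll_sound B8m1b_256_sp (by norm_num) B8m1b_256_lenp B8m1b_256_cp_eq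 BP2_p0_4_0)) (by decide +kernel))) (PairOK.of_sub (m := 10) (n := 1) (AllLt.step AllLt.zero (pcAll_sound B8m1b_256_sp (by norm_num) B8m1b_256_lenp B8m1b_256_cp_eq BP2_p0_5_0)) (by decide +kernel))) (PairOK.of_sub (m := 10) (n := 1) (AllLt.step AllLt.zero (pcAll_sound B8m1b_256_sp (by norm_num) B8m1b_256_lenp B8m1b_256_cp_eq BP2_p0_6_0)) (by decide +kernel))) (PairOK.of_sub (m := 10) (n := 1) (AllLt.step AllLt.zero (pcAll_sound B8m1b_256_sp (by norm_num) B8m1b_256_lenp B8m1b_256_cp_eq BP2_p0_7_0)) (by decide +kernel))) (by decide +kernel)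

theorem BP2_P1 : PairOK BP2_A B8m1b_256_degs B8m1b_256_rp B8m1b_256_sp B8m1b_256_rw BP2_tn B8m1b_256_sw BP2_en (chunk 1 1 BP2_sn) :=
  PairOK.of_enet (m := 1) (n := 8) (AllLt.step (AllLt.step (AllLt.step (AllLt.step (AllLt.step (AllLt.step (AllLt.step (AllLt.step AllLt.zero (PairOK.of_sub (m := 10) (n := 1) (AllLt.step AllLt.zero (pcAll_sound B8m1b_256_sp (by norm_num) B8m1b_256_lenp B8m1b_256_cp_eq BP2_p1_0_0)) (by decide +kernel))) (PairOK.of_sub (m := 10) (n := 1) (AllLt.step AllLt.zero (pcAll_sound B8m1b_256_sp (by norm_num) B8m1b_256_lenp B8m1b_256_cp_eq BP2_p1_1_0)) (by decide +kernel))) (PairOK.of_sub (m := 10) (n := 1) (AllLt.step AllLt.zero (pcAll_sound B8m1b_256_sp (by norm_num) B8m1b_256_lenp B8m1b_256_cp_eq BP2_p1_2_0)) (by decide +kernel))) (PairOK.of_sub (m := 10) (n := 1) (AllLt.step AllLt.zero (pcAll_sound B8m1b_256_sp (by norm_num) B8m1b_256_lenp B8m1b_256_cp_eq BP2_p1_3_0)) (by decide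 +kernel))) (PairOK.of_sub (m := 10) (n := 1) (AllLt.step AllLt.zero (pcAll_sound B8m1b_256_sp (by norm_num) B8m1b_256_lenp B8m1b_256_cp_eq BP2_p1_4_0)) (by decide +kernel))) (PairOK.of_sub (m := 10) (n := 1) (AllLt.step AllLt.zero (pcAll_sound B8m1b_256_sp (by norm_num) B8m1b_256_lenp B8m1b_256_cp_eq BP2_p1_5_0)) (by decide +kernel))) (PairOK.of_sub (m := 10) (n := 1) (AllLt.step AllLt.zero (pcAll_sound B8m1b_256_sp (by norm_num) B8m1b_256_lenp B8m1b_256_cp_eq BP2_p1_6_0)) (by decide +kernel))) (PairOK.of_sub (m := 10) (n := 1) (AllLt.step AllLt.zero (pcAll_sound B8m1b_256_sp (by norm_num) B8m1b_256_lenp B8m1b_256_cp_eq BP2_p1_7_0)) (by decide +kernel))) (by decide +kernel)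

theorem BP2_P2 : PairOK BP2_A B8m1b_256_degs B8m1b_256_rp B8m1b_256_sp B8m1b_256_rw BP2_tn B8m1b_256_sw BP2_en (chunk 1 2 BP2_sn) :=
  PairOK.of_enet (m := 1) (n := 8) (AllLt.step (AllLt.step (AllLt.step (AllLt.step (AllLt.step (AllLt.step (AllLt.step (AllLt.step AllLt.zero (PairOK.of_sub (m := 10) (n := 1) (AllLt.step AllLt.zero (pcAll_sound B8m1b_256_sp (by norm_num) B8m1b_256_lenp B8m1b_256_cp_eq BP2_p2_0_0)) (by decide +kernel))) (PairOK.of_sub (m := 10) (n := 1) (AllLt.step AllLt.zero (pcAll_sound B8m1b_256_sp (by norm_num) B8m1b_256_lenp B8m1b_256_cp_eq BP2_p2_1_0)) (by decide +kernel))) (PairOK.of_sub (m := 10) (n := 1) (AllLt.step AllLt.zero (pcAll_sound B8m1b_256_sp (by norm_num) B8m1b_256_lenp B8m1b_256_cp_eq BP2_p2_2_0)) (by decide +kernel))) (PairOK.of_sub (m := 10) (n := 1) (AllLt.step AllLt.zero (pcAll_sound B8m1b_256_sp (by norm_num) B8m1b_256_lenp B8m1b_256_cp_eq BP2_p2_3_0)) (by decide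 +kernel))) (PairOK.of_sub (m := 10) (n := 1) (AllLt.step AllLt.zero (pcAll_sound B8m1b_256_sp (by norm_num) B8m1b_256_lenp B8m1b_256_cp_eq BP2_p2_4_0)) (by decide +kernel))) (PairOK.of_sub (m := 10) (n := 1) (AllLt.step AllLt.zero (pcAll_sound B8m1b_256_sp (by norm_num) B8m1b_256_lenp B8m1b_256_cp_eq BP2_p2_5_0)) (by decide +kernel))) (PairOK.of_sub (m := 10) (n := 1) (AllLt.step AllLt.zero (pcAll_sound B8m1b_256_sp (by norm_num) B8m1b_256_lenp B8m1b_256_cp_eq BP2_p2_6_0)) (by decide +kernel))) (PairOK.of_sub (m := 10) (n := 1) (AllLt.step AllLt.zero (pcAll_sound B8m1b_256_sp (by norm_num) B8m1b_256_lenp B8m1b_256_cp_eq BP2_p2_7_0)) (by decide +kernel))) (by decide +kernel)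

theorem BP2_PP : PairOK BP2_A B8m1b_256_degs B8m1b_256_rp B8m1b_256_sp B8m1b_256_rw BP2_tn B8m1b_256_sw BP2_en BP2_sn :=
  PairOK.of_snet (m := 1) (n := 3) (AllLt.step (AllLt.step (AllLt.step AllLt.zero BP2_P0) BP2_P1) BP2_P2) (by decide +kernel)

theorem BP2_EE : OneOK BP2_E B8m1b_256_degs B8m1b_256_re B8m1b_256_se BP2_zn BP2_tn BP2_en1 BP2_sn :=
  OneOK.of_snet (m := 1) (n := 3) (AllLt.step (AllLt.step (AllLt.step AllLt.zero (OneOK.of_tnet (m := 1) (n := 3) (AllLt.step (AllLt.step (AllLt.step AllLt.zero (ecAll_sound B8m1b_256_se (by norm_num) B8m1b_256_lene B8m1b_256_ce_eq BP2_e0_0)) (ecAll_sound B8m1b_256_se (by norm_num) B8m1b_256_lene B8m1b_256_ce_eq BP2_e0_1)) (ecAll_sound B8m1b_256_se (by norm_num) B8m1b_256_lene B8m1b_256_ce_eq BP2_e0_2)) (by decide +kernel))) (OneOK.of_tnet (m := 1) (n := 3) (AllLt.step (AllLt.step (AllLt.step AllLt.zero (ecAll_sound B8m1b_256_se (by norm_num) B8m1b_256_lene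 B8m1b_256_ce_eq BP2_e1_0)) (ecAll_sound B8m1b_256_se (by norm_num) B8m1b_256_lene B8m1b_256_ce_eq BP2_e1_1)) (ecAll_sound B8m1b_256_se (by norm_num) B8m1b_256_lene B8m1b_256_ce_eq BP2_e1_2)) (by decide +kernel))) (OneOK.of_tnet (m := 1) (n := 3) (AllLt.step (AllLt.step (AllLt.step AllLt.zero (ecAll_sound B8m1b_256_se (by norm_num) B8m1b_256_lene B8m1b_256_ce_eq BP2_e2_0)) (ecAll_sound B8m1b_256_se (by norm_num) B8m1b_256_lene B8m1b_256_ce_eq BP2_e2_1)) (ecAll_sound B8m1b_256_se (by norm_num) B8m1b_256_lene B8m1b_256_ce_eq BP2_e2_2)) (by decide +kernel))) (by decide +kernel)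

theorem BP2_checked {ε s : ℝ} (e0 : (96 : ℝ) ≤ 256 * ε) (e1 : 256 * ε ≤ 104) (s0 : (48 : ℝ) ≤ 64 * s) (s1 : 64 * s ≤ 128) :
    BP2.Checked ε s (128 / 128) := by
  have ht : ∀ θ : ℝ, 0 ≤ θ → θ ≤ 128 / 128 → DomN BP2_tn (2 + 1) fun k => θ ^ k := fun θ h0 h1 =>
    (by decide +kernel : uniNets 2 128 [0, 128] = BP2_tn) ▸ domN_uniNets 2 (lo := 0) (hi := 128) (by norm_num)
      (by decide) (by push_cast; linarith) (by push_cast; linarith)
  have hz : ∀ Z : ℝ, 1 - 2 * ε ≤ Z → Z ≤ 1 + ε → DomN BP2_zn (8 + 1) fun k => Z ^ k := fun Z h0 h1 =>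
    (by decide +kernel : uniNets 8 64 [12, 38, 64, 90] = BP2_zn) ▸ domN_uniNets 8 (lo := 12) (hi := 90) (by norm_num)
      (by decide) (by push_cast; linarith) (by push_cast; linarith)
  have he : DomN BP2_en (7 + 1) fun k => ε ^ k :=
    (by decide +kernel : uniNet 7 256 96 104 = BP2_en) ▸ domN_uniNet 7 (by norm_num) (by exact_mod_cast e0) (by exact_mod_cast e1)
  have he1 : DomN BP2_en1 (1 + 1) fun k => ε ^ k :=
    (by decide +kernel : uniNet 1 256 96 104 = BP2_en1) ▸ domN_uniNet 1 (by norm_num) (by exact_mod_cast e0) (by exact_mod_cast e1)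
  have hs : DomN BP2_sn (2 + 1) fun k => s ^ k :=
    (by decide +kernel : uniNet 2 64 48 128 = BP2_sn) ▸ domN_uniNet 2 (by norm_num) (by exact_mod_cast s0) (by exact_mod_cast s1)
  have hd : BP2.fs.map fdeg = B8m1b_256_degs := B8m1b_256_degs_eq
  refine ⟨by decide, tab3_8, ⟨B8m1b_256_rp, B8m1b_256_rw, BP2_tn, BP2_en, BP2_sn, B8m1b_256_sp, B8m1b_256_sw, ?_, B8m1b_256_sp_cover, B8m1b_256_sw_cover,
    B8m1b_256_rp_dom, B8m1b_256_rw_dom, ht, he, hs⟩, ⟨B8m1b_256_re, BP2_zn, BP2_tn, BP2_en1, BP2_sn, B8m1b_256_se, ?_, B8m1b_256_se_cover,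
    B8m1b_256_re_dom, hz, ht, he1, hs⟩, ⟨BP2_en1, BP2_sn, BP2_G, he1, hs⟩⟩
  · rw [BP2_A_eq, hd]; exact BP2_PP
  · rw [BP2_E_eq, hd]; exact BP2_EE

end Crest.Agent.R163.Ck
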