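import Crest.Agent.R163.BP3C
import Crest.Agent.R163.B9m1b_288
import Crest.Agent.R163.TabK3
import Crest.Agent.R163.PVSound
import Crest.Agent.R163.BellCert

/-! Row 163: Bellman certificate (generated). -/

set_option autoImplicit false
set_option Elab.async false
set_option maxRecDepth 100000

namespace Crest.Agent.R163.Ck

theorem BP3_P0 : PairOK BP3_A B9m1b_288_degs B9m1b_288_rp B9m1b_288_sp B9m1b_288_rw BP3_tn B9m1b_288_sw BP3_en (chunk 1 0 BP3_sn) :=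
  PairOK.of_enet (m := 1) (n := 9) (AllLt.step (AllLt.step (AllLt.step (AllLt.step (AllLt.step (AllLt.step (AllLt.step (AllLt.step (AllLt.step AllLt.zero (PairOK.of_sub (m := 10) (n := 1) (AllLt.step AllLt.zero (pcAll_sound B9m1b_288_sp (by norm_num) B9m1b_288_lenp B9m1b_288_cp_eq BP3_p0_0_0)) (by decide +kernel))) (PairOK.of_sub (m := 10) (n := 1) (AllLt.step AllLt.zero (pcAll_sound B9m1b_288_sp (by norm_num) B9m1b_288_lenp B9m1b_288_cp_eq BP3_p0_1_0)) (by decide +kernel))) (PairOK.of_sub (m := 10) (n := 1) (AllLt.step AllLt.zero (pcAll_sound B9m1b_288_sp (by norm_num) B9m1b_288_lenp B9m1b_288_cp_eq BP3_p0_2_0)) (by decide +kernel))) (PairOK.of_sub (m := 10) (n := 1) (AllLt.step AllLt.zero (pcAll_sound B9m1b_288_sp (by norm_num) B9m1b_288_lenp B9m1b_288_cp_eq BP3_p0_3_0)) (by decide +kernel))) (PairOK.of_sub (m := 10) (n := 1) (AllLt.step AllLt.zero (pcAll_sound B9m1b_288_sp (by norm_num) B9m1b_288_lenp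 B9m1b_288_cp_eq BP3_p0_4_0)) (by decide +kernel))) (PairOK.of_sub (m := 10) (n := 1) (AllLt.step AllLt.zero (pcAll_sound B9m1b_288_sp (by norm_num) B9m1b_288_lenp B9m1b_288_cp_eq BP3_p0_5_0)) (by decide +kernel))) (PairOK.of_sub (m := 10) (n := 1) (AllLt.step AllLt.zero (pcAll_sound B9m1b_288_sp (by norm_num) B9m1b_288_lenp B9m1b_288_cp_eq BP3_p0_6_0)) (by decide +kernel))) (PairOK.of_sub (m := 10) (n := 1) (AllLt.step AllLt.zero (pcAll_sound B9m1b_288_sp (by norm_num) B9m1b_288_lenp B9m1b_288_cp_eq BP3_p0_7_0)) (by decide +kernel))) (PairOK.of_sub (m := 10) (n := 1) (AllLt.step AllLt.zero (pcAll_sound B9m1b_288_sp (by norm_num) B9m1b_288_lenp B9m1b_288_cp_eq BP3_p0_8_0)) (by decide +kernel))) (by decide +kernel)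

theorem BP3_P1 : PairOK BP3_A B9m1b_288_degs B9m1b_288_rp B9m1b_288_sp B9m1b_288_rw BP3_tn B9m1b_288_sw BP3_en (chunk 1 1 BP3_sn) :=
  PairOK.of_enet (m := 1) (n := 9) (AllLt.step (AllLt.step (AllLt.step (AllLt.step (AllLt.step (AllLt.step (AllLt.step (AllLt.step (AllLt.step AllLt.zero (PairOK.of_sub (m := 10) (n := 1) (AllLt.step AllLt.zero (pcAll_sound B9m1b_288_sp (by norm_num) B9m1b_288_lenp B9m1b_288_cp_eq BP3_p1_0_0)) (by decide +kernel))) (PairOK.of_sub (m := 10) (n := 1) (AllLt.step AllLt.zero (pcAll_sound B9m1b_288_sp (by norm_num) B9m1b_288_lenp B9m1b_288_cp_eq BP3_p1_1_0)) (by decide +kernel))) (PairOK.of_sub (m := 10) (n := 1) (AllLt.step AllLt.zero (pcAll_sound B9m1b_288_sp (by norm_num) B9m1b_288_lenp B9m1b_288_cp_eq BP3_p1_2_0)) (by decide +kernel))) (PairOK.of_sub (m := 10) (n := 1) (AllLt.step AllLt.zero (pcAll_sound B9m1b_288_sp (by norm_num) B9m1b_288_lenp B9m1b_288_cp_eq BP3_p1_3_0))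 (by decide +kernel))) (PairOK.of_sub (m := 10) (n := 1) (AllLt.step AllLt.zero (pcAll_sound B9m1b_288_sp (by norm_num) B9m1b_288_lenp B9m1b_288_cp_eq BP3_p1_4_0)) (by decide +kernel))) (PairOK.of_sub (m := 10) (n := 1) (AllLt.step AllLt.zero (pcAll_sound B9m1b_288_sp (by norm_num) B9m1b_288_lenp B9m1b_288_cp_eq BP3_p1_5_0)) (by decide +kernel))) (PairOK.of_sub (m := 10) (n := 1) (AllLt.step AllLt.zero (pcAll_sound B9m1b_288_sp (by norm_num) B9m1b_288_lenp B9m1b_288_cp_eq BP3_p1_6_0)) (by decide +kernel))) (PairOK.of_sub (m := 10) (n := 1) (AllLt.step AllLt.zero (pcAll_sound B9m1b_288_sp (by norm_num) B9m1b_288_lenp B9m1b_288_cp_eq BP3_p1_7_0)) (by decide +kernel))) (PairOK.of_sub (m := 10) (n := 1) (AllLt.step AllLt.zero (pcAll_sound B9m1b_288_sp (by norm_num) B9m1b_288_lenp B9m1b_288_cp_eq BP3_p1_8_0)) (by decide +kernel))) (by decide +kernel)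

theorem BP3_P2 : PairOK BP3_A B9m1b_288_degs B9m1b_288_rp B9m1b_288_sp B9m1b_288_rw BP3_tn B9m1b_288_sw BP3_en (chunk 1 2 BP3_sn) :=
  PairOK.of_enet (m := 1) (n := 9) (AllLt.step (AllLt.step (AllLt.step (AllLt.step (AllLt.step (AllLt.step (AllLt.step (AllLt.step (AllLt.step AllLt.zero (PairOK.of_sub (m := 10) (n := 1) (AllLt.step AllLt.zero (pcAll_sound B9m1b_288_sp (by norm_num) B9m1b_288_lenp B9m1b_288_cp_eq BP3_p2_0_0)) (by decide +kernel))) (PairOK.of_sub (m := 10) (n := 1) (AllLt.step AllLt.zero (pcAll_sound B9m1b_288_sp (by norm_num) B9m1b_288_lenp B9m1b_288_cp_eq BP3_p2_1_0)) (by decide +kernel))) (PairOK.of_sub (m := 10) (n := 1) (AllLt.step AllLt.zero (pcAll_sound B9m1b_288_sp (by norm_num) B9m1b_288_lenp B9m1b_288_cp_eq BP3_p2_2_0)) (by decide +kernel))) (PairOK.of_sub (m := 10) (n := 1) (AllLt.step AllLt.zero (pcAll_sound B9m1b_288_sp (by norm_num) B9m1b_288_lenp B9m1b_288_cp_eq BP3_p2_3_0))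 (by decide +kernel))) (PairOK.of_sub (m := 10) (n := 1) (AllLt.step AllLt.zero (pcAll_sound B9m1b_288_sp (by norm_num) B9m1b_288_lenp B9m1b_288_cp_eq BP3_p2_4_0)) (by decide +kernel))) (PairOK.of_sub (m := 10) (n := 1) (AllLt.step AllLt.zero (pcAll_sound B9m1b_288_sp (by norm_num) B9m1b_288_lenp B9m1b_288_cp_eq BP3_p2_5_0)) (by decide +kernel))) (PairOK.of_sub (m := 10) (n := 1) (AllLt.step AllLt.zero (pcAll_sound B9m1b_288_sp (by norm_num) B9m1b_288_lenp B9m1b_288_cp_eq BP3_p2_6_0)) (by decide +kernel))) (PairOK.of_sub (m := 10) (n := 1) (AllLt.step AllLt.zero (pcAll_sound B9m1b_288_sp (by norm_num) B9m1b_288_lenp B9m1b_288_cp_eq BP3_p2_7_0)) (by decide +kernel))) (PairOK.of_sub (m := 10) (n := 1) (AllLt.step AllLt.zero (pcAll_sound B9m1b_288_sp (by norm_num) B9m1b_288_lenp B9m1b_288_cp_eq BP3_p2_8_0)) (by decide +kernel))) (by decide +kernel)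

theorem BP3_PP : PairOK BP3_A B9m1b_288_degs B9m1b_288_rp B9m1b_288_sp B9m1b_288_rw BP3_tn B9m1b_288_sw BP3_en BP3_sn :=
  PairOK.of_snet (m := 1) (n := 3) (AllLt.step (AllLt.step (AllLt.step AllLt.zero BP3_P0) BP3_P1) BP3_P2) (by decide +kernel)

theorem BP3_EE : OneOK BP3_E B9m1b_288_degs B9m1b_288_re B9m1b_288_se BP3_zn BP3_tn BP3_en1 BP3_sn :=
  OneOK.of_snet (m := 1) (n := 3) (AllLt.step (AllLt.step (AllLt.step AllLt.zero (OneOK.of_tnet (m := 1) (n := 3) (AllLt.step (AllLt.step (AllLt.step AllLt.zero (ecAll_sound B9m1b_288_se (by norm_num) B9m1b_288_lene B9m1b_288_ce_eq BP3_e0_0)) (ecAll_sound B9m1b_288_se (by norm_num) B9m1b_288_lene B9m1b_288_ce_eq BP3_e0_1)) (ecAll_sound B9m1b_288_se (by norm_num) B9m1b_288_lene B9m1b_288_ce_eq BP3_e0_2)) (by decide +kernel))) (OneOK.of_tnet (m := 1) (n := 3) (AllLt.step (AllLt.step (AllLt.step AllLt.zero (ecAll_sound B9m1b_288_se (by norm_num) B9m1b_288_lene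 B9m1b_288_ce_eq BP3_e1_0)) (ecAll_sound B9m1b_288_se (by norm_num) B9m1b_288_lene B9m1b_288_ce_eq BP3_e1_1)) (ecAll_sound B9m1b_288_se (by norm_num) B9m1b_288_lene B9m1b_288_ce_eq BP3_e1_2)) (by decide +kernel))) (OneOK.of_tnet (m := 1) (n := 3) (AllLt.step (AllLt.step (AllLt.step AllLt.zero (ecAll_sound B9m1b_288_se (by norm_num) B9m1b_288_lene B9m1b_288_ce_eq BP3_e2_0)) (ecAll_sound B9m1b_288_se (by norm_num) B9m1b_288_lene B9m1b_288_ce_eq BP3_e2_1)) (ecAll_sound B9m1b_288_se (by norm_num) B9m1b_288_lene B9m1b_288_ce_eq BP3_e2_2)) (by decide +kernel))) (by decide +kernel)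

theorem BP3_checked {ε s : ℝ} (e0 : (104 : ℝ) ≤ 256 * ε) (e1 : 256 * ε ≤ 112) (s0 : (0 : ℝ) ≤ 64 * s) (s1 : 64 * s ≤ 40) :
    BP3.Checked ε s (128 / 128) := by
  have ht : ∀ θ : ℝ, 0 ≤ θ → θ ≤ 128 / 128 → DomN BP3_tn (2 + 1) fun k => θ ^ k := fun θ h0 h1 =>
    (by decide +kernel : uniNets 2 128 [0, 128] = BP3_tn) ▸ domN_uniNets 2 (lo := 0) (hi := 128) (by norm_num)
      (by decide) (by push_cast; linarith) (by push_cast; linarith)
  have hz : ∀ Z : ℝ, 1 - 2 * ε ≤ Z → Z ≤ 1 + ε → DomN BP3_zn (9 + 1) fun k => Z ^ k := fun Z h0 h1 =>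
    (by decide +kernel : uniNets 9 64 [8, 36, 64, 92] = BP3_zn) ▸ domN_uniNets 9 (lo := 8) (hi := 92) (by norm_num)
      (by decide) (by push_cast; linarith) (by push_cast; linarith)
  have he : DomN BP3_en (8 + 1) fun k => ε ^ k :=
    (by decide +kernel : uniNet 8 256 104 112 = BP3_en) ▸ domN_uniNet 8 (by norm_num) (by exact_mod_cast e0) (by exact_mod_cast e1)
  have he1 : DomN BP3_en1 (1 + 1) fun k => ε ^ k :=
    (by decide +kernel : uniNet 1 256 104 112 = BP3_en1) ▸ domN_uniNet 1 (by norm_num) (by exact_mod_cast e0) (by exact_mod_cast e1)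
  have hs : DomN BP3_sn (2 + 1) fun k => s ^ k :=
    (by decide +kernel : uniNet 2 64 0 40 = BP3_sn) ▸ domN_uniNet 2 (by norm_num) (by exact_mod_cast s0) (by exact_mod_cast s1)
  have hd : BP3.fs.map fdeg = B9m1b_288_degs := B9m1b_288_degs_eq
  refine ⟨by decide, tab3_9, ⟨B9m1b_288_rp, B9m1b_288_rw, BP3_tn, BP3_en, BP3_sn, B9m1b_288_sp, B9m1b_288_sw, ?_, B9m1b_288_sp_cover, B9m1b_288_sw_cover,
    B9m1b_288_rp_dom, B9m1b_288_rw_dom, ht, he, hs⟩, ⟨B9m1b_288_re, BP3_zn, BP3_tn, BP3_en1, BP3_sn, B9m1b_288_se, ?_, B9m1b_288_se_cover,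
    B9m1b_288_re_dom, hz, ht, he1, hs⟩, ⟨BP3_en1, BP3_sn, BP3_G, he1, hs⟩⟩
  · rw [BP3_A_eq, hd]; exact BP3_PP
  · rw [BP3_E_eq, hd]; exact BP3_EE

end Crest.Agent.R163.Ck
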