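import Crest.Agent.R163.BR4C
import Crest.Agent.R163.B8m1b_256
import Crest.Agent.R163.TabK3
import Crest.Agent.R163.PVSound
import Crest.Agent.R163.BellCert

/-! Row 163: Bellman certificate (generated). -/

set_option autoImplicit false
set_option Elab.async false
set_option maxRecDepth 100000

namespace Crest.Agent.R163.Ck

theorem BR4_P0 : PairOK BR4_A B8m1b_256_degs B8m1b_256_rp B8m1b_256_sp B8m1b_256_rw BR4_tn B8m1b_256_sw BR4_en (chunk 1 0 BR4_sn) :=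
  PairOK.of_enet (m := 1) (n := 1) (AllLt.step AllLt.zero (PairOK.of_sub (m := 10) (n := 1) (AllLt.step AllLt.zero (pcAll_sound B8m1b_256_sp (by norm_num) B8m1b_256_lenp B8m1b_256_cp_eq BR4_p0_0_0)) (by decide +kernel))) (by decide +kernel)

theorem BR4_P1 : PairOK BR4_A B8m1b_256_degs B8m1b_256_rp B8m1b_256_sp B8m1b_256_rw BR4_tn B8m1b_256_sw BR4_en (chunk 1 1 BR4_sn) :=
  PairOK.of_enet (m := 1) (n := 1) (AllLt.step AllLt.zero (PairOK.of_sub (m := 10) (n := 1) (AllLt.step AllLt.zero (pcAll_sound B8m1b_256_sp (by norm_num) B8m1b_256_lenp B8m1b_256_cp_eq BR4_p1_0_0)) (by decide +kernel))) (by decide +kernel)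

theorem BR4_P2 : PairOK BR4_A B8m1b_256_degs B8m1b_256_rp B8m1b_256_sp B8m1b_256_rw BR4_tn B8m1b_256_sw BR4_en (chunk 1 2 BR4_sn) :=
  PairOK.of_enet (m := 1) (n := 1) (AllLt.step AllLt.zero (PairOK.of_sub (m := 10) (n := 1) (AllLt.step AllLt.zero (pcAll_sound B8m1b_256_sp (by norm_num) B8m1b_256_lenp B8m1b_256_cp_eq BR4_p2_0_0)) (by decide +kernel))) (by decide +kernel)

theorem BR4_PP : PairOK BR4_A B8m1b_256_degs B8m1b_256_rp B8m1b_256_sp B8m1b_256_rw BR4_tn B8m1b_256_sw BR4_en BR4_sn :=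
  PairOK.of_snet (m := 1) (n := 3) (AllLt.step (AllLt.step (AllLt.step AllLt.zero BR4_P0) BR4_P1) BR4_P2) (by decide +kernel)

theorem BR4_EE : OneOK BR4_E B8m1b_256_degs B8m1b_256_re B8m1b_256_se BR4_zn BR4_tn BR4_en1 BR4_sn :=
  OneOK.of_snet (m := 1) (n := 3) (AllLt.step (AllLt.step (AllLt.step AllLt.zero (OneOK.of_tnet (m := 1) (n := 3) (AllLt.step (AllLt.step (AllLt.step AllLt.zero (ecAll_sound B8m1b_256_se (by norm_num) B8m1b_256_lene B8m1b_256_ce_eq BR4_e0_0)) (ecAll_sound B8m1b_256_se (by norm_num) B8m1b_256_lene B8m1b_256_ce_eq BR4_e0_1)) (ecAll_sound B8m1b_256_se (by norm_num) B8m1b_256_lene B8m1b_256_ce_eq BR4_e0_2)) (by decide +kernel))) (OneOK.of_tnet (m := 1) (n := 3) (AllLt.step (AllLt.step (AllLt.step AllLt.zero (ecAll_sound B8m1b_256_se (by norm_num) B8m1b_256_lene B8m1b_256_ce_eq BR4_e1_0)) (ecAll_sound B8m1b_256_se (by norm_num) B8m1b_256_lene B8m1b_256_ce_eq BR4_e1_1))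 (ecAll_sound B8m1b_256_se (by norm_num) B8m1b_256_lene B8m1b_256_ce_eq BR4_e1_2)) (by decide +kernel))) (OneOK.of_tnet (m := 1) (n := 3) (AllLt.step (AllLt.step (AllLt.step AllLt.zero (ecAll_sound B8m1b_256_se (by norm_num) B8m1b_256_lene B8m1b_256_ce_eq BR4_e2_0)) (ecAll_sound B8m1b_256_se (by norm_num) B8m1b_256_lene B8m1b_256_ce_eq BR4_e2_1)) (ecAll_sound B8m1b_256_se (by norm_num) B8m1b_256_lene B8m1b_256_ce_eq BR4_e2_2)) (by decide +kernel))) (by decide +kernel)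

theorem BR4_checked {ε s : ℝ} (e0 : (128 : ℝ) ≤ 256 * ε) (e1 : 256 * ε ≤ 128) (s0 : (0 : ℝ) ≤ 64 * s) (s1 : 64 * s ≤ 20) :
    BR4.Checked ε s (96 / 128) := by
  have ht : ∀ θ : ℝ, 0 ≤ θ → θ ≤ 96 / 128 → DomN BR4_tn (2 + 1) fun k => θ ^ k := fun θ h0 h1 =>
    (by decide +kernel : uniNets 2 128 [0, 96] = BR4_tn) ▸ domN_uniNets 2 (lo := 0) (hi := 96) (by norm_num)
      (by decide) (by push_cast; linarith) (by push_cast; linarith)
  have hz : ∀ Z : ℝ, 1 - 2 * ε ≤ Z → Z ≤ 1 + ε → DomN BR4_zn (8 + 1) fun k => Z ^ k := fun Z h0 h1 =>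
    (by decide +kernel : uniNets 8 64 [0, 32, 64, 96] = BR4_zn) ▸ domN_uniNets 8 (lo := 0) (hi := 96) (by norm_num)
      (by decide) (by push_cast; linarith) (by push_cast; linarith)
  have he : DomN BR4_en (6 + 1) fun k => ε ^ k :=
    (by decide +kernel : ptNet 6 256 128 = BR4_en) ▸ domN_ptNet 6 (by norm_num) (by push_cast; linarith)
  have he1 : DomN BR4_en1 (0 + 1) fun k => ε ^ k :=
    (by decide +kernel : uniNet 0 256 128 128 = BR4_en1) ▸ domN_uniNet 0 (by norm_num) (by exact_mod_cast e0) (by exact_mod_cast e1)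
  have hs : DomN BR4_sn (2 + 1) fun k => s ^ k :=
    (by decide +kernel : uniNet 2 64 0 20 = BR4_sn) ▸ domN_uniNet 2 (by norm_num) (by exact_mod_cast s0) (by exact_mod_cast s1)
  have hd : BR4.fs.map fdeg = B8m1b_256_degs := B8m1b_256_degs_eq
  refine ⟨by decide, tab3_8, ⟨B8m1b_256_rp, B8m1b_256_rw, BR4_tn, BR4_en, BR4_sn, B8m1b_256_sp, B8m1b_256_sw, ?_, B8m1b_256_sp_cover, B8m1b_256_sw_cover,
    B8m1b_256_rp_dom, B8m1b_256_rw_dom, ht, he, hs⟩, ⟨B8m1b_256_re, BR4_zn, BR4_tn, BR4_en1, BR4_sn, B8m1b_256_se, ?_, B8m1b_256_se_cover,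
    B8m1b_256_re_dom, hz, ht, he1, hs⟩, ⟨BR4_en1, BR4_sn, BR4_G, he1, hs⟩⟩
  · rw [BR4_A_eq, hd]; exact BR4_PP
  · rw [BR4_E_eq, hd]; exact BR4_EE

end Crest.Agent.R163.Ck
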