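import Crest.Agent.R163.BR5cC
import Crest.Agent.R163.B9m1b_256
import Crest.Agent.R163.TabK3
import Crest.Agent.R163.PVSound
import Crest.Agent.R163.BellCert

/-! Row 163: Bellman certificate (generated). -/

set_option autoImplicit false
set_option Elab.async false
set_option maxRecDepth 100000

namespace Crest.Agent.R163.Ck

theorem BR5c_P0 : PairOK BR5c_A B9m1b_256_degs B9m1b_256_rp B9m1b_256_sp B9m1b_256_rw BR5c_tn B9m1b_256_sw BR5c_en (chunk 1 0 BR5c_sn) :=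
  PairOK.of_enet (m := 1) (n := 2) (AllLt.step (AllLt.step AllLt.zero (PairOK.of_sub (m := 10) (n := 1) (AllLt.step AllLt.zero (pcAll_sound B9m1b_256_sp (by norm_num) B9m1b_256_lenp B9m1b_256_cp_eq BR5c_p0_0_0)) (by decide +kernel))) (PairOK.of_sub (m := 10) (n := 1) (AllLt.step AllLt.zero (pcAll_sound B9m1b_256_sp (by norm_num) B9m1b_256_lenp B9m1b_256_cp_eq BR5c_p0_1_0)) (by decide +kernel))) (by decide +kernel)

theorem BR5c_P1 : PairOK BR5c_A B9m1b_256_degs B9m1b_256_rp B9m1b_256_sp B9m1b_256_rw BR5c_tn B9m1b_256_sw BR5c_en (chunk 1 1 BR5c_sn) :=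
  PairOK.of_enet (m := 1) (n := 2) (AllLt.step (AllLt.step AllLt.zero (PairOK.of_sub (m := 10) (n := 1) (AllLt.step AllLt.zero (pcAll_sound B9m1b_256_sp (by norm_num) B9m1b_256_lenp B9m1b_256_cp_eq BR5c_p1_0_0)) (by decide +kernel))) (PairOK.of_sub (m := 10) (n := 1) (AllLt.step AllLt.zero (pcAll_sound B9m1b_256_sp (by norm_num) B9m1b_256_lenp B9m1b_256_cp_eq BR5c_p1_1_0)) (by decide +kernel))) (by decide +kernel)

theorem BR5c_P2 : PairOK BR5c_A B9m1b_256_degs B9m1b_256_rp B9m1b_256_sp B9m1b_256_rw BR5c_tn B9m1b_256_sw BR5c_en (chunk 1 2 BR5c_sn) :=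
  PairOK.of_enet (m := 1) (n := 2) (AllLt.step (AllLt.step AllLt.zero (PairOK.of_sub (m := 10) (n := 1) (AllLt.step AllLt.zero (pcAll_sound B9m1b_256_sp (by norm_num) B9m1b_256_lenp B9m1b_256_cp_eq BR5c_p2_0_0)) (by decide +kernel))) (PairOK.of_sub (m := 10) (n := 1) (AllLt.step AllLt.zero (pcAll_sound B9m1b_256_sp (by norm_num) B9m1b_256_lenp B9m1b_256_cp_eq BR5c_p2_1_0)) (by decide +kernel))) (by decide +kernel)

theorem BR5c_PP : PairOK BR5c_A B9m1b_256_degs B9m1b_256_rp B9m1b_256_sp B9m1b_256_rw BR5c_tn B9m1b_256_sw BR5c_en BR5c_sn :=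
  PairOK.of_snet (m := 1) (n := 3) (AllLt.step (AllLt.step (AllLt.step AllLt.zero BR5c_P0) BR5c_P1) BR5c_P2) (by decide +kernel)

theorem BR5c_EE : OneOK BR5c_E B9m1b_256_degs B9m1b_256_re B9m1b_256_se BR5c_zn BR5c_tn BR5c_en1 BR5c_sn :=
  OneOK.of_snet (m := 1) (n := 3) (AllLt.step (AllLt.step (AllLt.step AllLt.zero (OneOK.of_tnet (m := 1) (n := 3) (AllLt.step (AllLt.step (AllLt.step AllLt.zero (ecAll_sound B9m1b_256_se (by norm_num) B9m1b_256_lene B9m1b_256_ce_eq BR5c_e0_0)) (ecAll_sound B9m1b_256_se (by norm_num) B9m1b_256_lene B9m1b_256_ce_eq BR5c_e0_1)) (ecAll_sound B9m1b_256_se (by norm_num) B9m1b_256_lene B9m1b_256_ce_eq BR5c_e0_2)) (by decide +kernel))) (OneOK.of_tnet (m := 1) (n := 3) (AllLt.step (AllLt.step (AllLt.step AllLt.zero (ecAll_sound B9m1b_256_se (by norm_num) B9m1b_256_lene B9m1b_256_ce_eq BR5c_e1_0)) (ecAll_sound B9m1b_256_se (by norm_num) B9m1b_256_lene B9m1b_256_ce_eq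 BR5c_e1_1)) (ecAll_sound B9m1b_256_se (by norm_num) B9m1b_256_lene B9m1b_256_ce_eq BR5c_e1_2)) (by decide +kernel))) (OneOK.of_tnet (m := 1) (n := 3) (AllLt.step (AllLt.step (AllLt.step AllLt.zero (ecAll_sound B9m1b_256_se (by norm_num) B9m1b_256_lene B9m1b_256_ce_eq BR5c_e2_0)) (ecAll_sound B9m1b_256_se (by norm_num) B9m1b_256_lene B9m1b_256_ce_eq BR5c_e2_1)) (ecAll_sound B9m1b_256_se (by norm_num) B9m1b_256_lene B9m1b_256_ce_eq BR5c_e2_2)) (by decide +kernel))) (by decide +kernel)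

theorem BR5c_checked {ε s : ℝ} (e0 : (1831 : ℝ) ≤ 4096 * ε) (e1 : 4096 * ε ≤ 1832) (s0 : (68 : ℝ) ≤ 64 * s) (s1 : 64 * s ≤ 128) (hb : ((5 : ℕ) : ℝ) * ε ^ 2 = 1) :
    BR5c.Checked ε s (103 / 128) := by
  have ht : ∀ θ : ℝ, 0 ≤ θ → θ ≤ 103 / 128 → DomN BR5c_tn (2 + 1) fun k => θ ^ k := fun θ h0 h1 =>
    (by decide +kernel : uniNets 2 128 [0, 103] = BR5c_tn) ▸ domN_uniNets 2 (lo := 0) (hi := 103) (by norm_num)
      (by decide) (by push_cast; linarith) (by push_cast; linarith)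
  have hz : ∀ Z : ℝ, 1 - 2 * ε ≤ Z → Z ≤ 1 + ε → DomN BR5c_zn (9 + 1) fun k => Z ^ k := fun Z h0 h1 =>
    (by decide +kernel : uniNets 9 64 [6, 35, 64, 93] = BR5c_zn) ▸ domN_uniNets 9 (lo := 6) (hi := 93) (by norm_num)
      (by decide) (by push_cast; linarith) (by push_cast; linarith)
  have he : DomN BR5c_en (7 + 1) fun k => ε ^ k :=
    (by decide +kernel : sqNet 7 5 4096 1831 1832 = BR5c_en) ▸ domN_sqNet 7 (by norm_num) hb (by exact_mod_cast e0) (by exact_mod_cast e1)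
  have he1 : DomN BR5c_en1 (0 + 1) fun k => ε ^ k :=
    (by decide +kernel : uniNet 0 4096 1831 1832 = BR5c_en1) ▸ domN_uniNet 0 (by norm_num) (by exact_mod_cast e0) (by exact_mod_cast e1)
  have hs : DomN BR5c_sn (2 + 1) fun k => s ^ k :=
    (by decide +kernel : uniNet 2 64 68 128 = BR5c_sn) ▸ domN_uniNet 2 (by norm_num) (by exact_mod_cast s0) (by exact_mod_cast s1)
  have hd : BR5c.fs.map fdeg = B9m1b_256_degs := B9m1b_256_degs_eq
  refine ⟨by decide, tab3_9, ⟨B9m1b_256_rp, B9m1b_256_rw, BR5c_tn, BR5c_en, BR5c_sn, B9m1b_256_sp, B9m1b_256_sw, ?_, B9m1b_256_sp_cover, B9m1b_256_sw_cover,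
    B9m1b_256_rp_dom, B9m1b_256_rw_dom, ht, he, hs⟩, ⟨B9m1b_256_re, BR5c_zn, BR5c_tn, BR5c_en1, BR5c_sn, B9m1b_256_se, ?_, B9m1b_256_se_cover,
    B9m1b_256_re_dom, hz, ht, he1, hs⟩, ⟨BR5c_en1, BR5c_sn, BR5c_G, he1, hs⟩⟩
  · rw [BR5c_A_eq, hd]; exact BR5c_PP
  · rw [BR5c_E_eq, hd]; exact BR5c_EE

end Crest.Agent.R163.Ck
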