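import Crest.Agent.R163.B8m1b_224D
import Crest.Agent.R163.Cover3

/-! Row 163: control nets (generated). -/

set_option autoImplicit false
set_option Elab.async false
set_option maxRecDepth 100000

namespace Crest.Agent.R163.Ck

theorem B8m1b_224_degs_eq : fs3_8.map fdeg = B8m1b_224_degs := by decide +kernel

theorem B8m1b_224_sp_cover : Cover 3 fs3_8 B8m1b_224_sp :=
  (by decide +kernel : shapes3 4 fs3_8 [0, 4, 9] = B8m1b_224_sp) ▸ cover3 4 (by decide) (by decide)

theorem B8m1b_224_rp_dom (ρ : ℝ) (h0 : 0 ≤ ρ) (h1 : ρ ≤ 1) : DomN B8m1b_224_rp (8 + 1) fun k => ρ ^ k :=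
  (by decide +kernel : uniNets 8 8 [0, 3, 6, 8] = B8m1b_224_rp) ▸ domN_uniNets 8 (lo := 0) (hi := 8) (by norm_num)
    (by decide) (by push_cast; linarith) (by push_cast; linarith)

theorem B8m1b_224_cp_eq : B8m1b_224_cp = packCols 224 B8m1b_224_degs.length B8m1b_224_sp := by decide +kernel

theorem B8m1b_224_lenp : 10 = B8m1b_224_sp.length := by decide +kernel

theorem B8m1b_224_sw_cover : Cover 3 fs3_8 B8m1b_224_sw :=
  (by decide +kernel : shapes3 4 fs3_8 [0, 4, 9] = B8m1b_224_sw) ▸ cover3 4 (by decide) (by decide)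

theorem B8m1b_224_rw_dom (ρ : ℝ) (h0 : 0 ≤ ρ) (h1 : ρ ≤ 1) : DomN B8m1b_224_rw (8 + 1) fun k => ρ ^ k :=
  (by decide +kernel : uniNets 8 8 [0, 3, 6, 8] = B8m1b_224_rw) ▸ domN_uniNets 8 (lo := 0) (hi := 8) (by norm_num)
    (by decide) (by push_cast; linarith) (by push_cast; linarith)

theorem B8m1b_224_se_cover : Cover 3 fs3_8 B8m1b_224_se :=
  (by decide +kernel : shapes3 4 fs3_8 [0, 2, 5, 9] = B8m1b_224_se) ▸ cover3 4 (by decide) (by decide)

theorem B8m1b_224_re_dom (ρ : ℝ) (h0 : 0 ≤ ρ) (h1 : ρ ≤ 1) : DomN B8m1b_224_re (8 + 1) fun k => ρ ^ k :=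
  (by decide +kernel : uniNets 8 8 [0, 2, 4, 6, 8] = B8m1b_224_re) ▸ domN_uniNets 8 (lo := 0) (hi := 8) (by norm_num)
    (by decide) (by push_cast; linarith) (by push_cast; linarith)

theorem B8m1b_224_ce_eq : B8m1b_224_ce = packCols 224 B8m1b_224_degs.length B8m1b_224_se := by decide +kernel

theorem B8m1b_224_lene : 15 = B8m1b_224_se.length := by decide +kernel


end Crest.Agent.R163.Ck
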