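import Crest.Agent.R163.BR6bC
import Crest.Agent.R163.B8m1b_224
import Crest.Agent.R163.TabK3
import Crest.Agent.R163.PVSound
import Crest.Agent.R163.BellCert

/-! Row 163: Bellman certificate (generated). -/

set_option autoImplicit false
set_option Elab.async false
set_option maxRecDepth 100000

namespace Crest.Agent.R163.Ck

theorem BR6b_P0 : PairOK BR6b_A B8m1b_224_degs B8m1b_224_rp B8m1b_224_sp B8m1b_224_rw BR6b_tn B8m1b_224_sw BR6b_en (chunk 1 0 BR6b_sn) :=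
  PairOK.of_enet (m := 1) (n := 2) (AllLt.step (AllLt.step AllLt.zero (PairOK.of_sub (m := 10) (n := 1) (AllLt.step AllLt.zero (pcAll_sound B8m1b_224_sp (by norm_num) B8m1b_224_lenp B8m1b_224_cp_eq BR6b_p0_0_0)) (by decide +kernel))) (PairOK.of_sub (m := 10) (n := 1) (AllLt.step AllLt.zero (pcAll_sound B8m1b_224_sp (by norm_num) B8m1b_224_lenp B8m1b_224_cp_eq BR6b_p0_1_0)) (by decide +kernel))) (by decide +kernel)

theorem BR6b_P1 : PairOK BR6b_A B8m1b_224_degs B8m1b_224_rp B8m1b_224_sp B8m1b_224_rw BR6b_tn B8m1b_224_sw BR6b_en (chunk 1 1 BR6b_sn) :=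
  PairOK.of_enet (m := 1) (n := 2) (AllLt.step (AllLt.step AllLt.zero (PairOK.of_sub (m := 10) (n := 1) (AllLt.step AllLt.zero (pcAll_sound B8m1b_224_sp (by norm_num) B8m1b_224_lenp B8m1b_224_cp_eq BR6b_p1_0_0)) (by decide +kernel))) (PairOK.of_sub (m := 10) (n := 1) (AllLt.step AllLt.zero (pcAll_sound B8m1b_224_sp (by norm_num) B8m1b_224_lenp B8m1b_224_cp_eq BR6b_p1_1_0)) (by decide +kernel))) (by decide +kernel)

theorem BR6b_P2 : PairOK BR6b_A B8m1b_224_degs B8m1b_224_rp B8m1b_224_sp B8m1b_224_rw BR6b_tn B8m1b_224_sw BR6b_en (chunk 1 2 BR6b_sn) :=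
  PairOK.of_enet (m := 1) (n := 2) (AllLt.step (AllLt.step AllLt.zero (PairOK.of_sub (m := 10) (n := 1) (AllLt.step AllLt.zero (pcAll_sound B8m1b_224_sp (by norm_num) B8m1b_224_lenp B8m1b_224_cp_eq BR6b_p2_0_0)) (by decide +kernel))) (PairOK.of_sub (m := 10) (n := 1) (AllLt.step AllLt.zero (pcAll_sound B8m1b_224_sp (by norm_num) B8m1b_224_lenp B8m1b_224_cp_eq BR6b_p2_1_0)) (by decide +kernel))) (by decide +kernel)

theorem BR6b_PP : PairOK BR6b_A B8m1b_224_degs B8m1b_224_rp B8m1b_224_sp B8m1b_224_rw BR6b_tn B8m1b_224_sw BR6b_en BR6b_sn :=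
  PairOK.of_snet (m := 1) (n := 3) (AllLt.step (AllLt.step (AllLt.step AllLt.zero BR6b_P0) BR6b_P1) BR6b_P2) (by decide +kernel)

theorem BR6b_EE : OneOK BR6b_E B8m1b_224_degs B8m1b_224_re B8m1b_224_se BR6b_zn BR6b_tn BR6b_en1 BR6b_sn :=
  OneOK.of_snet (m := 1) (n := 3) (AllLt.step (AllLt.step (AllLt.step AllLt.zero (OneOK.of_tnet (m := 1) (n := 3) (AllLt.step (AllLt.step (AllLt.step AllLt.zero (ecAll_sound B8m1b_224_se (by norm_num) B8m1b_224_lene B8m1b_224_ce_eq BR6b_e0_0)) (ecAll_sound B8m1b_224_se (by norm_num) B8m1b_224_lene B8m1b_224_ce_eq BR6b_e0_1)) (ecAll_sound B8m1b_224_se (by norm_num) B8m1b_224_lene B8m1b_224_ce_eq BR6b_e0_2)) (by decide +kernel))) (OneOK.of_tnet (m := 1) (n := 3) (AllLt.step (AllLt.step (AllLt.step AllLt.zero (ecAll_sound B8m1b_224_se (by norm_num) B8m1b_224_lene B8m1b_224_ce_eq BR6b_e1_0)) (ecAll_sound B8m1b_224_se (by norm_num) B8m1b_224_lene B8m1b_224_ce_eq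 BR6b_e1_1)) (ecAll_sound B8m1b_224_se (by norm_num) B8m1b_224_lene B8m1b_224_ce_eq BR6b_e1_2)) (by decide +kernel))) (OneOK.of_tnet (m := 1) (n := 3) (AllLt.step (AllLt.step (AllLt.step AllLt.zero (ecAll_sound B8m1b_224_se (by norm_num) B8m1b_224_lene B8m1b_224_ce_eq BR6b_e2_0)) (ecAll_sound B8m1b_224_se (by norm_num) B8m1b_224_lene B8m1b_224_ce_eq BR6b_e2_1)) (ecAll_sound B8m1b_224_se (by norm_num) B8m1b_224_lene B8m1b_224_ce_eq BR6b_e2_2)) (by decide +kernel))) (by decide +kernel)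

theorem BR6b_checked {ε s : ℝ} (e0 : (1672 : ℝ) ≤ 4096 * ε) (e1 : 4096 * ε ≤ 1673) (s0 : (64 : ℝ) ≤ 64 * s) (s1 : 64 * s ≤ 128) (hb : ((6 : ℕ) : ℝ) * ε ^ 2 = 1) :
    BR6b.Checked ε s (107 / 128) := by
  have ht : ∀ θ : ℝ, 0 ≤ θ → θ ≤ 107 / 128 → DomN BR6b_tn (2 + 1) fun k => θ ^ k := fun θ h0 h1 =>
    (by decide +kernel : uniNets 2 128 [0, 107] = BR6b_tn) ▸ domN_uniNets 2 (lo := 0) (hi := 107) (by norm_num)
      (by decide) (by push_cast; linarith) (by push_cast; linarith)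
  have hz : ∀ Z : ℝ, 1 - 2 * ε ≤ Z → Z ≤ 1 + ε → DomN BR6b_zn (8 + 1) fun k => Z ^ k := fun Z h0 h1 =>
    (by decide +kernel : uniNets 8 64 [10, 37, 64, 91] = BR6b_zn) ▸ domN_uniNets 8 (lo := 10) (hi := 91) (by norm_num)
      (by decide) (by push_cast; linarith) (by push_cast; linarith)
  have he : DomN BR6b_en (6 + 1) fun k => ε ^ k :=
    (by decide +kernel : sqNet 6 6 4096 1672 1673 = BR6b_en) ▸ domN_sqNet 6 (by norm_num) hb (by exact_mod_cast e0) (by exact_mod_cast e1)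
  have he1 : DomN BR6b_en1 (0 + 1) fun k => ε ^ k :=
    (by decide +kernel : uniNet 0 4096 1672 1673 = BR6b_en1) ▸ domN_uniNet 0 (by norm_num) (by exact_mod_cast e0) (by exact_mod_cast e1)
  have hs : DomN BR6b_sn (2 + 1) fun k => s ^ k :=
    (by decide +kernel : uniNet 2 64 64 128 = BR6b_sn) ▸ domN_uniNet 2 (by norm_num) (by exact_mod_cast s0) (by exact_mod_cast s1)
  have hd : BR6b.fs.map fdeg = B8m1b_224_degs := B8m1b_224_degs_eq
  refine ⟨by decide, tab3_8, ⟨B8m1b_224_rp, B8m1b_224_rw, BR6b_tn, BR6b_en, BR6b_sn, B8m1b_224_sp, B8m1b_224_sw, ?_, B8m1b_224_sp_cover, B8m1b_224_sw_cover,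
    B8m1b_224_rp_dom, B8m1b_224_rw_dom, ht, he, hs⟩, ⟨B8m1b_224_re, BR6b_zn, BR6b_tn, BR6b_en1, BR6b_sn, B8m1b_224_se, ?_, B8m1b_224_se_cover,
    B8m1b_224_re_dom, hz, ht, he1, hs⟩, ⟨BR6b_en1, BR6b_sn, BR6b_G, he1, hs⟩⟩
  · rw [BR6b_A_eq, hd]; exact BR6b_PP
  · rw [BR6b_E_eq, hd]; exact BR6b_EE

end Crest.Agent.R163.Ck
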