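import Crest.Agent.R163.BR8C
import Crest.Agent.R163.B8m1b_256
import Crest.Agent.R163.TabK3
import Crest.Agent.R163.PVSound
import Crest.Agent.R163.BellCert

/-! Row 163: Bellman certificate (generated). -/

set_option autoImplicit false
set_option Elab.async false
set_option maxRecDepth 100000

namespace Crest.Agent.R163.Ck

theorem BR8_P0 : PairOK BR8_A B8m1b_256_degs B8m1b_256_rp B8m1b_256_sp B8m1b_256_rw BR8_tn B8m1b_256_sw BR8_en (chunk 1 0 BR8_sn) :=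
  PairOK.of_enet (m := 1) (n := 8) (AllLt.step (AllLt.step (AllLt.step (AllLt.step (AllLt.step (AllLt.step (AllLt.step (AllLt.step AllLt.zero (PairOK.of_sub (m := 10) (n := 1) (AllLt.step AllLt.zero (pcAll_sound B8m1b_256_sp (by norm_num) B8m1b_256_lenp B8m1b_256_cp_eq BR8_p0_0_0)) (by decide +kernel))) (PairOK.of_sub (m := 10) (n := 1) (AllLt.step AllLt.zero (pcAll_sound B8m1b_256_sp (by norm_num) B8m1b_256_lenp B8m1b_256_cp_eq BR8_p0_1_0)) (by decide +kernel))) (PairOK.of_sub (m := 10) (n := 1) (AllLt.step AllLt.zero (pcAll_sound B8m1b_256_sp (by norm_num) B8m1b_256_lenp B8m1b_256_cp_eq BR8_p0_2_0)) (by decide +kernel))) (PairOK.of_sub (m := 10) (n := 1) (AllLt.step AllLt.zero (pcAll_sound B8m1b_256_sp (by norm_num) B8m1b_256_lenp B8m1b_256_cp_eq BR8_p0_3_0)) (by decide +kernel))) (PairOK.of_sub (m := 10) (n := 1) (AllLt.step AllLt.zero (pcAll_sound B8m1b_256_sp (by norm_num) B8m1b_256_lenp B8m1b_256_cp_eq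 BR8_p0_4_0)) (by decide +kernel))) (PairOK.of_sub (m := 10) (n := 1) (AllLt.step AllLt.zero (pcAll_sound B8m1b_256_sp (by norm_num) B8m1b_256_lenp B8m1b_256_cp_eq BR8_p0_5_0)) (by decide +kernel))) (PairOK.of_sub (m := 10) (n := 1) (AllLt.step AllLt.zero (pcAll_sound B8m1b_256_sp (by norm_num) B8m1b_256_lenp B8m1b_256_cp_eq BR8_p0_6_0)) (by decide +kernel))) (PairOK.of_sub (m := 10) (n := 1) (AllLt.step AllLt.zero (pcAll_sound B8m1b_256_sp (by norm_num) B8m1b_256_lenp B8m1b_256_cp_eq BR8_p0_7_0)) (by decide +kernel))) (by decide +kernel)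

theorem BR8_P1 : PairOK BR8_A B8m1b_256_degs B8m1b_256_rp B8m1b_256_sp B8m1b_256_rw BR8_tn B8m1b_256_sw BR8_en (chunk 1 1 BR8_sn) :=
  PairOK.of_enet (m := 1) (n := 8) (AllLt.step (AllLt.step (AllLt.step (AllLt.step (AllLt.step (AllLt.step (AllLt.step (AllLt.step AllLt.zero (PairOK.of_sub (m := 10) (n := 1) (AllLt.step AllLt.zero (pcAll_sound B8m1b_256_sp (by norm_num) B8m1b_256_lenp B8m1b_256_cp_eq BR8_p1_0_0)) (by decide +kernel))) (PairOK.of_sub (m := 10) (n := 1) (AllLt.step AllLt.zero (pcAll_sound B8m1b_256_sp (by norm_num) B8m1b_256_lenp B8m1b_256_cp_eq BR8_p1_1_0)) (by decide +kernel))) (PairOK.of_sub (m := 10) (n := 1) (AllLt.step AllLt.zero (pcAll_sound B8m1b_256_sp (by norm_num) B8m1b_256_lenp B8m1b_256_cp_eq BR8_p1_2_0)) (by decide +kernel))) (PairOK.of_sub (m := 10) (n := 1) (AllLt.step AllLt.zero (pcAll_sound B8m1b_256_sp (by norm_num) B8m1b_256_lenp B8m1b_256_cp_eq BR8_p1_3_0)) (by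 decide +kernel))) (PairOK.of_sub (m := 10) (n := 1) (AllLt.step AllLt.zero (pcAll_sound B8m1b_256_sp (by norm_num) B8m1b_256_lenp B8m1b_256_cp_eq BR8_p1_4_0)) (by decide +kernel))) (PairOK.of_sub (m := 10) (n := 1) (AllLt.step AllLt.zero (pcAll_sound B8m1b_256_sp (by norm_num) B8m1b_256_lenp B8m1b_256_cp_eq BR8_p1_5_0)) (by decide +kernel))) (PairOK.of_sub (m := 10) (n := 1) (AllLt.step AllLt.zero (pcAll_sound B8m1b_256_sp (by norm_num) B8m1b_256_lenp B8m1b_256_cp_eq BR8_p1_6_0)) (by decide +kernel))) (PairOK.of_sub (m := 10) (n := 1) (AllLt.step AllLt.zero (pcAll_sound B8m1b_256_sp (by norm_num) B8m1b_256_lenp B8m1b_256_cp_eq BR8_p1_7_0)) (by decide +kernel))) (by decide +kernel)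

theorem BR8_P2 : PairOK BR8_A B8m1b_256_degs B8m1b_256_rp B8m1b_256_sp B8m1b_256_rw BR8_tn B8m1b_256_sw BR8_en (chunk 1 2 BR8_sn) :=
  PairOK.of_enet (m := 1) (n := 8) (AllLt.step (AllLt.step (AllLt.step (AllLt.step (AllLt.step (AllLt.step (AllLt.step (AllLt.step AllLt.zero (PairOK.of_sub (m := 10) (n := 1) (AllLt.step AllLt.zero (pcAll_sound B8m1b_256_sp (by norm_num) B8m1b_256_lenp B8m1b_256_cp_eq BR8_p2_0_0)) (by decide +kernel))) (PairOK.of_sub (m := 10) (n := 1) (AllLt.step AllLt.zero (pcAll_sound B8m1b_256_sp (by norm_num) B8m1b_256_lenp B8m1b_256_cp_eq BR8_p2_1_0)) (by decide +kernel))) (PairOK.of_sub (m := 10) (n := 1) (AllLt.step AllLt.zero (pcAll_sound B8m1b_256_sp (by norm_num) B8m1b_256_lenp B8m1b_256_cp_eq BR8_p2_2_0)) (by decide +kernel))) (PairOK.of_sub (m := 10) (n := 1) (AllLt.step AllLt.zero (pcAll_sound B8m1b_256_sp (by norm_num) B8m1b_256_lenp B8m1b_256_cp_eq BR8_p2_3_0)) (by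 decide +kernel))) (PairOK.of_sub (m := 10) (n := 1) (AllLt.step AllLt.zero (pcAll_sound B8m1b_256_sp (by norm_num) B8m1b_256_lenp B8m1b_256_cp_eq BR8_p2_4_0)) (by decide +kernel))) (PairOK.of_sub (m := 10) (n := 1) (AllLt.step AllLt.zero (pcAll_sound B8m1b_256_sp (by norm_num) B8m1b_256_lenp B8m1b_256_cp_eq BR8_p2_5_0)) (by decide +kernel))) (PairOK.of_sub (m := 10) (n := 1) (AllLt.step AllLt.zero (pcAll_sound B8m1b_256_sp (by norm_num) B8m1b_256_lenp B8m1b_256_cp_eq BR8_p2_6_0)) (by decide +kernel))) (PairOK.of_sub (m := 10) (n := 1) (AllLt.step AllLt.zero (pcAll_sound B8m1b_256_sp (by norm_num) B8m1b_256_lenp B8m1b_256_cp_eq BR8_p2_7_0)) (by decide +kernel))) (by decide +kernel)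

theorem BR8_PP : PairOK BR8_A B8m1b_256_degs B8m1b_256_rp B8m1b_256_sp B8m1b_256_rw BR8_tn B8m1b_256_sw BR8_en BR8_sn :=
  PairOK.of_snet (m := 1) (n := 3) (AllLt.step (AllLt.step (AllLt.step AllLt.zero BR8_P0) BR8_P1) BR8_P2) (by decide +kernel)

theorem BR8_EE : OneOK BR8_E B8m1b_256_degs B8m1b_256_re B8m1b_256_se BR8_zn BR8_tn BR8_en1 BR8_sn :=
  OneOK.of_snet (m := 1) (n := 3) (AllLt.step (AllLt.step (AllLt.step AllLt.zero (OneOK.of_tnet (m := 1) (n := 3) (AllLt.step (AllLt.step (AllLt.step AllLt.zero (ecAll_sound B8m1b_256_se (by norm_num) B8m1b_256_lene B8m1b_256_ce_eq BR8_e0_0)) (ecAll_sound B8m1b_256_se (by norm_num) B8m1b_256_lene B8m1b_256_ce_eq BR8_e0_1)) (ecAll_sound B8m1b_256_se (by norm_num) B8m1b_256_lene B8m1b_256_ce_eq BR8_e0_2)) (by decide +kernel))) (OneOK.of_tnet (m := 1) (n := 3) (AllLt.step (AllLt.step (AllLt.step AllLt.zero (ecAll_sound B8m1b_256_se (by norm_num) B8m1b_256_lene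 B8m1b_256_ce_eq BR8_e1_0)) (ecAll_sound B8m1b_256_se (by norm_num) B8m1b_256_lene B8m1b_256_ce_eq BR8_e1_1)) (ecAll_sound B8m1b_256_se (by norm_num) B8m1b_256_lene B8m1b_256_ce_eq BR8_e1_2)) (by decide +kernel))) (OneOK.of_tnet (m := 1) (n := 3) (AllLt.step (AllLt.step (AllLt.step AllLt.zero (ecAll_sound B8m1b_256_se (by norm_num) B8m1b_256_lene B8m1b_256_ce_eq BR8_e2_0)) (ecAll_sound B8m1b_256_se (by norm_num) B8m1b_256_lene B8m1b_256_ce_eq BR8_e2_1)) (ecAll_sound B8m1b_256_se (by norm_num) B8m1b_256_lene B8m1b_256_ce_eq BR8_e2_2)) (by decide +kernel))) (by decide +kernel)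

theorem BR8_checked {ε s : ℝ} (e0 : (0 : ℝ) ≤ 256 * ε) (e1 : 256 * ε ≤ 91) (s0 : (0 : ℝ) ≤ 64 * s) (s1 : 64 * s ≤ 128) :
    BR8.Checked ε s (128 / 128) := by
  have ht : ∀ θ : ℝ, 0 ≤ θ → θ ≤ 128 / 128 → DomN BR8_tn (2 + 1) fun k => θ ^ k := fun θ h0 h1 =>
    (by decide +kernel : uniNets 2 128 [0, 128] = BR8_tn) ▸ domN_uniNets 2 (lo := 0) (hi := 128) (by norm_num)
      (by decide) (by push_cast; linarith) (by push_cast; linarith)
  have hz : ∀ Z : ℝ, 1 - 2 * ε ≤ Z → Z ≤ 1 + ε → DomN BR8_zn (8 + 1) fun k => Z ^ k := fun Z h0 h1 =>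
    (by decide +kernel : uniNets 8 64 [18, 41, 64, 87] = BR8_zn) ▸ domN_uniNets 8 (lo := 18) (hi := 87) (by norm_num)
      (by decide) (by push_cast; linarith) (by push_cast; linarith)
  have he : DomN BR8_en (7 + 1) fun k => ε ^ k :=
    (by decide +kernel : uniNet 7 256 0 91 = BR8_en) ▸ domN_uniNet 7 (by norm_num) (by exact_mod_cast e0) (by exact_mod_cast e1)
  have he1 : DomN BR8_en1 (1 + 1) fun k => ε ^ k :=
    (by decide +kernel : uniNet 1 256 0 91 = BR8_en1) ▸ domN_uniNet 1 (by norm_num) (by exact_mod_cast e0) (by exact_mod_cast e1)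
  have hs : DomN BR8_sn (2 + 1) fun k => s ^ k :=
    (by decide +kernel : uniNet 2 64 0 128 = BR8_sn) ▸ domN_uniNet 2 (by norm_num) (by exact_mod_cast s0) (by exact_mod_cast s1)
  have hd : BR8.fs.map fdeg = B8m1b_256_degs := B8m1b_256_degs_eq
  refine ⟨by decide, tab3_8, ⟨B8m1b_256_rp, B8m1b_256_rw, BR8_tn, BR8_en, BR8_sn, B8m1b_256_sp, B8m1b_256_sw, ?_, B8m1b_256_sp_cover, B8m1b_256_sw_cover,
    B8m1b_256_rp_dom, B8m1b_256_rw_dom, ht, he, hs⟩, ⟨B8m1b_256_re, BR8_zn, BR8_tn, BR8_en1, BR8_sn, B8m1b_256_se, ?_, B8m1b_256_se_cover,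
    B8m1b_256_re_dom, hz, ht, he1, hs⟩, ⟨BR8_en1, BR8_sn, BR8_G, he1, hs⟩⟩
  · rw [BR8_A_eq, hd]; exact BR8_PP
  · rw [BR8_E_eq, hd]; exact BR8_EE

end Crest.Agent.R163.Ck
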