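import Crest.Agent.R163.DEEntry

/-! Row 163: completion of the missing mass and the final bound. -/

set_option autoImplicit false

namespace Crest.Agent.R163.DEFinH

open Finset Ck DE

theorem a_pos {g : Grid} (han : 0 < g.an) (had : 0 < g.ad) : 0 < g.a :=
  div_pos (Nat.cast_pos.2 han) (Nat.cast_pos.2 had)

theorem dig_mod (V : ℕ) {m k : ℕ} (hk : k < m) : dig (V % 2 ^ (64 * m)) k = dig V k := by
  obtain ⟨j, rfl⟩ := Nat.exists_eq_add_of_lt hk
  unfold dig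
  rw [show 64 * (k + j + 1) = 64 * k + (64 + 64 * j) by ring, pow_add, Nat.mod_mul_right_div_self,
    pow_add, Nat.mod_mul_right_mod]

theorem fin_eq (n cv acc : ℕ) : DE.fin n cv acc =
    (acc + (2 ^ 54 - acc / 2 ^ (64 * (n + 1))) / 2 ^ 22 * rowE n cv) % 2 ^ (64 * (n + 1)) := by
  have e : DE.fin n cv acc = (acc + (18014398509481984 - acc >>> (64 * (n + 1))) >>> 22 *
      rowE n cv) % (1 <<< (64 * (n + 1))) := rfl
  rw [e, Nat.shiftRight_eq_div_pow, Nat.shiftRight_eq_div_pow, Nat.one_shiftLeft]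
  norm_num

theorem av_ed : av (ed 0) = 2 / 3 := by
  simp [av, ed, Fin.sum_univ_three]
  norm_num

theorem vtx_eq : (![((3 : ℕ) : ℝ) / (1 : ℕ), ((0 : ℕ) : ℝ) / (1 : ℕ), ((0 : ℕ) : ℝ) / (1 : ℕ)] :
    Vec 3) = (3 : ℝ) • vtx 0 := by
  funext i
  fin_cases i <;> simp [vtx]

theorem val_add (g : Grid) (d e : ℕ → ℕ) (D : ℕ) (G : Vec 3 → ℝ) :
    g.val (fun k => d k + D * e k) G = g.val d G + D * g.val e G := by
  simp only [Grid.val, Nat.cast_add, Nat.cast_mul, add_mul, sum_add_distrib, mul_add, mul_sum,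
    mul_assoc]
  ring

theorem val_congr (g : Grid) {d e : ℕ → ℕ} (h : ∀ k < g.n + 1, d k = e k) (G : Vec 3 → ℝ) :
    g.val d G = g.val e G := by
  unfold Grid.val
  rw [h _ (Nat.lt_succ_self _), sum_congr rfl fun k hk => by
    rw [h k (Nat.lt_succ_of_lt (mem_range.1 hk))]]

theorem lt_of_val {g : Grid} (ha : 0 < g.a) {d : ℕ → ℕ} (h : g.val d av ≤ 2 ^ 54) :
    ∀ k < g.n + 1, d k < 2 ^ 64 := by
  intro k hk
  have h0 : ∀ j ∈ range g.n, (0 : ℝ) ≤ d j * av (lp g.a (g.pt j)) := fun j _ =>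
    mul_nonneg (Nat.cast_nonneg _) (av_nonneg (pos_lp ha _))
  have h1 := sum_nonneg h0
  unfold Grid.val at h
  rw [av_ed] at h
  have h2 : (0 : ℝ) ≤ d g.n := Nat.cast_nonneg _
  have h3 : (d k : ℝ) < 2 ^ 64 := by
    rcases (Nat.lt_succ_iff.1 hk).eq_or_lt with rfl | hk
    · linarith
    · have h4 := single_le_sum h0 (mem_range.2 hk)
      have h5 := mul_le_mul_of_nonneg_left (one_le_av_lp ha (g.pt k))
        (Nat.cast_nonneg (α := ℝ) (d k))
      linarith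
  exact_mod_cast h3

theorem list_sum_range (f : ℕ → ℕ) (n : ℕ) : ((List.range n).map f).sum = ∑ k ∈ range n, f k :=
  rfl

/-- the test function of the final bound -/
noncomputable def Gx (P : Vec 3) : ℝ := (((3 : ℕ) : ℝ) - 1) * av P - hat fx P

theorem Gx_eq {P : Vec 3} (h : 0 < P 0 + P 1 + P 2) :
    Gx P = 2 * (P 0 * P 1 + (P 0 * P 2 + P 1 * P 2)) / (P 0 + P 1 + P 2) := by
  unfold Gx
  rw [OrderBH.hat_fx]
  simp only [av, Fin.sum_univ_three]
  push_cast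
  field_simp
  ring

theorem Gx_ed : Gx (ed 0) = 1 := by
  rw [Gx_eq (by simp [ed])]
  simp [ed]
  norm_num

theorem ph_pos {g : Grid} (han : 0 < g.an) (had : 0 < g.ad) (X : ℕ) : (0 : ℝ) < g.ph X :=
  Nat.cast_pos.2 (Nat.mul_pos (Nat.pow_pos han) (Nat.pow_pos had))

theorem ph_eq {g : Grid} (han : 0 < g.an) (had : 0 < g.ad) {X : ℕ} (hX : X ≤ 6 * g.r) :
    g.a ^ ((X : ℤ) - 2 * g.r) = (g.ph X : ℝ) / g.ph (2 * g.r) := by
  have e : ∀ X, g.ph X = g.an ^ X * g.ad ^ (6 * g.r - X) := fun _ => rfl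
  have h1 : (0 : ℝ) < g.an := Nat.cast_pos.2 han
  have h2 : (0 : ℝ) < g.ad := Nat.cast_pos.2 had
  have h3 : (g.ad : ℝ) ^ (6 * g.r - X) * g.ad ^ X = g.ad ^ (6 * g.r - 2 * g.r) * g.ad ^ (2 * g.r) := by
    rw [← pow_add, ← pow_add, Nat.sub_add_cancel hX, Nat.sub_add_cancel (by omega)]
  rw [zpow_sub₀ (a_pos han had).ne', show (2 * g.r : ℤ) = ((2 * g.r : ℕ) : ℤ) by push_cast; rfl,
    zpow_natCast, zpow_natCast, e, e, Grid.a, div_pow, div_pow]
  push_cast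
  rw [div_div_div_eq, div_eq_div_iff (by positivity) (by positivity)]
  linear_combination (-(g.an : ℝ) ^ X * g.an ^ (2 * g.r)) * h3

theorem dlo_le {g : Grid} (han : 0 < g.an) (had : 0 < g.ad) (k : ℕ) :
    (dlo g k : ℝ) ≤ 2 ^ 24 * Gx (lp g.a (g.pt k)) := by
  unfold dlo
  cases hb : Nat.ble (Nat.add (g.rx k) (g.ry k)) (Nat.mul 6 g.r) with
  | false =>
    exact (Nat.cast_zero (R := ℝ)).trans_le
      (mul_nonneg (by positivity) (sup_defx.nonneg _ (pos_lp (a_pos han had) _)))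
  | true =>
    have h6 : g.rx k + g.ry k ≤ 6 * g.r := Nat.le_of_ble_eq_true hb
    change ((33554432 * (g.ph (g.rx k) * g.ph (g.ry k) + (g.ph (g.rx k) *
      g.ph (6 * g.r - g.rx k - g.ry k) + g.ph (g.ry k) * g.ph (6 * g.r - g.rx k - g.ry k))) /
      ((g.ph (g.rx k) + g.ph (g.ry k) + g.ph (6 * g.r - g.rx k - g.ry k)) * g.ph (2 * g.r)) : ℕ)
      : ℝ) ≤ _
    refine Nat.cast_div_le.trans (le_of_eq ?_)
    have e0 : lp g.a (g.pt k) 0 = (g.ph (g.rx k) : ℝ) / g.ph (2 * g.r) := ph_eq han had (by omega)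
    have e1 : lp g.a (g.pt k) 1 = (g.ph (g.ry k) : ℝ) / g.ph (2 * g.r) := ph_eq han had (by omega)
    have e2 : lp g.a (g.pt k) 2 = (g.ph (6 * g.r - g.rx k - g.ry k) : ℝ) / g.ph (2 * g.r) := by
      rw [← ph_eq han had (by omega)]
      change g.a ^ (-((g.rx k : ℤ) - 2 * g.r) - ((g.ry k : ℤ) - 2 * g.r)) = _
      congr 1
      omega
    have p0 := ph_pos han had (g.rx k)
    have p1 := ph_pos han had (g.ry k)
    have p2 := ph_pos han had (6 * g.r - g.rx k - g.ry k)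
    have p3 := ph_pos han had (2 * g.r)
    rw [Gx_eq (by rw [e0, e1, e2]; positivity), e0, e1, e2]
    push_cast
    field_simp
    norm_num

end Crest.Agent.R163.DEFinH

namespace Crest.Agent.R163.DE

open Finset Ck DEFinH

theorem pre_zero (g : Grid) (L : Law 3) {t : ℝ} (ht : Tok 3 t) : Pre g L t ht 0 := by
  refine ⟨fun _ => 0, 0, by simp, by simp, zero_le_one, fun G hG => ?_⟩
  have hH := hG.comp_Tv ht
  have h2 : L.E (fun P => ((3 : ℕ) : ℝ) * G (Tv t (vtx 0)) * av P) ≤ (L.T t ht).E G :=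
    L.mono (adm_av.smul _) hH.adm fun P hP => hH.vtx_le 0 hP
  rw [L.smul_av] at h2
  rw [hH.adm.hom 3 (by norm_num) _ (pos_vtx 0)]
  simp only [Grid.val, Nat.cast_zero, zero_mul, sum_const_zero, zero_add, sub_zero, mul_one]
  exact mul_le_mul_of_nonneg_left (by exact_mod_cast h2) (by positivity)

theorem fin_sound {g : Grid} {en ed' cv acc : ℕ} {L : Law 3} (han : 0 < g.an) (had : 0 < g.ad)
    (hed : 0 < ed') (ht : Tok 3 (-((en : ℝ) / ed')))
    (hcv : entryOK g en ed' 1 1 3 0 0 cv = true) (h : Pre g L (-((en : ℝ) / ed')) ht acc) :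
    Inv g (L.T _ ht) (fin g.n cv acc) := by
  obtain ⟨d, m, hacc, hm, hm1, hd⟩ := h
  obtain ⟨hrow, -, hr⟩ := entry_sound han had hed one_pos hcv
  rw [fin_eq]
  have hs : d (g.n + 1) ≤ acc / 2 ^ (64 * (g.n + 1)) := by
    rw [Nat.le_div_iff_mul_le (by positivity), hacc, sum_range_succ]
    exact Nat.le_add_left _ _
  generalize acc / 2 ^ (64 * (g.n + 1)) = s at hs ⊢
  have hD : ((2 ^ 54 - s) / 2 ^ 22 : ℕ) * (2 : ℝ) ^ 22 ≤ 2 ^ 54 * (1 - m) := by
    have h1 : (((2 ^ 54 - s) / 2 ^ 22 * 2 ^ 22 : ℕ) : ℝ) ≤ (2 ^ 54 - s : ℕ) :=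
      Nat.cast_le.2 (Nat.div_mul_le_self _ _)
    rw [Nat.cast_mul, Nat.cast_pow 2 22, Nat.cast_ofNat] at h1
    refine h1.trans ?_
    rcases le_total s (2 ^ 54) with h2 | h2
    · have h3 : (d (g.n + 1) : ℝ) ≤ s := Nat.cast_le.2 hs
      rw [Nat.cast_sub h2, Nat.cast_pow, Nat.cast_ofNat]
      linarith
    · rw [Nat.sub_eq_zero_of_le h2, Nat.cast_zero]
      exact mul_nonneg (by positivity) (sub_nonneg.2 hm1)
  generalize (2 ^ 54 - s) / 2 ^ 22 = D at hD ⊢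
  have key : ∀ G : Vec 3 → ℝ, Sup G →
      g.val (fun k => d k + D * rd g.n cv k) G ≤ 2 ^ 54 * (L.T _ ht).E G := fun G hG => by
    have h1 := hr G hG
    rw [vtx_eq, Nat.cast_one, mul_one] at h1
    have h2 := mul_le_mul_of_nonneg_left h1 (Nat.cast_nonneg (α := ℝ) D)
    have h3 := mul_le_mul_of_nonneg_right hD
      (hG.nonneg _ (((pos_vtx (q := 3) 0).smul (c := 3) (by norm_num)).Tv ht))
    rw [val_add]
    refine le_trans ?_ (hd G hG)
    rw [← mul_assoc] at h2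
    exact add_le_add le_rfl (h2.trans h3)
  have hlt := lt_of_val (a_pos han had) ((key av sup_av).trans_eq (by rw [Law.norm, mul_one]))
  have e : acc + D * rowE g.n cv = ∑ k ∈ range (g.n + 1), (d k + D * rd g.n cv k) * 2 ^ (64 * k) +
      (d (g.n + 1) + D * rd g.n cv (g.n + 1)) * 2 ^ (64 * (g.n + 1)) := by
    rw [← sum_range_succ (fun k => (d k + D * rd g.n cv k) * 2 ^ (64 * k)), hacc, hrow, mul_sum,
      ← sum_add_distrib]
    exact sum_congr rfl fun k _ => by ring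
  intro G hG
  refine le_of_eq_of_le (val_congr g (fun k hk => ?_) G) (key G hG)
  rw [dig_mod _ hk, e, dig_sum hlt _ hk]

theorem xOK_sound {g : Grid} {en ed' sn sd V : ℕ} {L : Law 3} (ht : Tok 3 (-((en : ℝ) / ed')))
    (h : Inv g (L.T _ ht) V) (hx : xOK g en ed' sn sd V = true) : L.X ≤ (sn : ℝ) / sd := by
  simp only [xOK, Bool.and_eq_true, Nat.ble_eq] at hx
  obtain ⟨⟨⟨⟨⟨hen, hsd⟩, hed⟩, han⟩, had⟩, hx⟩ := hx
  have h1 : g.val (dig V) Gx ≤ 2 ^ 54 * (L.T _ ht).E Gx := h _ sup_defx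
  have h2 : (L.T _ ht).E Gx = 2 - ((en : ℝ) / ed') ^ 2 * L.X := by
    have h3 := (L.T _ ht).sub (adm_av.smul (((3 : ℕ) : ℝ) - 1)) (adm_hat bddS_fx)
    rw [Law.smul_av] at h3
    have h4 := L.X_T _ ht
    rw [neg_sq] at h4
    rw [← h4]
    refine h3.trans ?_
    norm_num [Law.X, Law.Ex]
  have h3 : ((((List.range g.n).map fun k => dig V k * dlo g k).sum + dig V g.n * 2 ^ 24 : ℕ) : ℝ)
      ≤ 2 ^ 24 * g.val (dig V) Gx := by
    rw [list_sum_range, Grid.val, Gx_ed, mul_add, mul_sum]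
    push_cast
    refine add_le_add (sum_le_sum fun k _ => ?_) (le_of_eq (by ring))
    rw [mul_left_comm]
    exact mul_le_mul_of_nonneg_left (dlo_le han had k) (Nat.cast_nonneg _)
  generalize ((List.range g.n).map fun k => dig V k * dlo g k).sum + dig V g.n * 2 ^ 24 = W
    at hx h3
  have h4 : (2 * 2 ^ 78 * ed' ^ 2 * sd : ℝ) ≤ sn * en ^ 2 * 2 ^ 78 + W * ed' ^ 2 * sd := by
    exact_mod_cast hx
  have p1 : (0 : ℝ) < en := Nat.cast_pos.2 hen
  have p2 : (0 : ℝ) < sd := Nat.cast_pos.2 hsd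
  have p3 : (0 : ℝ) < ed' := Nat.cast_pos.2 hed
  have h5 : (W : ℝ) ≤ 2 ^ 78 * (2 - ((en : ℝ) / ed') ^ 2 * L.X) := by
    rw [h2] at h1
    have h6 := mul_le_mul_of_nonneg_left h1 (show (0 : ℝ) ≤ 2 ^ 24 by positivity)
    rw [← mul_assoc, ← pow_add] at h6
    exact h3.trans h6
  have h6 := mul_le_mul_of_nonneg_right h5 (show (0 : ℝ) ≤ ed' ^ 2 * sd by positivity)
  have h7 : 2 ^ 78 * (2 - ((en : ℝ) / ed') ^ 2 * L.X) * (ed' ^ 2 * sd) =
      2 * 2 ^ 78 * ed' ^ 2 * sd - en ^ 2 * 2 ^ 78 * (L.X * sd) := by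
    field_simp
  rw [le_div_iff₀ p2]
  refine le_of_mul_le_mul_left ?_ (show (0 : ℝ) < en ^ 2 * 2 ^ 78 by positivity)
  rw [h7, ← mul_assoc] at h6
  linarith

end Crest.Agent.R163.DE
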