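import Crest.Agent.R163.DEEntry

/-! Row 163: the channel step on the table. -/

set_option autoImplicit false

namespace Crest.Agent.R163.DE

open Finset Ck

namespace GatherH

/-- the orbit of a lattice point -/
def orb (x y : ℤ) : Finset (ℤ × ℤ) :=
  {(x, y), (y, x), (x, -x - y), (-x - y, x), (y, -x - y), (-x - y, y)}

theorem orb_const {f : ℤ × ℤ → ℝ} (h1 : ∀ x y, f (y, x) = f (x, y))
    (h2 : ∀ x y, f (x, -x - y) = f (x, y)) {x y : ℤ} {p : ℤ × ℤ} (hp : p ∈ orb x y) :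
    f p = f (x, y) := by
  have h3 : f (y, -x - y) = f (x, y) := by
    rw [show -x - y = -y - x by ring, h2, h1]
  simp only [orb, mem_insert, mem_singleton] at hp
  rcases hp with rfl | rfl | rfl | rfl | rfl | rfl
  · rfl
  · exact h1 _ _
  · exact h2 _ _
  · rw [h1, h2]
  · exact h3
  · rw [h1, h3]

theorem orb_card {X Y o : ℕ} (h1 : Y ≤ X) (h2 : X + Y ≤ 3 * o) (h3 : 3 * o - X - Y ≤ Y) :
    mult3 X Y (3 * o - X - Y) ≤ (orb ((X : ℤ) - o) ((Y : ℤ) - o)).card := by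
  unfold mult3
  split_ifs with a1 a2
  · exact card_pos.2 ⟨_, mem_insert_self _ _⟩
  · rcases eq_or_ne X Y with e | e
    · refine le_trans (le_of_eq ?_) (card_le_card (s := {((X : ℤ) - o, (Y : ℤ) - o),
        ((X : ℤ) - o, -((X : ℤ) - o) - ((Y : ℤ) - o)),
        (-((X : ℤ) - o) - ((Y : ℤ) - o), (X : ℤ) - o)}) (by simp [orb, subset_iff]))
      rw [card_insert_of_notMem, card_insert_of_notMem, card_singleton] <;>
        simp only [mem_insert, mem_singleton, Prod.mk.injEq] <;> omega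
    · refine le_trans (le_of_eq ?_) (card_le_card (s := {((X : ℤ) - o, (Y : ℤ) - o),
        ((Y : ℤ) - o, (X : ℤ) - o),
        ((Y : ℤ) - o, -((X : ℤ) - o) - ((Y : ℤ) - o))}) (by simp [orb, subset_iff]))
      rw [card_insert_of_notMem, card_insert_of_notMem, card_singleton] <;>
        simp only [mem_insert, mem_singleton, Prod.mk.injEq] <;> omega
  · unfold orb
    rw [card_insert_of_notMem, card_insert_of_notMem, card_insert_of_notMem, card_insert_of_notMem,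
      card_insert_of_notMem, card_singleton] <;>
      simp only [mem_insert, mem_singleton, Prod.mk.injEq] <;> omega

theorem orb_disj {x y x' y' : ℤ} (h1 : y ≤ x) (h2 : -x - y ≤ y) (h1' : y' ≤ x')
    (h2' : -x' - y' ≤ y') (h : ¬ (x = x' ∧ y = y')) : Disjoint (orb x y) (orb x' y') := by
  rw [disjoint_left]
  rintro ⟨p, q⟩ hp hq
  simp only [orb, mem_insert, mem_singleton, Prod.mk.injEq] at hp hq
  omega

theorem lp_swap (a : ℝ) (x y : ℤ) : lp a (y, x) = perm (Equiv.swap 0 1) (lp a (x, y)) := by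
  funext i
  fin_cases i
  · rfl
  · rfl
  · change a ^ (-y - x) = a ^ (-x - y)
    congr 1
    ring

theorem lp_swap' (a : ℝ) (x y : ℤ) : lp a (x, -x - y) = perm (Equiv.swap 1 2) (lp a (x, y)) := by
  funext i
  fin_cases i
  · rfl
  · rfl
  · change a ^ (-x - (-x - y)) = a ^ y
    congr 1
    ring

theorem edge_sym {H : Vec 3 → ℝ} (h : Sup H) (σ : Equiv.Perm (Fin 3)) (P : Vec 3) (hP : Pos P) :
    ∑ i, H (perm σ P * ed i) = ∑ i, H (P * ed i) := by
  rw [← Equiv.sum_comp σ fun i => H (P * ed i)]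
  refine sum_congr rfl fun i _ => ?_
  rw [← h.sym σ _ (hP.mul (pos_ed (σ i)))]
  congr 1
  funext k
  simp [perm, ed]

theorem digit (V S Y : ℕ) {X : ℕ} (hX : X < S) :
    fld (Nat.shiftRight (Nat.land (Nat.shiftRight V (Nat.mul (Nat.mul 64 S) Y))
      (Nat.pred (Nat.shiftLeft 1 (Nat.mul 64 S)))) (Nat.mul 64 X)) 28 68719476735 =
      dig V (X + S * Y) / 2 ^ 28 := by
  change ((((V >>> (64 * S * Y)) &&& (1 <<< (64 * S) - 1)) >>> (64 * X)) >>> 28) &&& (2 ^ 36 - 1) = _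
  rw [Nat.one_shiftLeft, Nat.and_two_pow_sub_one_eq_mod, Nat.and_two_pow_sub_one_eq_mod, dig]
  refine Nat.eq_of_testBit_eq fun i => ?_
  simp only [Nat.testBit_mod_two_pow, Nat.testBit_shiftRight, Nat.testBit_div_two_pow]
  by_cases hi : i < 36
  · rw [decide_eq_true hi, decide_eq_true (show 64 * X + (28 + i) < 64 * S by omega),
      decide_eq_true (show i + 28 < 64 by omega)]
    simp only [Bool.true_and]
    congr 1
    ring
  · rw [decide_eq_false hi, decide_eq_false (show ¬ i + 28 < 64 by omega)]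
    simp only [Bool.false_and]

theorem addW_eq (w row acc : ℕ) : addW w row acc = w * row + acc := by
  cases w with
  | zero => rw [zero_mul, zero_add]; rfl
  | succ w => rfl

theorem and_rec {b c : Bool} (h : (Bool.rec false c b : Bool) = true) : b = true ∧ c = true := by
  cases b
  · exact absurd h (by simp)
  · exact ⟨rfl, h⟩

theorem shift_succ (a k X : ℕ) :
    Nat.shiftRight (Nat.shiftRight a (Nat.mul k X)) k = Nat.shiftRight a (Nat.mul k (Nat.succ X)) :=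
  (Nat.shiftRight_add a (k * X) k).symm

/-- the contribution of one sorted point -/
noncomputable def tm (a : ℝ) (oA : ℕ) (u v : ℕ × ℕ → ℕ) (H : Vec 3 → ℝ) (x : ℕ × ℕ) : ℝ :=
  (mult3 x.1 x.2 (3 * oA - x.1 - x.2) : ℝ) *
    (u x * H (lp a ((x.1 : ℤ) - oA, (x.2 : ℤ) - oA)) +
      v x * ∑ i, H (lp a ((x.1 : ℤ) - oA, (x.2 : ℤ) - oA) * ed i))

/-- the invariant -/
def Good (g : Grid) (a t : ℝ) (oA : ℕ) (u v : ℕ × ℕ → ℕ) (s : Finset (ℕ × ℕ)) (acc : ℕ) : Prop :=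
  (∀ x ∈ s, x.2 ≤ x.1 ∧ x.1 + x.2 ≤ 3 * oA ∧ 3 * oA - x.1 - x.2 ≤ x.2) ∧ ∃ d : ℕ → ℕ,
    acc = ∑ k ∈ range (g.n + 2), d k * 2 ^ (64 * k) ∧
    2 ^ 22 * ∑ x ∈ s, tm a oA u v av x ≤ d (g.n + 1) ∧
    ∀ G : Vec 3 → ℝ, Sup G → g.val d G ≤ 2 ^ 22 * ∑ x ∈ s, tm a oA u v (fun P => G (Tv t P)) x

variable {g : Grid} {a t : ℝ} {oA : ℕ} {u v : ℕ × ℕ → ℕ}

theorem val_lin (c c' : ℕ) (d d' : ℕ → ℕ) (G : Vec 3 → ℝ) :
    g.val (fun k => c * d k + c' * d' k) G = c * g.val d G + c' * g.val d' G := by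
  simp only [Grid.val, Nat.cast_add, Nat.cast_mul, add_mul, sum_add_distrib, mul_assoc, ← mul_sum]
  ring

theorem Good.empty : Good g a t oA u v ∅ 0 :=
  ⟨fun _ h => absurd h (notMem_empty _), fun _ => 0, by simp, by simp, fun G _ => by
    simp [Grid.val]⟩

theorem Good.union {s s' : Finset (ℕ × ℕ)} {c c' : ℕ} (hd : Disjoint s s')
    (h : Good g a t oA u v s c) (h' : Good g a t oA u v s' c') :
    Good g a t oA u v (s ∪ s') (c + c') := by
  obtain ⟨a1, d, rfl, a2, a3⟩ := h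
  obtain ⟨b1, d', rfl, b2, b3⟩ := h'
  refine ⟨fun x hx => (mem_union.1 hx).elim (a1 x) (b1 x), fun k => 1 * d k + 1 * d' k, ?_, ?_,
    fun G hG => ?_⟩
  · simp only [one_mul, add_mul, sum_add_distrib]
  · rw [sum_union hd]; push_cast; linarith
  · rw [sum_union hd, val_lin]; push_cast; linarith [a3 G hG, b3 G hG]

variable {an ad en ed' S : ℕ}

theorem Good.single {X Y c : ℕ} (han : 0 < g.an) (had : 0 < g.ad) (hed : 0 < ed') (ha : 0 < an)
    (hd : 0 < ad) (h : repOK g an ad en ed' S oA X Y c = true) :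
    Good g ((an : ℝ) / ad) (-((en : ℝ) / ed')) oA u v {(X, Y)}
      (u (X, Y) * rowE g.n c + v (X, Y) * rowB g.n c) := by
  obtain ⟨-, a1, a2, a3, dA, dB, e1, e2, b1, b2, b3⟩ := repOK_sound han had hed ha hd h
  have hu : (0 : ℝ) ≤ u (X, Y) := Nat.cast_nonneg _
  have hv : (0 : ℝ) ≤ v (X, Y) := Nat.cast_nonneg _
  refine ⟨fun x hx => by rw [mem_singleton.1 hx]; exact ⟨a1, a2, a3⟩,
    fun k => u (X, Y) * dA k + v (X, Y) * dB k, ?_, ?_, fun G hG => ?_⟩
  · simp only [e1, e2, add_mul, sum_add_distrib, mul_sum, mul_assoc]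
  · rw [sum_singleton, tm]
    push_cast
    linarith [mul_le_mul_of_nonneg_left b1 hu, mul_le_mul_of_nonneg_left b2 hv]
  · rw [sum_singleton, tm, val_lin]
    linarith [mul_le_mul_of_nonneg_left (b3 G hG).1 hu, mul_le_mul_of_nonneg_left (b3 G hG).2 hv]

theorem row (han : 0 < g.an) (had : 0 < g.ad) (hed : 0 < ed') (ha : 0 < an) (hd : 0 < ad)
    {Y A B : ℕ} (hA : ∀ X < S, fld (Nat.shiftRight A (Nat.mul 64 X)) 28 68719476735 = u (X, Y))
    (hB : ∀ X < S, fld (Nat.shiftRight B (Nat.mul 64 X)) 28 68719476735 = v (X, Y))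
    (l : List ℕ) : ∀ X, rowOK g an ad en ed' S oA Y l X = true →
      ∃ s : Finset (ℕ × ℕ), (∀ x ∈ s, x.2 = Y ∧ X ≤ x.1) ∧
        Good g ((an : ℝ) / ad) (-((en : ℝ) / ed')) oA u v s
          (gatherRow g.n l (Nat.shiftRight A (Nat.mul 64 X)) (Nat.shiftRight B (Nat.mul 64 X))) := by
  induction l with
  | nil => exact fun X _ => ⟨∅, fun _ h => absurd h (notMem_empty _), Good.empty⟩
  | cons c l ih =>
    intro X h
    obtain ⟨h1, h2⟩ := and_rec (b := repOK g an ad en ed' S oA X Y c)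
      (c := rowOK g an ad en ed' S oA Y l (Nat.succ X)) h
    obtain ⟨s, hs, hg⟩ := ih _ h2
    have hX := (repOK_sound han had hed ha hd h1).1
    refine ⟨{(X, Y)} ∪ s, fun x hx => ?_, ?_⟩
    · rcases mem_union.1 hx with h3 | h3
      · rw [mem_singleton.1 h3]; exact ⟨rfl, le_rfl⟩
      · exact ⟨(hs x h3).1, (Nat.le_succ X).trans (hs x h3).2⟩
    · have e : ∀ A' B', gatherRow g.n (c :: l) A' B' = addW (fld A' 28 68719476735) (rowE g.n c)
          (addW (fld B' 28 68719476735) (rowB g.n c)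
            (gatherRow g.n l (Nat.shiftRight A' 64) (Nat.shiftRight B' 64))) := fun _ _ => rfl
      rw [e, addW_eq, addW_eq, ← add_assoc, hA X hX, hB X hX, shift_succ, shift_succ]
      exact Good.union (disjoint_singleton_left.2 fun h3 => Nat.not_succ_le_self X (hs _ h3).2)
        (Good.single han had hed ha hd h1) hg

theorem table (han : 0 < g.an) (had : 0 < g.ad) (hed : 0 < ed') (ha : 0 < an) (hd : 0 < ad)
    {SA SB : ℕ} (hA : ∀ X < S, ∀ Y, dig SA (X + S * Y) / 2 ^ 28 = u (X, Y))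
    (hB : ∀ X < S, ∀ Y, dig SB (X + S * Y) / 2 ^ 28 = v (X, Y))
    (tab : List (ℕ × List ℕ)) : ∀ Y, tabOK g an ad en ed' S oA tab Y = true →
      ∃ s : Finset (ℕ × ℕ), (∀ x ∈ s, Y ≤ x.2) ∧
        Good g ((an : ℝ) / ad) (-((en : ℝ) / ed')) oA u v s
          (gather g.n (Nat.mul 64 S) (Nat.pred (Nat.shiftLeft 1 (Nat.mul 64 S))) tab
            (Nat.shiftRight SA (Nat.mul (Nat.mul 64 S) Y))
            (Nat.shiftRight SB (Nat.mul (Nat.mul 64 S) Y))) := by
  induction tab with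
  | nil => exact fun Y _ => ⟨∅, fun _ h => absurd h (notMem_empty _), Good.empty⟩
  | cons c l ih =>
    intro Y h
    obtain ⟨h1, h2⟩ := and_rec (b := rowOK g an ad en ed' S oA Y c.2 c.1)
      (c := tabOK g an ad en ed' S oA l (Nat.succ Y)) h
    obtain ⟨s, hs, hg⟩ := ih _ h2
    obtain ⟨s', hs', hg'⟩ := row han had hed ha hd
      (fun X hX => (digit SA S Y hX).trans (hA X hX Y))
      (fun X hX => (digit SB S Y hX).trans (hB X hX Y)) c.2 c.1 h1
    refine ⟨s' ∪ s, fun x hx => ?_, ?_⟩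
    · rcases mem_union.1 hx with h3 | h3
      · exact (hs' x h3).1.ge
      · exact (Nat.le_succ Y).trans (hs x h3)
    · have e : ∀ sS rm A' B', gather g.n sS rm (c :: l) A' B' =
          gatherRow g.n c.2 (Nat.shiftRight (Nat.land A' rm) (Nat.mul 64 c.1))
            (Nat.shiftRight (Nat.land B' rm) (Nat.mul 64 c.1)) +
          gather g.n sS rm l (Nat.shiftRight A' sS) (Nat.shiftRight B' sS) := fun _ _ _ _ => rfl
      rw [e, shift_succ, shift_succ]
      exact Good.union (disjoint_left.2 fun x h3 h4 =>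
        Nat.not_succ_le_self Y ((hs x h4).trans (hs' x h3).1.le)) hg' hg

end GatherH

open GatherH

/-- a symmetric array dominates its sorted points counted with multiplicity -/
theorem sorted_sum_le {a : ℝ} (ha : 0 < a) {w : Arr} (hw : Symm w) {F : Vec 3 → ℝ}
    (hF : ∀ P, Pos P → 0 ≤ F P) (hs : ∀ σ P, Pos P → F (perm σ P) = F P) (oA : ℕ)
    (s : Finset (ℕ × ℕ))
    (h : ∀ x ∈ s, x.2 ≤ x.1 ∧ x.1 + x.2 ≤ 3 * oA ∧ 3 * oA - x.1 - x.2 ≤ x.2) :
    ∑ x ∈ s, (mult3 x.1 x.2 (3 * oA - x.1 - x.2) : ℝ) *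
      ((w.coeff ((x.1 : ℤ) - oA, (x.2 : ℤ) - oA) : ℝ) *
        F (lp a ((x.1 : ℤ) - oA, (x.2 : ℤ) - oA))) ≤ Phi a w F := by
  refine le_trans ?_
    (Phi_ge_sum ha w hF (s.biUnion fun x => orb ((x.1 : ℤ) - oA) ((x.2 : ℤ) - oA)))
  rw [sum_biUnion fun x hx y hy hxy => ?_]
  · refine sum_le_sum fun x hx => ?_
    obtain ⟨h1, h2, h3⟩ := h x hx
    rw [sum_congr rfl fun p hp => orb_const (f := fun p => (w.coeff p : ℝ) * F (lp a p))
      (fun x y => by rw [(hw x y).1, lp_swap, hs _ _ (pos_lp ha _)])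
      (fun x y => by rw [(hw x y).2, lp_swap', hs _ _ (pos_lp ha _)]) hp, sum_const, nsmul_eq_mul]
    exact mul_le_mul_of_nonneg_right (by exact_mod_cast orb_card h1 h2 h3)
      (mul_nonneg (Nat.cast_nonneg _) (hF _ (pos_lp ha _)))
  · obtain ⟨a1, a2, a3⟩ := h x hx
    obtain ⟨b1, b2, b3⟩ := h y hy
    exact orb_disj (by omega) (by omega) (by omega) (by omega)
      fun e => hxy (Prod.ext (by omega) (by omega))

theorem gather_sound {g : Grid} {an ad en ed' S oA nA Y0 SA SB : ℕ} {tab : List (ℕ × List ℕ)}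
    {wA wB : Arr} {L : Law 3} (han : 0 < g.an) (had : 0 < g.ad) (hed : 0 < ed') (ha : 0 < an)
    (hd : 0 < ad) (hn : nA ≤ S) (ht : Tok 3 (-((en : ℝ) / ed')))
    (htab : tabOK g an ad en ed' S oA tab Y0 = true) (hA : Rep S oA nA SA wA)
    (hB : Rep S oA nA SB wB) (sA : Symm wA) (sB : Symm wB)
    (hL : Lb1 ((an : ℝ) / ad) L wA wB (2 ^ 60)) :
    Pre g L (-((en : ℝ) / ed')) ht
      (gather g.n (Nat.mul 64 S) (Nat.pred (Nat.shiftLeft 1 (Nat.mul 64 S))) tab
        (Nat.shiftRight SA (Nat.mul (Nat.mul 64 S) Y0))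
        (Nat.shiftRight SB (Nat.mul (Nat.mul 64 S) Y0))) := by
  have ha0 : (0 : ℝ) < (an : ℝ) / ad := by positivity
  have hlt : ∀ c : ℕ, (c : ℝ) ≤ 2 ^ 60 → c < 2 ^ 64 := fun c hc =>
    lt_of_le_of_lt (by exact_mod_cast hc : c ≤ 2 ^ 60) (by norm_num)
  obtain ⟨s, -, hs, d, e, h1, h2⟩ := table
    (u := fun x => wA.coeff ((x.1 : ℤ) - oA, (x.2 : ℤ) - oA) / 2 ^ 28)
    (v := fun x => wB.coeff ((x.1 : ℤ) - oA, (x.2 : ℤ) - oA) / 2 ^ 28) han had hed ha hd
    (fun X hX Y => by rw [hA.dig hn (fun p => hlt _ (hL.bound ha0 p).1) hX])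
    (fun X hX Y => by rw [hB.dig hn (fun p => hlt _ (hL.bound ha0 p).2) hX]) tab Y0 htab
  set u : ℕ × ℕ → ℕ := fun x => wA.coeff ((x.1 : ℤ) - oA, (x.2 : ℤ) - oA) / 2 ^ 28 with hu
  set v : ℕ × ℕ → ℕ := fun x => wB.coeff ((x.1 : ℤ) - oA, (x.2 : ℤ) - oA) / 2 ^ 28 with hv
  have hdiv : ∀ c : ℕ, (2 : ℝ) ^ 28 * ((c / 2 ^ 28 : ℕ) : ℝ) ≤ c := fun c => by
    exact_mod_cast Nat.mul_div_le c (2 ^ 28)
  have key : ∀ H : Vec 3 → ℝ, Sup H →
      ∑ x ∈ s, tm ((an : ℝ) / ad) oA u v H x ≤ 2 ^ 32 * L.E H := fun H hH => by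
    have hn' : ∀ P, Pos P → 0 ≤ ∑ i, H (P * ed i) := fun P hP =>
      sum_nonneg fun i _ => hH.nonneg _ (hP.mul (pos_ed i))
    have k1 := sorted_sum_le ha0 sA hH.nonneg hH.sym oA s hs
    have k2 := sorted_sum_le ha0 sB (F := fun P => ∑ i, H (P * ed i)) hn' (edge_sym hH) oA s hs
    have k3 := (add_le_add k1 k2).trans (hL H hH)
    rw [← sum_add_distrib] at k3
    have k4 : 2 ^ 28 * ∑ x ∈ s, tm ((an : ℝ) / ad) oA u v H x ≤ 2 ^ 60 * L.E H := by
      refine le_trans ?_ k3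
      rw [mul_sum]
      refine sum_le_sum fun x _ => ?_
      rw [tm, ← mul_add, mul_left_comm, mul_add, ← mul_assoc, ← mul_assoc]
      exact mul_le_mul_of_nonneg_left (add_le_add
        (mul_le_mul_of_nonneg_right (hdiv _) (hH.nonneg _ (pos_lp ha0 _)))
        (mul_le_mul_of_nonneg_right (hdiv _) (hn' _ (pos_lp ha0 _)))) (Nat.cast_nonneg _)
    linarith
  refine ⟨d, (∑ x ∈ s, tm ((an : ℝ) / ad) oA u v av x) / 2 ^ 32, e, by linarith, ?_,
    fun G hG => ?_⟩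
  · have := key av sup_av
    rw [L.norm] at this
    linarith
  · have k1 := key _ ((hG.comp_Tv ht).sub_vtx 0)
    rw [L.sub (hG.comp_Tv ht).adm (adm_av.smul _), L.smul _ adm_av, L.norm] at k1
    rw [Tv_smul, hG.adm.hom 3 (by norm_num) _ ((pos_vtx 0).Tv ht)]
    set c := G (Tv (-((en : ℝ) / ed')) (vtx 0))
    have k2 : ∑ x ∈ s, tm ((an : ℝ) / ad) oA u v
          (fun P => G (Tv (-((en : ℝ) / ed')) P) - ((3 : ℕ) : ℝ) * c * av P) x =
        ∑ x ∈ s, tm ((an : ℝ) / ad) oA u v (fun P => G (Tv (-((en : ℝ) / ed')) P)) x -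
          3 * c * ∑ x ∈ s, tm ((an : ℝ) / ad) oA u v av x := by
      rw [mul_sum, ← sum_sub_distrib]
      refine sum_congr rfl fun x _ => ?_
      simp only [tm, sum_sub_distrib, ← mul_sum]
      push_cast
      ring
    rw [k2] at k1
    have k3 := h2 G hG
    change _ ≤ 2 ^ 54 * L.E fun P => G (Tv (-((en : ℝ) / ed')) P)
    push_cast at k1
    linarith

end Crest.Agent.R163.DE
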