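import Crest.Agent.R163.DEDefs

/-! Row 163: mixtures of powers. -/

set_option autoImplicit false

namespace Crest.Agent.R163.DE

open Finset Ck

theorem mix_iter (c E : ℕ) (hc : 0 < c) {y : ℝ} (h : (E : ℝ) ≤ c * Real.exp y) (i : ℕ) :
    (((fun E => E * E / c)^[i] E : ℕ) : ℝ) ≤ c * Real.exp (y * 2 ^ i) := by
  induction i with
  | zero => simpa using h
  | succ i ih =>
    have hc' : (0 : ℝ) < c := Nat.cast_pos.2 hc
    rw [Function.iterate_succ_apply']
    refine Nat.cast_div_le.trans ?_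
    rw [div_le_iff₀ hc', Nat.cast_mul]
    refine (mul_le_mul ih ih (Nat.cast_nonneg _) (by positivity)).trans_eq ?_
    rw [pow_succ, ← mul_assoc y, mul_two, Real.exp_add]
    ring

theorem mix_init (c dn D : ℕ) (hD : 0 < D) :
    ((c * (D - dn) / D : ℕ) : ℝ) ≤ c * Real.exp (-((dn : ℝ) / D)) := by
  have hD' : (0 : ℝ) < D := Nat.cast_pos.2 hD
  refine Nat.cast_div_le.trans ?_
  rw [Nat.cast_mul, mul_div_assoc]
  refine mul_le_mul_of_nonneg_left ?_ (Nat.cast_nonneg _)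
  rcases le_total dn D with h | h
  · rw [Nat.cast_sub h, sub_div, div_self hD'.ne']
    linarith [Real.add_one_le_exp (-((dn : ℝ) / D))]
  · rw [Nat.sub_eq_zero_of_le h, Nat.cast_zero, zero_div]
    exact (Real.exp_pos _).le

theorem expLB_le (dn dd : ℕ) (hd : 0 < dd) :
    (expLB dn dd : ℝ) ≤ 2 ^ 96 * Real.exp (-((dn : ℝ) / dd)) := by
  have h := mix_iter (2 ^ 96) _ (by positivity) (mix_init (2 ^ 96) dn (dd * 2 ^ 32) (by positivity)) 32
  have hd' : (0 : ℝ) < dd := Nat.cast_pos.2 hd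
  have e : -((dn : ℝ) / ((dd * 2 ^ 32 : ℕ) : ℝ)) * 2 ^ 32 = -((dn : ℝ) / dd) := by
    rw [Nat.cast_mul, Nat.cast_pow, Nat.cast_ofNat]
    field_simp
  rw [e, Nat.cast_pow, Nat.cast_ofNat] at h
  exact h

theorem dyn_reg (b : ℕ) {t : ℝ} (ht : Tok 3 t) : Dyn (regLaw 3 b t ht) t ht (alReg b) := by
  intro n G _
  have h1 : (alReg b).length = b + 1 := by simp [alReg]
  have h2 : (alReg b).getD b 0 = 2 ^ 28 := by
    rw [alReg, List.getD_append_right _ _ _ _ (by simp)]
    simp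
  rw [h1, sum_range_succ, sum_eq_zero, zero_add, h2, Nat.cast_pow, Nat.cast_ofNat]
  · exact le_rfl
  · intro k hk
    rw [alReg, List.getD_append _ _ _ _ (by simpa using hk)]
    simp [List.getD_eq_getElem?_getD, mem_range.1 hk]

theorem dyn_poi (dn dd K : ℕ) (hd : 0 < dd) {t : ℝ} (ht : Tok 3 t)
    (h0 : (0 : ℝ) ≤ (dn : ℝ) / dd) : Dyn (gwL 3 ((dn : ℝ) / dd) h0 t ht) t ht (alPoi dn dd K) := by
  intro n G hG
  set N := (gwL 3 ((dn : ℝ) / dd) h0 t ht n).T t ht
  have hN : ∀ k, 0 ≤ (N.pow k).E G := fun k => (N.pow k).nonneg hG.adm hG.nonneg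
  have h1 : (alPoi dn dd K).length = K + 1 := by simp only [alPoi, List.length_map, List.length_range]
  have h2 := (Law.summable_pois h0 N.pow hG.adm).sum_le_tsum (range (K + 1))
    fun k _ => mul_nonneg (poisW_nonneg h0 k) (hN k)
  have hd' : (0 : ℝ) < dd := Nat.cast_pos.2 hd
  refine le_trans ?_ (mul_le_mul_of_nonneg_left h2 (by positivity))
  rw [h1, mul_sum]
  refine sum_le_sum fun k hk => ?_
  rw [← mul_assoc]
  refine mul_le_mul_of_nonneg_right ?_ (hN k)
  have h3 := expLB_le dn dd hd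
  rw [alPoi, List.getD_eq_getElem _ _ (by simpa using hk), List.getElem_map, List.getElem_range]
  generalize expLB dn dd = E at h3 ⊢
  refine Nat.cast_div_le.trans ?_
  simp only [Nat.cast_mul, Nat.cast_pow, Nat.cast_ofNat]
  calc _ ≤ 2 ^ 96 * Real.exp (-((dn : ℝ) / dd)) * (dn : ℝ) ^ k * 2 ^ 28 /
        (2 ^ 96 * (dd : ℝ) ^ k * k.factorial) := by gcongr
    _ = _ := by
      rw [poisW, div_pow]
      field_simp

end Crest.Agent.R163.DE
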