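import Crest.Agent.R163.DELoop
import Crest.Agent.R163.DEGather
import Crest.Agent.R163.DEFin
import Crest.Agent.R163.DEMix

/-! Row 163: soundness of the density evolution. -/

set_option autoImplicit false

namespace Crest.Agent.R163.DE

open Finset Ck

theorem step_sound {P : Par} {en ed' V : ℕ} (hP : P.OK en ed') (ht : Tok 3 (-((en : ℝ) / ed')))
    {N L' : Law 3} (h : Inv P.g N V) (hM : Mix L' N P.al) : Inv P.g' (L'.T _ ht) (step P V) := by
  have hg := hP.g_ok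
  have hpos : 0 < P.g.an ∧ 0 < P.g.ad := by
    unfold Grid.ok at hg
    simp only [Bool.and_eq_true, Nat.ble_eq] at hg
    exact ⟨hg.1.1, hg.1.2⟩
  have ha : 0 < P.g.a := div_pos (Nat.cast_pos.2 hpos.1) (Nat.cast_pos.2 hpos.2)
  obtain ⟨ν, r1, r2, r3⟩ := expand_sound hP.g_ok h P.S
  obtain ⟨SA, SB, wA, wB, e, a1, a2, a3, a4, a5⟩ := loop_sound ha (nA := P.nA)
    (by have := hP.size.1; omega) (by omega) hP.size.2 r1 r2 r3 hM
    (fun SA SB => fin P.g'.n P.cv (gather P.g'.n (Nat.mul 64 P.S)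
      (Nat.pred (Nat.shiftLeft 1 (Nat.mul 64 P.S))) P.tab
      (Nat.shiftRight SA (Nat.mul (Nat.mul 64 P.S) P.Y0))
      (Nat.shiftRight SB (Nat.mul (Nat.mul 64 P.S) P.Y0))))
  have e2 : step P V = fin P.g'.n P.cv (gather P.g'.n (Nat.mul 64 P.S)
      (Nat.pred (Nat.shiftLeft 1 (Nat.mul 64 P.S))) P.tab
      (Nat.shiftRight SA (Nat.mul (Nat.mul 64 P.S) P.Y0))
      (Nat.shiftRight SB (Nat.mul (Nat.mul 64 P.S) P.Y0))) := by
    rw [← e, ← hP.nu, ← fld_dig]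
    rfl
  rw [e2]
  exact fin_sound hP.pos.1 hP.pos.2.1 hP.pos.2.2 ht hP.cv
    (gather_sound hP.pos.1 hP.pos.2.1 hP.pos.2.2 hpos.1 hpos.2 (by have := hP.size.1; omega) ht
      hP.tab a1 a2 a3 a4 a5)

/-- the state `V` bounds the `n`-th law after the channel -/
def St (g : Grid) (Lf : ℕ → Law 3) (t : ℝ) (ht : Tok 3 t) (n V : ℕ) : Prop :=
  Inv g ((Lf n).T t ht) V

theorem St.init {P : Par} {en ed' V : ℕ} (hP : P.OK en ed') (ht : Tok 3 (-((en : ℝ) / ed')))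
    (Lf : ℕ → Law 3) (e : Nat.beq (fin P.g'.n P.cv 0) V = true) : St P.g' Lf _ ht 0 V := by
  rw [← Nat.eq_of_beq_eq_true e]
  exact fin_sound hP.pos.1 hP.pos.2.1 hP.pos.2.2 ht hP.cv (pre_zero _ _ ht)

theorem St.step {P : Par} {en ed' n V V' : ℕ} (hP : P.OK en ed') {ht : Tok 3 (-((en : ℝ) / ed'))}
    {Lf : ℕ → Law 3} (hD : Dyn Lf _ ht P.al) (h : St P.g Lf _ ht n V)
    (e : Nat.beq (step P V) V' = true) : St P.g' Lf _ ht (n + 1) V' := by
  rw [← Nat.eq_of_beq_eq_true e]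
  exact step_sound hP ht h (hD n)

theorem St.run {P : Par} {en ed' n k V V' : ℕ} (hP : P.OK en ed') (hg : P.g' = P.g)
    {ht : Tok 3 (-((en : ℝ) / ed'))} {Lf : ℕ → Law 3} (hD : Dyn Lf _ ht P.al)
    (h : St P.g Lf _ ht n V) (e : Nat.beq (run P k V) V' = true) : St P.g Lf _ ht (n + k) V' := by
  rw [← Nat.eq_of_beq_eq_true e]
  clear e
  induction k with
  | zero => exact h
  | succ k ih =>
    have := step_sound hP ht ih (hD (n + k))
    rw [hg] at this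
    exact this

theorem St.final {g : Grid} {en ed' sn sd n V : ℕ} {ht : Tok 3 (-((en : ℝ) / ed'))}
    {Lf : ℕ → Law 3} (h : St g Lf _ ht n V) (hx : xOK g en ed' sn sd V = true) :
    (Lf n).X ≤ (sn : ℝ) / sd := by
  exact xOK_sound ht h hx

end Crest.Agent.R163.DE
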