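import Crest.Agent.R163.DP4T
import Crest.Agent.R163.DP4R
import Crest.Agent.R163.DEStep

/-! Row 163: density evolution, conclusion (generated). -/

set_option autoImplicit false
set_option Elab.async false
set_option maxRecDepth 100000

namespace Crest.Agent.R163.DE

theorem DP4_ok : DP4.OK 493 1024 :=
  ⟨G17_16_12_ok, by decide, by decide, G17_16_12_nu_eq, (tabOK_append DP4_t0 (tabOK_append DP4_t1 (tabOK_append DP4_t2 (tabOK_append DP4_t3 DP4_t4 (by decide +kernel)) (by decide +kernel)) (by decide +kernel)) (by decide +kernel)), DP4_cv⟩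

theorem DP4_X (h0 : (0 : ℝ) ≤ ((1048576 : ℕ) : ℝ) / ((238144 : ℕ) : ℝ)) (ht : Tok 3 (-(((493 : ℕ) : ℝ) / ((1024 : ℕ) : ℝ)))) :
    ∃ n, (gwL 3 (((1048576 : ℕ) : ℝ) / ((238144 : ℕ) : ℝ)) h0 (-(((493 : ℕ) : ℝ) / ((1024 : ℕ) : ℝ))) ht n).X ≤ ((1 : ℕ) : ℝ) / ((4 : ℕ) : ℝ) := by
  have hD : Dyn (gwL 3 (((1048576 : ℕ) : ℝ) / ((238144 : ℕ) : ℝ)) h0 (-(((493 : ℕ) : ℝ) / ((1024 : ℕ) : ℝ))) ht) _ ht DP4.al :=
    (by decide +kernel : alPoi 1048576 238144 14 = DP4.al) ▸ dyn_poi 1048576 238144 14 (by norm_num) ht h0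
  have s0 : St DP4.g (gwL 3 (((1048576 : ℕ) : ℝ) / ((238144 : ℕ) : ℝ)) h0 (-(((493 : ℕ) : ℝ) / ((1024 : ℕ) : ℝ))) ht) _ ht 0 DP4_V0 := St.init DP4_ok ht _ DP4_i
  have s1 := St.run DP4_ok rfl hD s0 DP4_r0
  have s2 := St.run DP4_ok rfl hD s1 DP4_r1
  have s3 := St.run DP4_ok rfl hD s2 DP4_r2
  have s4 := St.run DP4_ok rfl hD s3 DP4_r3
  have s5 := St.run DP4_ok rfl hD s4 DP4_r4
  have s6 := St.run DP4_ok rfl hD s5 DP4_r5
  have s7 := St.run DP4_ok rfl hD s6 DP4_r6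
  have s8 := St.run DP4_ok rfl hD s7 DP4_r7
  have s9 := St.run DP4_ok rfl hD s8 DP4_r8
  have s10 := St.run DP4_ok rfl hD s9 DP4_r9
  have s11 := St.run DP4_ok rfl hD s10 DP4_r10
  have s12 := St.run DP4_ok rfl hD s11 DP4_r11
  have s13 := St.run DP4_ok rfl hD s12 DP4_r12
  have s14 := St.run DP4_ok rfl hD s13 DP4_r13
  have s15 := St.run DP4_ok rfl hD s14 DP4_r14
  exact ⟨_, St.final s15 DP4_x⟩

end Crest.Agent.R163.DE
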