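import Crest.Agent.R163.DQ2T
import Crest.Agent.R163.DQ2R
import Crest.Agent.R163.DEStep

/-! Row 163: density evolution, conclusion (generated). -/

set_option autoImplicit false
set_option Elab.async false
set_option maxRecDepth 100000

namespace Crest.Agent.R163.DE

theorem DQ2_ok : DQ2.OK 464 1024 :=
  ⟨G14_13_10_ok, by decide, by decide, G14_13_10_nu_eq, (tabOK_append DQ2_t0 (tabOK_append DQ2_t1 (tabOK_append DQ2_t2 DQ2_t3 (by decide +kernel)) (by decide +kernel)) (by decide +kernel)), DQ2_cv⟩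

theorem DQ2_X (h0 : (0 : ℝ) ≤ ((1048576 : ℕ) : ℝ) / ((207936 : ℕ) : ℝ)) (ht : Tok 3 (-(((464 : ℕ) : ℝ) / ((1024 : ℕ) : ℝ)))) :
    ∃ n, (gwL 3 (((1048576 : ℕ) : ℝ) / ((207936 : ℕ) : ℝ)) h0 (-(((464 : ℕ) : ℝ) / ((1024 : ℕ) : ℝ))) ht n).X ≤ ((3 : ℕ) : ℝ) / ((8 : ℕ) : ℝ) := by
  have hD : Dyn (gwL 3 (((1048576 : ℕ) : ℝ) / ((207936 : ℕ) : ℝ)) h0 (-(((464 : ℕ) : ℝ) / ((1024 : ℕ) : ℝ))) ht) _ ht DQ2.al :=
    (by decide +kernel : alPoi 1048576 207936 16 = DQ2.al) ▸ dyn_poi 1048576 207936 16 (by norm_num) ht h0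
  have s0 : St DQ2.g (gwL 3 (((1048576 : ℕ) : ℝ) / ((207936 : ℕ) : ℝ)) h0 (-(((464 : ℕ) : ℝ) / ((1024 : ℕ) : ℝ))) ht) _ ht 0 DQ2_V0 := St.init DQ2_ok ht _ DQ2_i
  have s1 := St.run DQ2_ok rfl hD s0 DQ2_r0
  have s2 := St.run DQ2_ok rfl hD s1 DQ2_r1
  have s3 := St.run DQ2_ok rfl hD s2 DQ2_r2
  have s4 := St.run DQ2_ok rfl hD s3 DQ2_r3
  have s5 := St.run DQ2_ok rfl hD s4 DQ2_r4
  have s6 := St.run DQ2_ok rfl hD s5 DQ2_r5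
  have s7 := St.run DQ2_ok rfl hD s6 DQ2_r6
  have s8 := St.run DQ2_ok rfl hD s7 DQ2_r7
  have s9 := St.run DQ2_ok rfl hD s8 DQ2_r8
  have s10 := St.run DQ2_ok rfl hD s9 DQ2_r9
  exact ⟨_, St.final s10 DQ2_x⟩

end Crest.Agent.R163.DE
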