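import Crest.Agent.R163.DR4T
import Crest.Agent.R163.DR4R
import Crest.Agent.R163.DEStep

/-! Row 163: density evolution, conclusion (generated). -/

set_option autoImplicit false
set_option Elab.async false
set_option maxRecDepth 100000

namespace Crest.Agent.R163.DE

theorem DR4_ok : DR4.OK 1 2 :=
  ⟨G9_8_10_ok, by decide, by decide, G9_8_10_nu_eq, (tabOK_append DR4_t0 (tabOK_append DR4_t1 (tabOK_append DR4_t2 DR4_t3 (by decide +kernel)) (by decide +kernel)) (by decide +kernel)), DR4_cv⟩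

theorem DR4_X (ht : Tok 3 (-(((1 : ℕ) : ℝ) / ((2 : ℕ) : ℝ)))) :
    ∃ n, (regLaw 3 4 (-(((1 : ℕ) : ℝ) / ((2 : ℕ) : ℝ))) ht n).X ≤ ((5 : ℕ) : ℝ) / ((16 : ℕ) : ℝ) := by
  have hD : Dyn (regLaw 3 4 (-(((1 : ℕ) : ℝ) / ((2 : ℕ) : ℝ))) ht) _ ht DR4.al :=
    (by decide +kernel : alReg 4 = DR4.al) ▸ dyn_reg 4 ht
  have s0 : St DR4.g (regLaw 3 4 (-(((1 : ℕ) : ℝ) / ((2 : ℕ) : ℝ))) ht) _ ht 0 DR4_V0 := St.init DR4_ok ht _ DR4_i
  have s1 := St.run DR4_ok rfl hD s0 DR4_r0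
  have s2 := St.run DR4_ok rfl hD s1 DR4_r1
  have s3 := St.run DR4_ok rfl hD s2 DR4_r2
  have s4 := St.run DR4_ok rfl hD s3 DR4_r3
  have s5 := St.run DR4_ok rfl hD s4 DR4_r4
  have s6 := St.run DR4_ok rfl hD s5 DR4_r5
  have s7 := St.run DR4_ok rfl hD s6 DR4_r6
  have s8 := St.run DR4_ok rfl hD s7 DR4_r7
  have s9 := St.run DR4_ok rfl hD s8 DR4_r8
  have s10 := St.run DR4_ok rfl hD s9 DR4_r9
  have s11 := St.run DR4_ok rfl hD s10 DR4_r10
  have s12 := St.run DR4_ok rfl hD s11 DR4_r11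
  have s13 := St.run DR4_ok rfl hD s12 DR4_r12
  have s14 := St.run DR4_ok rfl hD s13 DR4_r13
  have s15 := St.run DR4_ok rfl hD s14 DR4_r14
  have s16 := St.run DR4_ok rfl hD s15 DR4_r15
  have s17 := St.run DR4_ok rfl hD s16 DR4_r16
  have s18 := St.run DR4_ok rfl hD s17 DR4_r17
  have s19 := St.run DR4_ok rfl hD s18 DR4_r18
  have s20 := St.run DR4_ok rfl hD s19 DR4_r19
  have s21 := St.run DR4_ok rfl hD s20 DR4_r20
  have s22 := St.run DR4_ok rfl hD s21 DR4_r21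
  have s23 := St.run DR4_ok rfl hD s22 DR4_r22
  have s24 := St.run DR4_ok rfl hD s23 DR4_r23
  have s25 := St.run DR4_ok rfl hD s24 DR4_r24
  have s26 := St.run DR4_ok rfl hD s25 DR4_r25
  have s27 := St.run DR4_ok rfl hD s26 DR4_r26
  have s28 := St.run DR4_ok rfl hD s27 DR4_r27
  have s29 := St.run DR4_ok rfl hD s28 DR4_r28
  exact ⟨_, St.final s29 DR4_x⟩

end Crest.Agent.R163.DE
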