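import Crest.Agent.R163.Main
import Crest.Agent.R163.BP0
import Crest.Agent.R163.BP1
import Crest.Agent.R163.BP2
import Crest.Agent.R163.BP3
import Crest.Agent.R163.BP4
import Crest.Agent.R163.BP5
import Crest.Agent.R163.BP6
import Crest.Agent.R163.BR8
import Crest.Agent.R163.BR7
import Crest.Agent.R163.BR6a
import Crest.Agent.R163.BR6b
import Crest.Agent.R163.BR5a
import Crest.Agent.R163.BR5b
import Crest.Agent.R163.BR5c
import Crest.Agent.R163.BR4
import Crest.Agent.R163.DP0
import Crest.Agent.R163.DP1
import Crest.Agent.R163.DP2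
import Crest.Agent.R163.DP3
import Crest.Agent.R163.DP4
import Crest.Agent.R163.DP5
import Crest.Agent.R163.DP6
import Crest.Agent.R163.DQ0
import Crest.Agent.R163.DQ1
import Crest.Agent.R163.DQ2
import Crest.Agent.R163.DQ3
import Crest.Agent.R163.DR4

/-! Row 163: the certified antiferromagnetic case. -/

set_option autoImplicit false

namespace Crest.Agent.R163

open Ck DE

theorem de_use {dn en lo : ℕ} {s0 d ε : ℝ}
    (h : ∀ (h0 : (0 : ℝ) ≤ ((1048576 : ℕ) : ℝ) / (dn : ℝ)) (ht : Tok 3 (-((en : ℝ) / ((1024 : ℕ) : ℝ)))),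
      ∃ n, (gwL 3 (((1048576 : ℕ) : ℝ) / (dn : ℝ)) h0 (-((en : ℝ) / ((1024 : ℕ) : ℝ))) ht n).X ≤ s0)
    (hdn : dn = lo ^ 2) (hlo : 0 < lo) (hen : en ≤ 512) (hd : 0 ≤ d) (ht : Tok 3 (-ε)) (hε : 0 < ε)
    (hc : d * ε ^ 2 = 1) (h1 : (lo : ℝ) ≤ 1024 * ε) (h2 : 1024 * ε ≤ en) :
    ∃ n, (gwL 3 d hd (-ε) ht n).X ≤ s0 := by
  have hen' : (en : ℝ) ≤ 512 := by exact_mod_cast hen
  have hlo' : (0 : ℝ) < lo := by exact_mod_cast hlo
  have hpos : (0 : ℝ) < en := by linarith
  have ht' : Tok 3 (-((en : ℝ) / ((1024 : ℕ) : ℝ))) := by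
    constructor <;> push_cast <;> linarith
  obtain ⟨n, hn⟩ := h (by positivity) ht'
  have hdd : d ≤ ((1048576 : ℕ) : ℝ) / (dn : ℝ) := by
    rw [hdn]
    push_cast
    rw [le_div_iff₀ (by positivity)]
    have : (lo : ℝ) ^ 2 ≤ (1024 * ε) ^ 2 := by gcongr
    nlinarith
  refine ⟨n, le_trans (gwL_mono hd (by positivity) hdd ht ht' (c := 1024 * ε / en) (by positivity)
    ((div_le_one hpos).2 h2) ?_ n).X hn⟩
  push_cast
  field_simp

theorem poi_of {B : Bell} {ε s : ℝ} (h : B.Checked ε s (128 / 128)) (hr : B.reg = false)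
    (h0 : 0 < ε) (h1 : ε ≤ 1 / 2) (hs : 0 < s) : BellPoi ε s :=
  Bell.bellPoi (by rwa [div_self (by norm_num)] at h) hr h0.le h1 hs

theorem antiPoiAll : AntiPoiAll := by
  intro d ε hd ht hε hc
  have h12 : ε ≤ 1 / 2 := by
    have := ht.2
    push_cast at this
    linarith
  have hX : (gwL 3 d hd (-ε) ht 0).X ≤ 2 := by
    have := (gwL 3 d hd (-ε) ht 0).X_le
    push_cast at this
    linarith
  rcases le_total (256 * ε) 96 with a0 | a0
  · exact ⟨2, 0, hX, fun s hs h2 => poi_of (BP0_checked (by linarith) a0 (by linarith) (by linarith))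
      rfl hε h12 hs⟩
  rcases le_total (256 * ε) 104 with a1 | a1
  · refine ⟨2, 0, hX, fun s hs h2 => ?_⟩
    rcases le_total (64 * s) 48 with b | b
    · exact poi_of (BP1_checked a0 a1 (by linarith) b) rfl hε h12 hs
    · exact poi_of (BP2_checked a0 a1 b (by linarith)) rfl hε h12 hs
  rcases le_total (256 * ε) 112 with a2 | a2
  · refine ⟨2, 0, hX, fun s hs h2 => ?_⟩
    rcases le_total (64 * s) 40 with b | b
    · exact poi_of (BP3_checked a1 a2 (by linarith) b) rfl hε h12 hs
    · exact poi_of (BP4_checked a1 a2 b (by linarith)) rfl hε h12 hs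
  rcases le_total (256 * ε) 120 with a3 | a3
  · have key : ∃ n, (gwL 3 d hd (-ε) ht n).X ≤ ((3 : ℕ) : ℝ) / ((8 : ℕ) : ℝ) := by
      rcases le_total (1024 * ε) 456 with c3 | c3
      · exact de_use (lo := 448) DQ3_X (by norm_num) (by norm_num) (by norm_num) hd ht hε hc
          (by push_cast; linarith) (by push_cast; linarith)
      rcases le_total (1024 * ε) 464 with c2 | c2
      · exact de_use (lo := 456) DQ2_X (by norm_num) (by norm_num) (by norm_num) hd ht hε hc
          (by push_cast; linarith) (by push_cast; linarith)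
      rcases le_total (1024 * ε) 472 with c1 | c1
      · exact de_use (lo := 464) DQ1_X (by norm_num) (by norm_num) (by norm_num) hd ht hε hc
          (by push_cast; linarith) (by push_cast; linarith)
      exact de_use (lo := 472) DQ0_X (by norm_num) (by norm_num) (by norm_num) hd ht hε hc
        (by push_cast; linarith) (by push_cast; linarith)
    obtain ⟨n, hn⟩ := key
    refine ⟨_, n, hn, fun s hs h2 => ?_⟩
    push_cast at h2
    exact poi_of (BP5_checked a2 a3 (by linarith) (by linarith)) rfl hε h12 hs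
  · have key : ∃ n, (gwL 3 d hd (-ε) ht n).X ≤ ((1 : ℕ) : ℝ) / ((4 : ℕ) : ℝ) := by
      rcases le_total (1024 * ε) 484 with c6 | c6
      · exact de_use (lo := 480) DP6_X (by norm_num) (by norm_num) (by norm_num) hd ht hε hc
          (by push_cast; linarith) (by push_cast; linarith)
      rcases le_total (1024 * ε) 488 with c5 | c5
      · exact de_use (lo := 484) DP5_X (by norm_num) (by norm_num) (by norm_num) hd ht hε hc
          (by push_cast; linarith) (by push_cast; linarith)
      rcases le_total (1024 * ε) 493 with c4 | c4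
      · exact de_use (lo := 488) DP4_X (by norm_num) (by norm_num) (by norm_num) hd ht hε hc
          (by push_cast; linarith) (by push_cast; linarith)
      rcases le_total (1024 * ε) 497 with c3 | c3
      · exact de_use (lo := 493) DP3_X (by norm_num) (by norm_num) (by norm_num) hd ht hε hc
          (by push_cast; linarith) (by push_cast; linarith)
      rcases le_total (1024 * ε) 502 with c2 | c2
      · exact de_use (lo := 497) DP2_X (by norm_num) (by norm_num) (by norm_num) hd ht hε hc
          (by push_cast; linarith) (by push_cast; linarith)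
      rcases le_total (1024 * ε) 507 with c1 | c1
      · exact de_use (lo := 502) DP1_X (by norm_num) (by norm_num) (by norm_num) hd ht hε hc
          (by push_cast; linarith) (by push_cast; linarith)
      exact de_use (lo := 507) DP0_X (by norm_num) (by norm_num) (by norm_num) hd ht hε hc
        (by push_cast; linarith) (by push_cast; linarith)
    obtain ⟨n, hn⟩ := key
    refine ⟨_, n, hn, fun s hs h2 => ?_⟩
    push_cast at h2
    exact poi_of (BP6_checked a3 (by linarith) (by linarith) (by linarith)) rfl hε h12 hs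

theorem antiRegAll : AntiRegAll := by
  intro b ε ht hb hε hc
  have h12 : ε ≤ 1 / 2 := by
    have := ht.2
    push_cast at this
    linarith
  have hX : (regLaw 3 b (-ε) ht 0).X ≤ 2 := by
    have := (regLaw 3 b (-ε) ht 0).X_le
    push_cast at this
    linarith
  rcases Nat.lt_or_ge b 8 with h8 | h8
  · interval_cases b
    · have e : ε = ((1 : ℕ) : ℝ) / ((2 : ℕ) : ℝ) := by
        push_cast at hc ⊢
        nlinarith
      subst e
      obtain ⟨n, hn⟩ := DR4_X ht
      refine ⟨_, n, hn, fun s hs h2 => ?_⟩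
      push_cast at h2
      exact Bell.bellReg (BR4_checked (by norm_num) (by norm_num) (by linarith) (by linarith)) rfl
        hε.le h12 hs hc (by norm_num)
    · have hc' := hc
      push_cast at hc'
      have e0 : (1831 : ℝ) ≤ 4096 * ε := by nlinarith
      have e1 : 4096 * ε ≤ (1832 : ℝ) := by nlinarith
      refine ⟨2, 0, hX, fun s hs h2 => ?_⟩
      rcases le_total (64 * s) 44 with c | c
      · exact Bell.bellReg (BR5a_checked e0 e1 (by linarith) c hc) rfl hε.le h12 hs hc (by linarith)
      rcases le_total (64 * s) 68 with c' | c'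
      · exact Bell.bellReg (BR5b_checked e0 e1 c c' hc) rfl hε.le h12 hs hc (by linarith)
      · exact Bell.bellReg (BR5c_checked e0 e1 c' (by linarith) hc) rfl hε.le h12 hs hc (by linarith)
    · have hc' := hc
      push_cast at hc'
      have e0 : (1672 : ℝ) ≤ 4096 * ε := by nlinarith
      have e1 : 4096 * ε ≤ (1673 : ℝ) := by nlinarith
      refine ⟨2, 0, hX, fun s hs h2 => ?_⟩
      rcases le_total (64 * s) 64 with c | c
      · exact Bell.bellReg (BR6a_checked e0 e1 (by linarith) c hc) rfl hε.le h12 hs hc (by linarith)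
      · exact Bell.bellReg (BR6b_checked e0 e1 c (by linarith) hc) rfl hε.le h12 hs hc (by linarith)
    · have hc' := hc
      push_cast at hc'
      have e0 : (1548 : ℝ) ≤ 4096 * ε := by nlinarith
      have e1 : 4096 * ε ≤ (1549 : ℝ) := by nlinarith
      exact ⟨2, 0, hX, fun s hs h2 => Bell.bellReg
        (BR7_checked e0 e1 (by linarith) (by linarith) hc) rfl hε.le h12 hs hc (by linarith)⟩
  · have h8' : (8 : ℝ) ≤ b := by exact_mod_cast h8
    have e2 : 8 * ε ^ 2 ≤ 1 := by nlinarith [sq_nonneg ε]
    have e1 : 256 * ε ≤ (91 : ℝ) := by nlinarith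
    exact ⟨2, 0, hX, fun s hs h2 => Bell.bellReg
      (BR8_checked (by linarith) e1 (by linarith) (by linarith)) rfl hε.le h12 hs hc
      (by nlinarith [sq_nonneg ε])⟩

end Crest.Agent.R163
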