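import Crest.Agent.R163.Order

/-! Row 163: Bellman certificates exclude a positive limit (Poisson tree). -/

set_option autoImplicit false

namespace Crest.Agent.R163

open Finset Filter

namespace AntiPoiH

theorem summable_ser (x : ℝ) {a : ℕ → ℝ} {C : ℝ} (h : ∀ k, |a k| ≤ C) :
    Summable (fun k : ℕ => x ^ k / k.factorial * a k) := by
  refine Summable.of_norm_bounded ((Real.summable_pow_div_factorial |x|).mul_right C) fun k => ?_
  rw [Real.norm_eq_abs, abs_mul, abs_div, abs_pow, Nat.abs_cast]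
  exact mul_le_mul_of_nonneg_left (h k) (by positivity)

theorem hasDerivAt_ser (x : ℝ) {a : ℕ → ℝ} {C : ℝ} (h : ∀ k, |a k| ≤ C) :
    HasDerivAt (fun z : ℝ => ∑' k : ℕ, z ^ k / k.factorial * a k)
      (∑' k : ℕ, x ^ k / k.factorial * a (k + 1)) x := by
  have e : (fun z : ℝ => ∑' k : ℕ, z ^ k / k.factorial * a k) =
      fun z => a 0 + ∑' k : ℕ, z ^ (k + 1) / (k + 1).factorial * a (k + 1) := by
    funext z
    rw [(summable_ser z h).tsum_eq_zero_add]
    simp
  rw [e]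
  refine HasDerivAt.const_add _ ?_
  refine hasDerivAt_tsum_of_isPreconnected (t := Metric.ball 0 (|x| + 1)) (y₀ := 0)
    (g := fun (k : ℕ) (z : ℝ) => z ^ (k + 1) / (k + 1).factorial * a (k + 1))
    (g' := fun (k : ℕ) (z : ℝ) => z ^ k / k.factorial * a (k + 1))
    ((Real.summable_pow_div_factorial (|x| + 1)).mul_right C) Metric.isOpen_ball
    (convex_ball _ _).isPreconnected (fun k y _ => ?_) (fun k y hy => ?_)
    (Metric.mem_ball_self (by positivity)) (by simp) (by simp)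
  · have := ((hasDerivAt_pow (k + 1) y).div_const ((k + 1).factorial : ℝ)).mul_const (a (k + 1))
    refine this.congr_deriv ?_
    rw [Nat.factorial_succ, Nat.add_sub_cancel]
    push_cast
    field_simp
  · rw [Real.norm_eq_abs, abs_mul, abs_div, abs_pow, Nat.abs_cast]
    have hy' : |y| ≤ |x| + 1 := by
      have := mem_ball_zero_iff.1 hy
      rw [Real.norm_eq_abs] at this
      exact this.le
    refine mul_le_mul ?_ (h _) (abs_nonneg _) (by positivity)
    gcongr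

/-- the Poisson average -/
noncomputable def pav (a : ℕ → ℝ) (x : ℝ) : ℝ := ∑' k, poisW x k * a k

theorem pav_eq (a : ℕ → ℝ) (x : ℝ) :
    pav a x = Real.exp (-x) * ∑' k : ℕ, x ^ k / k.factorial * a k := by
  rw [pav, ← tsum_mul_left]
  refine tsum_congr fun k => ?_
  unfold poisW
  ring

theorem pav_zero (a : ℕ → ℝ) : pav a 0 = a 0 := by
  rw [pav, tsum_eq_single 0]
  · simp [poisW]
  · intro k hk
    simp [poisW, hk]

theorem hasDerivAt_pav (x : ℝ) {a : ℕ → ℝ} {C : ℝ} (h : ∀ k, |a k| ≤ C) :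
    HasDerivAt (pav a) (pav (fun k => a (k + 1)) x - pav a x) x := by
  have e : pav a = fun z => Real.exp (-z) * ∑' k : ℕ, z ^ k / k.factorial * a k :=
    funext (pav_eq a)
  have h1 : HasDerivAt (fun z : ℝ => Real.exp (-z)) (Real.exp (-x) * -1) x :=
    (hasDerivAt_neg x).exp
  have h2 := h1.mul (hasDerivAt_ser x h)
  rw [pav_eq, pav_eq, e]
  refine h2.congr_deriv ?_
  ring

theorem hasSum_pav {x : ℝ} (hx : 0 ≤ x) {a : ℕ → ℝ} {C : ℝ} (h : ∀ k, |a k| ≤ C) :
    HasSum (fun k => poisW x k * a k) (pav a x) := (summable_poisW_mul hx h).hasSum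

/-- the interpolation inequality -/
theorem interp {R : ℕ} {a : ℕ → ℕ → ℝ} {B : ℕ → ℝ} (hB : ∀ j k, |a j k| ≤ B j) {d e K : ℝ}
    (hd : 0 ≤ d) (hc : d * e = 1)
    (h : ∀ θ ∈ Set.Icc (0 : ℝ) 1, ∀ k, ∑ j ∈ range (R + 1), θ ^ j * a j (k + 1) ≤
      ∑ j ∈ range (R + 1), θ ^ j * a j k +
        e * (K + ∑ j ∈ range (R + 1), j * θ ^ (j - 1) * a j k)) :
    pav (a 0) d ≤ ∑ j ∈ range (R + 1), a j 0 + K := by
  set F : ℝ → ℝ := fun τ => ∑ j ∈ range (R + 1), (1 - τ) ^ j * pav (a j) (d * τ) with hF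
  set F' : ℝ → ℝ := fun τ => ∑ j ∈ range (R + 1),
    (j * (1 - τ) ^ (j - 1) * -1 * pav (a j) (d * τ) +
      (1 - τ) ^ j * ((pav (fun k => a j (k + 1)) (d * τ) - pav (a j) (d * τ)) * d)) with hF'
  have hder : ∀ τ, HasDerivAt F (F' τ) τ := by
    intro τ
    refine HasDerivAt.fun_sum fun j _ => ?_
    have h1 : HasDerivAt (fun τ : ℝ => 1 - τ) (-1) τ := by
      simpa using (hasDerivAt_id τ).const_sub 1
    have h2 : HasDerivAt (fun τ : ℝ => d * τ) d τ := by
      simpa using (hasDerivAt_id τ).const_mul d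
    exact (h1.fun_pow j).mul ((hasDerivAt_pav (d * τ) (hB j)).comp τ h2)
  have hle : ∀ τ ∈ Set.Icc (0 : ℝ) 1, F' τ ≤ K := by
    intro τ hτ
    have hθ : 1 - τ ∈ Set.Icc (0 : ℝ) 1 := ⟨by linarith [hτ.2], by linarith [hτ.1]⟩
    have hx : 0 ≤ d * τ := mul_nonneg hd hτ.1
    have s1 := hasSum_sum fun j (_ : j ∈ range (R + 1)) =>
      (hasSum_pav hx (a := fun k => a j (k + 1)) fun k => hB j (k + 1)).mul_left ((1 - τ) ^ j)
    have s2 := hasSum_sum fun j (_ : j ∈ range (R + 1)) =>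
      (hasSum_pav hx (hB j)).mul_left ((1 - τ) ^ j)
    have s3 := hasSum_sum fun j (_ : j ∈ range (R + 1)) =>
      (hasSum_pav hx (hB j)).mul_left (j * (1 - τ) ^ (j - 1))
    have s4 := s2.add ((((hasSum_poisW (d * τ)).mul_right K).add s3).mul_left e)
    have s5 := hasSum_le (fun k => ?_) s1 s4
    · have s6 := mul_le_mul_of_nonneg_left s5 hd
      rw [mul_add, ← mul_assoc d e, hc, one_mul, one_mul] at s6
      have e1 : F' τ = d * ∑ j ∈ range (R + 1), (1 - τ) ^ j * pav (fun k => a j (k + 1)) (d * τ) -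
          d * ∑ j ∈ range (R + 1), (1 - τ) ^ j * pav (a j) (d * τ) -
          ∑ j ∈ range (R + 1), j * (1 - τ) ^ (j - 1) * pav (a j) (d * τ) := by
        simp only [hF', mul_sum, ← sum_sub_distrib]
        exact sum_congr rfl fun j _ => by ring
      rw [e1]
      linarith
    · have s7 := mul_le_mul_of_nonneg_left (h _ hθ k) (poisW_nonneg hx k)
      have e2 : ∀ c : ℕ → ℝ, ∀ b : ℕ → ℝ, ∑ j ∈ range (R + 1), c j * (poisW (d * τ) k * b j) =
          poisW (d * τ) k * ∑ j ∈ range (R + 1), c j * b j := by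
        intro c b
        rw [mul_sum]
        exact sum_congr rfl fun j _ => by ring
      rw [e2, e2, e2]
      refine s7.trans (le_of_eq ?_)
      ring
  have hmv := (convex_Icc (0 : ℝ) 1).image_sub_le_mul_sub_of_deriv_le
    (f := F) (fun τ _ => (hder τ).continuousAt.continuousWithinAt)
    (fun τ _ => (hder τ).differentiableAt.differentiableWithinAt) (C := K)
    (fun τ hτ => by rw [(hder τ).deriv]; exact hle τ (interior_subset hτ))
    0 (Set.left_mem_Icc.2 zero_le_one) 1 (Set.right_mem_Icc.2 zero_le_one) zero_le_one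
  have e0 : F 0 = ∑ j ∈ range (R + 1), a j 0 := by
    simp only [hF, sub_zero, one_pow, one_mul, mul_zero, pav_zero]
  have e1 : F 1 = pav (a 0) d := by
    simp only [hF, sub_self, mul_one]
    rw [sum_range_succ']
    simp
  rw [e0, e1] at hmv
  linarith

/-- one multiplication step -/
theorem star_step {ε s C : ℝ} (ht : Tok 3 (-ε)) (W μ : Law 3) {f g v γ : Vec 3 → ℝ}
    (hf : BddS f) (hg : BddS g) (hv : BddS v) (hγ : ∀ w, Simp w → |γ w| ≤ C)
    (h : ∀ w p, Simp w → Simp p →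
      sAv f w (Tv (-ε) p) ≤ f w + ε ^ 2 * (v p + g w + (fx p - s) * γ w)) :
    (W.star (μ.T (-ε) ht)).Ex f ≤ W.Ex f + ε ^ 2 * ((μ.Ex v + C * |μ.X - s|) + W.Ex g) := by
  obtain ⟨e, hb⟩ := W.star_Ex (μ.T (-ε) ht) hf
  rw [e]
  have h1 : ∀ w, Simp w → (μ.T (-ε) ht).Ex (sAv f w) ≤
      f w + ε ^ 2 * ((μ.Ex v + C * |μ.X - s|) + g w) := by
    intro w hw
    have hs := (adm_sAv hf hw.1).bddS
    rw [μ.Ex_T hs]
    have b1 : BddS fun p : Vec 3 => fx p - s := bddS_fx.sub (bddS_const s)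
    have b2 := b1.mul (bddS_const (γ w))
    have b3 := hv.add (bddS_const (g w))
    have h2 := μ.Ex_mono (hs.comp_Tv ht) ((bddS_const (f w)).add ((b3.add b2).smul (ε ^ 2)))
      fun p hp => h w p hw hp
    rw [μ.Ex_add (bddS_const _) ((b3.add b2).smul _), μ.Ex_const, μ.Ex_smul _ (b3.add b2),
      μ.Ex_add b3 b2, μ.Ex_add hv (bddS_const _), μ.Ex_const, μ.Ex_mul_const _ b1,
      μ.Ex_sub bddS_fx (bddS_const _), μ.Ex_const] at h2
    refine h2.trans (add_le_add le_rfl (mul_le_mul_of_nonneg_left ?_ (sq_nonneg _)))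
    have h3 : (μ.Ex fx - s) * γ w ≤ C * |μ.X - s| := by
      refine (le_abs_self _).trans ?_
      rw [abs_mul, mul_comm]
      exact mul_le_mul_of_nonneg_right (hγ w hw) (abs_nonneg _)
    linarith
  have b4 := (bddS_const (μ.Ex v + C * |μ.X - s|)).add hg
  have h4 := W.Ex_mono hb (hf.add (b4.smul (ε ^ 2))) h1
  rwa [W.Ex_add hf (b4.smul _), W.Ex_smul _ b4, W.Ex_add (bddS_const _) hg, W.Ex_const] at h4

theorem Ex_comb (W : Law 3) (R : ℕ) (c : ℕ → ℝ) {u : ℕ → Vec 3 → ℝ} (hu : ∀ j, BddS (u j)) :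
    W.Ex (fun r => ∑ j ∈ range (R + 1), c j * u j r) = ∑ j ∈ range (R + 1), c j * W.Ex (u j) := by
  rw [W.Ex_sum _ fun j _ => (hu j).smul _]
  exact sum_congr rfl fun j _ => W.Ex_smul _ (hu j)

end AntiPoiH

open AntiPoiH in
theorem anti_poi {d ε : ℝ} (hd : 0 ≤ d) (ht : Tok 3 (-ε)) (hc : d * ε ^ 2 = 1) {s0 : ℝ} {n0 : ℕ}
    (h0 : (gwL 3 d hd (-ε) ht n0).X ≤ s0) (hB : ∀ s, 0 < s → s ≤ s0 → BellPoi ε s) :
    Tendsto (fun n => (gwL 3 d hd (-ε) ht n).X) atTop (nhds 0) := by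
  set X : ℕ → ℝ := fun n => (gwL 3 d hd (-ε) ht n).X with hX
  have hanti : Antitone X := antitone_nat_of_succ_le fun n => (gwL_succ_le d hd (-ε) ht n).X
  have hbdd : BddBelow (Set.range X) := ⟨0, by rintro _ ⟨n, rfl⟩; exact Law.X_nonneg _⟩
  have hlim := tendsto_atTop_ciInf hanti hbdd
  set s := ⨅ n, X n with hs
  have hs0 : 0 ≤ s := le_ciInf fun n => Law.X_nonneg _
  rcases hs0.eq_or_lt with h | h
  · rwa [← h] at hlim
  exfalso
  obtain ⟨R, u, γ, C, hu, hγ, hneg, hb⟩ := hB s h ((ciInf_le hbdd n0).trans h0)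
  choose B hBu using hu
  have hu : ∀ j, BddS (u j) := fun j => ⟨B j, hBu j⟩
  set c := ∑ j ∈ range (R + 1), u j 1 with hc'
  set Φ : ℕ → ℝ := fun n => (gwL 3 d hd (-ε) ht n).Ex (u 0) with hΦ
  have hstep : ∀ n, Φ (n + 1) ≤ c + (Φ n + C * |X n - s|) := by
    intro n
    have := interp (R := R) (a := fun j k => (((gwL 3 d hd (-ε) ht n).T (-ε) ht).pow k).Ex (u j))
      (B := B) (fun j k => Law.abs_Ex_le _ (hBu j)) hd hc (K := Φ n + C * |X n - s|)
      (fun θ hθ k => by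
        have h1 := star_step (s := s) ht (((gwL 3 d hd (-ε) ht n).T (-ε) ht).pow k)
          (gwL 3 d hd (-ε) ht n) (f := fun r => ∑ j ∈ range (R + 1), θ ^ j * u j r)
          (g := fun r => ∑ j ∈ range (R + 1), j * θ ^ (j - 1) * u j r) (v := u 0) (γ := γ θ)
          (BddS.sum _ fun j _ => (hu j).smul _) (BddS.sum _ fun j _ => (hu j).smul _) (hu 0)
          (hγ θ hθ) (hb θ hθ)
        rw [Ex_comb _ R _ hu, Ex_comb _ R _ hu, Ex_comb _ R _ hu] at h1
        exact h1)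
    have e : ∑ j ∈ range (R + 1), (((gwL 3 d hd (-ε) ht n).T (-ε) ht).pow 0).Ex (u j) = c :=
      sum_congr rfl fun j _ => Law.one_Ex _
    rw [e] at this
    exact this
  have hev : ∀ᶠ n in atTop, C * |X n - s| < -c / 2 := by
    have h1 : Tendsto (fun n => C * |X n - s|) atTop (nhds (C * |s - s|)) :=
      ((hlim.sub_const s).abs).const_mul C
    rw [sub_self, abs_zero, mul_zero] at h1
    exact h1.eventually (gt_mem_nhds (by linarith))
  obtain ⟨N, hN⟩ := eventually_atTop.1 hev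
  have hdec : ∀ m : ℕ, Φ (N + m) ≤ Φ N + m * (c / 2) := by
    intro m
    induction m with
    | zero => simp
    | succ m ih =>
      have h1 := hstep (N + m)
      have h2 := hN (N + m) (Nat.le_add_right _ _)
      rw [← add_assoc]
      push_cast
      linarith
  have hΦB : ∀ n, |Φ n| ≤ B 0 := fun n => Law.abs_Ex_le _ (hBu 0)
  obtain ⟨m, hm⟩ := exists_nat_gt (2 * B 0 / (-c / 2))
  rw [div_lt_iff₀ (by linarith)] at hm
  have h1 := hdec m
  have h2 := (abs_le.1 (hΦB (N + m))).1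
  have h3 := (abs_le.1 (hΦB N)).2
  linarith

end Crest.Agent.R163
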