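import Crest.Agent.R163.Iface

/-! Row 163: total variation versus chi-square. -/

set_option autoImplicit false

namespace Crest.Agent.R163

open Finset Filter

variable {q : ℕ} [NeZero q]

namespace OrderCH

theorem qpos : (0 : ℝ) < q := Nat.cast_pos.2 (Nat.pos_of_ne_zero (NeZero.ne q))

theorem TV_eq (P : Vec q) : TV P = (1 / (2 * q)) * ∑ i, |P i - av P| := by
  unfold TV av
  simp only [one_div, div_eq_inv_mul, mul_one]

theorem TV_nonneg (P : Vec q) : 0 ≤ TV P := by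
  have := qpos (q := q)
  rw [TV_eq]
  positivity

theorem TV_sq_le {p : Vec q} (hp : Simp p) : TV p ^ 2 ≤ fx p := by
  have hq := qpos (q := q)
  have h := sq_sum_le_card_mul_sum_sq (s := (univ : Finset (Fin q))) (f := fun i => |p i - 1|)
  simp only [card_univ, Fintype.card_fin, sq_abs] at h
  have h0 : 0 ≤ ∑ i, (p i - 1) ^ 2 := sum_nonneg fun i _ => sq_nonneg _
  rw [TV_eq, hp.2]
  unfold fx mom
  rw [mul_pow, le_div_iff₀ hq]
  have e : (1 / (2 * (q : ℝ))) ^ 2 * (∑ i, |p i - 1|) ^ 2 * q = (∑ i, |p i - 1|) ^ 2 / (4 * q) := by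
    field_simp
    ring
  rw [e, div_le_iff₀ (by positivity)]
  nlinarith

theorem fx_le_TV {p : Vec q} (hp : Simp p) : fx p ≤ 2 * q * TV p := by
  have hq := qpos (q := q)
  have hq1 : (1 : ℝ) ≤ q := by exact_mod_cast NeZero.one_le
  rw [TV_eq, hp.2]
  unfold fx mom
  have e : 2 * (q : ℝ) * (1 / (2 * q) * ∑ i, |p i - 1|) = ∑ i, |p i - 1| := by field_simp
  rw [e, div_le_iff₀ hq, sum_mul]
  refine sum_le_sum fun i _ => ?_
  have h1 := le_av hp.1 i
  rw [hp.2, mul_one] at h1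
  have h2 : |p i - 1| ≤ q := abs_le.2 ⟨by linarith [hp.1 i], by linarith⟩
  rw [← sq_abs, sq]
  exact mul_le_mul_of_nonneg_left h2 (abs_nonneg _)

end OrderCH

open OrderCH

theorem adm_TV : Adm (TV : Vec q → ℝ) := by
  have hq := qpos (q := q)
  refine ⟨fun c hc P _ => ?_, 1, fun P hP => ?_⟩
  · simp only [TV_eq, av_smul, Pi.smul_apply, smul_eq_mul, ← mul_sub, abs_mul, abs_of_nonneg hc,
      ← mul_sum]
    ring
  · rw [abs_of_nonneg (TV_nonneg P), TV_eq, one_mul]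
    have h1 : ∑ i, |P i - av P| ≤ ∑ i, (P i + av P) := sum_le_sum fun i _ =>
      abs_le.2 ⟨by linarith [hP i], by linarith [av_nonneg hP]⟩
    have h2 : ∑ i, P i = q * av P := by unfold av; field_simp
    rw [sum_add_distrib, h2, sum_const, card_univ, Fintype.card_fin, nsmul_eq_mul] at h1
    rw [one_div, inv_mul_le_iff₀ (by positivity)]
    linarith

theorem Law.E_TV_nonneg (L : Law q) : 0 ≤ L.E TV := L.nonneg adm_TV fun P _ => TV_nonneg P

theorem Law.E_TV_sq_le (L : Law q) : (L.E TV) ^ 2 ≤ L.X := by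
  have hb : BddS (TV : Vec q → ℝ) := adm_TV.bddS
  rw [L.E_eq_Ex adm_TV]
  have h := L.Ex_mono ((hb.smul (2 * L.Ex TV)).sub (bddS_const (L.Ex TV ^ 2))) bddS_fx
    fun p hp => by nlinarith [sq_nonneg (TV p - L.Ex TV), TV_sq_le hp]
  rw [L.Ex_sub (hb.smul _) (bddS_const _), L.Ex_smul _ hb, L.Ex_const] at h
  unfold Law.X
  nlinarith

theorem Law.X_le_TV (L : Law q) : L.X ≤ 2 * q * L.E TV := by
  have hb : BddS (TV : Vec q → ℝ) := adm_TV.bddS
  rw [L.E_eq_Ex adm_TV, ← L.Ex_smul _ hb]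
  exact L.Ex_mono bddS_fx (hb.smul _) fun p hp => fx_le_TV hp

theorem tendsto_TV_of_X {L : ℕ → Law q} (h : Tendsto (fun n => (L n).X) atTop (nhds 0)) :
    Tendsto (fun n => (L n).E TV) atTop (nhds 0) := by
  have h1 := h.sqrt
  rw [Real.sqrt_zero] at h1
  exact squeeze_zero (fun n => (L n).E_TV_nonneg)
    (fun n => Real.le_sqrt_of_sq_le (L n).E_TV_sq_le) h1

end Crest.Agent.R163
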