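import Crest.Agent.R163.PowEq
import Crest.Agent.R163.Order

/-! Row 163: Bellman certificates exclude a positive limit (regular tree). -/

set_option autoImplicit false

namespace Crest.Agent.R163

open Finset Filter

namespace AntiRegH

theorem step {ε s C : ℝ} (ht : Tok 3 (-ε)) (W μ : Law 3) {U U' U0 γ : Vec 3 → ℝ} (hU : BddS U)
    (hU' : BddS U') (hU0 : BddS U0) (hγ : ∀ w, Simp w → |γ w| ≤ C)
    (H : ∀ w p, Simp w → Simp p →
      sAv U w (Tv (-ε) p) ≤ U' w + ε ^ 2 * (U0 p + (fx p - s) * γ w)) :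
    (W.star (μ.T (-ε) ht)).Ex U ≤ W.Ex U' + ε ^ 2 * (μ.Ex U0 + |μ.X - s| * C) := by
  obtain ⟨e, hb⟩ := W.star_Ex (μ.T (-ε) ht) hU
  rw [e, ← W.Ex_const (ε ^ 2 * (μ.Ex U0 + |μ.X - s| * C)), ← W.Ex_add hU' (bddS_const _)]
  refine W.Ex_mono hb (hU'.add (bddS_const _)) fun w hw => ?_
  have h1 := (adm_sAv hU hw.1).bddS
  have h2 : BddS (fun p : Vec 3 => (fx p - s) * γ w) :=
    (bddS_fx.sub (bddS_const s)).mul (bddS_const _)
  rw [μ.Ex_T h1]
  have h3 := μ.Ex_mono (h1.comp_Tv ht) ((bddS_const (U' w)).add ((hU0.add h2).smul (ε ^ 2)))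
    fun p hp => H w p hw hp
  rw [μ.Ex_add (bddS_const _) ((hU0.add h2).smul _), μ.Ex_const, μ.Ex_smul _ (hU0.add h2),
    μ.Ex_add hU0 h2, μ.Ex_mul_const _ (bddS_fx.sub (bddS_const s)),
    μ.Ex_sub bddS_fx (bddS_const s), μ.Ex_const] at h3
  refine h3.trans ?_
  have h4 : (μ.Ex fx - s) * γ w ≤ |μ.X - s| * C := by
    refine (le_abs_self _).trans ?_
    rw [abs_mul]
    exact mul_le_mul_of_nonneg_left (hγ w hw) (abs_nonneg _)
  gcongr

theorem unif {γ : ℕ → Vec 3 → ℝ} (h : ∀ k, BddS (γ k)) (b : ℕ) :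
    ∃ C : ℝ, ∀ k < b, ∀ w, Simp w → |γ k w| ≤ C := by
  choose c hc using h
  refine ⟨∑ k ∈ range b, |c k|, fun k hk w hw => (hc k w hw).trans ((le_abs_self _).trans ?_)⟩
  exact single_le_sum (f := fun k => |c k|) (fun _ _ => abs_nonneg _) (mem_range.2 hk)

/-- a bounded sequence cannot eventually drop by a fixed amount at each step -/
theorem no_drop {Φ : ℕ → ℝ} {B δ : ℝ} (hδ : 0 < δ) (hB : ∀ n, |Φ n| ≤ B)
    (h : ∀ᶠ n in atTop, Φ (n + 1) ≤ Φ n - δ) : False := by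
  obtain ⟨N, hN⟩ := eventually_atTop.1 h
  have h1 : ∀ k : ℕ, Φ (N + k) ≤ Φ N - k * δ := by
    intro k
    induction k with
    | zero => simp
    | succ k ih =>
      have := hN (N + k) (Nat.le_add_right _ _)
      rw [← add_assoc]
      push_cast
      linarith
  obtain ⟨k, hk⟩ := exists_nat_gt (2 * B / δ)
  rw [div_lt_iff₀ hδ] at hk
  have h2 := h1 k
  have h3 := (abs_le.1 (hB (N + k))).1
  have h4 := (abs_le.1 (hB N)).2
  linarith

end AntiRegH

open AntiRegH in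
theorem anti_reg {b : ℕ} {ε : ℝ} (ht : Tok 3 (-ε)) (hc : (b : ℝ) * ε ^ 2 = 1) {s0 : ℝ} {n0 : ℕ}
    (h0 : (regLaw 3 b (-ε) ht n0).X ≤ s0) (hB : ∀ s, 0 < s → s ≤ s0 → BellReg ε s b) :
    Tendsto (fun n => (regLaw 3 b (-ε) ht n).X) atTop (nhds 0) := by
  set X : ℕ → ℝ := fun n => (regLaw 3 b (-ε) ht n).X with hX
  have hanti : Antitone X := antitone_nat_of_succ_le fun n => (regLaw_succ_le b (-ε) ht n).X
  have hbd : BddBelow (Set.range X) := ⟨0, by rintro _ ⟨n, rfl⟩; exact Law.X_nonneg _⟩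
  have hlim := tendsto_atTop_ciInf hanti hbd
  set s := ⨅ n, X n with hs
  have hs0 : 0 ≤ s := le_ciInf fun n => Law.X_nonneg _
  rcases hs0.eq_or_lt with h | h
  · rwa [← h] at hlim
  exfalso
  obtain ⟨U, γ, hU, hγ, hneg, H⟩ := hB s h ((ciInf_le hbd n0).trans h0)
  obtain ⟨C, hC⟩ := unif hγ b
  obtain ⟨B, hB⟩ := hU 0
  have key : ∀ n, (regLaw 3 b (-ε) ht (n + 1)).Ex (U 0) ≤
      U b 1 + ((regLaw 3 b (-ε) ht n).Ex (U 0) + |X n - s| * C) := by
    intro n
    set μ := regLaw 3 b (-ε) ht n with hμ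
    have h1 : ∀ i, i ≤ b → ((μ.T (-ε) ht).pow i).Ex (U (b - i)) ≤
        U b 1 + i * (ε ^ 2 * (μ.Ex (U 0) + |μ.X - s| * C)) := by
      intro i
      induction i with
      | zero => intro _; simp [Law.pow, Law.one_Ex]
      | succ i ih =>
        intro hi
        have h2 := ih (by omega)
        have h3 := step ht ((μ.T (-ε) ht).pow i) μ (hU (b - (i + 1))) (hU (b - (i + 1) + 1)) (hU 0)
          (hC (b - (i + 1)) (by omega)) (H (b - (i + 1)) (by omega))
        rw [show b - (i + 1) + 1 = b - i by omega] at h3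
        change (((μ.T (-ε) ht).pow i).star (μ.T (-ε) ht)).Ex _ ≤ _
        push_cast
        linarith
    have h2 := h1 b le_rfl
    rwa [Nat.sub_self, ← mul_assoc, hc, one_mul] at h2
  have h3 : Tendsto (fun n => |X n - s| * C) atTop (nhds 0) := by
    have := ((hlim.sub_const s).abs).mul_const C
    simpa using this
  refine no_drop (Φ := fun n => (regLaw 3 b (-ε) ht n).Ex (U 0)) (B := B) (δ := -U b 1 / 2)
    (by linarith) (fun n => Law.abs_Ex_le _ hB) ?_
  filter_upwards [h3.eventually (gt_mem_nhds (show (0 : ℝ) < -U b 1 / 2 by linarith))] with n hn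
  have := key n
  linarith

end Crest.Agent.R163
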