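import Crest.Agent.R163.BP0D

/-! Row 163: Bellman certificate, kernel checks (generated). -/

set_option autoImplicit false
set_option Elab.async false
set_option maxRecDepth 100000

namespace Crest.Agent.R163.Ck

theorem BP0_p0_0_0 : pcAll 256 BP0_A B8m1b_256_degs B8m1b_256_rp 10 B8m1b_256_cp B8m1b_256_rw BP0_tn (chunk 10 0 B8m1b_256_sw)
    (chunk 1 0 BP0_en) (chunk 1 0 BP0_sn) = true := by decide +kernel

theorem BP0_p0_1_0 : pcAll 256 BP0_A B8m1b_256_degs B8m1b_256_rp 10 B8m1b_256_cp B8m1b_256_rw BP0_tn (chunk 10 0 B8m1b_256_sw)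
    (chunk 1 1 BP0_en) (chunk 1 0 BP0_sn) = true := by decide +kernel

theorem BP0_p0_2_0 : pcAll 256 BP0_A B8m1b_256_degs B8m1b_256_rp 10 B8m1b_256_cp B8m1b_256_rw BP0_tn (chunk 10 0 B8m1b_256_sw)
    (chunk 1 2 BP0_en) (chunk 1 0 BP0_sn) = true := by decide +kernel

theorem BP0_p0_3_0 : pcAll 256 BP0_A B8m1b_256_degs B8m1b_256_rp 10 B8m1b_256_cp B8m1b_256_rw BP0_tn (chunk 10 0 B8m1b_256_sw)
    (chunk 1 3 BP0_en) (chunk 1 0 BP0_sn) = true := by decide +kernel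

theorem BP0_p0_4_0 : pcAll 256 BP0_A B8m1b_256_degs B8m1b_256_rp 10 B8m1b_256_cp B8m1b_256_rw BP0_tn (chunk 10 0 B8m1b_256_sw)
    (chunk 1 4 BP0_en) (chunk 1 0 BP0_sn) = true := by decide +kernel

theorem BP0_p0_5_0 : pcAll 256 BP0_A B8m1b_256_degs B8m1b_256_rp 10 B8m1b_256_cp B8m1b_256_rw BP0_tn (chunk 10 0 B8m1b_256_sw)
    (chunk 1 5 BP0_en) (chunk 1 0 BP0_sn) = true := by decide +kernel

theorem BP0_p0_6_0 : pcAll 256 BP0_A B8m1b_256_degs B8m1b_256_rp 10 B8m1b_256_cp B8m1b_256_rw BP0_tn (chunk 10 0 B8m1b_256_sw)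
    (chunk 1 6 BP0_en) (chunk 1 0 BP0_sn) = true := by decide +kernel

theorem BP0_p0_7_0 : pcAll 256 BP0_A B8m1b_256_degs B8m1b_256_rp 10 B8m1b_256_cp B8m1b_256_rw BP0_tn (chunk 10 0 B8m1b_256_sw)
    (chunk 1 7 BP0_en) (chunk 1 0 BP0_sn) = true := by decide +kernel

theorem BP0_p1_0_0 : pcAll 256 BP0_A B8m1b_256_degs B8m1b_256_rp 10 B8m1b_256_cp B8m1b_256_rw BP0_tn (chunk 10 0 B8m1b_256_sw)
    (chunk 1 0 BP0_en) (chunk 1 1 BP0_sn) = true := by decide +kernel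

theorem BP0_p1_1_0 : pcAll 256 BP0_A B8m1b_256_degs B8m1b_256_rp 10 B8m1b_256_cp B8m1b_256_rw BP0_tn (chunk 10 0 B8m1b_256_sw)
    (chunk 1 1 BP0_en) (chunk 1 1 BP0_sn) = true := by decide +kernel

theorem BP0_p1_2_0 : pcAll 256 BP0_A B8m1b_256_degs B8m1b_256_rp 10 B8m1b_256_cp B8m1b_256_rw BP0_tn (chunk 10 0 B8m1b_256_sw)
    (chunk 1 2 BP0_en) (chunk 1 1 BP0_sn) = true := by decide +kernel

theorem BP0_p1_3_0 : pcAll 256 BP0_A B8m1b_256_degs B8m1b_256_rp 10 B8m1b_256_cp B8m1b_256_rw BP0_tn (chunk 10 0 B8m1b_256_sw)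
    (chunk 1 3 BP0_en) (chunk 1 1 BP0_sn) = true := by decide +kernel

theorem BP0_p1_4_0 : pcAll 256 BP0_A B8m1b_256_degs B8m1b_256_rp 10 B8m1b_256_cp B8m1b_256_rw BP0_tn (chunk 10 0 B8m1b_256_sw)
    (chunk 1 4 BP0_en) (chunk 1 1 BP0_sn) = true := by decide +kernel

theorem BP0_p1_5_0 : pcAll 256 BP0_A B8m1b_256_degs B8m1b_256_rp 10 B8m1b_256_cp B8m1b_256_rw BP0_tn (chunk 10 0 B8m1b_256_sw)
    (chunk 1 5 BP0_en) (chunk 1 1 BP0_sn) = true := by decide +kernel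

theorem BP0_p1_6_0 : pcAll 256 BP0_A B8m1b_256_degs B8m1b_256_rp 10 B8m1b_256_cp B8m1b_256_rw BP0_tn (chunk 10 0 B8m1b_256_sw)
    (chunk 1 6 BP0_en) (chunk 1 1 BP0_sn) = true := by decide +kernel

theorem BP0_p1_7_0 : pcAll 256 BP0_A B8m1b_256_degs B8m1b_256_rp 10 B8m1b_256_cp B8m1b_256_rw BP0_tn (chunk 10 0 B8m1b_256_sw)
    (chunk 1 7 BP0_en) (chunk 1 1 BP0_sn) = true := by decide +kernel

theorem BP0_p2_0_0 : pcAll 256 BP0_A B8m1b_256_degs B8m1b_256_rp 10 B8m1b_256_cp B8m1b_256_rw BP0_tn (chunk 10 0 B8m1b_256_sw)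
    (chunk 1 0 BP0_en) (chunk 1 2 BP0_sn) = true := by decide +kernel

theorem BP0_p2_1_0 : pcAll 256 BP0_A B8m1b_256_degs B8m1b_256_rp 10 B8m1b_256_cp B8m1b_256_rw BP0_tn (chunk 10 0 B8m1b_256_sw)
    (chunk 1 1 BP0_en) (chunk 1 2 BP0_sn) = true := by decide +kernel

theorem BP0_p2_2_0 : pcAll 256 BP0_A B8m1b_256_degs B8m1b_256_rp 10 B8m1b_256_cp B8m1b_256_rw BP0_tn (chunk 10 0 B8m1b_256_sw)
    (chunk 1 2 BP0_en) (chunk 1 2 BP0_sn) = true := by decide +kernel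

theorem BP0_p2_3_0 : pcAll 256 BP0_A B8m1b_256_degs B8m1b_256_rp 10 B8m1b_256_cp B8m1b_256_rw BP0_tn (chunk 10 0 B8m1b_256_sw)
    (chunk 1 3 BP0_en) (chunk 1 2 BP0_sn) = true := by decide +kernel

theorem BP0_p2_4_0 : pcAll 256 BP0_A B8m1b_256_degs B8m1b_256_rp 10 B8m1b_256_cp B8m1b_256_rw BP0_tn (chunk 10 0 B8m1b_256_sw)
    (chunk 1 4 BP0_en) (chunk 1 2 BP0_sn) = true := by decide +kernel

theorem BP0_p2_5_0 : pcAll 256 BP0_A B8m1b_256_degs B8m1b_256_rp 10 B8m1b_256_cp B8m1b_256_rw BP0_tn (chunk 10 0 B8m1b_256_sw)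
    (chunk 1 5 BP0_en) (chunk 1 2 BP0_sn) = true := by decide +kernel

theorem BP0_p2_6_0 : pcAll 256 BP0_A B8m1b_256_degs B8m1b_256_rp 10 B8m1b_256_cp B8m1b_256_rw BP0_tn (chunk 10 0 B8m1b_256_sw)
    (chunk 1 6 BP0_en) (chunk 1 2 BP0_sn) = true := by decide +kernel

theorem BP0_p2_7_0 : pcAll 256 BP0_A B8m1b_256_degs B8m1b_256_rp 10 B8m1b_256_cp B8m1b_256_rw BP0_tn (chunk 10 0 B8m1b_256_sw)
    (chunk 1 7 BP0_en) (chunk 1 2 BP0_sn) = true := by decide +kernel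

theorem BP0_e0_0 : ecAll 256 BP0_E B8m1b_256_degs B8m1b_256_re 15 B8m1b_256_ce BP0_zn (chunk 1 0 BP0_tn) BP0_en1
    (chunk 1 0 BP0_sn) = true := by decide +kernel

theorem BP0_e0_1 : ecAll 256 BP0_E B8m1b_256_degs B8m1b_256_re 15 B8m1b_256_ce BP0_zn (chunk 1 1 BP0_tn) BP0_en1
    (chunk 1 0 BP0_sn) = true := by decide +kernel

theorem BP0_e0_2 : ecAll 256 BP0_E B8m1b_256_degs B8m1b_256_re 15 B8m1b_256_ce BP0_zn (chunk 1 2 BP0_tn) BP0_en1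
    (chunk 1 0 BP0_sn) = true := by decide +kernel

theorem BP0_e1_0 : ecAll 256 BP0_E B8m1b_256_degs B8m1b_256_re 15 B8m1b_256_ce BP0_zn (chunk 1 0 BP0_tn) BP0_en1
    (chunk 1 1 BP0_sn) = true := by decide +kernel

theorem BP0_e1_1 : ecAll 256 BP0_E B8m1b_256_degs B8m1b_256_re 15 B8m1b_256_ce BP0_zn (chunk 1 1 BP0_tn) BP0_en1
    (chunk 1 1 BP0_sn) = true := by decide +kernel

theorem BP0_e1_2 : ecAll 256 BP0_E B8m1b_256_degs B8m1b_256_re 15 B8m1b_256_ce BP0_zn (chunk 1 2 BP0_tn) BP0_en1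
    (chunk 1 1 BP0_sn) = true := by decide +kernel

theorem BP0_e2_0 : ecAll 256 BP0_E B8m1b_256_degs B8m1b_256_re 15 B8m1b_256_ce BP0_zn (chunk 1 0 BP0_tn) BP0_en1
    (chunk 1 2 BP0_sn) = true := by decide +kernel

theorem BP0_e2_1 : ecAll 256 BP0_E B8m1b_256_degs B8m1b_256_re 15 B8m1b_256_ce BP0_zn (chunk 1 1 BP0_tn) BP0_en1
    (chunk 1 2 BP0_sn) = true := by decide +kernel

theorem BP0_e2_2 : ecAll 256 BP0_E B8m1b_256_degs B8m1b_256_re 15 B8m1b_256_ce BP0_zn (chunk 1 2 BP0_tn) BP0_en1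
    (chunk 1 2 BP0_sn) = true := by decide +kernel

theorem BP0_A_eq : BP0.arrP = BP0_A := by decide +kernel

theorem BP0_E_eq : BP0.arrE = BP0_E := by decide +kernel

theorem BP0_G : sc BP0.arrG BP0_en1 BP0_sn = true := by decide +kernel


end Crest.Agent.R163.Ck
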