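import Crest.Agent.R163.B8m1b_256D

/-! Row 163: Bellman certificate, data (generated). -/

set_option autoImplicit false
set_option Elab.async false
set_option maxRecDepth 100000

namespace Crest.Agent.R163.Ck

noncomputable def BP0 : Bell := ⟨false, 8, 3, 3, 2, 8, 32, fs3_8, lams3_8, TT3_8,
  [[[[.ofNat (nat_lit 5961204602627679), .negSucc (nat_lit 1373679151574165), .negSucc (nat_lit 42185167325902403), .ofNat (nat_lit 1346687816235885), .ofNat (nat_lit 86562510166359180), .ofNat (nat_lit 40280879879570916), .negSucc (nat_lit 732870340004240), .negSucc (nat_lit 53554238184255281), .negSucc (nat_lit 41533303954825907), .negSucc (nat_lit 95075451713345453), .ofNat (nat_lit 239540449573089), .ofNat (nat_lit 20631953103631308), .ofNat (nat_lit 40448611300272030), .ofNat (nat_lit 42864443248752216), .ofNat (nat_lit 39987344949258528), .negSucc (nat_lit 47219649226667), .negSucc (nat_lit 4813122557540771), .negSucc (nat_lit 11360336385945527), .negSucc (nat_lit 11942972957986991), .negSucc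 (nat_lit 6934554635569595), .negSucc (nat_lit 12415644651008915), .ofNat (nat_lit 6676495612472520), .ofNat (nat_lit 5166675078747), .ofNat (nat_lit 621484054838382), .ofNat (nat_lit 1728844354058760), .ofNat (nat_lit 1855934822807442), .ofNat (nat_lit 2444491973973516), .ofNat (nat_lit 730202430213396), .negSucc (nat_lit 2213660293119761), .negSucc (nat_lit 13755718617340787), .negSucc (nat_lit 234836654444), .negSucc (nat_lit 34079928774077), .negSucc (nat_lit 109926997700615), .negSucc (nat_lit 120164921922893), .negSucc (nat_lit 177738454632689), .negSucc (nat_lit 20480901598511), .negSucc (nat_lit 101421712397261), .ofNat (nat_lit 827176913305482), .ofNat (nat_lit 1799026479775782), .ofNat (nat_lit 3489989338522116)],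
  [.ofNat (nat_lit 0), .ofNat (nat_lit 0), .ofNat (nat_lit 0), .ofNat (nat_lit 0), .ofNat (nat_lit 0), .ofNat (nat_lit 0), .negSucc (nat_lit 2215710825839), .ofNat (nat_lit 8862843303360), .negSucc (nat_lit 6647132477519), .ofNat (nat_lit 0), .ofNat (nat_lit 205091783460), .ofNat (nat_lit 636324202080), .ofNat (nat_lit 410183566920), .negSucc (nat_lit 5006398209839), .ofNat (nat_lit 3754798657380), .ofNat (nat_lit 951328593792), .negSucc (nat_lit 5428902824351), .ofNat (nat_lit 5747588019288), .ofNat (nat_lit 7126997195592), .negSucc (nat_lit 1549082527127), .negSucc (nat_lit 13137719437583), .ofNat (nat_lit 6289790980392), .negSucc (nat_lit 238418244719), .ofNat (nat_lit 953672978880), .negSucc (nat_lit 243561853259), .negSucc (nat_lit 471692880899), .negSucc (nat_lit 710111125619), .negSucc (nat_lit 1674071321579), .ofNat (nat_lit 4286384796420), .negSucc (nat_lit 1902202349219), .ofNat (nat_lit 0), .ofNat (nat_lit 0), .ofNat (nat_lit 0), .ofNat (nat_lit 0), .ofNat (nat_lit 0),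 .ofNat (nat_lit 0), .ofNat (nat_lit 0), .ofNat (nat_lit 0), .ofNat (nat_lit 0), .ofNat (nat_lit 0)]],
  [[.ofNat (nat_lit 1662573355763697), .negSucc (nat_lit 103192327630583), .negSucc (nat_lit 10564900980105437), .ofNat (nat_lit 840278884287303), .ofNat (nat_lit 9937199066418828), .ofNat (nat_lit 15795283221831420), .negSucc (nat_lit 1294550593597718), .negSucc (nat_lit 4934359867562405), .ofNat (nat_lit 6595859741862204), .negSucc (nat_lit 29725629257151665), .ofNat (nat_lit 837893785379049), .ofNat (nat_lit 3407325215865588), .negSucc (nat_lit 12710971309766309), .ofNat (nat_lit 10087698170279376), .ofNat (nat_lit 4265622389161584), .negSucc (nat_lit 272380125712733), .negSucc (nat_lit 1524548930727995), .ofNat (nat_lit 4124369065577130), .negSucc (nat_lit 2349447633915623), .ofNat (nat_lit 4229262565339122), .ofNat (nat_lit 7917735180830760), .ofNat (nat_lit 5864596975955574), .ofNat (nat_lit 44131843172943), .ofNat (nat_lit 332772339692106), .negSucc (nat_lit 576617652462473),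 .ofNat (nat_lit 392929015309056), .negSucc (nat_lit 1907691535382669), .negSucc (nat_lit 2866674180648437), .negSucc (nat_lit 2885671213552403), .negSucc (nat_lit 9233597164397597), .negSucc (nat_lit 2843115854278), .negSucc (nat_lit 27619023030709), .ofNat (nat_lit 26298854491058), .negSucc (nat_lit 34356554763735), .ofNat (nat_lit 153608506897534), .ofNat (nat_lit 279867189447300), .ofNat (nat_lit 105376861084324), .ofNat (nat_lit 771477132751970), .ofNat (nat_lit 1217016548441394), .ofNat (nat_lit 2125875556423466)],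
  []],
  [[],
  []]],
  [[[],
  []],
  [[.negSucc (nat_lit 3492617406640190), .ofNat (nat_lit 11329230858774309), .ofNat (nat_lit 16999865652252834), .negSucc (nat_lit 21664233405052271), .negSucc (nat_lit 34982243662803515), .negSucc (nat_lit 41410556156956985), .ofNat (nat_lit 19211922424268991), .ofNat (nat_lit 32314468929922116), .ofNat (nat_lit 19169224320171690), .ofNat (nat_lit 118070350193497608), .negSucc (nat_lit 9347607236545739), .negSucc (nat_lit 21895466378260355), .negSucc (nat_lit 23965194588852023), .negSucc (nat_lit 67020626746826279), .negSucc (nat_lit 97282330483076027), .ofNat (nat_lit 2585978944014573), .ofNat (nat_lit 7903799708921766), .ofNat (nat_lit 13227530484551922), .ofNat (nat_lit 25643404996144596), .ofNat (nat_lit 2139733411421166), .ofNat (nat_lit 78744308226897798), .ofNat (nat_lit 24758075430440676), .negSucc (nat_lit 383353727087324), .negSucc (nat_lit 1363240549778603), .negSucc (nat_lit 3746912794142291), .negSucc (nat_lit 5303267064456911),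 .negSucc (nat_lit 1140191953983317), .negSucc (nat_lit 20348661553957259), .negSucc (nat_lit 6779720045435495), .negSucc (nat_lit 22711592982321773), .ofNat (nat_lit 23728024187857), .ofNat (nat_lit 89090796864754), .ofNat (nat_lit 368239469669624), .ofNat (nat_lit 422935888435730), .ofNat (nat_lit 284980767644686), .ofNat (nat_lit 2311826695300020), .negSucc (nat_lit 41623953535897), .ofNat (nat_lit 1038843353071142), .ofNat (nat_lit 2919405898506678), .ofNat (nat_lit 3322496214751736)],
  [.ofNat (nat_lit 0), .negSucc (nat_lit 257269354562015), .ofNat (nat_lit 257269354562016), .negSucc (nat_lit 252789099965999), .ofNat (nat_lit 887001977179008), .negSucc (nat_lit 634212877213007), .ofNat (nat_lit 363799342199376), .negSucc (nat_lit 1258085818313279), .ofNat (nat_lit 697174925629680), .ofNat (nat_lit 197111550484224), .negSucc (nat_lit 227983357276991), .ofNat (nat_lit 916345167356484), .negSucc (nat_lit 455966714553983), .negSucc (nat_lit 929580382102031), .ofNat (nat_lit 697185286576524),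 .ofNat (nat_lit 66867212064528), .negSucc (nat_lit 278435684973167), .negSucc (nat_lit 47601106176959), .ofNat (nat_lit 436771350074880), .ofNat (nat_lit 136401991671600), .negSucc (nat_lit 382472350493759), .ofNat (nat_lit 68468587832880), .negSucc (nat_lit 7206856368479), .ofNat (nat_lit 28827425473920), .ofNat (nat_lit 22361560089480), .negSucc (nat_lit 43982129194919), .negSucc (nat_lit 51188985563399), .negSucc (nat_lit 20879578121399), .ofNat (nat_lit 159291831090600), .negSucc (nat_lit 87223267405799), .ofNat (nat_lit 0), .ofNat (nat_lit 0), .ofNat (nat_lit 0), .ofNat (nat_lit 0), .ofNat (nat_lit 0), .ofNat (nat_lit 0), .ofNat (nat_lit 0), .ofNat (nat_lit 0), .ofNat (nat_lit 0), .ofNat (nat_lit 0)]],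
  [[.ofNat (nat_lit 96757930600938), .ofNat (nat_lit 0), .ofNat (nat_lit 0), .ofNat (nat_lit 0), .ofNat (nat_lit 0), .ofNat (nat_lit 0), .ofNat (nat_lit 0), .ofNat (nat_lit 0), .ofNat (nat_lit 0), .ofNat (nat_lit 0), .ofNat (nat_lit 0), .ofNat (nat_lit 0), .ofNat (nat_lit 0), .ofNat (nat_lit 0), .ofNat (nat_lit 0), .ofNat (nat_lit 0), .ofNat (nat_lit 0), .ofNat (nat_lit 0), .ofNat (nat_lit 0), .ofNat (nat_lit 0), .ofNat (nat_lit 0), .ofNat (nat_lit 0), .ofNat (nat_lit 0), .ofNat (nat_lit 0), .ofNat (nat_lit 0), .ofNat (nat_lit 0), .ofNat (nat_lit 0), .ofNat (nat_lit 0), .ofNat (nat_lit 0), .ofNat (nat_lit 0), .ofNat (nat_lit 0), .ofNat (nat_lit 0), .ofNat (nat_lit 0), .ofNat (nat_lit 0), .ofNat (nat_lit 0), .ofNat (nat_lit 0), .ofNat (nat_lit 0), .ofNat (nat_lit 0), .ofNat (nat_lit 0), .ofNat (nat_lit 0)],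
  [.ofNat (nat_lit 463057167967452), .ofNat (nat_lit 0), .ofNat (nat_lit 0), .ofNat (nat_lit 0), .ofNat (nat_lit 0), .ofNat (nat_lit 0), .ofNat (nat_lit 0), .ofNat (nat_lit 0), .ofNat (nat_lit 0), .ofNat (nat_lit 0), .ofNat (nat_lit 0), .ofNat (nat_lit 0), .ofNat (nat_lit 0), .ofNat (nat_lit 0), .ofNat (nat_lit 0), .ofNat (nat_lit 0), .ofNat (nat_lit 0), .ofNat (nat_lit 0), .ofNat (nat_lit 0), .ofNat (nat_lit 0), .ofNat (nat_lit 0), .ofNat (nat_lit 0), .ofNat (nat_lit 0), .ofNat (nat_lit 0), .ofNat (nat_lit 0), .ofNat (nat_lit 0), .ofNat (nat_lit 0), .ofNat (nat_lit 0), .ofNat (nat_lit 0), .ofNat (nat_lit 0), .ofNat (nat_lit 0), .ofNat (nat_lit 0), .ofNat (nat_lit 0), .ofNat (nat_lit 0), .ofNat (nat_lit 0), .ofNat (nat_lit 0), .ofNat (nat_lit 0), .ofNat (nat_lit 0), .ofNat (nat_lit 0), .ofNat (nat_lit 0)]]],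
  [[[],
  []],
  [[.ofNat (nat_lit 0), .ofNat (nat_lit 614407558722912), .negSucc (nat_lit 614407558722911), .ofNat (nat_lit 326993441925312), .negSucc (nat_lit 1288184105137391), .ofNat (nat_lit 961190663212080), .negSucc (nat_lit 446433851175983), .ofNat (nat_lit 1499472270228960), .negSucc (nat_lit 766775284577999), .negSucc (nat_lit 286263134474975), .ofNat (nat_lit 175163717148228), .negSucc (nat_lit 612558980977895), .ofNat (nat_lit 350327434296456), .ofNat (nat_lit 348271318132848), .negSucc (nat_lit 261203488599635), .negSucc (nat_lit 31957012857455), .ofNat (nat_lit 121813664696352), .ofNat (nat_lit 230169240176184), .negSucc (nat_lit 359882370796103), .negSucc (nat_lit 250097479566695), .ofNat (nat_lit 440051091798672), .negSucc (nat_lit 150097133450951), .ofNat (nat_lit 2402095011480), .negSucc (nat_lit 9608380045919), .negSucc (nat_lit 58923911104379), .ofNat (nat_lit 66130196138820), .ofNat (nat_lit 68532291150300), .negSucc (nat_lit 44511341035499), .negSucc (nat_lit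 104563716322499), .ofNat (nat_lit 80542766207700), .ofNat (nat_lit 0), .ofNat (nat_lit 0), .ofNat (nat_lit 0), .ofNat (nat_lit 0), .ofNat (nat_lit 0), .ofNat (nat_lit 0), .ofNat (nat_lit 0), .ofNat (nat_lit 0), .ofNat (nat_lit 0), .ofNat (nat_lit 0)],
  [.ofNat (nat_lit 0), .negSucc (nat_lit 392950461369419), .ofNat (nat_lit 392950461369420), .ofNat (nat_lit 313598997734868), .negSucc (nat_lit 744321762519893), .ofNat (nat_lit 430722764785026), .ofNat (nat_lit 420025873821804), .negSucc (nat_lit 1845508331402747), .ofNat (nat_lit 1590887293696476), .negSucc (nat_lit 165404836115531), .negSucc (nat_lit 464961869667791), .ofNat (nat_lit 1968438733943724), .negSucc (nat_lit 929923739335583), .negSucc (nat_lit 2294212499761391), .ofNat (nat_lit 1720659374821044), .ofNat (nat_lit 150100738245288), .negSucc (nat_lit 623667097576223), .negSucc (nat_lit 1897141548297491), .ofNat (nat_lit 2763965962499292), .ofNat (nat_lit 2093770575732924), .negSucc (nat_lit 4420182597416567), .ofNat (nat_lit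 1933153966812780), .negSucc (nat_lit 16052303966699), .ofNat (nat_lit 64209215866800), .ofNat (nat_lit 546370550578530), .negSucc (nat_lit 594527462478629), .negSucc (nat_lit 610579766445329), .ofNat (nat_lit 450056726778330), .ofNat (nat_lit 851364325945830), .negSucc (nat_lit 690841286278829), .ofNat (nat_lit 0), .ofNat (nat_lit 0), .ofNat (nat_lit 0), .ofNat (nat_lit 0), .ofNat (nat_lit 0), .ofNat (nat_lit 0), .ofNat (nat_lit 0), .ofNat (nat_lit 0), .ofNat (nat_lit 0), .ofNat (nat_lit 0)]],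
  [[.negSucc (nat_lit 261517522157783), .ofNat (nat_lit 0), .ofNat (nat_lit 0), .ofNat (nat_lit 0), .ofNat (nat_lit 0), .ofNat (nat_lit 0), .ofNat (nat_lit 0), .ofNat (nat_lit 0), .ofNat (nat_lit 0), .ofNat (nat_lit 0), .ofNat (nat_lit 0), .ofNat (nat_lit 0), .ofNat (nat_lit 0), .ofNat (nat_lit 0), .ofNat (nat_lit 0), .ofNat (nat_lit 0), .ofNat (nat_lit 0), .ofNat (nat_lit 0), .ofNat (nat_lit 0), .ofNat (nat_lit 0), .ofNat (nat_lit 0), .ofNat (nat_lit 0), .ofNat (nat_lit 0), .ofNat (nat_lit 0), .ofNat (nat_lit 0), .ofNat (nat_lit 0), .ofNat (nat_lit 0), .ofNat (nat_lit 0), .ofNat (nat_lit 0), .ofNat (nat_lit 0), .ofNat (nat_lit 0), .ofNat (nat_lit 0), .ofNat (nat_lit 0), .ofNat (nat_lit 0), .ofNat (nat_lit 0), .ofNat (nat_lit 0), .ofNat (nat_lit 0), .ofNat (nat_lit 0), .ofNat (nat_lit 0), .ofNat (nat_lit 0)],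
  [.negSucc (nat_lit 714691919569724), .ofNat (nat_lit 0), .ofNat (nat_lit 0), .ofNat (nat_lit 0), .ofNat (nat_lit 0), .ofNat (nat_lit 0), .ofNat (nat_lit 0), .ofNat (nat_lit 0), .ofNat (nat_lit 0), .ofNat (nat_lit 0), .ofNat (nat_lit 0), .ofNat (nat_lit 0), .ofNat (nat_lit 0), .ofNat (nat_lit 0), .ofNat (nat_lit 0), .ofNat (nat_lit 0), .ofNat (nat_lit 0), .ofNat (nat_lit 0), .ofNat (nat_lit 0), .ofNat (nat_lit 0), .ofNat (nat_lit 0), .ofNat (nat_lit 0), .ofNat (nat_lit 0), .ofNat (nat_lit 0), .ofNat (nat_lit 0), .ofNat (nat_lit 0), .ofNat (nat_lit 0), .ofNat (nat_lit 0), .ofNat (nat_lit 0), .ofNat (nat_lit 0), .ofNat (nat_lit 0), .ofNat (nat_lit 0), .ofNat (nat_lit 0), .ofNat (nat_lit 0), .ofNat (nat_lit 0), .ofNat (nat_lit 0), .ofNat (nat_lit 0), .ofNat (nat_lit 0), .ofNat (nat_lit 0), .ofNat (nat_lit 0)]]]],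
  [[.ofNat (nat_lit 0), .ofNat (nat_lit 0)],
  [.ofNat (nat_lit 0), .ofNat (nat_lit 0)],
  [.ofNat (nat_lit 160358721541218), .ofNat (nat_lit 251811188953578)]],
  [[[[.ofNat (nat_lit 0), .negSucc (nat_lit 1003131742748977151), .negSucc (nat_lit 1874603964808074239), .ofNat (nat_lit 1162541327946918912), .negSucc (nat_lit 415334535400157183), .ofNat (nat_lit 386162217166583808), .negSucc (nat_lit 628192330858810367), .ofNat (nat_lit 0), .ofNat (nat_lit 0), .ofNat (nat_lit 0)],
  [.ofNat (nat_lit 0), .ofNat (nat_lit 948286690009141248), .negSucc (nat_lit 1086342050671635455), .ofNat (nat_lit 1132507884893755392), .negSucc (nat_lit 2685834285680636927), .ofNat (nat_lit 242603411812457472), .ofNat (nat_lit 963297913257879552), .ofNat (nat_lit 0), .ofNat (nat_lit 0), .ofNat (nat_lit 0)]],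
  [[.ofNat (nat_lit 82544339341089792), .negSucc (nat_lit 111926385740077055), .negSucc (nat_lit 160169271866615807), .ofNat (nat_lit 185713931653152768), .ofNat (nat_lit 233264173380046848), .negSucc (nat_lit 99421097463889919), .negSucc (nat_lit 109279287803602943), .ofNat (nat_lit 0), .ofNat (nat_lit 0), .ofNat (nat_lit 0)],
  [.ofNat (nat_lit 507523456048564224), .ofNat (nat_lit 0), .ofNat (nat_lit 0), .ofNat (nat_lit 0), .ofNat (nat_lit 0), .ofNat (nat_lit 0), .ofNat (nat_lit 0), .ofNat (nat_lit 0), .ofNat (nat_lit 0), .ofNat (nat_lit 0)]]],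
  [[[.ofNat (nat_lit 0), .ofNat (nat_lit 169869410230993920), .ofNat (nat_lit 1277469729479881728), .ofNat (nat_lit 114318140457259008), .negSucc (nat_lit 4324621011383319551), .ofNat (nat_lit 999748065579641856), .ofNat (nat_lit 1676923470269190144), .ofNat (nat_lit 0), .ofNat (nat_lit 0), .ofNat (nat_lit 0)],
  [.ofNat (nat_lit 0), .negSucc (nat_lit 1398605384016746495), .negSucc (nat_lit 5487764110482299903), .ofNat (nat_lit 2870110330620429312), .ofNat (nat_lit 14242800123926175744), .negSucc (nat_lit 2865733595876376575), .negSucc (nat_lit 8442655070893894655), .ofNat (nat_lit 0), .ofNat (nat_lit 0), .ofNat (nat_lit 0)]],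
  [[.negSucc (nat_lit 547130197438820351), .ofNat (nat_lit 148535904034363392), .ofNat (nat_lit 579193920409586688), .negSucc (nat_lit 345680128228230143), .negSucc (nat_lit 1083081864420071423), .ofNat (nat_lit 85857497189932032), .ofNat (nat_lit 941790801382659072), .ofNat (nat_lit 0), .ofNat (nat_lit 0), .ofNat (nat_lit 0)],
  [.negSucc (nat_lit 1434897821428512767), .ofNat (nat_lit 0), .ofNat (nat_lit 0), .ofNat (nat_lit 0), .ofNat (nat_lit 0), .ofNat (nat_lit 0), .ofNat (nat_lit 0), .ofNat (nat_lit 0), .ofNat (nat_lit 0), .ofNat (nat_lit 0)]]],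
  [[[.ofNat (nat_lit 0), .ofNat (nat_lit 330373233064774656), .ofNat (nat_lit 141354230053856256), .negSucc (nat_lit 974236181967535103), .ofNat (nat_lit 2410445497332510720), .negSucc (nat_lit 426828349835541503), .negSucc (nat_lit 960497605739464703), .ofNat (nat_lit 0), .ofNat (nat_lit 0), .ofNat (nat_lit 0)],
  [.ofNat (nat_lit 0), .ofNat (nat_lit 162952502055072768), .ofNat (nat_lit 1961925350730209280), .negSucc (nat_lit 853315268369725439), .negSucc (nat_lit 9507804665581320191), .ofNat (nat_lit 1524064729259667456), .ofNat (nat_lit 6718212676480269312), .ofNat (nat_lit 0), .ofNat (nat_lit 0), .ofNat (nat_lit 0)]],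
  [[.ofNat (nat_lit 488605600374128640), .ofNat (nat_lit 490452685488322560), .negSucc (nat_lit 1301213361746847743), .negSucc (nat_lit 1215071563750013951), .ofNat (nat_lit 4239613149409373184), .ofNat (nat_lit 275906393447500800), .negSucc (nat_lit 3338502953438380031), .ofNat (nat_lit 0), .ofNat (nat_lit 0), .ofNat (nat_lit 0)],
  [.ofNat (nat_lit 623608810562672640), .ofNat (nat_lit 0), .ofNat (nat_lit 0), .ofNat (nat_lit 0), .ofNat (nat_lit 0), .ofNat (nat_lit 0), .ofNat (nat_lit 0), .ofNat (nat_lit 0), .ofNat (nat_lit 0), .ofNat (nat_lit 0)]]]]⟩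

noncomputable def BP0_A : L6 := [[[[[[.ofNat (nat_lit 0), .ofNat (nat_lit 0), .ofNat (nat_lit 16535781594270720)],
  [.ofNat (nat_lit 0), .ofNat (nat_lit 0), .negSucc (nat_lit 33352916049893375)],
  [],
  [],
  [],
  [],
  [],
  []],
  [[.ofNat (nat_lit 0), .ofNat (nat_lit 82544339341089792), .ofNat (nat_lit 0)],
  [.ofNat (nat_lit 0), .ofNat (nat_lit 507523456048564224), .ofNat (nat_lit 0)],
  [],
  [],
  [],
  [],
  [],
  []],
  [[.ofNat (nat_lit 0), .ofNat (nat_lit 367294268773361664), .ofNat (nat_lit 0)],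
  [.ofNat (nat_lit 0), .ofNat (nat_lit 367294268773361664), .ofNat (nat_lit 0)],
  [],
  [],
  [],
  [],
  [],
  []],
  [[.ofNat (nat_lit 7035135475000320), .ofNat (nat_lit 301270121016708096), .ofNat (nat_lit 0)],
  [.negSucc (nat_lit 3828748307051519), .ofNat (nat_lit 0), .ofNat (nat_lit 0)],
  [.negSucc (nat_lit 7035135475000319), .negSucc (nat_lit 301270121016708095), .ofNat (nat_lit 0)],
  [.ofNat (nat_lit 3828748307051520), .ofNat (nat_lit 0), .ofNat (nat_lit 0)],
  [],
  [],
  [],
  []],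
  [[.negSucc (nat_lit 14604073983903743), .negSucc (nat_lit 349200357889471487), .ofNat (nat_lit 0)],
  [.negSucc (nat_lit 1446692339865599), .ofNat (nat_lit 0), .ofNat (nat_lit 0)],
  [],
  [.negSucc (nat_lit 14604073983903743), .negSucc (nat_lit 349200357889471487), .ofNat (nat_lit 0)],
  [.negSucc (nat_lit 1446692339865599), .ofNat (nat_lit 0), .ofNat (nat_lit 0)],
  [],
  [],
  []],
  [[.ofNat (nat_lit 24066006598158336), .ofNat (nat_lit 73649727362460672), .ofNat (nat_lit 0)],
  [.ofNat (nat_lit 2808620267203584), .ofNat (nat_lit 0), .ofNat (nat_lit 0)],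
  [],
  [],
  [.negSucc (nat_lit 24066006598158335), .negSucc (nat_lit 73649727362460671), .ofNat (nat_lit 0)],
  [.negSucc (nat_lit 2808620267203583), .ofNat (nat_lit 0), .ofNat (nat_lit 0)],
  [],
  []],
  [[.ofNat (nat_lit 98935031295728640), .ofNat (nat_lit 126042379689517056), .ofNat (nat_lit 0)],
  [.ofNat (nat_lit 3281672766117888), .ofNat (nat_lit 0), .ofNat (nat_lit 0)],
  [],
  [],
  [.negSucc (nat_lit 98935031295728639), .negSucc (nat_lit 126042379689517055), .ofNat (nat_lit 0)],
  [.negSucc (nat_lit 3281672766117887), .ofNat (nat_lit 0), .ofNat (nat_lit 0)],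
  [],
  []],
  [[],
  [],
  [],
  [],
  [],
  [],
  [],
  []],
  [[],
  [],
  [],
  [],
  [],
  [],
  [],
  []],
  [[],
  [],
  [],
  [],
  [],
  [],
  [],
  []]],
  [],
  [],
  [],
  [],
  [],
  [],
  [],
  [],
  []],
  [[],
  [],
  [],
  [],
  [],
  [],
  [],
  [],
  [],
  []],
  [[],
  [[[.ofNat (nat_lit 0), .ofNat (nat_lit 490504040688107520), .ofNat (nat_lit 111926385740077056)],
  [.ofNat (nat_lit 0), .negSucc (nat_lit 1145869554312769535), .ofNat (nat_lit 0)],
  [],
  [],
  [],
  [],
  [],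
  []],
  [[.ofNat (nat_lit 196562615924892672), .negSucc (nat_lit 2480567536878041087), .ofNat (nat_lit 0)],
  [.ofNat (nat_lit 963601683237347328), .ofNat (nat_lit 0), .ofNat (nat_lit 0)],
  [],
  [],
  [],
  [],
  [],
  []],
  [[],
  [.negSucc (nat_lit 2492618850300432383), .negSucc (nat_lit 1293603753811138559), .ofNat (nat_lit 0)],
  [.negSucc (nat_lit 21101762587668479), .ofNat (nat_lit 0), .ofNat (nat_lit 0)],
  [],
  [],
  [],
  [],
  []],
  [[],
  [],
  [.negSucc (nat_lit 1588416251833974527), .ofNat (nat_lit 2979158639311328256), .ofNat (nat_lit 0)],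
  [.negSucc (nat_lit 39296185317609983), .ofNat (nat_lit 0), .ofNat (nat_lit 0)],
  [],
  [],
  [],
  []],
  [[],
  [],
  [],
  [.ofNat (nat_lit 1219628750502463488), .ofNat (nat_lit 3266700254615047680), .ofNat (nat_lit 0)],
  [.ofNat (nat_lit 102707035811914752), .ofNat (nat_lit 0), .ofNat (nat_lit 0)],
  [],
  [],
  []],
  [[],
  [],
  [],
  [],
  [.ofNat (nat_lit 29790791165492352), .negSucc (nat_lit 1491282611958380543), .ofNat (nat_lit 0)],
  [.ofNat (nat_lit 21458553924158208), .ofNat (nat_lit 0), .ofNat (nat_lit 0)],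
  [],
  []],
  [[],
  [],
  [],
  [],
  [.ofNat (nat_lit 1425609173500314624), .ofNat (nat_lit 493834263784869888), .ofNat (nat_lit 0)],
  [.ofNat (nat_lit 43438322132305920), .ofNat (nat_lit 0), .ofNat (nat_lit 0)],
  [],
  []],
  [[],
  [],
  [],
  [],
  [],
  [.negSucc (nat_lit 971783660806041599), .negSucc (nat_lit 2972494295734597631), .ofNat (nat_lit 0)],
  [.negSucc (nat_lit 66741849753937919), .ofNat (nat_lit 0), .ofNat (nat_lit 0)],
  []],
  [[],
  [],
  [],
  [],
  [],
  [],
  [.negSucc (nat_lit 96513249223351295), .negSucc (nat_lit 282990441327966719), .ofNat (nat_lit 0)],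
  []],
  [[],
  [],
  [],
  [],
  [],
  [],
  [.negSucc (nat_lit 750900591584492543), .negSucc (nat_lit 755058972330561023), .ofNat (nat_lit 0)],
  []]],
  [],
  [],
  [],
  [],
  [],
  [],
  [],
  []],
  [[],
  [],
  [[[.ofNat (nat_lit 0), .ofNat (nat_lit 179181659276697600), .ofNat (nat_lit 160169271866615808)],
  [.ofNat (nat_lit 0), .ofNat (nat_lit 632197038355983360), .ofNat (nat_lit 0)],
  [],
  [],
  [],
  [],
  [],
  []],
  [[.ofNat (nat_lit 618014885492358144), .ofNat (nat_lit 1133434481944522752), .ofNat (nat_lit 0)],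
  [.negSucc (nat_lit 1065240288083966975), .ofNat (nat_lit 0), .ofNat (nat_lit 0)],
  [],
  [],
  [],
  [],
  [],
  []],
  [[],
  [.ofNat (nat_lit 3656164676539889664), .negSucc (nat_lit 104152635227888639), .ofNat (nat_lit 0)],
  [.ofNat (nat_lit 46310224071020544), .ofNat (nat_lit 0), .ofNat (nat_lit 0)],
  [],
  [],
  [],
  [],
  []],
  [[],
  [],
  [.negSucc (nat_lit 1916489753138619647), .negSucc (nat_lit 905343265225739519), .ofNat (nat_lit 0)],
  [.negSucc (nat_lit 124287903000603647), .ofNat (nat_lit 0), .ofNat (nat_lit 0)],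
  [],
  [],
  [],
  []],
  [[],
  [],
  [],
  [.negSucc (nat_lit 4332193472054813183), .ofNat (nat_lit 1777697909686814976), .ofNat (nat_lit 0)],
  [.negSucc (nat_lit 73339888190234111), .ofNat (nat_lit 0), .ofNat (nat_lit 0)],
  [],
  [],
  []],
  [[],
  [],
  [],
  [],
  [.ofNat (nat_lit 1577422090035442944), .ofNat (nat_lit 1660300538091287040), .ofNat (nat_lit 0)],
  [.ofNat (nat_lit 150051433147232256), .ofNat (nat_lit 0), .ofNat (nat_lit 0)],
  [],
  []],
  [[],
  [],
  [],
  [],
  [.negSucc (nat_lit 2408742854334627839), .negSucc (nat_lit 386974779112157183), .ofNat (nat_lit 0)],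
  [.negSucc (nat_lit 14516153834932223), .ofNat (nat_lit 0), .ofNat (nat_lit 0)],
  [],
  []],
  [[],
  [],
  [],
  [],
  [],
  [.ofNat (nat_lit 2426834070614208384), .negSucc (nat_lit 337219225797325823), .ofNat (nat_lit 0)],
  [.negSucc (nat_lit 85201259063351039), .ofNat (nat_lit 0), .ofNat (nat_lit 0)],
  []],
  [[],
  [],
  [],
  [],
  [],
  [],
  [.negSucc (nat_lit 289539747670053887), .negSucc (nat_lit 848971323983900159), .ofNat (nat_lit 0)],
  []],
  [[],
  [],
  [],
  [],
  [],
  [],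
  [.ofNat (nat_lit 1642007909237271552), .ofNat (nat_lit 867968226397099008), .ofNat (nat_lit 0)],
  []]],
  [],
  [],
  [],
  [],
  [],
  [],
  []],
  [[],
  [],
  [],
  [[[.ofNat (nat_lit 0), .ofNat (nat_lit 346006050154758144), .negSucc (nat_lit 185713931653152767)],
  [.ofNat (nat_lit 0), .negSucc (nat_lit 617398874652146687), .ofNat (nat_lit 0)],
  [],
  [],
  [],
  [],
  [],
  []],
  [[.negSucc (nat_lit 425874923887055615), .ofNat (nat_lit 3164872570964481024), .ofNat (nat_lit 0)],
  [.ofNat (nat_lit 1093211699576145408), .ofNat (nat_lit 0), .ofNat (nat_lit 0)],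
  [],
  [],
  [],
  [],
  [],
  []],
  [[],
  [.ofNat (nat_lit 1916489753138619648), .ofNat (nat_lit 905343265225739520), .ofNat (nat_lit 0)],
  [.ofNat (nat_lit 124287903000603648), .ofNat (nat_lit 0), .ofNat (nat_lit 0)],
  [],
  [],
  [],
  [],
  []],
  [[],
  [],
  [.ofNat (nat_lit 457391915721309312), .negSucc (nat_lit 8489130460811330687), .ofNat (nat_lit 0)],
  [.ofNat (nat_lit 8669377864242432), .ofNat (nat_lit 0), .ofNat (nat_lit 0)],
  [],
  [],
  [],
  []],
  [[],
  [],
  [],
  [.negSucc (nat_lit 5459820655209427583), .negSucc (nat_lit 5559727926584926079), .ofNat (nat_lit 0)],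
  [.negSucc (nat_lit 425243559689865215), .ofNat (nat_lit 0), .ofNat (nat_lit 0)],
  [],
  [],
  []],
  [[],
  [],
  [],
  [],
  [.ofNat (nat_lit 1547644270958483904), .ofNat (nat_lit 6287649341611351104), .ofNat (nat_lit 0)],
  [.ofNat (nat_lit 185114893015453824), .ofNat (nat_lit 0), .ofNat (nat_lit 0)],
  [],
  []],
  [[],
  [],
  [],
  [],
  [.negSucc (nat_lit 4828214487669700607), .negSucc (nat_lit 968822470318963967), .ofNat (nat_lit 0)],
  [.ofNat (nat_lit 108871153761991680), .ofNat (nat_lit 0), .ofNat (nat_lit 0)],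
  [],
  []],
  [[],
  [],
  [],
  [],
  [],
  [.ofNat (nat_lit 3844187493893404416), .ofNat (nat_lit 6160445824021080192), .ofNat (nat_lit 0)],
  [.negSucc (nat_lit 81653365321493759), .ofNat (nat_lit 0), .ofNat (nat_lit 0)],
  []],
  [[],
  [],
  [],
  [],
  [],
  [],
  [.negSucc (nat_lit 848525970812203583), .negSucc (nat_lit 488669751600548831), .ofNat (nat_lit 0)],
  []],
  [[],
  [],
  [],
  [],
  [],
  [],
  [.ofNat (nat_lit 4136634143269277184), .ofNat (nat_lit 1869186608619531264), .ofNat (nat_lit 0)],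
  []]],
  [],
  [],
  [],
  [],
  [],
  []],
  [[],
  [],
  [],
  [],
  [[[.ofNat (nat_lit 0), .negSucc (nat_lit 1827476796393400319), .negSucc (nat_lit 233264173380046847)],
  [.ofNat (nat_lit 0), .ofNat (nat_lit 2049407112526460928), .ofNat (nat_lit 0)],
  [],
  [],
  [],
  [],
  [],
  []],
  [[.negSucc (nat_lit 1634963285902620671), .negSucc (nat_lit 3033436081235000831), .ofNat (nat_lit 0)],
  [.negSucc (nat_lit 2788541321492551679), .ofNat (nat_lit 0), .ofNat (nat_lit 0)],
  [],
  [],
  [],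
  [],
  [],
  []],
  [[],
  [.negSucc (nat_lit 4332193472054813183), .ofNat (nat_lit 1777697909686814976), .ofNat (nat_lit 0)],
  [.negSucc (nat_lit 73339888190234111), .ofNat (nat_lit 0), .ofNat (nat_lit 0)],
  [],
  [],
  [],
  [],
  []],
  [[],
  [],
  [.ofNat (nat_lit 5459820655209427584), .ofNat (nat_lit 5559727926584926080), .ofNat (nat_lit 0)],
  [.ofNat (nat_lit 425243559689865216), .ofNat (nat_lit 0), .ofNat (nat_lit 0)],
  [],
  [],
  [],
  []],
  [[],
  [],
  [],
  [.ofNat (nat_lit 21542581917112780800), .ofNat (nat_lit 2917791761952432384), .ofNat (nat_lit 0)],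
  [.negSucc (nat_lit 444627822669663743), .ofNat (nat_lit 0), .ofNat (nat_lit 0)],
  [],
  [],
  []],
  [[],
  [],
  [],
  [],
  [.negSucc (nat_lit 4004116962190216127), .negSucc (nat_lit 3288073451120193599), .ofNat (nat_lit 0)],
  [.ofNat (nat_lit 195450268057401600), .ofNat (nat_lit 0), .ofNat (nat_lit 0)],
  [],
  []],
  [[],
  [],
  [],
  [],
  [.ofNat (nat_lit 8324763026288493312), .ofNat (nat_lit 2882493647838169344), .ofNat (nat_lit 0)],
  [.ofNat (nat_lit 105977769082260480), .ofNat (nat_lit 0), .ofNat (nat_lit 0)],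
  [],
  []],
  [[],
  [],
  [],
  [],
  [],
  [.negSucc (nat_lit 19109907721383139583), .negSucc (nat_lit 3986138626551647423), .ofNat (nat_lit 0)],
  [.negSucc (nat_lit 42600629531675519), .ofNat (nat_lit 0), .ofNat (nat_lit 0)],
  []],
  [[],
  [],
  [],
  [],
  [],
  [],
  [.negSucc (nat_lit 1455768818566028927), .negSucc (nat_lit 269863399881180863), .ofNat (nat_lit 0)],
  []],
  [[],
  [],
  [],
  [],
  [],
  [],
  [.negSucc (nat_lit 9380738095581686399), .negSucc (nat_lit 1111575963441460607), .ofNat (nat_lit 0)],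
  []]],
  [],
  [],
  [],
  [],
  []],
  [[],
  [],
  [],
  [],
  [],
  [[[.ofNat (nat_lit 0), .ofNat (nat_lit 228506591004383232), .ofNat (nat_lit 99421097463889920)],
  [.ofNat (nat_lit 0), .negSucc (nat_lit 198795345651753983), .ofNat (nat_lit 0)],
  [],
  [],
  [],
  [],
  [],
  []],
  [[.ofNat (nat_lit 415953008332076160), .negSucc (nat_lit 1590703709422270463), .ofNat (nat_lit 0)],
  [.ofNat (nat_lit 264061965736615680), .ofNat (nat_lit 0), .ofNat (nat_lit 0)],
  [],
  [],
  [],
  [],
  [],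
  []],
  [[],
  [.negSucc (nat_lit 1577422090035442943), .negSucc (nat_lit 1660300538091287039), .ofNat (nat_lit 0)],
  [.negSucc (nat_lit 150051433147232255), .ofNat (nat_lit 0), .ofNat (nat_lit 0)],
  [],
  [],
  [],
  [],
  []],
  [[],
  [],
  [.ofNat (nat_lit 1547644270958483904), .ofNat (nat_lit 6287649341611351104), .ofNat (nat_lit 0)],
  [.ofNat (nat_lit 185114893015453824), .ofNat (nat_lit 0), .ofNat (nat_lit 0)],
  [],
  [],
  [],
  []],
  [[],
  [],
  [],
  [.ofNat (nat_lit 4004116962190216128), .ofNat (nat_lit 3288073451120193600), .ofNat (nat_lit 0)],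
  [.negSucc (nat_lit 195450268057401599), .ofNat (nat_lit 0), .ofNat (nat_lit 0)],
  [],
  [],
  []],
  [[],
  [],
  [],
  [],
  [.negSucc (nat_lit 4575540390132338207), .negSucc (nat_lit 8519521729049631647), .ofNat (nat_lit 0)],
  [.ofNat (nat_lit 40270500579464064), .ofNat (nat_lit 0), .ofNat (nat_lit 0)],
  [],
  []],
  [[],
  [],
  [],
  [],
  [.ofNat (nat_lit 4567342657701528576), .ofNat (nat_lit 1096238517170391936), .ofNat (nat_lit 0)],
  [.ofNat (nat_lit 410209095764736), .ofNat (nat_lit 0), .ofNat (nat_lit 0)],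
  [],
  []],
  [[],
  [],
  [],
  [],
  [],
  [.negSucc (nat_lit 10258573464315559871), .negSucc (nat_lit 10796612181454892159), .ofNat (nat_lit 0)],
  [.negSucc (nat_lit 10532326002013439), .ofNat (nat_lit 0), .ofNat (nat_lit 0)],
  []],
  [[],
  [],
  [],
  [],
  [],
  [],
  [.ofNat (nat_lit 103678256293633872), .ofNat (nat_lit 2155881075078591648), .ofNat (nat_lit 0)],
  []],
  [[],
  [],
  [],
  [],
  [],
  [],
  [.negSucc (nat_lit 7491704247914271551), .negSucc (nat_lit 4325438292689155391), .ofNat (nat_lit 0)],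
  []]],
  [[[.ofNat (nat_lit 0), .ofNat (nat_lit 700541833155517440), .ofNat (nat_lit 109279287803602944)],
  [.ofNat (nat_lit 0), .negSucc (nat_lit 781919572997044223), .ofNat (nat_lit 0)],
  [],
  [],
  [],
  [],
  [],
  []],
  [[.ofNat (nat_lit 797416842641504256), .ofNat (nat_lit 384554975981266944), .ofNat (nat_lit 0)],
  [.ofNat (nat_lit 1006736235390185472), .ofNat (nat_lit 0), .ofNat (nat_lit 0)],
  [],
  [],
  [],
  [],
  [],
  []],
  [[],
  [.ofNat (nat_lit 2408742854334627840), .ofNat (nat_lit 386974779112157184), .ofNat (nat_lit 0)],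
  [.ofNat (nat_lit 14516153834932224), .ofNat (nat_lit 0), .ofNat (nat_lit 0)],
  [],
  [],
  [],
  [],
  []],
  [[],
  [],
  [.negSucc (nat_lit 4828214487669700607), .negSucc (nat_lit 968822470318963967), .ofNat (nat_lit 0)],
  [.ofNat (nat_lit 108871153761991680), .ofNat (nat_lit 0), .ofNat (nat_lit 0)],
  [],
  [],
  [],
  []],
  [[],
  [],
  [],
  [.negSucc (nat_lit 8324763026288493311), .negSucc (nat_lit 2882493647838169343), .ofNat (nat_lit 0)],
  [.negSucc (nat_lit 105977769082260479), .ofNat (nat_lit 0), .ofNat (nat_lit 0)],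
  [],
  [],
  []],
  [[],
  [],
  [],
  [],
  [.ofNat (nat_lit 4567342657701528576), .ofNat (nat_lit 1096238517170391936), .ofNat (nat_lit 0)],
  [.ofNat (nat_lit 410209095764736), .ofNat (nat_lit 0), .ofNat (nat_lit 0)],
  [],
  []],
  [[],
  [],
  [],
  [],
  [.negSucc (nat_lit 2411015873780865023), .negSucc (nat_lit 1303653467161115135), .ofNat (nat_lit 0)],
  [.negSucc (nat_lit 1640836383058943), .ofNat (nat_lit 0), .ofNat (nat_lit 0)],
  [],
  []],
  [[],
  [],
  [],
  [],
  [],
  [.ofNat (nat_lit 6469003507606016256), .ofNat (nat_lit 2400666185115470592), .ofNat (nat_lit 0)],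
  [.negSucc (nat_lit 12306272872942079), .ofNat (nat_lit 0), .ofNat (nat_lit 0)],
  []],
  [[],
  [],
  [],
  [],
  [],
  [],
  [.negSucc (nat_lit 700147927110949055), .negSucc (nat_lit 545258916334722815), .ofNat (nat_lit 0)],
  []],
  [[],
  [],
  [],
  [],
  [],
  [],
  [.ofNat (nat_lit 2951969689302001920), .ofNat (nat_lit 4009808084758260480), .ofNat (nat_lit 0)],
  []]],
  [],
  [],
  []],
  [[],
  [],
  [],
  [],
  [],
  [],
  [],
  [[[],
  [],
  [],
  [],
  [],
  [],
  [],
  []],
  [[.ofNat (nat_lit 971783660806041600), .ofNat (nat_lit 2972494295734597632), .ofNat (nat_lit 0)],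
  [.ofNat (nat_lit 66741849753937920), .ofNat (nat_lit 0), .ofNat (nat_lit 0)],
  [],
  [],
  [],
  [],
  [],
  []],
  [[],
  [.ofNat (nat_lit 2426834070614208384), .negSucc (nat_lit 337219225797325823), .ofNat (nat_lit 0)],
  [.negSucc (nat_lit 85201259063351039), .ofNat (nat_lit 0), .ofNat (nat_lit 0)],
  [],
  [],
  [],
  [],
  []],
  [[],
  [],
  [.negSucc (nat_lit 3844187493893404415), .negSucc (nat_lit 6160445824021080191), .ofNat (nat_lit 0)],
  [.ofNat (nat_lit 81653365321493760), .ofNat (nat_lit 0), .ofNat (nat_lit 0)],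
  [],
  [],
  [],
  []],
  [[],
  [],
  [],
  [.negSucc (nat_lit 19109907721383139583), .negSucc (nat_lit 3986138626551647423), .ofNat (nat_lit 0)],
  [.negSucc (nat_lit 42600629531675519), .ofNat (nat_lit 0), .ofNat (nat_lit 0)],
  [],
  [],
  []],
  [[],
  [],
  [],
  [],
  [.ofNat (nat_lit 10258573464315559872), .ofNat (nat_lit 10796612181454892160), .ofNat (nat_lit 0)],
  [.ofNat (nat_lit 10532326002013440), .ofNat (nat_lit 0), .ofNat (nat_lit 0)],
  [],
  []],
  [[],
  [],
  [],
  [],
  [.negSucc (nat_lit 6469003507606016255), .negSucc (nat_lit 2400666185115470591), .ofNat (nat_lit 0)],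
  [.ofNat (nat_lit 12306272872942080), .ofNat (nat_lit 0), .ofNat (nat_lit 0)],
  [],
  []],
  [[],
  [],
  [],
  [],
  [],
  [.ofNat (nat_lit 25518382739333463456), .ofNat (nat_lit 7312314732361291872), .ofNat (nat_lit 0)],
  [],
  []],
  [[],
  [],
  [],
  [],
  [],
  [],
  [.ofNat (nat_lit 105482341226747664), .ofNat (nat_lit 1915343661715529616), .ofNat (nat_lit 0)],
  []],
  [[],
  [],
  [],
  [],
  [],
  [],
  [.ofNat (nat_lit 11244204529443432000), .ofNat (nat_lit 5952813300982848960), .ofNat (nat_lit 0)],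
  []]],
  [],
  []],
  [[],
  [],
  [],
  [],
  [],
  [],
  [],
  [],
  [[[],
  [],
  [],
  [],
  [],
  [],
  [],
  []],
  [[.negSucc (nat_lit 96513249223351295), .negSucc (nat_lit 282990441327966719), .ofNat (nat_lit 0)],
  [],
  [],
  [],
  [],
  [],
  [],
  []],
  [[],
  [.ofNat (nat_lit 289539747670053888), .ofNat (nat_lit 848971323983900160), .ofNat (nat_lit 0)],
  [],
  [],
  [],
  [],
  [],
  []],
  [[],
  [],
  [.negSucc (nat_lit 848525970812203583), .negSucc (nat_lit 488669751600548831), .ofNat (nat_lit 0)],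
  [],
  [],
  [],
  [],
  []],
  [[],
  [],
  [],
  [.ofNat (nat_lit 1455768818566028928), .ofNat (nat_lit 269863399881180864), .ofNat (nat_lit 0)],
  [],
  [],
  [],
  []],
  [[],
  [],
  [],
  [],
  [.ofNat (nat_lit 103678256293633872), .ofNat (nat_lit 2155881075078591648), .ofNat (nat_lit 0)],
  [],
  [],
  []],
  [[],
  [],
  [],
  [],
  [.negSucc (nat_lit 700147927110949055), .negSucc (nat_lit 545258916334722815), .ofNat (nat_lit 0)],
  [],
  [],
  []],
  [[],
  [],
  [],
  [],
  [],
  [.negSucc (nat_lit 105482341226747663), .negSucc (nat_lit 1915343661715529615), .ofNat (nat_lit 0)],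
  [],
  []],
  [[],
  [],
  [],
  [],
  [],
  [],
  [.ofNat (nat_lit 1236694379396994216), .negSucc (nat_lit 718189618249162439), .ofNat (nat_lit 0)],
  []],
  [[],
  [],
  [],
  [],
  [],
  [],
  [.negSucc (nat_lit 861944835113263007), .ofNat (nat_lit 986171344209527328), .ofNat (nat_lit 0)],
  []]],
  [[[],
  [],
  [],
  [],
  [],
  [],
  [],
  []],
  [[.negSucc (nat_lit 750900591584492543), .negSucc (nat_lit 755058972330561023), .ofNat (nat_lit 0)],
  [],
  [],
  [],
  [],
  [],
  [],
  []],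
  [[],
  [.negSucc (nat_lit 1642007909237271551), .negSucc (nat_lit 867968226397099007), .ofNat (nat_lit 0)],
  [],
  [],
  [],
  [],
  [],
  []],
  [[],
  [],
  [.ofNat (nat_lit 4136634143269277184), .ofNat (nat_lit 1869186608619531264), .ofNat (nat_lit 0)],
  [],
  [],
  [],
  [],
  []],
  [[],
  [],
  [],
  [.ofNat (nat_lit 9380738095581686400), .ofNat (nat_lit 1111575963441460608), .ofNat (nat_lit 0)],
  [],
  [],
  [],
  []],
  [[],
  [],
  [],
  [],
  [.negSucc (nat_lit 7491704247914271551), .negSucc (nat_lit 4325438292689155391), .ofNat (nat_lit 0)],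
  [],
  [],
  []],
  [[],
  [],
  [],
  [],
  [.ofNat (nat_lit 2951969689302001920), .ofNat (nat_lit 4009808084758260480), .ofNat (nat_lit 0)],
  [],
  [],
  []],
  [[],
  [],
  [],
  [],
  [],
  [.negSucc (nat_lit 11244204529443431999), .negSucc (nat_lit 5952813300982848959), .ofNat (nat_lit 0)],
  [],
  []],
  [[],
  [],
  [],
  [],
  [],
  [],
  [.negSucc (nat_lit 861944835113263007), .ofNat (nat_lit 986171344209527328), .ofNat (nat_lit 0)],
  []],
  [[],
  [],
  [],
  [],
  [],
  [],
  [.negSucc (nat_lit 842363374415763455), .negSucc (nat_lit 2828092456063763711), .ofNat (nat_lit 0)],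
  []]]]],
  [[[[[.ofNat (nat_lit 0), .ofNat (nat_lit 0), .ofNat (nat_lit 11542312059678720)],
  [.ofNat (nat_lit 0), .ofNat (nat_lit 0), .negSucc (nat_lit 28791229850284031)],
  [],
  [],
  [],
  [],
  [],
  []],
  [[.ofNat (nat_lit 0), .negSucc (nat_lit 34502495377950719), .ofNat (nat_lit 0)],
  [.ofNat (nat_lit 0), .negSucc (nat_lit 1237314957124884479), .ofNat (nat_lit 0)],
  [],
  [],
  [],
  [],
  [],
  []],
  [[],
  [.ofNat (nat_lit 0), .negSucc (nat_lit 1695422305531376639), .ofNat (nat_lit 0)],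
  [.ofNat (nat_lit 0), .negSucc (nat_lit 454145012315652095), .ofNat (nat_lit 0)],
  [],
  [],
  [],
  [],
  []],
  [[],
  [],
  [.ofNat (nat_lit 0), .negSucc (nat_lit 1508547378101677055), .ofNat (nat_lit 0)],
  [.ofNat (nat_lit 0), .negSucc (nat_lit 515109010241608703), .ofNat (nat_lit 0)],
  [],
  [],
  [],
  []],
  [[],
  [],
  [],
  [.ofNat (nat_lit 0), .negSucc (nat_lit 2242811331793557503), .ofNat (nat_lit 0)],
  [.ofNat (nat_lit 0), .negSucc (nat_lit 636427173154175999), .ofNat (nat_lit 0)],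
  [],
  [],
  []],
  [[],
  [],
  [],
  [],
  [.ofNat (nat_lit 0), .negSucc (nat_lit 614668808170967039), .ofNat (nat_lit 0)],
  [.ofNat (nat_lit 0), .negSucc (nat_lit 43808066160703487), .ofNat (nat_lit 0)],
  [],
  []],
  [[],
  [],
  [],
  [],
  [.ofNat (nat_lit 0), .negSucc (nat_lit 72349502296707071), .ofNat (nat_lit 0)],
  [.ofNat (nat_lit 0), .negSucc (nat_lit 181378340260835327), .ofNat (nat_lit 0)],
  [],
  []],
  [[],
  [],
  [],
  [],
  [],
  [],
  [],
  []],
  [[],
  [],
  [],
  [],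
  [],
  [],
  [],
  []],
  [[],
  [],
  [],
  [],
  [],
  [],
  [],
  []]],
  [],
  [],
  [],
  [],
  [],
  [],
  [],
  [],
  []],
  [[],
  [],
  [],
  [],
  [],
  [],
  [],
  [],
  [],
  []],
  [[],
  [[[.ofNat (nat_lit 0), .ofNat (nat_lit 773860599967398912), .negSucc (nat_lit 148535904034363391)],
  [.ofNat (nat_lit 0), .ofNat (nat_lit 795033475353317376), .ofNat (nat_lit 0)],
  [],
  [],
  [],
  [],
  [],
  []],
  [[.ofNat (nat_lit 169869410230993920), .negSucc (nat_lit 1099783736003676671), .ofNat (nat_lit 0)],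
  [.negSucc (nat_lit 1398605384016746495), .negSucc (nat_lit 796792436171292671), .ofNat (nat_lit 0)],
  [],
  [],
  [],
  [],
  [],
  []],
  [[],
  [.ofNat (nat_lit 0), .ofNat (nat_lit 2661838803887477760), .ofNat (nat_lit 0)],
  [.ofNat (nat_lit 0), .ofNat (nat_lit 1074745249600315392), .ofNat (nat_lit 0)],
  [],
  [],
  [],
  [],
  []],
  [[],
  [],
  [.ofNat (nat_lit 0), .ofNat (nat_lit 11406890204542646784), .ofNat (nat_lit 0)],
  [.ofNat (nat_lit 0), .ofNat (nat_lit 4395407700384801792), .ofNat (nat_lit 0)],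
  [],
  [],
  [],
  []],
  [[],
  [],
  [],
  [.ofNat (nat_lit 0), .ofNat (nat_lit 13256687691074566656), .ofNat (nat_lit 0)],
  [.ofNat (nat_lit 0), .ofNat (nat_lit 4430932690450968576), .ofNat (nat_lit 0)],
  [],
  [],
  []],
  [[],
  [],
  [],
  [],
  [.ofNat (nat_lit 0), .negSucc (nat_lit 6479036736160407551), .ofNat (nat_lit 0)],
  [.ofNat (nat_lit 0), .negSucc (nat_lit 1653347457568581119), .ofNat (nat_lit 0)],
  [],
  []],
  [[],
  [],
  [],
  [],
  [.ofNat (nat_lit 0), .negSucc (nat_lit 7886002792723623935), .ofNat (nat_lit 0)],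
  [.ofNat (nat_lit 0), .ofNat (nat_lit 174966411295825920), .ofNat (nat_lit 0)],
  [],
  []],
  [[],
  [],
  [],
  [],
  [],
  [.ofNat (nat_lit 0), .negSucc (nat_lit 20643054769494319103), .ofNat (nat_lit 0)],
  [.ofNat (nat_lit 0), .negSucc (nat_lit 2017458544366817279), .ofNat (nat_lit 0)],
  []],
  [[],
  [],
  [],
  [],
  [],
  [],
  [.ofNat (nat_lit 0), .negSucc (nat_lit 2969023800776265215), .ofNat (nat_lit 0)],
  []],
  [[],
  [],
  [],
  [],
  [],
  [],
  [.ofNat (nat_lit 0), .negSucc (nat_lit 2439910761889535999), .ofNat (nat_lit 0)],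
  []]],
  [],
  [],
  [],
  [],
  [],
  [],
  [],
  []],
  [[],
  [],
  [[[.ofNat (nat_lit 0), .ofNat (nat_lit 41630794180807680), .negSucc (nat_lit 579193920409586687)],
  [.ofNat (nat_lit 0), .ofNat (nat_lit 6249949595302671360), .ofNat (nat_lit 0)],
  [],
  [],
  [],
  [],
  [],
  []],
  [[.ofNat (nat_lit 1277469729479881728), .negSucc (nat_lit 2082644883477891071), .ofNat (nat_lit 0)],
  [.negSucc (nat_lit 5487764110482299903), .negSucc (nat_lit 1074745249600315391), .ofNat (nat_lit 0)],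
  [],
  [],
  [],
  [],
  [],
  []],
  [[],
  [.ofNat (nat_lit 0), .negSucc (nat_lit 13763383519647974399), .ofNat (nat_lit 0)],
  [.ofNat (nat_lit 0), .negSucc (nat_lit 2905459558054096895), .ofNat (nat_lit 0)],
  [],
  [],
  [],
  [],
  []],
  [[],
  [],
  [.ofNat (nat_lit 0), .negSucc (nat_lit 10206385151007303935), .ofNat (nat_lit 0)],
  [.ofNat (nat_lit 0), .negSucc (nat_lit 1832501676028179455), .ofNat (nat_lit 0)],
  [],
  [],
  [],
  []],
  [[],
  [],
  [],
  [.ofNat (nat_lit 0), .ofNat (nat_lit 29778156664664654592), .ofNat (nat_lit 0)],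
  [.ofNat (nat_lit 0), .ofNat (nat_lit 2893977698832027648), .ofNat (nat_lit 0)],
  [],
  [],
  []],
  [[],
  [],
  [],
  [],
  [.ofNat (nat_lit 0), .ofNat (nat_lit 19543180702348081152), .ofNat (nat_lit 0)],
  [.ofNat (nat_lit 0), .negSucc (nat_lit 170986933185177599), .ofNat (nat_lit 0)],
  [],
  []],
  [[],
  [],
  [],
  [],
  [.ofNat (nat_lit 0), .ofNat (nat_lit 3138960566016308736), .ofNat (nat_lit 0)],
  [.ofNat (nat_lit 0), .negSucc (nat_lit 356610604903649279), .ofNat (nat_lit 0)],
  [],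
  []],
  [[],
  [],
  [],
  [],
  [],
  [.ofNat (nat_lit 0), .negSucc (nat_lit 14846353739388983807), .ofNat (nat_lit 0)],
  [.ofNat (nat_lit 0), .negSucc (nat_lit 3037711708334015999), .ofNat (nat_lit 0)],
  []],
  [[],
  [],
  [],
  [],
  [],
  [],
  [.ofNat (nat_lit 0), .negSucc (nat_lit 8907071402328795647), .ofNat (nat_lit 0)],
  []],
  [[],
  [],
  [],
  [],
  [],
  [],
  [.ofNat (nat_lit 0), .negSucc (nat_lit 1261970555252774399), .ofNat (nat_lit 0)],
  []]],
  [],
  [],
  [],
  [],
  [],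
  [],
  []],
  [[],
  [],
  [],
  [[[.ofNat (nat_lit 0), .negSucc (nat_lit 1327418399206287359), .ofNat (nat_lit 345680128228230144)],
  [.ofNat (nat_lit 0), .negSucc (nat_lit 1227954539487181823), .ofNat (nat_lit 0)],
  [],
  [],
  [],
  [],
  [],
  []],
  [[.ofNat (nat_lit 114318140457259008), .ofNat (nat_lit 11061210076314416640), .ofNat (nat_lit 0)],
  [.ofNat (nat_lit 2870110330620429312), .ofNat (nat_lit 4395407700384801792), .ofNat (nat_lit 0)],
  [],
  [],
  [],
  [],
  [],
  []],
  [[],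
  [.ofNat (nat_lit 0), .ofNat (nat_lit 10206385151007303936), .ofNat (nat_lit 0)],
  [.ofNat (nat_lit 0), .ofNat (nat_lit 1832501676028179456), .ofNat (nat_lit 0)],
  [],
  [],
  [],
  [],
  []],
  [[],
  [],
  [.ofNat (nat_lit 0), .negSucc (nat_lit 33155665775079232895), .ofNat (nat_lit 0)],
  [.ofNat (nat_lit 0), .negSucc (nat_lit 10036478572183210751), .ofNat (nat_lit 0)],
  [],
  [],
  [],
  []],
  [[],
  [],
  [],
  [.ofNat (nat_lit 0), .negSucc (nat_lit 18431453909898464255), .ofNat (nat_lit 0)],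
  [.ofNat (nat_lit 0), .negSucc (nat_lit 1631417152493509631), .ofNat (nat_lit 0)],
  [],
  [],
  []],
  [[],
  [],
  [],
  [],
  [.ofNat (nat_lit 0), .ofNat (nat_lit 28956848204985268032), .ofNat (nat_lit 0)],
  [.ofNat (nat_lit 0), .ofNat (nat_lit 4634193316141543680), .ofNat (nat_lit 0)],
  [],
  []],
  [[],
  [],
  [],
  [],
  [.ofNat (nat_lit 0), .ofNat (nat_lit 31958496244018649088), .ofNat (nat_lit 0)],
  [.ofNat (nat_lit 0), .ofNat (nat_lit 2674579536777369600), .ofNat (nat_lit 0)],
  [],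
  []],
  [[],
  [],
  [],
  [],
  [],
  [.ofNat (nat_lit 0), .ofNat (nat_lit 17880453222596940672), .ofNat (nat_lit 0)],
  [.ofNat (nat_lit 0), .negSucc (nat_lit 2005934652583027199), .ofNat (nat_lit 0)],
  []],
  [[],
  [],
  [],
  [],
  [],
  [],
  [.ofNat (nat_lit 0), .negSucc (nat_lit 4677226110365714495), .ofNat (nat_lit 0)],
  []],
  [[],
  [],
  [],
  [],
  [],
  [],
  [.ofNat (nat_lit 0), .negSucc (nat_lit 12387366351868144895), .ofNat (nat_lit 0)],
  []]],
  [],
  [],
  [],
  [],
  [],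
  []],
  [[],
  [],
  [],
  [],
  [[[.ofNat (nat_lit 0), .ofNat (nat_lit 5049638791648164864), .ofNat (nat_lit 1083081864420071424)],
  [.ofNat (nat_lit 0), .negSucc (nat_lit 17114086381018761215), .ofNat (nat_lit 0)],
  [],
  [],
  [],
  [],
  [],
  []],
  [[.negSucc (nat_lit 4324621011383319551), .negSucc (nat_lit 14339769555494638079), .ofNat (nat_lit 0)],
  [.ofNat (nat_lit 14242800123926175744), .negSucc (nat_lit 4430932690450968575), .ofNat (nat_lit 0)],
  [],
  [],
  [],
  [],
  [],
  []],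
  [[],
  [.ofNat (nat_lit 0), .ofNat (nat_lit 29778156664664654592), .ofNat (nat_lit 0)],
  [.ofNat (nat_lit 0), .ofNat (nat_lit 2893977698832027648), .ofNat (nat_lit 0)],
  [],
  [],
  [],
  [],
  []],
  [[],
  [],
  [.ofNat (nat_lit 0), .ofNat (nat_lit 18431453909898464256), .ofNat (nat_lit 0)],
  [.ofNat (nat_lit 0), .ofNat (nat_lit 1631417152493509632), .ofNat (nat_lit 0)],
  [],
  [],
  [],
  []],
  [[],
  [],
  [],
  [.ofNat (nat_lit 0), .negSucc (nat_lit 88951393475440430975), .ofNat (nat_lit 0)],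
  [.ofNat (nat_lit 0), .negSucc (nat_lit 5888212640219692799), .ofNat (nat_lit 0)],
  [],
  [],
  []],
  [[],
  [],
  [],
  [],
  [.ofNat (nat_lit 0), .negSucc (nat_lit 4425764175713236031), .ofNat (nat_lit 0)],
  [.ofNat (nat_lit 0), .ofNat (nat_lit 5789427541131110400), .ofNat (nat_lit 0)],
  [],
  []],
  [[],
  [],
  [],
  [],
  [.ofNat (nat_lit 0), .negSucc (nat_lit 2255953403079346175), .ofNat (nat_lit 0)],
  [.ofNat (nat_lit 0), .ofNat (nat_lit 1401725190469017600), .ofNat (nat_lit 0)],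
  [],
  []],
  [[],
  [],
  [],
  [],
  [],
  [.ofNat (nat_lit 0), .ofNat (nat_lit 38515785343711393536), .ofNat (nat_lit 0)],
  [.ofNat (nat_lit 0), .negSucc (nat_lit 1518855854167007999), .ofNat (nat_lit 0)],
  []],
  [[],
  [],
  [],
  [],
  [],
  [],
  [.ofNat (nat_lit 0), .negSucc (nat_lit 1931892718790765951), .ofNat (nat_lit 0)],
  []],
  [[],
  [],
  [],
  [],
  [],
  [],
  [.ofNat (nat_lit 0), .negSucc (nat_lit 11426147423553105791), .ofNat (nat_lit 0)],
  []]],
  [],
  [],
  [],
  [],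
  []],
  [[],
  [],
  [],
  [],
  [],
  [[[.ofNat (nat_lit 0), .negSucc (nat_lit 886645078316301311), .negSucc (nat_lit 85857497189932031)],
  [.ofNat (nat_lit 0), .ofNat (nat_lit 1687988872690348032), .ofNat (nat_lit 0)],
  [],
  [],
  [],
  [],
  [],
  []],
  [[.ofNat (nat_lit 999748065579641856), .negSucc (nat_lit 6393179238970475519), .ofNat (nat_lit 0)],
  [.negSucc (nat_lit 2865733595876376575), .negSucc (nat_lit 1653347457568581119), .ofNat (nat_lit 0)],
  [],
  [],
  [],
  [],
  [],
  []],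
  [[],
  [.ofNat (nat_lit 0), .negSucc (nat_lit 19543180702348081151), .ofNat (nat_lit 0)],
  [.ofNat (nat_lit 0), .ofNat (nat_lit 170986933185177600), .ofNat (nat_lit 0)],
  [],
  [],
  [],
  [],
  []],
  [[],
  [],
  [.ofNat (nat_lit 0), .ofNat (nat_lit 28956848204985268032), .ofNat (nat_lit 0)],
  [.ofNat (nat_lit 0), .ofNat (nat_lit 4634193316141543680), .ofNat (nat_lit 0)],
  [],
  [],
  [],
  []],
  [[],
  [],
  [],
  [.ofNat (nat_lit 0), .ofNat (nat_lit 4425764175713236032), .ofNat (nat_lit 0)],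
  [.ofNat (nat_lit 0), .negSucc (nat_lit 5789427541131110399), .ofNat (nat_lit 0)],
  [],
  [],
  []],
  [[],
  [],
  [],
  [],
  [.ofNat (nat_lit 0), .negSucc (nat_lit 12309746720947226495), .ofNat (nat_lit 0)],
  [.ofNat (nat_lit 0), .ofNat (nat_lit 986155171755123456), .ofNat (nat_lit 0)],
  [],
  []],
  [[],
  [],
  [],
  [],
  [.ofNat (nat_lit 0), .negSucc (nat_lit 23293914622132853375), .ofNat (nat_lit 0)],
  [.ofNat (nat_lit 0), .ofNat (nat_lit 22672292532604416), .ofNat (nat_lit 0)],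
  [],
  []],
  [[],
  [],
  [],
  [],
  [],
  [.ofNat (nat_lit 0), .ofNat (nat_lit 12426588271558406304), .ofNat (nat_lit 0)],
  [.ofNat (nat_lit 0), .negSucc (nat_lit 164280248102638079), .ofNat (nat_lit 0)],
  []],
  [[],
  [],
  [],
  [],
  [],
  [],
  [.ofNat (nat_lit 0), .negSucc (nat_lit 9173553097390650287), .ofNat (nat_lit 0)],
  []],
  [[],
  [],
  [],
  [],
  [],
  [],
  [.ofNat (nat_lit 0), .ofNat (nat_lit 3233000361070287936), .ofNat (nat_lit 0)],
  []]],
  [[[.ofNat (nat_lit 0), .negSucc (nat_lit 2082444876564848639), .negSucc (nat_lit 941790801382659071)],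
  [.ofNat (nat_lit 0), .ofNat (nat_lit 11996442587458520064), .ofNat (nat_lit 0)],
  [],
  [],
  [],
  [],
  [],
  []],
  [[.ofNat (nat_lit 1676923470269190144), .negSucc (nat_lit 6944211991340964863), .ofNat (nat_lit 0)],
  [.negSucc (nat_lit 8442655070893894655), .ofNat (nat_lit 174966411295825920), .ofNat (nat_lit 0)],
  [],
  [],
  [],
  [],
  [],
  []],
  [[],
  [.ofNat (nat_lit 0), .negSucc (nat_lit 3138960566016308735), .ofNat (nat_lit 0)],
  [.ofNat (nat_lit 0), .ofNat (nat_lit 356610604903649280), .ofNat (nat_lit 0)],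
  [],
  [],
  [],
  [],
  []],
  [[],
  [],
  [.ofNat (nat_lit 0), .ofNat (nat_lit 31958496244018649088), .ofNat (nat_lit 0)],
  [.ofNat (nat_lit 0), .ofNat (nat_lit 2674579536777369600), .ofNat (nat_lit 0)],
  [],
  [],
  [],
  []],
  [[],
  [],
  [],
  [.ofNat (nat_lit 0), .ofNat (nat_lit 2255953403079346176), .ofNat (nat_lit 0)],
  [.ofNat (nat_lit 0), .negSucc (nat_lit 1401725190469017599), .ofNat (nat_lit 0)],
  [],
  [],
  []],
  [[],
  [],
  [],
  [],
  [.ofNat (nat_lit 0), .negSucc (nat_lit 23293914622132853375), .ofNat (nat_lit 0)],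
  [.ofNat (nat_lit 0), .ofNat (nat_lit 22672292532604416), .ofNat (nat_lit 0)],
  [],
  []],
  [[],
  [],
  [],
  [],
  [.ofNat (nat_lit 0), .ofNat (nat_lit 9933784803588096), .ofNat (nat_lit 0)],
  [.ofNat (nat_lit 0), .negSucc (nat_lit 90689170130417663), .ofNat (nat_lit 0)],
  [],
  []],
  [[],
  [],
  [],
  [],
  [],
  [.ofNat (nat_lit 0), .ofNat (nat_lit 3741600261721739904), .ofNat (nat_lit 0)],
  [.ofNat (nat_lit 0), .negSucc (nat_lit 680168775978132479), .ofNat (nat_lit 0)],
  []],
  [[],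
  [],
  [],
  [],
  [],
  [],
  [.ofNat (nat_lit 0), .ofNat (nat_lit 6330746644405634880), .ofNat (nat_lit 0)],
  []],
  [[],
  [],
  [],
  [],
  [],
  [],
  [.ofNat (nat_lit 0), .negSucc (nat_lit 15305369687640430847), .ofNat (nat_lit 0)],
  []]],
  [],
  [],
  []],
  [[],
  [],
  [],
  [],
  [],
  [],
  [],
  [[[],
  [],
  [],
  [],
  [],
  [],
  [],
  []],
  [[.ofNat (nat_lit 0), .ofNat (nat_lit 20643054769494319104), .ofNat (nat_lit 0)],
  [.ofNat (nat_lit 0), .ofNat (nat_lit 2017458544366817280), .ofNat (nat_lit 0)],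
  [],
  [],
  [],
  [],
  [],
  []],
  [[],
  [.ofNat (nat_lit 0), .negSucc (nat_lit 14846353739388983807), .ofNat (nat_lit 0)],
  [.ofNat (nat_lit 0), .negSucc (nat_lit 3037711708334015999), .ofNat (nat_lit 0)],
  [],
  [],
  [],
  [],
  []],
  [[],
  [],
  [.ofNat (nat_lit 0), .negSucc (nat_lit 17880453222596940671), .ofNat (nat_lit 0)],
  [.ofNat (nat_lit 0), .ofNat (nat_lit 2005934652583027200), .ofNat (nat_lit 0)],
  [],
  [],
  [],
  []],
  [[],
  [],
  [],
  [.ofNat (nat_lit 0), .ofNat (nat_lit 38515785343711393536), .ofNat (nat_lit 0)],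
  [.ofNat (nat_lit 0), .negSucc (nat_lit 1518855854167007999), .ofNat (nat_lit 0)],
  [],
  [],
  []],
  [[],
  [],
  [],
  [],
  [.ofNat (nat_lit 0), .negSucc (nat_lit 12426588271558406303), .ofNat (nat_lit 0)],
  [.ofNat (nat_lit 0), .ofNat (nat_lit 164280248102638080), .ofNat (nat_lit 0)],
  [],
  []],
  [[],
  [],
  [],
  [],
  [.ofNat (nat_lit 0), .negSucc (nat_lit 3741600261721739903), .ofNat (nat_lit 0)],
  [.ofNat (nat_lit 0), .ofNat (nat_lit 680168775978132480), .ofNat (nat_lit 0)],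
  [],
  []],
  [[],
  [],
  [],
  [],
  [],
  [.ofNat (nat_lit 0), .ofNat (nat_lit 47527200604298853792), .ofNat (nat_lit 0)],
  [],
  []],
  [[],
  [],
  [],
  [],
  [],
  [],
  [.ofNat (nat_lit 0), .negSucc (nat_lit 5896334570587174511), .ofNat (nat_lit 0)],
  []],
  [[],
  [],
  [],
  [],
  [],
  [],
  [.ofNat (nat_lit 0), .ofNat (nat_lit 1765632438999929664), .ofNat (nat_lit 0)],
  []]],
  [],
  []],
  [[],
  [],
  [],
  [],
  [],
  [],
  [],
  [],
  [[[],
  [],
  [],
  [],
  [],
  [],
  [],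
  []],
  [[.ofNat (nat_lit 0), .negSucc (nat_lit 2969023800776265215), .ofNat (nat_lit 0)],
  [],
  [],
  [],
  [],
  [],
  [],
  []],
  [[],
  [.ofNat (nat_lit 0), .ofNat (nat_lit 8907071402328795648), .ofNat (nat_lit 0)],
  [],
  [],
  [],
  [],
  [],
  []],
  [[],
  [],
  [.ofNat (nat_lit 0), .negSucc (nat_lit 4677226110365714495), .ofNat (nat_lit 0)],
  [],
  [],
  [],
  [],
  []],
  [[],
  [],
  [],
  [.ofNat (nat_lit 0), .ofNat (nat_lit 1931892718790765952), .ofNat (nat_lit 0)],
  [],
  [],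
  [],
  []],
  [[],
  [],
  [],
  [],
  [.ofNat (nat_lit 0), .negSucc (nat_lit 9173553097390650287), .ofNat (nat_lit 0)],
  [],
  [],
  []],
  [[],
  [],
  [],
  [],
  [.ofNat (nat_lit 0), .ofNat (nat_lit 6330746644405634880), .ofNat (nat_lit 0)],
  [],
  [],
  []],
  [[],
  [],
  [],
  [],
  [],
  [.ofNat (nat_lit 0), .ofNat (nat_lit 5896334570587174512), .ofNat (nat_lit 0)],
  [],
  []],
  [[],
  [],
  [],
  [],
  [],
  [],
  [.ofNat (nat_lit 0), .negSucc (nat_lit 2319967201282636103), .ofNat (nat_lit 0)],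
  []],
  [[],
  [],
  [],
  [],
  [],
  [],
  [.ofNat (nat_lit 0), .ofNat (nat_lit 400174359394497120), .ofNat (nat_lit 0)],
  []]],
  [[[],
  [],
  [],
  [],
  [],
  [],
  [],
  []],
  [[.ofNat (nat_lit 0), .negSucc (nat_lit 2439910761889535999), .ofNat (nat_lit 0)],
  [],
  [],
  [],
  [],
  [],
  [],
  []],
  [[],
  [.ofNat (nat_lit 0), .ofNat (nat_lit 1261970555252774400), .ofNat (nat_lit 0)],
  [],
  [],
  [],
  [],
  [],
  []],
  [[],
  [],
  [.ofNat (nat_lit 0), .negSucc (nat_lit 12387366351868144895), .ofNat (nat_lit 0)],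
  [],
  [],
  [],
  [],
  []],
  [[],
  [],
  [],
  [.ofNat (nat_lit 0), .ofNat (nat_lit 11426147423553105792), .ofNat (nat_lit 0)],
  [],
  [],
  [],
  []],
  [[],
  [],
  [],
  [],
  [.ofNat (nat_lit 0), .ofNat (nat_lit 3233000361070287936), .ofNat (nat_lit 0)],
  [],
  [],
  []],
  [[],
  [],
  [],
  [],
  [.ofNat (nat_lit 0), .negSucc (nat_lit 15305369687640430847), .ofNat (nat_lit 0)],
  [],
  [],
  []],
  [[],
  [],
  [],
  [],
  [],
  [.ofNat (nat_lit 0), .negSucc (nat_lit 1765632438999929663), .ofNat (nat_lit 0)],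
  [],
  []],
  [[],
  [],
  [],
  [],
  [],
  [],
  [.ofNat (nat_lit 0), .ofNat (nat_lit 400174359394497120), .ofNat (nat_lit 0)],
  []],
  [[],
  [],
  [],
  [],
  [],
  [],
  [.ofNat (nat_lit 0), .negSucc (nat_lit 11883382174250542079), .ofNat (nat_lit 0)],
  []]]]],
  [[[[[.ofNat (nat_lit 0), .ofNat (nat_lit 0), .ofNat (nat_lit 4016392200493056)],
  [.ofNat (nat_lit 0), .ofNat (nat_lit 0), .ofNat (nat_lit 149955161902718976)],
  [],
  [],
  [],
  [],
  [],
  []],
  [[.ofNat (nat_lit 0), .ofNat (nat_lit 16740595274932224), .ofNat (nat_lit 0)],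
  [.ofNat (nat_lit 0), .ofNat (nat_lit 925394764894387200), .ofNat (nat_lit 0)],
  [],
  [],
  [],
  [],
  [],
  []],
  [[],
  [.ofNat (nat_lit 0), .ofNat (nat_lit 659550261830344704), .ofNat (nat_lit 0)],
  [.ofNat (nat_lit 0), .ofNat (nat_lit 381092742410185728), .ofNat (nat_lit 0)],
  [],
  [],
  [],
  [],
  []],
  [[],
  [],
  [.ofNat (nat_lit 0), .ofNat (nat_lit 606550129374514176), .ofNat (nat_lit 0)],
  [.ofNat (nat_lit 0), .negSucc (nat_lit 821077895566623743), .ofNat (nat_lit 0)],
  [],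
  [],
  [],
  []],
  [[],
  [],
  [],
  [.ofNat (nat_lit 0), .ofNat (nat_lit 362508890132422656), .ofNat (nat_lit 0)],
  [.ofNat (nat_lit 0), .negSucc (nat_lit 1435643128546292735), .ofNat (nat_lit 0)],
  [],
  [],
  []],
  [[],
  [],
  [],
  [],
  [.ofNat (nat_lit 0), .negSucc (nat_lit 56551493631670271), .ofNat (nat_lit 0)],
  [.ofNat (nat_lit 0), .ofNat (nat_lit 588872361593014272), .ofNat (nat_lit 0)],
  [],
  []],
  [[],
  [],
  [],
  [],
  [.ofNat (nat_lit 0), .ofNat (nat_lit 202760703147829248), .ofNat (nat_lit 0)],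
  [.ofNat (nat_lit 0), .negSucc (nat_lit 1776893758282312703), .ofNat (nat_lit 0)],
  [],
  []],
  [[],
  [],
  [],
  [],
  [],
  [],
  [],
  []],
  [[],
  [],
  [],
  [],
  [],
  [],
  [],
  []],
  [[],
  [],
  [],
  [],
  [],
  [],
  [],
  []]],
  [],
  [],
  [],
  [],
  [],
  [],
  [],
  [],
  []],
  [[],
  [],
  [],
  [],
  [],
  [],
  [],
  [],
  [],
  []],
  [[],
  [[[.ofNat (nat_lit 0), .negSucc (nat_lit 330373233064774655), .negSucc (nat_lit 490452685488322559)],
  [.ofNat (nat_lit 0), .negSucc (nat_lit 162952502055072767), .ofNat (nat_lit 0)],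
  [],
  [],
  [],
  [],
  [],
  []],
  [[.ofNat (nat_lit 330373233064774656), .ofNat (nat_lit 1173934920044943360), .ofNat (nat_lit 0)],
  [.ofNat (nat_lit 162952502055072768), .negSucc (nat_lit 4578482786662909439), .ofNat (nat_lit 0)],
  [],
  [],
  [],
  [],
  [],
  []],
  [[],
  [.ofNat (nat_lit 0), .negSucc (nat_lit 3426680747558596607), .ofNat (nat_lit 0)],
  [.ofNat (nat_lit 0), .negSucc (nat_lit 3299753204817518591), .ofNat (nat_lit 0)],
  [],
  [],
  [],
  [],
  []],
  [[],
  [],
  [.ofNat (nat_lit 0), .negSucc (nat_lit 3664680326149492223), .ofNat (nat_lit 0)],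
  [.ofNat (nat_lit 0), .ofNat (nat_lit 13771649765361454848), .ofNat (nat_lit 0)],
  [],
  [],
  [],
  []],
  [[],
  [],
  [],
  [.ofNat (nat_lit 0), .negSucc (nat_lit 711139804284460031), .ofNat (nat_lit 0)],
  [.ofNat (nat_lit 0), .ofNat (nat_lit 18149593777818711552), .ofNat (nat_lit 0)],
  [],
  [],
  []],
  [[],
  [],
  [],
  [],
  [.ofNat (nat_lit 0), .ofNat (nat_lit 1909423144571113728), .ofNat (nat_lit 0)],
  [.ofNat (nat_lit 0), .negSucc (nat_lit 12489094660433129855), .ofNat (nat_lit 0)],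
  [],
  []],
  [[],
  [],
  [],
  [],
  [.ofNat (nat_lit 0), .negSucc (nat_lit 1591374986687748095), .ofNat (nat_lit 0)],
  [.ofNat (nat_lit 0), .ofNat (nat_lit 20910833860049519616), .ofNat (nat_lit 0)],
  [],
  []],
  [[],
  [],
  [],
  [],
  [],
  [.ofNat (nat_lit 0), .ofNat (nat_lit 672432869133665280), .ofNat (nat_lit 0)],
  [.ofNat (nat_lit 0), .negSucc (nat_lit 4493617763222131199), .ofNat (nat_lit 0)],
  []],
  [[],
  [],
  [],
  [],
  [],
  [],
  [],
  []],
  [[],
  [],
  [],
  [],
  [],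
  [],
  [],
  []]],
  [],
  [],
  [],
  [],
  [],
  [],
  [],
  []],
  [[],
  [],
  [[[.ofNat (nat_lit 0), .negSucc (nat_lit 141354230053856255), .ofNat (nat_lit 1301213361746847744)],
  [.ofNat (nat_lit 0), .negSucc (nat_lit 1961925350730209279), .ofNat (nat_lit 0)],
  [],
  [],
  [],
  [],
  [],
  []],
  [[.ofNat (nat_lit 141354230053856256), .ofNat (nat_lit 2125467385811748864), .ofNat (nat_lit 0)],
  [.ofNat (nat_lit 1961925350730209280), .ofNat (nat_lit 3299753204817518592), .ofNat (nat_lit 0)],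
  [],
  [],
  [],
  [],
  [],
  []],
  [[],
  [.ofNat (nat_lit 0), .ofNat (nat_lit 1713766970359296000), .ofNat (nat_lit 0)],
  [.ofNat (nat_lit 0), .ofNat (nat_lit 7124873703527471616), .ofNat (nat_lit 0)],
  [],
  [],
  [],
  [],
  []],
  [[],
  [],
  [.ofNat (nat_lit 0), .negSucc (nat_lit 3132199869761682431), .ofNat (nat_lit 0)],
  [.ofNat (nat_lit 0), .ofNat (nat_lit 107466299901978624), .ofNat (nat_lit 0)],
  [],
  [],
  [],
  []],
  [[],
  [],
  [],
  [.ofNat (nat_lit 0), .ofNat (nat_lit 475953296154868224), .ofNat (nat_lit 0)],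
  [.ofNat (nat_lit 0), .negSucc (nat_lit 13945200790575902975), .ofNat (nat_lit 0)],
  [],
  [],
  []],
  [[],
  [],
  [],
  [],
  [.ofNat (nat_lit 0), .ofNat (nat_lit 2951575719520905216), .ofNat (nat_lit 0)],
  [.ofNat (nat_lit 0), .negSucc (nat_lit 19709943580015598591), .ofNat (nat_lit 0)],
  [],
  []],
  [[],
  [],
  [],
  [],
  [.ofNat (nat_lit 0), .negSucc (nat_lit 23445271378851839), .ofNat (nat_lit 0)],
  [.ofNat (nat_lit 0), .ofNat (nat_lit 578595688089744384), .ofNat (nat_lit 0)],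
  [],
  []],
  [[],
  [],
  [],
  [],
  [],
  [.ofNat (nat_lit 0), .ofNat (nat_lit 1812961824340204800), .ofNat (nat_lit 0)],
  [.ofNat (nat_lit 0), .negSucc (nat_lit 14488645153560140159), .ofNat (nat_lit 0)],
  []],
  [[],
  [],
  [],
  [],
  [],
  [],
  [],
  []],
  [[],
  [],
  [],
  [],
  [],
  [],
  [],
  []]],
  [],
  [],
  [],
  [],
  [],
  [],
  []],
  [[],
  [],
  [],
  [[[.ofNat (nat_lit 0), .ofNat (nat_lit 974236181967535104), .ofNat (nat_lit 1215071563750013952)],
  [.ofNat (nat_lit 0), .ofNat (nat_lit 853315268369725440), .ofNat (nat_lit 0)],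
  [],
  [],
  [],
  [],
  [],
  []],
  [[.negSucc (nat_lit 974236181967535103), .negSucc (nat_lit 4879751889899506175), .ofNat (nat_lit 0)],
  [.negSucc (nat_lit 853315268369725439), .ofNat (nat_lit 13771649765361454848), .ofNat (nat_lit 0)],
  [],
  [],
  [],
  [],
  [],
  []],
  [[],
  [.ofNat (nat_lit 0), .ofNat (nat_lit 3132199869761682432), .ofNat (nat_lit 0)],
  [.ofNat (nat_lit 0), .negSucc (nat_lit 107466299901978623), .ofNat (nat_lit 0)],
  [],
  [],
  [],
  [],
  []],
  [[],
  [],
  [.ofNat (nat_lit 0), .ofNat (nat_lit 6564336941097748224), .ofNat (nat_lit 0)],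
  [.ofNat (nat_lit 0), .negSucc (nat_lit 49322883475245853439), .ofNat (nat_lit 0)],
  [],
  [],
  [],
  []],
  [[],
  [],
  [],
  [.ofNat (nat_lit 0), .ofNat (nat_lit 160276879896551424), .ofNat (nat_lit 0)],
  [.ofNat (nat_lit 0), .negSucc (nat_lit 20755018023021706751), .ofNat (nat_lit 0)],
  [],
  [],
  []],
  [[],
  [],
  [],
  [],
  [.ofNat (nat_lit 0), .negSucc (nat_lit 2507625059598398591), .ofNat (nat_lit 0)],
  [.ofNat (nat_lit 0), .ofNat (nat_lit 23910954080863612608), .ofNat (nat_lit 0)],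
  [],
  []],
  [[],
  [],
  [],
  [],
  [.ofNat (nat_lit 0), .ofNat (nat_lit 175839535341388800), .ofNat (nat_lit 0)],
  [.ofNat (nat_lit 0), .negSucc (nat_lit 4339467660673082879), .ofNat (nat_lit 0)],
  [],
  []],
  [[],
  [],
  [],
  [],
  [],
  [.ofNat (nat_lit 0), .negSucc (nat_lit 131879651506041599), .ofNat (nat_lit 0)],
  [.ofNat (nat_lit 0), .ofNat (nat_lit 3254600745504812160), .ofNat (nat_lit 0)],
  []],
  [[],
  [],
  [],
  [],
  [],
  [],
  [],
  []],
  [[],
  [],
  [],
  [],
  [],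
  [],
  [],
  []]],
  [],
  [],
  [],
  [],
  [],
  []],
  [[],
  [],
  [],
  [],
  [[[.ofNat (nat_lit 0), .negSucc (nat_lit 2410445497332510719), .negSucc (nat_lit 4239613149409373183)],
  [.ofNat (nat_lit 0), .ofNat (nat_lit 9507804665581320192), .ofNat (nat_lit 0)],
  [],
  [],
  [],
  [],
  [],
  []],
  [[.ofNat (nat_lit 2410445497332510720), .ofNat (nat_lit 4950752953693833216), .ofNat (nat_lit 0)],
  [.negSucc (nat_lit 9507804665581320191), .negSucc (nat_lit 18149593777818711551), .ofNat (nat_lit 0)],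
  [],
  [],
  [],
  [],
  [],
  []],
  [[],
  [.ofNat (nat_lit 0), .ofNat (nat_lit 475953296154868224), .ofNat (nat_lit 0)],
  [.ofNat (nat_lit 0), .negSucc (nat_lit 13945200790575902975), .ofNat (nat_lit 0)],
  [],
  [],
  [],
  [],
  []],
  [[],
  [],
  [.ofNat (nat_lit 0), .negSucc (nat_lit 160276879896551423), .ofNat (nat_lit 0)],
  [.ofNat (nat_lit 0), .ofNat (nat_lit 20755018023021706752), .ofNat (nat_lit 0)],
  [],
  [],
  [],
  []],
  [[],
  [],
  [],
  [.ofNat (nat_lit 0), .negSucc (nat_lit 4325906537298607103), .ofNat (nat_lit 0)],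
  [.ofNat (nat_lit 0), .ofNat (nat_lit 36449296780686697728), .ofNat (nat_lit 0)],
  [],
  [],
  []],
  [[],
  [],
  [],
  [],
  [.ofNat (nat_lit 0), .negSucc (nat_lit 3038200429646428415), .ofNat (nat_lit 0)],
  [.ofNat (nat_lit 0), .ofNat (nat_lit 25738958699132570496), .ofNat (nat_lit 0)],
  [],
  []],
  [[],
  [],
  [],
  [],
  [.ofNat (nat_lit 0), .ofNat (nat_lit 900857315606234112), .ofNat (nat_lit 0)],
  [.ofNat (nat_lit 0), .negSucc (nat_lit 7210753917765668351), .ofNat (nat_lit 0)],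
  [],
  []],
  [[],
  [],
  [],
  [],
  [],
  [.ofNat (nat_lit 0), .ofNat (nat_lit 906480912170102400), .ofNat (nat_lit 0)],
  [.ofNat (nat_lit 0), .negSucc (nat_lit 7244322576780070079), .ofNat (nat_lit 0)],
  []],
  [[],
  [],
  [],
  [],
  [],
  [],
  [],
  []],
  [[],
  [],
  [],
  [],
  [],
  [],
  [],
  []]],
  [],
  [],
  [],
  [],
  []],
  [[],
  [],
  [],
  [],
  [],
  [[[.ofNat (nat_lit 0), .ofNat (nat_lit 426828349835541504), .negSucc (nat_lit 275906393447500799)],
  [.ofNat (nat_lit 0), .negSucc (nat_lit 1524064729259667455), .ofNat (nat_lit 0)],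
  [],
  [],
  [],
  [],
  [],
  []],
  [[.negSucc (nat_lit 426828349835541503), .ofNat (nat_lit 2185329538018614528), .ofNat (nat_lit 0)],
  [.ofNat (nat_lit 1524064729259667456), .negSucc (nat_lit 12489094660433129855), .ofNat (nat_lit 0)],
  [],
  [],
  [],
  [],
  [],
  []],
  [[],
  [.ofNat (nat_lit 0), .negSucc (nat_lit 2951575719520905215), .ofNat (nat_lit 0)],
  [.ofNat (nat_lit 0), .ofNat (nat_lit 19709943580015598592), .ofNat (nat_lit 0)],
  [],
  [],
  [],
  [],
  []],
  [[],
  [],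
  [.ofNat (nat_lit 0), .negSucc (nat_lit 2507625059598398591), .ofNat (nat_lit 0)],
  [.ofNat (nat_lit 0), .ofNat (nat_lit 23910954080863612608), .ofNat (nat_lit 0)],
  [],
  [],
  [],
  []],
  [[],
  [],
  [],
  [.ofNat (nat_lit 0), .ofNat (nat_lit 3038200429646428416), .ofNat (nat_lit 0)],
  [.ofNat (nat_lit 0), .negSucc (nat_lit 25738958699132570495), .ofNat (nat_lit 0)],
  [],
  [],
  []],
  [[],
  [],
  [],
  [],
  [.ofNat (nat_lit 0), .ofNat (nat_lit 71543432995801344), .ofNat (nat_lit 0)],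
  [.ofNat (nat_lit 0), .negSucc (nat_lit 1664747187445923839), .ofNat (nat_lit 0)],
  [],
  []],
  [[],
  [],
  [],
  [],
  [.ofNat (nat_lit 0), .negSucc (nat_lit 25345087893478655), .ofNat (nat_lit 0)],
  [.ofNat (nat_lit 0), .ofNat (nat_lit 222111719785289088), .ofNat (nat_lit 0)],
  [],
  []],
  [[],
  [],
  [],
  [],
  [],
  [.ofNat (nat_lit 0), .negSucc (nat_lit 212068101118763519), .ofNat (nat_lit 0)],
  [.ofNat (nat_lit 0), .ofNat (nat_lit 2208271355973803520), .ofNat (nat_lit 0)],
  []],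
  [[],
  [],
  [],
  [],
  [],
  [],
  [],
  []],
  [[],
  [],
  [],
  [],
  [],
  [],
  [],
  []]],
  [[[.ofNat (nat_lit 0), .ofNat (nat_lit 960497605739464704), .ofNat (nat_lit 3338502953438380032)],
  [.ofNat (nat_lit 0), .negSucc (nat_lit 6718212676480269311), .ofNat (nat_lit 0)],
  [],
  [],
  [],
  [],
  [],
  []],
  [[.negSucc (nat_lit 960497605739464703), .negSucc (nat_lit 4929877940126128127), .ofNat (nat_lit 0)],
  [.ofNat (nat_lit 6718212676480269312), .ofNat (nat_lit 20910833860049519616), .ofNat (nat_lit 0)],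
  [],
  [],
  [],
  [],
  [],
  []],
  [[],
  [.ofNat (nat_lit 0), .ofNat (nat_lit 23445271378851840), .ofNat (nat_lit 0)],
  [.ofNat (nat_lit 0), .negSucc (nat_lit 578595688089744383), .ofNat (nat_lit 0)],
  [],
  [],
  [],
  [],
  []],
  [[],
  [],
  [.ofNat (nat_lit 0), .ofNat (nat_lit 175839535341388800), .ofNat (nat_lit 0)],
  [.ofNat (nat_lit 0), .negSucc (nat_lit 4339467660673082879), .ofNat (nat_lit 0)],
  [],
  [],
  [],
  []],
  [[],
  [],
  [],
  [.ofNat (nat_lit 0), .negSucc (nat_lit 900857315606234111), .ofNat (nat_lit 0)],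
  [.ofNat (nat_lit 0), .ofNat (nat_lit 7210753917765668352), .ofNat (nat_lit 0)],
  [],
  [],
  []],
  [[],
  [],
  [],
  [],
  [.ofNat (nat_lit 0), .negSucc (nat_lit 25345087893478655), .ofNat (nat_lit 0)],
  [.ofNat (nat_lit 0), .ofNat (nat_lit 222111719785289088), .ofNat (nat_lit 0)],
  [],
  []],
  [[],
  [],
  [],
  [],
  [.ofNat (nat_lit 0), .ofNat (nat_lit 101380351573914624), .ofNat (nat_lit 0)],
  [.ofNat (nat_lit 0), .negSucc (nat_lit 888446879141156351), .ofNat (nat_lit 0)],
  [],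
  []],
  [[],
  [],
  [],
  [],
  [],
  [.ofNat (nat_lit 0), .ofNat (nat_lit 760352636804359680), .ofNat (nat_lit 0)],
  [.ofNat (nat_lit 0), .negSucc (nat_lit 6663351593558672639), .ofNat (nat_lit 0)],
  []],
  [[],
  [],
  [],
  [],
  [],
  [],
  [],
  []],
  [[],
  [],
  [],
  [],
  [],
  [],
  [],
  []]],
  [],
  [],
  []],
  [[],
  [],
  [],
  [],
  [],
  [],
  [],
  [[[],
  [],
  [],
  [],
  [],
  [],
  [],
  []],
  [[.ofNat (nat_lit 0), .negSucc (nat_lit 672432869133665279), .ofNat (nat_lit 0)],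
  [.ofNat (nat_lit 0), .ofNat (nat_lit 4493617763222131200), .ofNat (nat_lit 0)],
  [],
  [],
  [],
  [],
  [],
  []],
  [[],
  [.ofNat (nat_lit 0), .ofNat (nat_lit 1812961824340204800), .ofNat (nat_lit 0)],
  [.ofNat (nat_lit 0), .negSucc (nat_lit 14488645153560140159), .ofNat (nat_lit 0)],
  [],
  [],
  [],
  [],
  []],
  [[],
  [],
  [.ofNat (nat_lit 0), .ofNat (nat_lit 131879651506041600), .ofNat (nat_lit 0)],
  [.ofNat (nat_lit 0), .negSucc (nat_lit 3254600745504812159), .ofNat (nat_lit 0)],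
  [],
  [],
  [],
  []],
  [[],
  [],
  [],
  [.ofNat (nat_lit 0), .ofNat (nat_lit 906480912170102400), .ofNat (nat_lit 0)],
  [.ofNat (nat_lit 0), .negSucc (nat_lit 7244322576780070079), .ofNat (nat_lit 0)],
  [],
  [],
  []],
  [[],
  [],
  [],
  [],
  [.ofNat (nat_lit 0), .ofNat (nat_lit 212068101118763520), .ofNat (nat_lit 0)],
  [.ofNat (nat_lit 0), .negSucc (nat_lit 2208271355973803519), .ofNat (nat_lit 0)],
  [],
  []],
  [[],
  [],
  [],
  [],
  [.ofNat (nat_lit 0), .negSucc (nat_lit 760352636804359679), .ofNat (nat_lit 0)],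
  [.ofNat (nat_lit 0), .ofNat (nat_lit 6663351593558672640), .ofNat (nat_lit 0)],
  [],
  []],
  [[],
  [],
  [],
  [],
  [],
  [],
  [],
  []],
  [[],
  [],
  [],
  [],
  [],
  [],
  [],
  []],
  [[],
  [],
  [],
  [],
  [],
  [],
  [],
  []]],
  [],
  []],
  [[],
  [],
  [],
  [],
  [],
  [],
  [],
  [],
  [[[],
  [],
  [],
  [],
  [],
  [],
  [],
  []],
  [[],
  [],
  [],
  [],
  [],
  [],
  [],
  []],
  [[],
  [],
  [],
  [],
  [],
  [],
  [],
  []],
  [[],
  [],
  [],
  [],
  [],
  [],
  [],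
  []],
  [[],
  [],
  [],
  [],
  [],
  [],
  [],
  []],
  [[],
  [],
  [],
  [],
  [],
  [],
  [],
  []],
  [[],
  [],
  [],
  [],
  [],
  [],
  [],
  []],
  [[],
  [],
  [],
  [],
  [],
  [],
  [],
  []],
  [[],
  [],
  [],
  [],
  [],
  [],
  [],
  []],
  [[],
  [],
  [],
  [],
  [],
  [],
  [],
  []]],
  [[[],
  [],
  [],
  [],
  [],
  [],
  [],
  []],
  [[],
  [],
  [],
  [],
  [],
  [],
  [],
  []],
  [[],
  [],
  [],
  [],
  [],
  [],
  [],
  []],
  [[],
  [],
  [],
  [],
  [],
  [],
  [],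
  []],
  [[],
  [],
  [],
  [],
  [],
  [],
  [],
  []],
  [[],
  [],
  [],
  [],
  [],
  [],
  [],
  []],
  [[],
  [],
  [],
  [],
  [],
  [],
  [],
  []],
  [[],
  [],
  [],
  [],
  [],
  [],
  [],
  []],
  [[],
  [],
  [],
  [],
  [],
  [],
  [],
  []],
  [[],
  [],
  [],
  [],
  [],
  [],
  [],
  []]]]]]

noncomputable def BP0_E : L5 := [[[[[],
  []],
  [[],
  []],
  [[],
  []]],
  [[[.ofNat (nat_lit 190758547284085728), .ofNat (nat_lit 53202347384438304), .ofNat (nat_lit 0)],
  []],
  [[.ofNat (nat_lit 0), .negSucc (nat_lit 111763757012486111), .ofNat (nat_lit 0)],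
  []],
  [[],
  []]],
  [[[.negSucc (nat_lit 1393883087279250239), .negSucc (nat_lit 341378985847552703), .ofNat (nat_lit 0)],
  []],
  [[.ofNat (nat_lit 0), .ofNat (nat_lit 906531088352868576), .ofNat (nat_lit 0)],
  []],
  [[],
  []]],
  [[[.ofNat (nat_lit 4102082491589311392), .ofNat (nat_lit 850328357521201632), .ofNat (nat_lit 0)],
  []],
  [[.ofNat (nat_lit 0), .negSucc (nat_lit 3137825063194008767), .ofNat (nat_lit 0)],
  []],
  [[],
  []]],
  [[[.negSucc (nat_lit 6108667654157788319), .negSucc (nat_lit 939477759246386783), .ofNat (nat_lit 0)],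
  []],
  [[.ofNat (nat_lit 0), .ofNat (nat_lit 6040510907771532960), .ofNat (nat_lit 0)],
  []],
  [[],
  []]],
  [[[.ofNat (nat_lit 4613500577647589472), .ofNat (nat_lit 188402184029417184), .ofNat (nat_lit 0)],
  []],
  [[.ofNat (nat_lit 0), .negSucc (nat_lit 7024359213873933695), .ofNat (nat_lit 0)],
  []],
  [[],
  []]],
  [[[.negSucc (nat_lit 1306795367193790463), .ofNat (nat_lit 575666787115079424), .ofNat (nat_lit 0)],
  []],
  [[.ofNat (nat_lit 0), .ofNat (nat_lit 4960090598476559904), .ofNat (nat_lit 0)],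
  []],
  [[],
  []]],
  [[[.negSucc (nat_lit 274664147183689823), .negSucc (nat_lit 534413393544623327), .ofNat (nat_lit 0)],
  []],
  [[.ofNat (nat_lit 0), .negSucc (nat_lit 1976862101477215391), .ofNat (nat_lit 0)],
  []],
  [[],
  []]],
  [[[.ofNat (nat_lit 177668639293532256), .ofNat (nat_lit 147670462588426272), .ofNat (nat_lit 0)],
  []],
  [[.ofNat (nat_lit 0), .ofNat (nat_lit 343677540956682528), .ofNat (nat_lit 0)],
  []],
  [[],
  []]]],
  [[[[],
  []],
  [[],
  []],
  [[],
  []]],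
  [[[.negSucc (nat_lit 76948221758275583), .ofNat (nat_lit 0), .ofNat (nat_lit 0)],
  []],
  [[.ofNat (nat_lit 0), .ofNat (nat_lit 16019615689402176), .ofNat (nat_lit 0)],
  [.ofNat (nat_lit 0), .ofNat (nat_lit 6174464509488384), .ofNat (nat_lit 0)]],
  [[.ofNat (nat_lit 0), .negSucc (nat_lit 14745781409349887), .ofNat (nat_lit 0)],
  [.ofNat (nat_lit 0), .ofNat (nat_lit 9430811072866080), .ofNat (nat_lit 0)]]],
  [[[.ofNat (nat_lit 631004944364065152), .ofNat (nat_lit 165736261197508320), .ofNat (nat_lit 0)],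
  []],
  [[.ofNat (nat_lit 0), .ofNat (nat_lit 90537537044732544), .ofNat (nat_lit 0)],
  [.ofNat (nat_lit 0), .negSucc (nat_lit 12348929018976767), .ofNat (nat_lit 0)]],
  [[.ofNat (nat_lit 0), .ofNat (nat_lit 29491562818699776), .ofNat (nat_lit 0)],
  [.ofNat (nat_lit 0), .negSucc (nat_lit 18861622145732159), .ofNat (nat_lit 0)]]],
  [[[.negSucc (nat_lit 1804200203860759007), .negSucc (nat_lit 677506821756327071), .ofNat (nat_lit 0)],
  []],
  [[.ofNat (nat_lit 0), .negSucc (nat_lit 92059711351082783), .ofNat (nat_lit 0)],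
  [.ofNat (nat_lit 0), .ofNat (nat_lit 6174464509488384), .ofNat (nat_lit 0)]],
  [[.ofNat (nat_lit 0), .negSucc (nat_lit 14745781409349887), .ofNat (nat_lit 0)],
  [.ofNat (nat_lit 0), .ofNat (nat_lit 9430811072866080), .ofNat (nat_lit 0)]]],
  [[[.ofNat (nat_lit 1852307144115513984), .ofNat (nat_lit 941427216729522432), .ofNat (nat_lit 0)],
  []],
  [[.ofNat (nat_lit 0), .negSucc (nat_lit 427593195191977343), .ofNat (nat_lit 0)],
  []],
  [[],
  []]],
  [[[.ofNat (nat_lit 766877334004319616), .negSucc (nat_lit 136890446591242367), .ofNat (nat_lit 0)],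
  []],
  [[.ofNat (nat_lit 0), .ofNat (nat_lit 737658939910859136), .ofNat (nat_lit 0)],
  []],
  [[],
  []]],
  [[[.negSucc (nat_lit 3219521098529006783), .negSucc (nat_lit 953516255084710559), .ofNat (nat_lit 0)],
  []],
  [[.ofNat (nat_lit 0), .negSucc (nat_lit 414886642865039231), .ofNat (nat_lit 0)],
  []],
  [[],
  []]],
  [[[.ofNat (nat_lit 2502790524010332000), .ofNat (nat_lit 945111524621643936), .ofNat (nat_lit 0)],
  []],
  [[.ofNat (nat_lit 0), .ofNat (nat_lit 132105271426613856), .ofNat (nat_lit 0)],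
  []],
  [[],
  []]],
  [[[.negSucc (nat_lit 652310422346189375), .negSucc (nat_lit 284361479116394687), .ofNat (nat_lit 0)],
  []],
  [[.ofNat (nat_lit 0), .negSucc (nat_lit 41781814663508351), .ofNat (nat_lit 0)],
  []],
  [[],
  []]]],
  [[[[],
  []],
  [[],
  []],
  [[],
  []]],
  [[[.ofNat (nat_lit 0), .negSucc (nat_lit 11477945899167551), .ofNat (nat_lit 0)],
  []],
  [[.ofNat (nat_lit 0), .ofNat (nat_lit 52981947047855520), .ofNat (nat_lit 0)],
  [.ofNat (nat_lit 0), .ofNat (nat_lit 14192031634864128), .ofNat (nat_lit 0)]],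
  [[.ofNat (nat_lit 0), .negSucc (nat_lit 20610945682198271), .ofNat (nat_lit 0)],
  [.ofNat (nat_lit 0), .negSucc (nat_lit 11909148200318303), .ofNat (nat_lit 0)]]],
  [[[],
  []],
  [[],
  []],
  [[],
  []]],
  [[[.negSucc (nat_lit 52917996395929247), .ofNat (nat_lit 373342802333097888), .ofNat (nat_lit 0)],
  []],
  [[.ofNat (nat_lit 0), .negSucc (nat_lit 1458677367379439999), .ofNat (nat_lit 0)],
  [.ofNat (nat_lit 0), .negSucc (nat_lit 42576094904592383), .ofNat (nat_lit 0)]],
  [[.ofNat (nat_lit 0), .ofNat (nat_lit 61832837046594816), .ofNat (nat_lit 0)],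
  [.ofNat (nat_lit 0), .ofNat (nat_lit 35727444600954912), .ofNat (nat_lit 0)]]],
  [[[.ofNat (nat_lit 378777405709345248), .negSucc (nat_lit 1460107877807543903), .ofNat (nat_lit 0)],
  []],
  [[.ofNat (nat_lit 0), .ofNat (nat_lit 4493515417128612288), .ofNat (nat_lit 0)],
  [.ofNat (nat_lit 0), .ofNat (nat_lit 28384063269728256), .ofNat (nat_lit 0)]],
  [[.ofNat (nat_lit 0), .negSucc (nat_lit 41221891364396543), .ofNat (nat_lit 0)],
  [.ofNat (nat_lit 0), .negSucc (nat_lit 23818296400636607), .ofNat (nat_lit 0)]]],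
  [[[.negSucc (nat_lit 1142111800114533215), .ofNat (nat_lit 2260095462824931936), .ofNat (nat_lit 0)],
  []],
  [[.ofNat (nat_lit 0), .negSucc (nat_lit 6265482077204415359), .ofNat (nat_lit 0)],
  []],
  [[],
  []]],
  [[[.ofNat (nat_lit 1671438246527957184), .negSucc (nat_lit 1541871843618616127), .ofNat (nat_lit 0)],
  []],
  [[.ofNat (nat_lit 0), .ofNat (nat_lit 5232813970347644256), .ofNat (nat_lit 0)],
  []],
  [[],
  []]],
  [[[.negSucc (nat_lit 1167060733570049471), .ofNat (nat_lit 357520419621295488), .ofNat (nat_lit 0)],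
  []],
  [[.ofNat (nat_lit 0), .negSucc (nat_lit 2720730170034280223), .ofNat (nat_lit 0)],
  []],
  [[],
  []]],
  [[[.ofNat (nat_lit 311874877843209504), .ofNat (nat_lit 22498982546002272), .ofNat (nat_lit 0)],
  []],
  [[.ofNat (nat_lit 0), .ofNat (nat_lit 665578280094023520), .ofNat (nat_lit 0)],
  []],
  [[],
  []]]],
  [[[[],
  []],
  [[],
  []],
  [[],
  []]],
  [[[.negSucc (nat_lit 219847983593759), .negSucc (nat_lit 9414691281772127), .ofNat (nat_lit 0)],
  [.ofNat (nat_lit 119648384595360), .ofNat (nat_lit 0), .ofNat (nat_lit 0)]],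
  [[.ofNat (nat_lit 0), .negSucc (nat_lit 47142105565677407), .ofNat (nat_lit 0)],
  [.ofNat (nat_lit 0), .negSucc (nat_lit 16097156570050271), .ofNat (nat_lit 0)]],
  [[.ofNat (nat_lit 0), .ofNat (nat_lit 18954691542953568), .ofNat (nat_lit 0)],
  [.ofNat (nat_lit 0), .negSucc (nat_lit 25658684236456991), .ofNat (nat_lit 0)]]],
  [[[],
  []],
  [[],
  []],
  [[],
  []]],
  [[[],
  []],
  [[],
  []],
  [[],
  []]],
  [[[.ofNat (nat_lit 253324645186101408), .ofNat (nat_lit 214586842133500128), .ofNat (nat_lit 0)],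
  [.negSucc (nat_lit 478593538381439), .ofNat (nat_lit 0), .ofNat (nat_lit 0)]],
  [[.ofNat (nat_lit 0), .ofNat (nat_lit 606686405730901344), .ofNat (nat_lit 0)],
  [.ofNat (nat_lit 0), .ofNat (nat_lit 64388626280201088), .ofNat (nat_lit 0)]],
  [[.ofNat (nat_lit 0), .negSucc (nat_lit 75818766171814271), .ofNat (nat_lit 0)],
  [.ofNat (nat_lit 0), .ofNat (nat_lit 102634736945827968), .ofNat (nat_lit 0)]]],
  [[[.negSucc (nat_lit 1059874367028134399), .negSucc (nat_lit 649354988138499935), .ofNat (nat_lit 0)],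
  [.ofNat (nat_lit 358945153786080), .ofNat (nat_lit 0), .ofNat (nat_lit 0)]],
  [[.ofNat (nat_lit 0), .negSucc (nat_lit 885393868493092319), .ofNat (nat_lit 0)],
  [.ofNat (nat_lit 0), .negSucc (nat_lit 48291469710150815), .ofNat (nat_lit 0)]],
  [[.ofNat (nat_lit 0), .ofNat (nat_lit 56864074628860704), .ofNat (nat_lit 0)],
  [.ofNat (nat_lit 0), .negSucc (nat_lit 76976052709370975), .ofNat (nat_lit 0)]]],
  [[[.ofNat (nat_lit 1667209708843936416), .ofNat (nat_lit 868964655743899488), .ofNat (nat_lit 0)],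
  []],
  [[.ofNat (nat_lit 0), .ofNat (nat_lit 105896756859723360), .ofNat (nat_lit 0)],
  []],
  [[],
  []]],
  [[[.negSucc (nat_lit 1166555961462718943), .negSucc (nat_lit 582308876633894783), .ofNat (nat_lit 0)],
  []],
  [[.ofNat (nat_lit 0), .ofNat (nat_lit 347637207795966720), .ofNat (nat_lit 0)],
  []],
  [[],
  []]],
  [[[.ofNat (nat_lit 306115822444409280), .ofNat (nat_lit 157527058176767232), .ofNat (nat_lit 0)],
  []],
  [[.ofNat (nat_lit 0), .negSucc (nat_lit 127684396327821695), .ofNat (nat_lit 0)],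
  []],
  [[],
  []]]],
  [[[[],
  []],
  [[],
  []],
  [[],
  []]],
  [[[.ofNat (nat_lit 456377311996992), .ofNat (nat_lit 10912511184045984), .ofNat (nat_lit 0)],
  [.ofNat (nat_lit 45209135620800), .ofNat (nat_lit 0), .ofNat (nat_lit 0)]],
  [[.ofNat (nat_lit 0), .ofNat (nat_lit 70087854118548672), .ofNat (nat_lit 0)],
  [.ofNat (nat_lit 0), .ofNat (nat_lit 19888349161068000), .ofNat (nat_lit 0)]],
  [[.ofNat (nat_lit 0), .negSucc (nat_lit 11328402816638207), .ofNat (nat_lit 0)],
  [.ofNat (nat_lit 0), .ofNat (nat_lit 44863847767071648), .ofNat (nat_lit 0)]]],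
  [[[],
  []],
  [[],
  []],
  [[],
  []]],
  [[[],
  []],
  [[],
  []],
  [[],
  []]],
  [[[],
  []],
  [[],
  []],
  [[],
  []]],
  [[[.ofNat (nat_lit 249338666994705504), .ofNat (nat_lit 83607106939924608), .ofNat (nat_lit 0)],
  [.negSucc (nat_lit 226045678103999), .ofNat (nat_lit 0), .ofNat (nat_lit 0)]],
  [[.ofNat (nat_lit 0), .negSucc (nat_lit 651854248673285663), .ofNat (nat_lit 0)],
  [.ofNat (nat_lit 0), .negSucc (nat_lit 99441745805339999), .ofNat (nat_lit 0)]],
  [[.ofNat (nat_lit 0), .ofNat (nat_lit 56642014083191040), .ofNat (nat_lit 0)],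
  [.ofNat (nat_lit 0), .negSucc (nat_lit 224319238835358239), .ofNat (nat_lit 0)]]],
  [[[.negSucc (nat_lit 744834953110814783), .negSucc (nat_lit 428510852445923999), .ofNat (nat_lit 0)],
  [.ofNat (nat_lit 180836542483200), .ofNat (nat_lit 0), .ofNat (nat_lit 0)]],
  [[.ofNat (nat_lit 0), .ofNat (nat_lit 504571264484289696), .ofNat (nat_lit 0)],
  [.ofNat (nat_lit 0), .ofNat (nat_lit 79553396644272000), .ofNat (nat_lit 0)]],
  [[.ofNat (nat_lit 0), .negSucc (nat_lit 45313611266552831), .ofNat (nat_lit 0)],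
  [.ofNat (nat_lit 0), .ofNat (nat_lit 179455391068286592), .ofNat (nat_lit 0)]]],
  [[[.ofNat (nat_lit 738459264053534112), .ofNat (nat_lit 529812805783752288), .ofNat (nat_lit 0)],
  []],
  [[.ofNat (nat_lit 0), .ofNat (nat_lit 455805238221436896), .ofNat (nat_lit 0)],
  []],
  [[],
  []]],
  [[[.negSucc (nat_lit 243419355249421823), .negSucc (nat_lit 195821571461798879), .ofNat (nat_lit 0)],
  []],
  [[.ofNat (nat_lit 0), .negSucc (nat_lit 378610108150989599), .ofNat (nat_lit 0)],
  []],
  [[],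
  []]]],
  [[[[],
  []],
  [[],
  []],
  [[],
  []]],
  [[[.negSucc (nat_lit 752062706192447), .negSucc (nat_lit 2301553980076895), .ofNat (nat_lit 0)],
  [.negSucc (nat_lit 87769383350111), .ofNat (nat_lit 0), .ofNat (nat_lit 0)]],
  [[.ofNat (nat_lit 0), .negSucc (nat_lit 19208400255342719), .ofNat (nat_lit 0)],
  [.ofNat (nat_lit 0), .negSucc (nat_lit 1369002067521983), .ofNat (nat_lit 0)]],
  [[.ofNat (nat_lit 0), .negSucc (nat_lit 1767234175989695), .ofNat (nat_lit 0)],
  [.ofNat (nat_lit 0), .ofNat (nat_lit 18402261299781696), .ofNat (nat_lit 0)]]],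
  [[[],
  []],
  [[],
  []],
  [[],
  []]],
  [[[],
  []],
  [[],
  []],
  [[],
  []]],
  [[[],
  []],
  [[],
  []],
  [[],
  []]],
  [[[],
  []],
  [[],
  []],
  [[],
  []]],
  [[[.ofNat (nat_lit 10544454313614144), .ofNat (nat_lit 31496226463459296), .ofNat (nat_lit 0)],
  [.ofNat (nat_lit 526616300100672), .ofNat (nat_lit 0), .ofNat (nat_lit 0)]],
  [[.ofNat (nat_lit 0), .ofNat (nat_lit 300814389080572896), .ofNat (nat_lit 0)],
  [.ofNat (nat_lit 0), .ofNat (nat_lit 8214012405131904), .ofNat (nat_lit 0)]],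
  [[.ofNat (nat_lit 0), .ofNat (nat_lit 10603405055938176), .ofNat (nat_lit 0)],
  [.ofNat (nat_lit 0), .negSucc (nat_lit 110413567798690175), .ofNat (nat_lit 0)]]],
  [[[.negSucc (nat_lit 15824469683881151), .negSucc (nat_lit 46881575066380319), .ofNat (nat_lit 0)],
  [.negSucc (nat_lit 438846916750559), .ofNat (nat_lit 0), .ofNat (nat_lit 0)]],
  [[.ofNat (nat_lit 0), .negSucc (nat_lit 467169976373746751), .ofNat (nat_lit 0)],
  [.ofNat (nat_lit 0), .negSucc (nat_lit 6845010337609919), .ofNat (nat_lit 0)]],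
  [[.ofNat (nat_lit 0), .negSucc (nat_lit 8836170879948479), .ofNat (nat_lit 0)],
  [.ofNat (nat_lit 0), .ofNat (nat_lit 92011306498908480), .ofNat (nat_lit 0)]]],
  [[[.ofNat (nat_lit 6032078076459456), .ofNat (nat_lit 17686902582997920), .ofNat (nat_lit 0)],
  []],
  [[.ofNat (nat_lit 0), .ofNat (nat_lit 185563987548516576), .ofNat (nat_lit 0)],
  []],
  [[],
  []]]],
  [[[[],
  []],
  [[],
  []],
  [[],
  []]],
  [[[.negSucc (nat_lit 3091719727991519), .negSucc (nat_lit 3938824365297407), .ofNat (nat_lit 0)],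
  [.negSucc (nat_lit 102552273941183), .ofNat (nat_lit 0), .ofNat (nat_lit 0)]],
  [[.ofNat (nat_lit 0), .negSucc (nat_lit 2260921946772095), .ofNat (nat_lit 0)],
  [.ofNat (nat_lit 0), .negSucc (nat_lit 5668073133151103), .ofNat (nat_lit 0)]],
  [[.ofNat (nat_lit 0), .ofNat (nat_lit 6336271973369664), .ofNat (nat_lit 0)],
  [.ofNat (nat_lit 0), .negSucc (nat_lit 55527929946322271), .ofNat (nat_lit 0)]]],
  [[[],
  []],
  [[],
  []],
  [[],
  []]],
  [[[],
  []],
  [[],
  []],
  [[],
  []]],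
  [[[],
  []],
  [[],
  []],
  [[],
  []]],
  [[[],
  []],
  [[],
  []],
  [[],
  []]],
  [[[.ofNat (nat_lit 65481605341979904), .ofNat (nat_lit 70824131962444512), .ofNat (nat_lit 0)],
  [.ofNat (nat_lit 615313643647104), .ofNat (nat_lit 0), .ofNat (nat_lit 0)]],
  [[.ofNat (nat_lit 0), .ofNat (nat_lit 166059954298728576), .ofNat (nat_lit 0)],
  [.ofNat (nat_lit 0), .ofNat (nat_lit 34008438798906624), .ofNat (nat_lit 0)]],
  [[.ofNat (nat_lit 0), .negSucc (nat_lit 38017631840217983), .ofNat (nat_lit 0)],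
  [.ofNat (nat_lit 0), .ofNat (nat_lit 333167579677933632), .ofNat (nat_lit 0)]]],
  [[[.negSucc (nat_lit 109321172588019167), .negSucc (nat_lit 114076493367807167), .ofNat (nat_lit 0)],
  [.negSucc (nat_lit 512761369705919), .ofNat (nat_lit 0), .ofNat (nat_lit 0)]],
  [[.ofNat (nat_lit 0), .negSucc (nat_lit 316293454970052479), .ofNat (nat_lit 0)],
  [.ofNat (nat_lit 0), .negSucc (nat_lit 28340365665755519), .ofNat (nat_lit 0)]],
  [[.ofNat (nat_lit 0), .ofNat (nat_lit 31681359866848320), .ofNat (nat_lit 0)],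
  [.ofNat (nat_lit 0), .negSucc (nat_lit 277639649731611359), .ofNat (nat_lit 0)]]],
  [[[.ofNat (nat_lit 46931286974030784), .ofNat (nat_lit 47191185770660064), .ofNat (nat_lit 0)],
  []],
  [[.ofNat (nat_lit 0), .ofNat (nat_lit 152494422618096000), .ofNat (nat_lit 0)],
  []],
  [[],
  []]]],
  [[[[],
  []],
  [[],
  []],
  [[],
  []]],
  [[[],
  []],
  [[],
  []],
  [[],
  []]],
  [[[],
  []],
  [[],
  []],
  [[],
  []]],
  [[[],
  []],
  [[],
  []],
  [[],
  []]],
  [[[],
  []],
  [[],
  []],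
  [[],
  []]],
  [[[],
  []],
  [[],
  []],
  [[],
  []]],
  [[[],
  []],
  [[],
  []],
  [[],
  []]],
  [[[],
  []],
  [[],
  []],
  [[],
  []]],
  [[[],
  []],
  [[],
  []],
  [[],
  []]]],
  [[[[],
  []],
  [[],
  []],
  [[],
  []]],
  [[[],
  []],
  [[],
  []],
  [[],
  []]],
  [[[],
  []],
  [[],
  []],
  [[],
  []]],
  [[[],
  []],
  [[],
  []],
  [[],
  []]],
  [[[],
  []],
  [[],
  []],
  [[],
  []]],
  [[[],
  []],
  [[],
  []],
  [[],
  []]],
  [[[],
  []],
  [[],
  []],
  [[],
  []]],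
  [[[],
  []],
  [[],
  []],
  [[],
  []]],
  [[[],
  []],
  [[],
  []],
  [[],
  []]]],
  [[[[],
  []],
  [[],
  []],
  [[],
  []]],
  [[[],
  []],
  [[],
  []],
  [[],
  []]],
  [[[],
  []],
  [[],
  []],
  [[],
  []]],
  [[[],
  []],
  [[],
  []],
  [[],
  []]],
  [[[],
  []],
  [[],
  []],
  [[],
  []]],
  [[[],
  []],
  [[],
  []],
  [[],
  []]],
  [[[],
  []],
  [[],
  []],
  [[],
  []]],
  [[[],
  []],
  [[],
  []],
  [[],
  []]],
  [[[],
  []],
  [[],
  []],
  [[],
  []]]]]

noncomputable def BP0_tn : List (List ℕ) := [[nat_lit 16384, nat_lit 0, nat_lit 0],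
  [nat_lit 32768, nat_lit 16384, nat_lit 0],
  [nat_lit 16384, nat_lit 16384, nat_lit 16384]]

noncomputable def BP0_zn : List (List ℕ) := [[nat_lit 281474976710656, nat_lit 70368744177664, nat_lit 17592186044416, nat_lit 4398046511104, nat_lit 1099511627776, nat_lit 274877906944, nat_lit 68719476736, nat_lit 17179869184, nat_lit 4294967296],
  [nat_lit 2251799813685248, nat_lit 668503069687808, nat_lit 193514046488576, nat_lit 54975581388800, nat_lit 15393162788864, nat_lit 4260607557632, nat_lit 1168231104512, nat_lit 317827579904, nat_lit 85899345920],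
  [nat_lit 7881299347898368, nat_lit 2709196650840064, nat_lit 901599534776320, nat_lit 291370581360640, nat_lit 91809220919296, nat_lit 28312424415232, nat_lit 8572754722816, nat_lit 2555505541120, nat_lit 751619276800],
  [nat_lit 15762598695796736, nat_lit 6157265115545600, nat_lit 2330964650885120, nat_lit 854870290595840, nat_lit 304014965080064, nat_lit 105072079929344, nat_lit 35390530519040, nat_lit 11650098790400, nat_lit 3758096384000],
  [nat_lit 19703248369745920, nat_lit 8620171161763840, nat_lit 3672368836771840, nat_lit 1520074825400320, nat_lit 610297672892416, nat_lit 237511691468800, nat_lit 89657442304000, nat_lit 32883343360000, nat_lit 11744051200000],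
  [nat_lit 15762598695796736, nat_lit 7635008743276544, nat_lit 3623990325149696, nat_lit 1681153278869504, nat_lit 760037412700160, nat_lit 333933707264000, nat_lit 142270791680000, nat_lit 58720256000000, nat_lit 23488102400000],
  [nat_lit 7881299347898368, nat_lit 4186940278571008, nat_lit 2194625209040896, nat_lit 1132496976609280, nat_lit 573807630745600, nat_lit 284541583360000, nat_lit 137573171200000, nat_lit 64592281600000, nat_lit 29360128000000],
  [nat_lit 2251799813685248, nat_lit 1301821767286784, nat_lit 747667906887680, nat_lit 426060755763200, nat_lit 240518168576000, nat_lit 134217728000000, nat_lit 73819750400000, nat_lit 39845888000000, nat_lit 20971520000000],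
  [nat_lit 281474976710656, nat_lit 175921860444160, nat_lit 109951162777600, nat_lit 68719476736000, nat_lit 42949672960000, nat_lit 26843545600000, nat_lit 16777216000000, nat_lit 10485760000000, nat_lit 6553600000000],
  [nat_lit 281474976710656, nat_lit 175921860444160, nat_lit 109951162777600, nat_lit 68719476736000, nat_lit 42949672960000, nat_lit 26843545600000, nat_lit 16777216000000, nat_lit 10485760000000, nat_lit 6553600000000],
  [nat_lit 2251799813685248, nat_lit 1512927999819776, nat_lit 1011550697553920, nat_lit 673450872012800, nat_lit 446676598784000, nat_lit 295279001600000, nat_lit 194615705600000, nat_lit 127926272000000, nat_lit 83886080000000],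
  [nat_lit 7881299347898368, nat_lit 5664683906301952, nat_lit 4041804743704576, nat_lit 2864227790356480, nat_lit 2016916642201600, nat_lit 1411970498560000, nat_lit 983144857600000, nat_lit 681154969600000, nat_lit 469762048000000],
  [nat_lit 15762598695796736, nat_lit 12068239626469376, nat_lit 9165528929140736, nat_lit 6906032534061056, nat_lit 5163581481943040, nat_lit 3832184569856000, nat_lit 2823940997120000, nat_lit 2066953011200000, nat_lit 1503238553600000],
  [nat_lit 19703248369745920, nat_lit 16008889300418560, nat_lit 12908266510090240, nat_lit 10327162963886080, nat_lit 8196927904546816, nat_lit 6454476852428800, nat_lit 5042291605504000, nat_lit 3908420239360000, nat_lit 3006477107200000],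
  [nat_lit 15762598695796736, nat_lit 13545983254200320, nat_lit 11566862324203520, nat_lit 9810392498831360, nat_lit 8261730371108864, nat_lit 6906032534061056, nat_lit 5728455580712960, nat_lit 4714156104089600, nat_lit 3848290697216000],
  [nat_lit 7881299347898368, nat_lit 7142427534032896, nat_lit 6443138138767360, nat_lit 5783431162101760, nat_lit 5163306604036096, nat_lit 4582764464570368, nat_lit 4041804743704576, nat_lit 3540427441438720, nat_lit 3078632557772800],
  [nat_lit 2251799813685248, nat_lit 2146246697418752, nat_lit 2040693581152256, nat_lit 1935140464885760, nat_lit 1829587348619264, nat_lit 1724034232352768, nat_lit 1618481116086272, nat_lit 1512927999819776, nat_lit 1407374883553280],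
  [nat_lit 281474976710656, nat_lit 281474976710656, nat_lit 281474976710656, nat_lit 281474976710656, nat_lit 281474976710656, nat_lit 281474976710656, nat_lit 281474976710656, nat_lit 281474976710656, nat_lit 281474976710656],
  [nat_lit 281474976710656, nat_lit 281474976710656, nat_lit 281474976710656, nat_lit 281474976710656, nat_lit 281474976710656, nat_lit 281474976710656, nat_lit 281474976710656, nat_lit 281474976710656, nat_lit 281474976710656],
  [nat_lit 2251799813685248, nat_lit 2357352929951744, nat_lit 2462906046218240, nat_lit 2568459162484736, nat_lit 2674012278751232, nat_lit 2779565395017728, nat_lit 2885118511284224, nat_lit 2990671627550720, nat_lit 3096224743817216],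
  [nat_lit 7881299347898368, nat_lit 8620171161763840, nat_lit 9398625394229248, nat_lit 10216662045294592, nat_lit 11074281114959872, nat_lit 11971482603225088, nat_lit 12908266510090240, nat_lit 13884632835555328, nat_lit 14900581579620352],
  [nat_lit 15762598695796736, nat_lit 17979214137393152, nat_lit 20433324090589184, nat_lit 23139771962359808, nat_lit 26113401159680000, nat_lit 29369055089524736, nat_lit 32921577158868992, nat_lit 36785810774687744, nat_lit 40976599343955968],
  [nat_lit 19703248369745920, nat_lit 23397607439073280, nat_lit 27685702787399680, nat_lit 32641751449600000, nat_lit 38345536738164736, nat_lit 44882408243200000, nat_lit 52343281832427520, nat_lit 60824639651184640, nat_lit 70428530122424320],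
  [nat_lit 15762598695796736, nat_lit 19456957765124096, nat_lit 23942965206450176, nat_lit 29369055089524736, nat_lit 35905926594560000, nat_lit 43748631366336512, nat_lit 53118660868308992, nat_lit 64266033736712192, nat_lit 77471383134666752],
  [nat_lit 7881299347898368, nat_lit 10097914789494784, nat_lit 12908266510090240, nat_lit 16460788579434496, nat_lit 20937312732971008, nat_lit 26559330434154496, nat_lit 33595037694558208, nat_lit 42367162651770880, nat_lit 53261575905083392],
  [nat_lit 2251799813685248, nat_lit 2990671627550720, nat_lit 3967037953015808, nat_lit 5255115824955392, nat_lit 6951387388706816, nat_lit 9180861962387456, nat_lit 12104903614791680, nat_lit 15930917793038336, nat_lit 20924190534139904],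
  [nat_lit 281474976710656, nat_lit 387028092977152, nat_lit 532163627843584, nat_lit 731724988284928, nat_lit 1006121858891776, nat_lit 1383417555976192, nat_lit 1902199139467264, nat_lit 2615523816767488, nat_lit 3596345248055296]]

noncomputable def BP0_sn : List (List ℕ) := [[nat_lit 4096, nat_lit 0, nat_lit 0],
  [nat_lit 8192, nat_lit 8192, nat_lit 0],
  [nat_lit 4096, nat_lit 8192, nat_lit 16384]]

noncomputable def BP0_en : List (List ℕ) := [[nat_lit 72057594037927936, nat_lit 0, nat_lit 0, nat_lit 0, nat_lit 0, nat_lit 0, nat_lit 0, nat_lit 0],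
  [nat_lit 504403158265495552, nat_lit 27021597764222976, nat_lit 0, nat_lit 0, nat_lit 0, nat_lit 0, nat_lit 0, nat_lit 0],
  [nat_lit 1513209474796486656, nat_lit 162129586585337856, nat_lit 10133099161583616, nat_lit 0, nat_lit 0, nat_lit 0, nat_lit 0, nat_lit 0],
  [nat_lit 2522015791327477760, nat_lit 405323966463344640, nat_lit 50665495807918080, nat_lit 3799912185593856, nat_lit 0, nat_lit 0, nat_lit 0, nat_lit 0],
  [nat_lit 2522015791327477760, nat_lit 540431955284459520, nat_lit 101330991615836160, nat_lit 15199648742375424, nat_lit 1424967069597696, nat_lit 0, nat_lit 0, nat_lit 0],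
  [nat_lit 1513209474796486656, nat_lit 405323966463344640, nat_lit 101330991615836160, nat_lit 22799473113563136, nat_lit 4274901208793088, nat_lit 534362651099136, nat_lit 0, nat_lit 0],
  [nat_lit 504403158265495552, nat_lit 162129586585337856, nat_lit 50665495807918080, nat_lit 15199648742375424, nat_lit 4274901208793088, nat_lit 1068725302198272, nat_lit 200385994162176, nat_lit 0],
  [nat_lit 72057594037927936, nat_lit 27021597764222976, nat_lit 10133099161583616, nat_lit 3799912185593856, nat_lit 1424967069597696, nat_lit 534362651099136, nat_lit 200385994162176, nat_lit 75144747810816]]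

noncomputable def BP0_en1 : List (List ℕ) := [[nat_lit 256, nat_lit 0],
  [nat_lit 256, nat_lit 96]]


end Crest.Agent.R163.Ck
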