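import Crest.Agent.R163.B8m1b_256D

/-! Row 163: Bellman certificate, data (generated). -/

set_option autoImplicit false
set_option Elab.async false
set_option maxRecDepth 100000

namespace Crest.Agent.R163.Ck

noncomputable def BP1 : Bell := ⟨false, 8, 3, 3, 2, 8, 32, fs3_8, lams3_8, TT3_8,
  [[[[.ofNat (nat_lit 6475981075128684), .negSucc (nat_lit 704004447265280), .negSucc (nat_lit 46749767857033409), .negSucc (nat_lit 609552062206676), .ofNat (nat_lit 92968732118261124), .ofNat (nat_lit 39190832972000532), .ofNat (nat_lit 1254127122531774), .negSucc (nat_lit 57197769753415805), .negSucc (nat_lit 39644794104237125), .negSucc (nat_lit 60116320622608379), .negSucc (nat_lit 753792818255702), .ofNat (nat_lit 21792253883765202), .ofNat (nat_lit 36864476305002612), .ofNat (nat_lit 14812518491055756), .negSucc (nat_lit 42985687774779053), .ofNat (nat_lit 189840542214987), .negSucc (nat_lit 4768248750878915), .negSucc (nat_lit 10497595794691031), .negSucc (nat_lit 2617491770803907), .negSucc (nat_lit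 5855207379102413), .ofNat (nat_lit 82926044432668008), .ofNat (nat_lit 45975442099697604), .negSucc (nat_lit 17147076513833), .ofNat (nat_lit 532881796684098), .ofNat (nat_lit 1639522523458872), .ofNat (nat_lit 381192155977536), .ofNat (nat_lit 2117688683961066), .negSucc (nat_lit 21344934673475819), .negSucc (nat_lit 20147225631247841), .negSucc (nat_lit 58597118206884557), .ofNat (nat_lit 4806357802), .negSucc (nat_lit 22396775812441), .negSucc (nat_lit 105680272555281), .negSucc (nat_lit 26343426900285), .negSucc (nat_lit 170348539862221), .ofNat (nat_lit 1831229220193248), .negSucc (nat_lit 87074655834985), .ofNat (nat_lit 4915687471861670), .ofNat (nat_lit 7151536194036162), .ofNat (nat_lit 11998510499508242)],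
  [.ofNat (nat_lit 0), .ofNat (nat_lit 0), .ofNat (nat_lit 0), .ofNat (nat_lit 0), .ofNat (nat_lit 0), .ofNat (nat_lit 0), .negSucc (nat_lit 130347229931279), .ofNat (nat_lit 521388919725120), .negSucc (nat_lit 391041689793839), .ofNat (nat_lit 0), .ofNat (nat_lit 71665723477440), .negSucc (nat_lit 260568194938739), .ofNat (nat_lit 143331446954880), .ofNat (nat_lit 182284098025680), .negSucc (nat_lit 136713073519259), .ofNat (nat_lit 62143616281248), .negSucc (nat_lit 404124830483183), .ofNat (nat_lit 317122060560048), .ofNat (nat_lit 771347847637152), .ofNat (nat_lit 56122286437584), .negSucc (nat_lit 1667748226457087), .ofNat (nat_lit 865137246024240), .negSucc (nat_lit 36607939132727), .ofNat (nat_lit 195785023473696), .negSucc (nat_lit 106523957629871), .negSucc (nat_lit 299419461425015), .negSucc (nat_lit 39907798901039), .ofNat (nat_lit 414127411715520), .ofNat (nat_lit 95494216464120), .negSucc (nat_lit 222947494564679), .ofNat (nat_lit 4700311137408), .negSucc (nat_lit 23501555687039),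 .ofNat (nat_lit 9400622274816), .ofNat (nat_lit 23501555687040), .ofNat (nat_lit 18801244549632), .ofNat (nat_lit 14100933412224), .negSucc (nat_lit 23501555687039), .ofNat (nat_lit 23501555687040), .negSucc (nat_lit 141009334122239), .ofNat (nat_lit 94006222748160)]],
  [[.ofNat (nat_lit 4380123356648136), .negSucc (nat_lit 9839359716631658), .negSucc (nat_lit 22695801052770521), .ofNat (nat_lit 12589355951659998), .ofNat (nat_lit 58105130535064998), .ofNat (nat_lit 42982250484475332), .negSucc (nat_lit 8608220433975131), .negSucc (nat_lit 43544648692477079), .negSucc (nat_lit 24959963483751383), .negSucc (nat_lit 172318767278150015), .ofNat (nat_lit 3417798142962513), .ofNat (nat_lit 19627016688611658), .ofNat (nat_lit 22401323203939704), .ofNat (nat_lit 106486559285988708), .ofNat (nat_lit 206432512719157890), .negSucc (nat_lit 791129769701489), .negSucc (nat_lit 5251792381389071), .negSucc (nat_lit 5540699843445329), .negSucc (nat_lit 34328023221430421), .negSucc (nat_lit 2345405619701069),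 .negSucc (nat_lit 200235035749484051), .negSucc (nat_lit 70738003036843577), .ofNat (nat_lit 99138778985469), .ofNat (nat_lit 765929478300108), .ofNat (nat_lit 737286429465900), .ofNat (nat_lit 5700819221360514), .ofNat (nat_lit 181422473562750), .ofNat (nat_lit 43228186661692620), .ofNat (nat_lit 33247879002484692), .ofNat (nat_lit 73296702893445498), .negSucc (nat_lit 5199648588606), .negSucc (nat_lit 46464003465279), .negSucc (nat_lit 43453401273277), .negSucc (nat_lit 391569077319301), .ofNat (nat_lit 35744593588760), .negSucc (nat_lit 3496055468413439), .ofNat (nat_lit 43133288573972), .negSucc (nat_lit 7239191794375267), .negSucc (nat_lit 8214170684574335), .negSucc (nat_lit 13125358832208901)],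
  []],
  [[],
  []]],
  [[[],
  []],
  [[.negSucc (nat_lit 1692558197776421), .ofNat (nat_lit 4781838829987071), .ofNat (nat_lit 2877314973430428), .negSucc (nat_lit 7851505205980394), .ofNat (nat_lit 31241360925974844), .negSucc (nat_lit 24726823773493589), .ofNat (nat_lit 8570757323641185), .negSucc (nat_lit 49259354386436891), .negSucc (nat_lit 45897734316032621), .ofNat (nat_lit 43781119130467782), .negSucc (nat_lit 4206582325295126), .ofNat (nat_lit 24854328681736590), .ofNat (nat_lit 79564327602646860), .ofNat (nat_lit 9152072668018080), .negSucc (nat_lit 26730302440538933), .ofNat (nat_lit 1060821180265545), .negSucc (nat_lit 6164147434727735), .negSucc (nat_lit 32256002080332755), .negSucc (nat_lit 9223482569548787), .negSucc (nat_lit 19820318092025921), .negSucc (nat_lit 17529328341474551), .ofNat (nat_lit 28478153770897428), .negSucc (nat_lit 141675416359289), .ofNat (nat_lit 802126852468326), .ofNat (nat_lit 5589377799726888), .ofNat (nat_lit 2249552191899042), .ofNat (nat_lit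 9937152281373894), .ofNat (nat_lit 13871489134214880), .ofNat (nat_lit 5999684311878858), .negSucc (nat_lit 31501958756143589), .ofNat (nat_lit 8261378570205), .negSucc (nat_lit 46561581652619), .negSucc (nat_lit 272352662815157), .negSucc (nat_lit 247961451005969), .negSucc (nat_lit 825593944277771), .negSucc (nat_lit 2069341247348567), .negSucc (nat_lit 616325620255643), .negSucc (nat_lit 2747039714806775), .ofNat (nat_lit 2782256940385128), .ofNat (nat_lit 8224953580746090)],
  [.ofNat (nat_lit 0), .negSucc (nat_lit 832345701616907), .ofNat (nat_lit 832345701616908), .negSucc (nat_lit 6138708417437507), .ofNat (nat_lit 18832298103120978), .negSucc (nat_lit 12693589685683469), .ofNat (nat_lit 2398013008985484), .negSucc (nat_lit 5407096901915051), .negSucc (nat_lit 1175871241097315), .ofNat (nat_lit 4184955134026884), .negSucc (nat_lit 1329723579036383), .ofNat (nat_lit 5896346921949528), .negSucc (nat_lit 2659447158072767), .negSucc (nat_lit 7628704739361503), .ofNat (nat_lit 5721528554521128),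 .ofNat (nat_lit 690473837784384), .negSucc (nat_lit 3279669756339167), .ofNat (nat_lit 10011002315391000), .negSucc (nat_lit 3969761100460919), .negSucc (nat_lit 8284979667203351), .ofNat (nat_lit 11392215282390384), .negSucc (nat_lit 6559280911562327), .negSucc (nat_lit 150810887069087), .ofNat (nat_lit 720051697543056), .negSucc (nat_lit 2699779753296251), .ofNat (nat_lit 1546498196488764), .ofNat (nat_lit 2096536205019900), .negSucc (nat_lit 1852522836710219), .negSucc (nat_lit 1002454391650619), .ofNat (nat_lit 1342481769674460), .ofNat (nat_lit 11124585644448), .negSucc (nat_lit 55622928222239), .ofNat (nat_lit 22249171288896), .ofNat (nat_lit 55622928222240), .ofNat (nat_lit 44498342577792), .ofNat (nat_lit 33373756933344), .negSucc (nat_lit 55622928222239), .ofNat (nat_lit 55622928222240), .negSucc (nat_lit 333737569333439), .ofNat (nat_lit 222491712888960)]],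
  [[.ofNat (nat_lit 713402546191956), .ofNat (nat_lit 0), .ofNat (nat_lit 0), .ofNat (nat_lit 0), .ofNat (nat_lit 0), .ofNat (nat_lit 0), .ofNat (nat_lit 0), .ofNat (nat_lit 0), .ofNat (nat_lit 0), .ofNat (nat_lit 0), .ofNat (nat_lit 0), .ofNat (nat_lit 0), .ofNat (nat_lit 0), .ofNat (nat_lit 0), .ofNat (nat_lit 0), .ofNat (nat_lit 0), .ofNat (nat_lit 0), .ofNat (nat_lit 0), .ofNat (nat_lit 0), .ofNat (nat_lit 0), .ofNat (nat_lit 0), .ofNat (nat_lit 0), .ofNat (nat_lit 0), .ofNat (nat_lit 0), .ofNat (nat_lit 0), .ofNat (nat_lit 0), .ofNat (nat_lit 0), .ofNat (nat_lit 0), .ofNat (nat_lit 0), .ofNat (nat_lit 0), .ofNat (nat_lit 0), .ofNat (nat_lit 0), .ofNat (nat_lit 0), .ofNat (nat_lit 0), .ofNat (nat_lit 0), .ofNat (nat_lit 0), .ofNat (nat_lit 0), .ofNat (nat_lit 0), .ofNat (nat_lit 0), .ofNat (nat_lit 0)],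
  [.negSucc (nat_lit 1483110754350650), .ofNat (nat_lit 0), .ofNat (nat_lit 0), .ofNat (nat_lit 0), .ofNat (nat_lit 0), .ofNat (nat_lit 0), .ofNat (nat_lit 0), .ofNat (nat_lit 0), .ofNat (nat_lit 0), .ofNat (nat_lit 0), .ofNat (nat_lit 0), .ofNat (nat_lit 0), .ofNat (nat_lit 0), .ofNat (nat_lit 0), .ofNat (nat_lit 0), .ofNat (nat_lit 0), .ofNat (nat_lit 0), .ofNat (nat_lit 0), .ofNat (nat_lit 0), .ofNat (nat_lit 0), .ofNat (nat_lit 0), .ofNat (nat_lit 0), .ofNat (nat_lit 0), .ofNat (nat_lit 0), .ofNat (nat_lit 0), .ofNat (nat_lit 0), .ofNat (nat_lit 0), .ofNat (nat_lit 0), .ofNat (nat_lit 0), .ofNat (nat_lit 0), .ofNat (nat_lit 0), .ofNat (nat_lit 0), .ofNat (nat_lit 0), .ofNat (nat_lit 0), .ofNat (nat_lit 0), .ofNat (nat_lit 0), .ofNat (nat_lit 0), .ofNat (nat_lit 0), .ofNat (nat_lit 0), .ofNat (nat_lit 0)]]],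
  [[[],
  []],
  [[.ofNat (nat_lit 0), .ofNat (nat_lit 1395310615701408), .negSucc (nat_lit 1395310615701407), .negSucc (nat_lit 2939633951886179), .ofNat (nat_lit 8121246547807836), .negSucc (nat_lit 5181612595921655), .negSucc (nat_lit 697969619642231), .ofNat (nat_lit 4596599933637336), .negSucc (nat_lit 5703351769063511), .ofNat (nat_lit 1804721455068408), .ofNat (nat_lit 1474736550715872), .negSucc (nat_lit 6399025175080583), .ofNat (nat_lit 2949473101431744), .ofNat (nat_lit 7899262091731872), .negSucc (nat_lit 5924446568798903), .negSucc (nat_lit 667902609004031), .ofNat (nat_lit 3087535101051168), .ofNat (nat_lit 5245962480345960), .negSucc (nat_lit 10665098850541319), .negSucc (nat_lit 6745714419420071), .ofNat (nat_lit 17650675489190544), .negSucc (nat_lit 7905457191622247), .ofNat (nat_lit 143573637653232), .negSucc (nat_lit 703952331895103), .negSucc (nat_lit 1414842343778771), .ofNat (nat_lit 2623509944431524), .ofNat (nat_lit 1989136894391700), .negSucc (nat_lit 2498267237092019),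 .negSucc (nat_lit 2846163646368419), .ofNat (nat_lit 2707005082657860), .negSucc (nat_lit 12348360122111), .ofNat (nat_lit 61741800610560), .negSucc (nat_lit 24696720244223), .negSucc (nat_lit 61741800610559), .negSucc (nat_lit 49393440488447), .negSucc (nat_lit 37045080366335), .ofNat (nat_lit 61741800610560), .negSucc (nat_lit 61741800610559), .ofNat (nat_lit 370450803663360), .negSucc (nat_lit 246967202442239)],
  [.ofNat (nat_lit 0), .negSucc (nat_lit 2490939270189323), .ofNat (nat_lit 2490939270189324), .ofNat (nat_lit 8268971451246054), .negSucc (nat_lit 23561444718643499), .ofNat (nat_lit 15292473267397446), .ofNat (nat_lit 931141468464264), .negSucc (nat_lit 8960442478000055), .ofNat (nat_lit 13265177613678792), .negSucc (nat_lit 5235876604142999), .negSucc (nat_lit 3404137684501835), .ofNat (nat_lit 15013363170125232), .negSucc (nat_lit 6808275369003671), .negSucc (nat_lit 19203800466478895), .ofNat (nat_lit 14402850349859172), .ofNat (nat_lit 1606975667555616), .negSucc (nat_lit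 7453830591701279), .negSucc (nat_lit 13773692284317863), .ofNat (nat_lit 26938210229490024), .ofNat (nat_lit 17432523794831112), .negSucc (nat_lit 45124326804450383), .ofNat (nat_lit 20374139988592776), .negSucc (nat_lit 349583776241783), .ofNat (nat_lit 1715724325627368), .ofNat (nat_lit 3728797907117724), .negSucc (nat_lit 6681884559804467), .negSucc (nat_lit 5127133012084859), .ofNat (nat_lit 6392133559570500), .ofNat (nat_lit 7196997449109300), .negSucc (nat_lit 6875051893293779), .ofNat (nat_lit 30227544824784), .negSucc (nat_lit 151137724123919), .ofNat (nat_lit 60455089649568), .ofNat (nat_lit 151137724123920), .ofNat (nat_lit 120910179299136), .ofNat (nat_lit 90682634474352), .negSucc (nat_lit 151137724123919), .ofNat (nat_lit 151137724123920), .negSucc (nat_lit 906826344743519), .ofNat (nat_lit 604550896495680)]],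
  [[.negSucc (nat_lit 480604511731238), .ofNat (nat_lit 0), .ofNat (nat_lit 0), .ofNat (nat_lit 0), .ofNat (nat_lit 0), .ofNat (nat_lit 0), .ofNat (nat_lit 0), .ofNat (nat_lit 0), .ofNat (nat_lit 0), .ofNat (nat_lit 0), .ofNat (nat_lit 0), .ofNat (nat_lit 0), .ofNat (nat_lit 0), .ofNat (nat_lit 0), .ofNat (nat_lit 0), .ofNat (nat_lit 0), .ofNat (nat_lit 0), .ofNat (nat_lit 0), .ofNat (nat_lit 0), .ofNat (nat_lit 0), .ofNat (nat_lit 0), .ofNat (nat_lit 0), .ofNat (nat_lit 0), .ofNat (nat_lit 0), .ofNat (nat_lit 0), .ofNat (nat_lit 0), .ofNat (nat_lit 0), .ofNat (nat_lit 0), .ofNat (nat_lit 0), .ofNat (nat_lit 0), .ofNat (nat_lit 0), .ofNat (nat_lit 0), .ofNat (nat_lit 0), .ofNat (nat_lit 0), .ofNat (nat_lit 0), .ofNat (nat_lit 0), .ofNat (nat_lit 0), .ofNat (nat_lit 0), .ofNat (nat_lit 0), .ofNat (nat_lit 0)],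
  [.ofNat (nat_lit 448954757079165), .ofNat (nat_lit 0), .ofNat (nat_lit 0), .ofNat (nat_lit 0), .ofNat (nat_lit 0), .ofNat (nat_lit 0), .ofNat (nat_lit 0), .ofNat (nat_lit 0), .ofNat (nat_lit 0), .ofNat (nat_lit 0), .ofNat (nat_lit 0), .ofNat (nat_lit 0), .ofNat (nat_lit 0), .ofNat (nat_lit 0), .ofNat (nat_lit 0), .ofNat (nat_lit 0), .ofNat (nat_lit 0), .ofNat (nat_lit 0), .ofNat (nat_lit 0), .ofNat (nat_lit 0), .ofNat (nat_lit 0), .ofNat (nat_lit 0), .ofNat (nat_lit 0), .ofNat (nat_lit 0), .ofNat (nat_lit 0), .ofNat (nat_lit 0), .ofNat (nat_lit 0), .ofNat (nat_lit 0), .ofNat (nat_lit 0), .ofNat (nat_lit 0), .ofNat (nat_lit 0), .ofNat (nat_lit 0), .ofNat (nat_lit 0), .ofNat (nat_lit 0), .ofNat (nat_lit 0), .ofNat (nat_lit 0), .ofNat (nat_lit 0), .ofNat (nat_lit 0), .ofNat (nat_lit 0), .ofNat (nat_lit 0)]]]],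
  [[.ofNat (nat_lit 0), .ofNat (nat_lit 0)],
  [.ofNat (nat_lit 0), .ofNat (nat_lit 0)],
  [.negSucc (nat_lit 241099119188945), .ofNat (nat_lit 1035186050675943)]],
  [[[[.ofNat (nat_lit 0), .negSucc (nat_lit 146977757032633343), .negSucc (nat_lit 1709119003831013375), .negSucc (nat_lit 2234332079277917183), .ofNat (nat_lit 8044246683016151040), .ofNat (nat_lit 4500771753188339712), .negSucc (nat_lit 7710322362559663103), .negSucc (nat_lit 4822859944745837567), .negSucc (nat_lit 3294862031220452351), .ofNat (nat_lit 8610768530452002816)],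
  [.ofNat (nat_lit 0), .negSucc (nat_lit 1348472431738497023), .negSucc (nat_lit 1888792130309548031), .ofNat (nat_lit 11430015609260353536), .negSucc (nat_lit 23239222603455366143), .negSucc (nat_lit 11818006714489568255), .ofNat (nat_lit 18866959325676011520), .ofNat (nat_lit 12037569959551140864), .ofNat (nat_lit 8974531812776979456), .negSucc (nat_lit 22318056484135483391)]],
  [[.ofNat (nat_lit 530468256984413184), .negSucc (nat_lit 464146001939266559), .ofNat (nat_lit 587634493021489152), .ofNat (nat_lit 930241835474927616), .negSucc (nat_lit 2440612262729668607), .ofNat (nat_lit 600153135671430144), .ofNat (nat_lit 957262657859251200), .negSucc (nat_lit 469204464163470335), .negSucc (nat_lit 255805258284702719), .ofNat (nat_lit 623492830791355392)],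
  [.negSucc (nat_lit 1061074069549802495), .ofNat (nat_lit 0), .ofNat (nat_lit 0), .ofNat (nat_lit 0), .ofNat (nat_lit 0), .ofNat (nat_lit 0), .ofNat (nat_lit 0), .ofNat (nat_lit 0), .ofNat (nat_lit 0), .ofNat (nat_lit 0)]]],
  [[[.ofNat (nat_lit 0), .negSucc (nat_lit 3467194016353136639), .negSucc (nat_lit 33013242734654702591), .negSucc (nat_lit 9641581407623291903), .ofNat (nat_lit 126531102761519827968), .ofNat (nat_lit 39868651652193036288), .negSucc (nat_lit 33298393095028896767), .negSucc (nat_lit 165956701104390076415), .negSucc (nat_lit 10122816178433240063), .ofNat (nat_lit 115120755519783045120)],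
  [.ofNat (nat_lit 0), .ofNat (nat_lit 9185693658760571904), .ofNat (nat_lit 86145420708585520128), .ofNat (nat_lit 26201640226425467904), .negSucc (nat_lit 323703643082925625343), .negSucc (nat_lit 104365438042017807359), .ofNat (nat_lit 87358453045526762496), .ofNat (nat_lit 422830605118913243136), .ofNat (nat_lit 27004848041674432512), .negSucc (nat_lit 294836817970106873855)]],
  [[.negSucc (nat_lit 963080022917892095), .ofNat (nat_lit 728213303401049088), .negSucc (nat_lit 1686390200469163007), .ofNat (nat_lit 804403194776091648), .ofNat (nat_lit 5499575935481097216), .negSucc (nat_lit 7479928133516924927), .negSucc (nat_lit 8732319431550308351), .ofNat (nat_lit 13408915021730491392), .ofNat (nat_lit 1129771033191677952), .negSucc (nat_lit 6730847638880440319)],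
  [.ofNat (nat_lit 897678444733968384), .ofNat (nat_lit 0), .ofNat (nat_lit 0), .ofNat (nat_lit 0), .ofNat (nat_lit 0), .ofNat (nat_lit 0), .ofNat (nat_lit 0), .ofNat (nat_lit 0), .ofNat (nat_lit 0), .ofNat (nat_lit 0)]]],
  [[[.ofNat (nat_lit 0), .ofNat (nat_lit 4823864252281027584), .ofNat (nat_lit 30660993260619909120), .ofNat (nat_lit 6773531851121568768), .negSucc (nat_lit 128042934222784389119), .negSucc (nat_lit 39157376495361214463), .ofNat (nat_lit 30655237095539103744), .ofNat (nat_lit 167294013786801192960), .ofNat (nat_lit 9329719288837109760), .negSucc (nat_lit 111278149380367911935)],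
  [.ofNat (nat_lit 0), .negSucc (nat_lit 12469484647066696703), .negSucc (nat_lit 80427875142756621311), .negSucc (nat_lit 16393937197606640639), .ofNat (nat_lit 339526849704672697344), .ofNat (nat_lit 98303129114292900864), .negSucc (nat_lit 82069469714824399871), .negSucc (nat_lit 440072639869887802367), .negSucc (nat_lit 23859940241177588735), .ofNat (nat_lit 294461261088618802176)]],
  [[.negSucc (nat_lit 870825507003076607), .ofNat (nat_lit 869403294206447616), .ofNat (nat_lit 2722518971977577472), .negSucc (nat_lit 10529509871571720191), .negSucc (nat_lit 4467225128023977983), .ofNat (nat_lit 18710092919114717184), .ofNat (nat_lit 8783506777915975680), .negSucc (nat_lit 18626097120800007167), .negSucc (nat_lit 2326916511264024575), .ofNat (nat_lit 6769969841070554112)],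
  [.ofNat (nat_lit 3484336375965625344), .ofNat (nat_lit 0), .ofNat (nat_lit 0), .ofNat (nat_lit 0), .ofNat (nat_lit 0), .ofNat (nat_lit 0), .ofNat (nat_lit 0), .ofNat (nat_lit 0), .ofNat (nat_lit 0), .ofNat (nat_lit 0)]]]]⟩

noncomputable def BP1_A : L6 := [[[[[[.ofNat (nat_lit 0), .ofNat (nat_lit 0), .ofNat (nat_lit 200055950316149760)],
  [.ofNat (nat_lit 0), .ofNat (nat_lit 0), .negSucc (nat_lit 457631342905264127)],
  [],
  [],
  [],
  [],
  [],
  []],
  [[.ofNat (nat_lit 0), .ofNat (nat_lit 530468256984413184), .ofNat (nat_lit 0)],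
  [.ofNat (nat_lit 0), .negSucc (nat_lit 1061074069549802495), .ofNat (nat_lit 0)],
  [],
  [],
  [],
  [],
  [],
  []],
  [[.ofNat (nat_lit 0), .ofNat (nat_lit 389881412083335168), .ofNat (nat_lit 0)],
  [.ofNat (nat_lit 0), .ofNat (nat_lit 389881412083335168), .ofNat (nat_lit 0)],
  [],
  [],
  [],
  [],
  [],
  []],
  [[.ofNat (nat_lit 152406605469616128), .ofNat (nat_lit 256376188871967744), .ofNat (nat_lit 0)],
  [.negSucc (nat_lit 225240013321251839), .ofNat (nat_lit 0), .ofNat (nat_lit 0)],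
  [.negSucc (nat_lit 152406605469616127), .negSucc (nat_lit 256376188871967743), .ofNat (nat_lit 0)],
  [.ofNat (nat_lit 225240013321251840), .ofNat (nat_lit 0), .ofNat (nat_lit 0)],
  [],
  [],
  [],
  []],
  [[.negSucc (nat_lit 149924411927451647), .negSucc (nat_lit 141630998165950463), .ofNat (nat_lit 0)],
  [.ofNat (nat_lit 162068080412888064), .ofNat (nat_lit 0), .ofNat (nat_lit 0)],
  [],
  [.negSucc (nat_lit 149924411927451647), .negSucc (nat_lit 141630998165950463), .ofNat (nat_lit 0)],
  [.ofNat (nat_lit 162068080412888064), .ofNat (nat_lit 0), .ofNat (nat_lit 0)],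
  [],
  [],
  []],
  [[.negSucc (nat_lit 85530714995441663), .negSucc (nat_lit 19450983431043071), .ofNat (nat_lit 0)],
  [.ofNat (nat_lit 151567072736283648), .ofNat (nat_lit 0), .ofNat (nat_lit 0)],
  [],
  [],
  [.ofNat (nat_lit 85530714995441664), .ofNat (nat_lit 19450983431043072), .ofNat (nat_lit 0)],
  [.negSucc (nat_lit 151567072736283647), .ofNat (nat_lit 0), .ofNat (nat_lit 0)],
  [],
  []],
  [[.negSucc (nat_lit 1516125329519615), .negSucc (nat_lit 51536559672834047), .ofNat (nat_lit 0)],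
  [.ofNat (nat_lit 449216255073337344), .ofNat (nat_lit 0), .ofNat (nat_lit 0)],
  [],
  [],
  [.ofNat (nat_lit 1516125329519616), .ofNat (nat_lit 51536559672834048), .ofNat (nat_lit 0)],
  [.negSucc (nat_lit 449216255073337343), .ofNat (nat_lit 0), .ofNat (nat_lit 0)],
  [],
  []],
  [[.ofNat (nat_lit 150902890795846656), .ofNat (nat_lit 49345916684267520), .ofNat (nat_lit 0)],
  [.negSucc (nat_lit 219297716426907647), .ofNat (nat_lit 0), .ofNat (nat_lit 0)],
  [],
  [],
  [],
  [.ofNat (nat_lit 150902890795846656), .ofNat (nat_lit 49345916684267520), .ofNat (nat_lit 0)],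
  [.negSucc (nat_lit 219297716426907647), .ofNat (nat_lit 0), .ofNat (nat_lit 0)],
  []],
  [[],
  [],
  [],
  [],
  [],
  [],
  [],
  []],
  [[],
  [],
  [],
  [],
  [],
  [],
  [],
  []]],
  [],
  [],
  [],
  [],
  [],
  [],
  [],
  [],
  []],
  [[],
  [],
  [],
  [],
  [],
  [],
  [],
  [],
  [],
  []],
  [[],
  [[[.ofNat (nat_lit 0), .negSucc (nat_lit 52606510625663999), .ofNat (nat_lit 464146001939266560)],
  [.ofNat (nat_lit 0), .ofNat (nat_lit 709230932896711680), .ofNat (nat_lit 0)],
  [],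
  [],
  [],
  [],
  [],
  []],
  [[.ofNat (nat_lit 473189174346263040), .negSucc (nat_lit 2658521786865573887), .ofNat (nat_lit 0)],
  [.negSucc (nat_lit 447512378453489663), .ofNat (nat_lit 0), .ofNat (nat_lit 0)],
  [],
  [],
  [],
  [],
  [],
  []],
  [[],
  [.negSucc (nat_lit 2452414322096160767), .negSucc (nat_lit 710663473425936383), .ofNat (nat_lit 0)],
  [.negSucc (nat_lit 252687731633455103), .ofNat (nat_lit 0), .ofNat (nat_lit 0)],
  [],
  [],
  [],
  [],
  []],
  [[],
  [],
  [.ofNat (nat_lit 752717225186143488), .ofNat (nat_lit 2104834171439660544), .ofNat (nat_lit 0)],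
  [.negSucc (nat_lit 4248208764303897599), .ofNat (nat_lit 0), .ofNat (nat_lit 0)],
  [],
  [],
  [],
  []],
  [[],
  [],
  [],
  [.ofNat (nat_lit 740897094122869248), .negSucc (nat_lit 1101799512570369023), .ofNat (nat_lit 0)],
  [.ofNat (nat_lit 4397493823460775936), .ofNat (nat_lit 0), .ofNat (nat_lit 0)],
  [],
  [],
  []],
  [[],
  [],
  [],
  [],
  [.negSucc (nat_lit 2145740308012241279), .negSucc (nat_lit 454674813389538047), .ofNat (nat_lit 0)],
  [.ofNat (nat_lit 3545969665854306816), .ofNat (nat_lit 0), .ofNat (nat_lit 0)],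
  [],
  []],
  [[],
  [],
  [],
  [],
  [.negSucc (nat_lit 1226051090835987455), .negSucc (nat_lit 1536956054493382655), .ofNat (nat_lit 0)],
  [.ofNat (nat_lit 8263707013459243008), .ofNat (nat_lit 0), .ofNat (nat_lit 0)],
  [],
  []],
  [[],
  [],
  [],
  [],
  [],
  [.negSucc (nat_lit 1716771100645398527), .ofNat (nat_lit 1594438811622720000), .ofNat (nat_lit 0)],
  [.negSucc (nat_lit 2133864541263762431), .ofNat (nat_lit 0), .ofNat (nat_lit 0)],
  []],
  [[],
  [],
  [],
  [],
  [],
  [],
  [.ofNat (nat_lit 131279005836108288), .negSucc (nat_lit 109457769321220607), .ofNat (nat_lit 0)],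
  [.negSucc (nat_lit 986839723921084415), .ofNat (nat_lit 0), .ofNat (nat_lit 0)]],
  [[],
  [],
  [],
  [],
  [],
  [],
  [.negSucc (nat_lit 171305263248505343), .ofNat (nat_lit 1814205723377582592), .ofNat (nat_lit 0)],
  [.negSucc (nat_lit 2631572597122891775), .ofNat (nat_lit 0), .ofNat (nat_lit 0)]]],
  [],
  [],
  [],
  [],
  [],
  [],
  [],
  []],
  [[],
  [],
  [[[.ofNat (nat_lit 0), .ofNat (nat_lit 3740091150798120960), .negSucc (nat_lit 587634493021489151)],
  [.ofNat (nat_lit 0), .negSucc (nat_lit 7753344498488392703), .ofNat (nat_lit 0)],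
  [],
  [],
  [],
  [],
  [],
  []],
  [[.ofNat (nat_lit 743295318265147392), .ofNat (nat_lit 1298297966447425536), .ofNat (nat_lit 0)],
  [.negSucc (nat_lit 1636104398676092927), .ofNat (nat_lit 0), .ofNat (nat_lit 0)],
  [],
  [],
  [],
  [],
  [],
  []],
  [[],
  [.ofNat (nat_lit 1507078652820023808), .negSucc (nat_lit 528081923540279807), .ofNat (nat_lit 0)],
  [.ofNat (nat_lit 6970535605871677440), .ofNat (nat_lit 0), .ofNat (nat_lit 0)],
  [],
  [],
  [],
  [],
  []],
  [[],
  [],
  [.negSucc (nat_lit 996537930178387967), .ofNat (nat_lit 2452191433884085248), .ofNat (nat_lit 0)],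
  [.negSucc (nat_lit 3800970728953076735), .ofNat (nat_lit 0), .ofNat (nat_lit 0)],
  [],
  [],
  [],
  []],
  [[],
  [],
  [],
  [.ofNat (nat_lit 1227996415088227584), .ofNat (nat_lit 4471413072683355648), .ofNat (nat_lit 0)],
  [.negSucc (nat_lit 18664934417169859583), .ofNat (nat_lit 0), .ofNat (nat_lit 0)],
  [],
  [],
  []],
  [[],
  [],
  [],
  [],
  [.ofNat (nat_lit 107038273198940928), .negSucc (nat_lit 2683465427553152255), .ofNat (nat_lit 0)],
  [.ofNat (nat_lit 7711134653681713152), .ofNat (nat_lit 0), .ofNat (nat_lit 0)],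
  [],
  []],
  [[],
  [],
  [],
  [],
  [.negSucc (nat_lit 3669051252155480063), .ofNat (nat_lit 569876310770881536), .ofNat (nat_lit 0)],
  [.negSucc (nat_lit 1494079978872287231), .ofNat (nat_lit 0), .ofNat (nat_lit 0)],
  [],
  []],
  [[],
  [],
  [],
  [],
  [],
  [.ofNat (nat_lit 3161800474516692864), .negSucc (nat_lit 4856375649699131903), .ofNat (nat_lit 0)],
  [.ofNat (nat_lit 3891904964598113280), .ofNat (nat_lit 0), .ofNat (nat_lit 0)],
  []],
  [[],
  [],
  [],
  [],
  [],
  [],
  [.ofNat (nat_lit 393837017508324864), .negSucc (nat_lit 328373307963661823), .ofNat (nat_lit 0)],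
  [.negSucc (nat_lit 2960519171763253247), .ofNat (nat_lit 0), .ofNat (nat_lit 0)]],
  [[],
  [],
  [],
  [],
  [],
  [],
  [.ofNat (nat_lit 4325566240839877632), .negSucc (nat_lit 1034111953832864255), .ofNat (nat_lit 0)],
  [.negSucc (nat_lit 1315786298561445887), .ofNat (nat_lit 0), .ofNat (nat_lit 0)]]],
  [],
  [],
  [],
  [],
  [],
  [],
  []],
  [[],
  [],
  [],
  [[[.ofNat (nat_lit 0), .ofNat (nat_lit 3103460159668761600), .negSucc (nat_lit 930241835474927615)],
  [.ofNat (nat_lit 0), .negSucc (nat_lit 9696783286932922367), .ofNat (nat_lit 0)],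
  [],
  [],
  [],
  [],
  [],
  []],
  [[.negSucc (nat_lit 1481614854091773695), .ofNat (nat_lit 3035076006914588160), .ofNat (nat_lit 0)],
  [.ofNat (nat_lit 7181806844956455936), .ofNat (nat_lit 0), .ofNat (nat_lit 0)],
  [],
  [],
  [],
  [],
  [],
  []],
  [[],
  [.ofNat (nat_lit 996537930178387968), .negSucc (nat_lit 2452191433884085247), .ofNat (nat_lit 0)],
  [.ofNat (nat_lit 3800970728953076736), .ofNat (nat_lit 0), .ofNat (nat_lit 0)],
  [],
  [],
  [],
  [],
  []],
  [[],
  [],
  [.negSucc (nat_lit 9062872721826379775), .ofNat (nat_lit 1228321362911938560), .ofNat (nat_lit 0)],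
  [.ofNat (nat_lit 10758068920930321152), .ofNat (nat_lit 0), .ofNat (nat_lit 0)],
  [],
  [],
  [],
  []],
  [[],
  [],
  [],
  [.ofNat (nat_lit 4655700127339746048), .ofNat (nat_lit 9694705097196158976), .ofNat (nat_lit 0)],
  [.negSucc (nat_lit 36619243902562728959), .ofNat (nat_lit 0), .ofNat (nat_lit 0)],
  [],
  [],
  []],
  [[],
  [],
  [],
  [],
  [.ofNat (nat_lit 7911108247165665408), .negSucc (nat_lit 6313032683106910271), .ofNat (nat_lit 0)],
  [.ofNat (nat_lit 1763137853633449728), .ofNat (nat_lit 0), .ofNat (nat_lit 0)],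
  [],
  []],
  [[],
  [],
  [],
  [],
  [.negSucc (nat_lit 4885490914036017407), .ofNat (nat_lit 5454549861411370752), .ofNat (nat_lit 0)],
  [.negSucc (nat_lit 5241728890475919359), .ofNat (nat_lit 0), .ofNat (nat_lit 0)],
  [],
  []],
  [[],
  [],
  [],
  [],
  [],
  [.ofNat (nat_lit 4398983414686740096), .negSucc (nat_lit 13618640932576227071), .ofNat (nat_lit 0)],
  [.ofNat (nat_lit 19830381108807744000), .ofNat (nat_lit 0), .ofNat (nat_lit 0)],
  []],
  [[],
  [],
  [],
  [],
  [],
  [],
  [.negSucc (nat_lit 533922222423395231), .negSucc (nat_lit 154761646580328095), .ofNat (nat_lit 0)],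
  [.negSucc (nat_lit 2467099309802711039), .ofNat (nat_lit 0), .ofNat (nat_lit 0)]],
  [[],
  [],
  [],
  [],
  [],
  [],
  [.ofNat (nat_lit 10053482547959682048), .negSucc (nat_lit 6910342966545355007), .ofNat (nat_lit 0)],
  [.negSucc (nat_lit 3289465746403614719), .ofNat (nat_lit 0), .ofNat (nat_lit 0)]]],
  [],
  [],
  [],
  [],
  [],
  []],
  [[],
  [],
  [],
  [],
  [[[.ofNat (nat_lit 0), .negSucc (nat_lit 9243259536595507199), .ofNat (nat_lit 2440612262729668608)],
  [.ofNat (nat_lit 0), .ofNat (nat_lit 18764532369872133120), .ofNat (nat_lit 0)],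
  [],
  [],
  [],
  [],
  [],
  []],
  [[.ofNat (nat_lit 7303349588893281792), .negSucc (nat_lit 1338812750159299583), .ofNat (nat_lit 0)],
  [.negSucc (nat_lit 27636716426916142079), .ofNat (nat_lit 0), .ofNat (nat_lit 0)],
  [],
  [],
  [],
  [],
  [],
  []],
  [[],
  [.ofNat (nat_lit 1227996415088227584), .ofNat (nat_lit 4471413072683355648), .ofNat (nat_lit 0)],
  [.negSucc (nat_lit 18664934417169859583), .ofNat (nat_lit 0), .ofNat (nat_lit 0)],
  [],
  [],
  [],
  [],
  []],
  [[],
  [],
  [.negSucc (nat_lit 4655700127339746047), .negSucc (nat_lit 9694705097196158975), .ofNat (nat_lit 0)],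
  [.ofNat (nat_lit 36619243902562728960), .ofNat (nat_lit 0), .ofNat (nat_lit 0)],
  [],
  [],
  [],
  []],
  [[],
  [],
  [],
  [.ofNat (nat_lit 35353263995046645120), .negSucc (nat_lit 31175488822049885951), .ofNat (nat_lit 0)],
  [.ofNat (nat_lit 11345188591745480448), .ofNat (nat_lit 0), .ofNat (nat_lit 0)],
  [],
  [],
  []],
  [[],
  [],
  [],
  [],
  [.negSucc (nat_lit 936132640848213119), .ofNat (nat_lit 10258535663132605632), .ofNat (nat_lit 0)],
  [.negSucc (nat_lit 20090147998074891263), .ofNat (nat_lit 0), .ofNat (nat_lit 0)],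
  [],
  []],
  [[],
  [],
  [],
  [],
  [.ofNat (nat_lit 17845472945086861824), .negSucc (nat_lit 3364641589830596351), .ofNat (nat_lit 0)],
  [.negSucc (nat_lit 3821104147515604991), .ofNat (nat_lit 0), .ofNat (nat_lit 0)],
  [],
  []],
  [[],
  [],
  [],
  [],
  [],
  [.negSucc (nat_lit 54452739627134945855), .ofNat (nat_lit 45320433590676287808), .ofNat (nat_lit 0)],
  [.ofNat (nat_lit 21682746960720744960), .ofNat (nat_lit 0), .ofNat (nat_lit 0)],
  []],
  [[],
  [],
  [],
  [],
  [],
  [],
  [.negSucc (nat_lit 1396041959437061183), .negSucc (nat_lit 35878869857604671), .ofNat (nat_lit 0)],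
  [.negSucc (nat_lit 2467099309802711039), .ofNat (nat_lit 0), .ofNat (nat_lit 0)]],
  [[],
  [],
  [],
  [],
  [],
  [],
  [.negSucc (nat_lit 24389884148368904063), .ofNat (nat_lit 25531115827049773056), .ofNat (nat_lit 0)],
  [.negSucc (nat_lit 3289465746403614719), .ofNat (nat_lit 0), .ofNat (nat_lit 0)]]],
  [],
  [],
  [],
  [],
  []],
  [[],
  [],
  [],
  [],
  [],
  [[[.ofNat (nat_lit 0), .negSucc (nat_lit 5041894141629794303), .negSucc (nat_lit 600153135671430143)],
  [.ofNat (nat_lit 0), .ofNat (nat_lit 16225673802074007552), .ofNat (nat_lit 0)],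
  [],
  [],
  [],
  [],
  [],
  []],
  [[.ofNat (nat_lit 2355031445176098432), .ofNat (nat_lit 145478322281892096), .ofNat (nat_lit 0)],
  [.negSucc (nat_lit 8272037048635261439), .ofNat (nat_lit 0), .ofNat (nat_lit 0)],
  [],
  [],
  [],
  [],
  [],
  []],
  [[],
  [.negSucc (nat_lit 107038273198940927), .ofNat (nat_lit 2683465427553152256), .ofNat (nat_lit 0)],
  [.negSucc (nat_lit 7711134653681713151), .ofNat (nat_lit 0), .ofNat (nat_lit 0)],
  [],
  [],
  [],
  [],
  []],
  [[],
  [],
  [.ofNat (nat_lit 7911108247165665408), .negSucc (nat_lit 6313032683106910271), .ofNat (nat_lit 0)],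
  [.ofNat (nat_lit 1763137853633449728), .ofNat (nat_lit 0), .ofNat (nat_lit 0)],
  [],
  [],
  [],
  []],
  [[],
  [],
  [],
  [.ofNat (nat_lit 936132640848213120), .negSucc (nat_lit 10258535663132605631), .ofNat (nat_lit 0)],
  [.ofNat (nat_lit 20090147998074891264), .ofNat (nat_lit 0), .ofNat (nat_lit 0)],
  [],
  [],
  []],
  [[],
  [],
  [],
  [],
  [.negSucc (nat_lit 7933520898968060447), .ofNat (nat_lit 4819076020652399136), .ofNat (nat_lit 0)],
  [.negSucc (nat_lit 12922731626201244287), .ofNat (nat_lit 0), .ofNat (nat_lit 0)],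
  [],
  []],
  [[],
  [],
  [],
  [],
  [.ofNat (nat_lit 9776028440147943168), .negSucc (nat_lit 3601041774401287295), .ofNat (nat_lit 0)],
  [.negSucc (nat_lit 6742077177349969919), .ofNat (nat_lit 0), .ofNat (nat_lit 0)],
  [],
  []],
  [[],
  [],
  [],
  [],
  [],
  [.negSucc (nat_lit 27816184828022695775), .ofNat (nat_lit 12644196485234639328), .ofNat (nat_lit 0)],
  [.ofNat (nat_lit 9300020716449780480), .ofNat (nat_lit 0), .ofNat (nat_lit 0)],
  []],
  [[],
  [],
  [],
  [],
  [],
  [],
  [.negSucc (nat_lit 8466550935632351), .ofNat (nat_lit 2661137739256322448), .ofNat (nat_lit 0)],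
  [.negSucc (nat_lit 904603080260994047), .ofNat (nat_lit 0), .ofNat (nat_lit 0)]],
  [[],
  [],
  [],
  [],
  [],
  [],
  [.negSucc (nat_lit 15912372902226114239), .ofNat (nat_lit 4479285514371163776), .ofNat (nat_lit 0)],
  [.ofNat (nat_lit 328946574640361472), .ofNat (nat_lit 0), .ofNat (nat_lit 0)]]],
  [[[.ofNat (nat_lit 0), .ofNat (nat_lit 10370533934306469888), .negSucc (nat_lit 957262657859251199)],
  [.ofNat (nat_lit 0), .negSucc (nat_lit 23506587573085218815), .ofNat (nat_lit 0)],
  [],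
  [],
  [],
  [],
  [],
  []],
  [[.negSucc (nat_lit 8936373453395650559), .negSucc (nat_lit 579693396634131455), .ofNat (nat_lit 0)],
  [.ofNat (nat_lit 27130666339135254528), .ofNat (nat_lit 0), .ofNat (nat_lit 0)],
  [],
  [],
  [],
  [],
  [],
  []],
  [[],
  [.ofNat (nat_lit 3669051252155480064), .negSucc (nat_lit 569876310770881535), .ofNat (nat_lit 0)],
  [.ofNat (nat_lit 1494079978872287232), .ofNat (nat_lit 0), .ofNat (nat_lit 0)],
  [],
  [],
  [],
  [],
  []],
  [[],
  [],
  [.negSucc (nat_lit 4885490914036017407), .ofNat (nat_lit 5454549861411370752), .ofNat (nat_lit 0)],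
  [.negSucc (nat_lit 5241728890475919359), .ofNat (nat_lit 0), .ofNat (nat_lit 0)],
  [],
  [],
  [],
  []],
  [[],
  [],
  [],
  [.negSucc (nat_lit 17845472945086861823), .ofNat (nat_lit 3364641589830596352), .ofNat (nat_lit 0)],
  [.ofNat (nat_lit 3821104147515604992), .ofNat (nat_lit 0), .ofNat (nat_lit 0)],
  [],
  [],
  []],
  [[],
  [],
  [],
  [],
  [.ofNat (nat_lit 9776028440147943168), .negSucc (nat_lit 3601041774401287295), .ofNat (nat_lit 0)],
  [.negSucc (nat_lit 6742077177349969919), .ofNat (nat_lit 0), .ofNat (nat_lit 0)],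
  [],
  []],
  [[],
  [],
  [],
  [],
  [.negSucc (nat_lit 3787402146373711871), .negSucc (nat_lit 5813530154421391871), .ofNat (nat_lit 0)],
  [.ofNat (nat_lit 652582738170961920), .ofNat (nat_lit 0), .ofNat (nat_lit 0)],
  [],
  []],
  [[],
  [],
  [],
  [],
  [],
  [.ofNat (nat_lit 11607382370575271808), .negSucc (nat_lit 5200699116110426495), .ofNat (nat_lit 0)],
  [.ofNat (nat_lit 4894370536282214400), .ofNat (nat_lit 0), .ofNat (nat_lit 0)],
  []],
  [[],
  [],
  [],
  [],
  [],
  [],
  [.negSucc (nat_lit 937415512765587455), .negSucc (nat_lit 837996148759328063), .ofNat (nat_lit 0)],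
  [.ofNat (nat_lit 328946574640361472), .ofNat (nat_lit 0), .ofNat (nat_lit 0)]],
  [[],
  [],
  [],
  [],
  [],
  [],
  [.ofNat (nat_lit 5601203652084307200), .ofNat (nat_lit 2780837071560004608), .ofNat (nat_lit 0)],
  [.negSucc (nat_lit 1315786298561445887), .ofNat (nat_lit 0), .ofNat (nat_lit 0)]]],
  [],
  [],
  []],
  [[],
  [],
  [],
  [],
  [],
  [],
  [],
  [[[.ofNat (nat_lit 0), .ofNat (nat_lit 4410731201125588992), .ofNat (nat_lit 469204464163470336)],
  [.ofNat (nat_lit 0), .negSucc (nat_lit 12556598627378506751), .ofNat (nat_lit 0)],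
  [],
  [],
  [],
  [],
  [],
  []],
  [[.negSucc (nat_lit 3106088844100439039), .negSucc (nat_lit 2063643275786190335), .ofNat (nat_lit 0)],
  [.ofNat (nat_lit 14171434500814903296), .ofNat (nat_lit 0), .ofNat (nat_lit 0)],
  [],
  [],
  [],
  [],
  [],
  []],
  [[],
  [.ofNat (nat_lit 3161800474516692864), .negSucc (nat_lit 4856375649699131903), .ofNat (nat_lit 0)],
  [.ofNat (nat_lit 3891904964598113280), .ofNat (nat_lit 0), .ofNat (nat_lit 0)],
  [],
  [],
  [],
  [],
  []],
  [[],
  [],
  [.negSucc (nat_lit 4398983414686740095), .ofNat (nat_lit 13618640932576227072), .ofNat (nat_lit 0)],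
  [.negSucc (nat_lit 19830381108807743999), .ofNat (nat_lit 0), .ofNat (nat_lit 0)],
  [],
  [],
  [],
  []],
  [[],
  [],
  [],
  [.negSucc (nat_lit 54452739627134945855), .ofNat (nat_lit 45320433590676287808), .ofNat (nat_lit 0)],
  [.ofNat (nat_lit 21682746960720744960), .ofNat (nat_lit 0), .ofNat (nat_lit 0)],
  [],
  [],
  []],
  [[],
  [],
  [],
  [],
  [.ofNat (nat_lit 27816184828022695776), .negSucc (nat_lit 12644196485234639327), .ofNat (nat_lit 0)],
  [.negSucc (nat_lit 9300020716449780479), .ofNat (nat_lit 0), .ofNat (nat_lit 0)],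
  [],
  []],
  [[],
  [],
  [],
  [],
  [.negSucc (nat_lit 11607382370575271807), .ofNat (nat_lit 5200699116110426496), .ofNat (nat_lit 0)],
  [.negSucc (nat_lit 4894370536282214399), .ofNat (nat_lit 0), .ofNat (nat_lit 0)],
  [],
  []],
  [[],
  [],
  [],
  [],
  [],
  [.ofNat (nat_lit 71449382265843802752), .negSucc (nat_lit 63966860792985685535), .ofNat (nat_lit 0)],
  [.ofNat (nat_lit 3262053531850251264), .ofNat (nat_lit 0), .ofNat (nat_lit 0)],
  []],
  [[],
  [],
  [],
  [],
  [],
  [],
  [.negSucc (nat_lit 111753941729647247), .ofNat (nat_lit 2237427161175907008), .ofNat (nat_lit 0)],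
  [.negSucc (nat_lit 246709930980271103), .ofNat (nat_lit 0), .ofNat (nat_lit 0)]],
  [[],
  [],
  [],
  [],
  [],
  [],
  [.ofNat (nat_lit 33357275776108601280), .negSucc (nat_lit 30789295242062905727), .ofNat (nat_lit 0)],
  [.negSucc (nat_lit 657893149280722943), .ofNat (nat_lit 0), .ofNat (nat_lit 0)]]],
  [],
  []],
  [[],
  [],
  [],
  [],
  [],
  [],
  [],
  [],
  [[[.ofNat (nat_lit 0), .ofNat (nat_lit 3294862031220452352), .ofNat (nat_lit 255805258284702720)],
  [.ofNat (nat_lit 0), .negSucc (nat_lit 8974531812776979455), .ofNat (nat_lit 0)],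
  [],
  [],
  [],
  [],
  [],
  []],
  [[.negSucc (nat_lit 3163583025384344063), .negSucc (nat_lit 365263027605923327), .ofNat (nat_lit 0)],
  [.ofNat (nat_lit 7987692088855895040), .ofNat (nat_lit 0), .ofNat (nat_lit 0)],
  [],
  [],
  [],
  [],
  [],
  []],
  [[],
  [.negSucc (nat_lit 393837017508324863), .ofNat (nat_lit 328373307963661824), .ofNat (nat_lit 0)],
  [.ofNat (nat_lit 2960519171763253248), .ofNat (nat_lit 0), .ofNat (nat_lit 0)],
  [],
  [],
  [],
  [],
  []],
  [[],
  [],
  [.negSucc (nat_lit 533922222423395231), .negSucc (nat_lit 154761646580328095), .ofNat (nat_lit 0)],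
  [.negSucc (nat_lit 2467099309802711039), .ofNat (nat_lit 0), .ofNat (nat_lit 0)],
  [],
  [],
  [],
  []],
  [[],
  [],
  [],
  [.ofNat (nat_lit 1396041959437061184), .ofNat (nat_lit 35878869857604672), .ofNat (nat_lit 0)],
  [.ofNat (nat_lit 2467099309802711040), .ofNat (nat_lit 0), .ofNat (nat_lit 0)],
  [],
  [],
  []],
  [[],
  [],
  [],
  [],
  [.negSucc (nat_lit 8466550935632351), .ofNat (nat_lit 2661137739256322448), .ofNat (nat_lit 0)],
  [.negSucc (nat_lit 904603080260994047), .ofNat (nat_lit 0), .ofNat (nat_lit 0)],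
  [],
  []],
  [[],
  [],
  [],
  [],
  [.negSucc (nat_lit 937415512765587455), .negSucc (nat_lit 837996148759328063), .ofNat (nat_lit 0)],
  [.ofNat (nat_lit 328946574640361472), .ofNat (nat_lit 0), .ofNat (nat_lit 0)],
  [],
  []],
  [[],
  [],
  [],
  [],
  [],
  [.ofNat (nat_lit 111753941729647248), .negSucc (nat_lit 2237427161175907007), .ofNat (nat_lit 0)],
  [.ofNat (nat_lit 246709930980271104), .ofNat (nat_lit 0), .ofNat (nat_lit 0)],
  []],
  [[],
  [],
  [],
  [],
  [],
  [],
  [.ofNat (nat_lit 1124062650335939184), .ofNat (nat_lit 92839948968620664), .ofNat (nat_lit 0)],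
  []],
  [[],
  [],
  [],
  [],
  [],
  [],
  [.negSucc (nat_lit 830034936479289887), .ofNat (nat_lit 452076095688856128), .ofNat (nat_lit 0)],
  []]],
  [[[.ofNat (nat_lit 0), .negSucc (nat_lit 8610768530452002815), .negSucc (nat_lit 623492830791355391)],
  [.ofNat (nat_lit 0), .ofNat (nat_lit 22318056484135483392), .ofNat (nat_lit 0)],
  [],
  [],
  [],
  [],
  [],
  []],
  [[.ofNat (nat_lit 8439463267203497472), .ofNat (nat_lit 2437698554168937984), .ofNat (nat_lit 0)],
  [.negSucc (nat_lit 24949629081258375167), .ofNat (nat_lit 0), .ofNat (nat_lit 0)],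
  [],
  [],
  [],
  [],
  [],
  []],
  [[],
  [.negSucc (nat_lit 4325566240839877631), .ofNat (nat_lit 1034111953832864256), .ofNat (nat_lit 0)],
  [.ofNat (nat_lit 1315786298561445888), .ofNat (nat_lit 0), .ofNat (nat_lit 0)],
  [],
  [],
  [],
  [],
  []],
  [[],
  [],
  [.ofNat (nat_lit 10053482547959682048), .negSucc (nat_lit 6910342966545355007), .ofNat (nat_lit 0)],
  [.negSucc (nat_lit 3289465746403614719), .ofNat (nat_lit 0), .ofNat (nat_lit 0)],
  [],
  [],
  [],
  []],
  [[],
  [],
  [],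
  [.ofNat (nat_lit 24389884148368904064), .negSucc (nat_lit 25531115827049773055), .ofNat (nat_lit 0)],
  [.ofNat (nat_lit 3289465746403614720), .ofNat (nat_lit 0), .ofNat (nat_lit 0)],
  [],
  [],
  []],
  [[],
  [],
  [],
  [],
  [.negSucc (nat_lit 15912372902226114239), .ofNat (nat_lit 4479285514371163776), .ofNat (nat_lit 0)],
  [.ofNat (nat_lit 328946574640361472), .ofNat (nat_lit 0), .ofNat (nat_lit 0)],
  [],
  []],
  [[],
  [],
  [],
  [],
  [.ofNat (nat_lit 5601203652084307200), .ofNat (nat_lit 2780837071560004608), .ofNat (nat_lit 0)],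
  [.negSucc (nat_lit 1315786298561445887), .ofNat (nat_lit 0), .ofNat (nat_lit 0)],
  [],
  []],
  [[],
  [],
  [],
  [],
  [],
  [.negSucc (nat_lit 33357275776108601279), .ofNat (nat_lit 30789295242062905728), .ofNat (nat_lit 0)],
  [.ofNat (nat_lit 657893149280722944), .ofNat (nat_lit 0), .ofNat (nat_lit 0)],
  []],
  [[],
  [],
  [],
  [],
  [],
  [],
  [.negSucc (nat_lit 830034936479289887), .ofNat (nat_lit 452076095688856128), .ofNat (nat_lit 0)],
  []],
  [[],
  [],
  [],
  [],
  [],
  [],
  [.negSucc (nat_lit 12461181161469935615), .ofNat (nat_lit 20332304437096795392), .ofNat (nat_lit 0)],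
  []]]]],
  [[[[[.ofNat (nat_lit 0), .ofNat (nat_lit 0), .negSucc (nat_lit 21198017107685375)],
  [.ofNat (nat_lit 0), .ofNat (nat_lit 0), .ofNat (nat_lit 21780897764161536)],
  [],
  [],
  [],
  [],
  [],
  []],
  [[.ofNat (nat_lit 0), .negSucc (nat_lit 763495755259594751), .ofNat (nat_lit 0)],
  [.ofNat (nat_lit 0), .ofNat (nat_lit 1536919943575753728), .ofNat (nat_lit 0)],
  [],
  [],
  [],
  [],
  [],
  []],
  [[],
  [.ofNat (nat_lit 0), .ofNat (nat_lit 2030972146967107584), .ofNat (nat_lit 0)],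
  [.ofNat (nat_lit 0), .negSucc (nat_lit 9642136628797940735), .ofNat (nat_lit 0)],
  [],
  [],
  [],
  [],
  []],
  [[],
  [],
  [.ofNat (nat_lit 0), .negSucc (nat_lit 869128080390844415), .ofNat (nat_lit 0)],
  [.ofNat (nat_lit 0), .negSucc (nat_lit 1733232322327431167), .ofNat (nat_lit 0)],
  [],
  [],
  [],
  []],
  [[],
  [],
  [],
  [.ofNat (nat_lit 0), .negSucc (nat_lit 1199012853579356159), .ofNat (nat_lit 0)],
  [.ofNat (nat_lit 0), .negSucc (nat_lit 4474690233583233023), .ofNat (nat_lit 0)],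
  [],
  [],
  []],
  [[],
  [],
  [],
  [],
  [.ofNat (nat_lit 0), .ofNat (nat_lit 541122388441454592), .ofNat (nat_lit 0)],
  [.ofNat (nat_lit 0), .negSucc (nat_lit 4407667087584439295), .ofNat (nat_lit 0)],
  [],
  []],
  [[],
  [],
  [],
  [],
  [.ofNat (nat_lit 0), .negSucc (nat_lit 2660211571746806783), .ofNat (nat_lit 0)],
  [.ofNat (nat_lit 0), .ofNat (nat_lit 4639628247409207296), .ofNat (nat_lit 0)],
  [],
  []],
  [[],
  [],
  [],
  [],
  [],
  [.ofNat (nat_lit 0), .negSucc (nat_lit 412128743620248575), .ofNat (nat_lit 0)],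
  [.ofNat (nat_lit 0), .negSucc (nat_lit 519028667827365887), .ofNat (nat_lit 0)],
  []],
  [[],
  [],
  [],
  [],
  [],
  [],
  [],
  []],
  [[],
  [],
  [],
  [],
  [],
  [],
  [],
  []]],
  [],
  [],
  [],
  [],
  [],
  [],
  [],
  [],
  []],
  [[],
  [],
  [],
  [],
  [],
  [],
  [],
  [],
  [],
  []],
  [[],
  [[[.ofNat (nat_lit 0), .ofNat (nat_lit 5610391122070499328), .negSucc (nat_lit 728213303401049087)],
  [.ofNat (nat_lit 0), .negSucc (nat_lit 13011776377771373567), .ofNat (nat_lit 0)],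
  [],
  [],
  [],
  [],
  [],
  []],
  [[.negSucc (nat_lit 3467194016353136639), .negSucc (nat_lit 9755015844058781183), .ofNat (nat_lit 0)],
  [.ofNat (nat_lit 9185693658760571904), .ofNat (nat_lit 21673859847663204864), .ofNat (nat_lit 0)],
  [],
  [],
  [],
  [],
  [],
  []],
  [[],
  [.ofNat (nat_lit 0), .negSucc (nat_lit 7212871265997072383), .ofNat (nat_lit 0)],
  [.ofNat (nat_lit 0), .ofNat (nat_lit 18599819740212400128), .ofNat (nat_lit 0)],
  [],
  [],
  [],
  [],
  []],
  [[],
  [],
  [.ofNat (nat_lit 0), .ofNat (nat_lit 18646216314314478336), .ofNat (nat_lit 0)],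
  [.ofNat (nat_lit 0), .negSucc (nat_lit 9911974483977025535), .ofNat (nat_lit 0)],
  [],
  [],
  [],
  []],
  [[],
  [],
  [],
  [.ofNat (nat_lit 0), .ofNat (nat_lit 20341571247311132160), .ofNat (nat_lit 0)],
  [.ofNat (nat_lit 0), .ofNat (nat_lit 24383749709644213248), .ofNat (nat_lit 0)],
  [],
  [],
  []],
  [[],
  [],
  [],
  [],
  [.ofNat (nat_lit 0), .negSucc (nat_lit 26782775180098116479), .ofNat (nat_lit 0)],
  [.ofNat (nat_lit 0), .ofNat (nat_lit 42747273507668564736), .ofNat (nat_lit 0)],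
  [],
  []],
  [[],
  [],
  [],
  [],
  [.ofNat (nat_lit 0), .ofNat (nat_lit 36755637136365671424), .ofNat (nat_lit 0)],
  [.ofNat (nat_lit 0), .negSucc (nat_lit 85417069974161577983), .ofNat (nat_lit 0)],
  [],
  []],
  [[],
  [],
  [],
  [],
  [],
  [.ofNat (nat_lit 0), .negSucc (nat_lit 25405015721612129279), .ofNat (nat_lit 0)],
  [.ofNat (nat_lit 0), .negSucc (nat_lit 23013335772959680511), .ofNat (nat_lit 0)],
  []],
  [[],
  [],
  [],
  [],
  [],
  [],
  [.ofNat (nat_lit 0), .negSucc (nat_lit 1087607456419829759), .ofNat (nat_lit 0)],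
  [.ofNat (nat_lit 0), .negSucc (nat_lit 2335629005223146495), .ofNat (nat_lit 0)]],
  [[],
  [],
  [],
  [],
  [],
  [],
  [.ofNat (nat_lit 0), .negSucc (nat_lit 11541505775744724479), .ofNat (nat_lit 0)],
  [.ofNat (nat_lit 0), .negSucc (nat_lit 6228344013928390655), .ofNat (nat_lit 0)]]],
  [],
  [],
  [],
  [],
  [],
  [],
  [],
  []],
  [[],
  [],
  [[[.ofNat (nat_lit 0), .ofNat (nat_lit 24697086269699478528), .ofNat (nat_lit 1686390200469163008)],
  [.ofNat (nat_lit 0), .negSucc (nat_lit 62018501316694576127), .ofNat (nat_lit 0)],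
  [],
  [],
  [],
  [],
  [],
  []],
  [[.negSucc (nat_lit 33013242734654702591), .ofNat (nat_lit 5526481065527909376), .ofNat (nat_lit 0)],
  [.ofNat (nat_lit 86145420708585520128), .negSucc (nat_lit 18599819740212400127), .ofNat (nat_lit 0)],
  [],
  [],
  [],
  [],
  [],
  []],
  [[],
  [.ofNat (nat_lit 0), .ofNat (nat_lit 16078684503301369344), .ofNat (nat_lit 0)],
  [.ofNat (nat_lit 0), .negSucc (nat_lit 68540916731716753919), .ofNat (nat_lit 0)],
  [],
  [],
  [],
  [],
  []],
  [[],
  [],
  [.ofNat (nat_lit 0), .ofNat (nat_lit 12649803806726424576), .ofNat (nat_lit 0)],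
  [.ofNat (nat_lit 0), .negSucc (nat_lit 87206022962421649919), .ofNat (nat_lit 0)],
  [],
  [],
  [],
  []],
  [[],
  [],
  [],
  [.ofNat (nat_lit 0), .negSucc (nat_lit 21974839966614134015), .ofNat (nat_lit 0)],
  [.ofNat (nat_lit 0), .ofNat (nat_lit 92490158937635808768), .ofNat (nat_lit 0)],
  [],
  [],
  []],
  [[],
  [],
  [],
  [],
  [.ofNat (nat_lit 0), .negSucc (nat_lit 22374570787755031295), .ofNat (nat_lit 0)],
  [.ofNat (nat_lit 0), .ofNat (nat_lit 124026831378068308992), .ofNat (nat_lit 0)],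
  [],
  []],
  [[],
  [],
  [],
  [],
  [.ofNat (nat_lit 0), .ofNat (nat_lit 11871194060024054784), .ofNat (nat_lit 0)],
  [.ofNat (nat_lit 0), .negSucc (nat_lit 14029097438583281663), .ofNat (nat_lit 0)],
  [],
  []],
  [[],
  [],
  [],
  [],
  [],
  [.ofNat (nat_lit 0), .negSucc (nat_lit 6776931851053094015), .ofNat (nat_lit 0)],
  [.ofNat (nat_lit 0), .ofNat (nat_lit 23326691163984380160), .ofNat (nat_lit 0)],
  []],
  [[],
  [],
  [],
  [],
  [],
  [],
  [.ofNat (nat_lit 0), .negSucc (nat_lit 3262822369259489279), .ofNat (nat_lit 0)],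
  [.ofNat (nat_lit 0), .negSucc (nat_lit 7006887015669439487), .ofNat (nat_lit 0)]],
  [[],
  [],
  [],
  [],
  [],
  [],
  [.ofNat (nat_lit 0), .ofNat (nat_lit 1323058604631390720), .ofNat (nat_lit 0)],
  [.ofNat (nat_lit 0), .negSucc (nat_lit 3114172006964195327), .ofNat (nat_lit 0)]]],
  [],
  [],
  [],
  [],
  [],
  [],
  []],
  [[],
  [],
  [],
  [[[.ofNat (nat_lit 0), .ofNat (nat_lit 5150359285900932096), .negSucc (nat_lit 804403194776091647)],
  [.ofNat (nat_lit 0), .negSucc (nat_lit 16951885463440235519), .ofNat (nat_lit 0)],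
  [],
  [],
  [],
  [],
  [],
  []],
  [[.negSucc (nat_lit 9641581407623291903), .ofNat (nat_lit 19450619509090569984), .ofNat (nat_lit 0)],
  [.ofNat (nat_lit 26201640226425467904), .negSucc (nat_lit 9911974483977025535), .ofNat (nat_lit 0)],
  [],
  [],
  [],
  [],
  [],
  []],
  [[],
  [.ofNat (nat_lit 0), .negSucc (nat_lit 12649803806726424575), .ofNat (nat_lit 0)],
  [.ofNat (nat_lit 0), .ofNat (nat_lit 87206022962421649920), .ofNat (nat_lit 0)],
  [],
  [],
  [],
  [],
  []],
  [[],
  [],
  [.ofNat (nat_lit 0), .negSucc (nat_lit 77322583519292382335), .ofNat (nat_lit 0)],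
  [.ofNat (nat_lit 0), .ofNat (nat_lit 71453789461077106176), .ofNat (nat_lit 0)],
  [],
  [],
  [],
  []],
  [[],
  [],
  [],
  [.ofNat (nat_lit 0), .negSucc (nat_lit 72347979453313860863), .ofNat (nat_lit 0)],
  [.ofNat (nat_lit 0), .negSucc (nat_lit 14844887840329989119), .ofNat (nat_lit 0)],
  [],
  [],
  []],
  [[],
  [],
  [],
  [],
  [.ofNat (nat_lit 0), .ofNat (nat_lit 48445469710004135808), .ofNat (nat_lit 0)],
  [.ofNat (nat_lit 0), .negSucc (nat_lit 24860709519666931583), .ofNat (nat_lit 0)],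
  [],
  []],
  [[],
  [],
  [],
  [],
  [.ofNat (nat_lit 0), .negSucc (nat_lit 26262961672576773887), .ofNat (nat_lit 0)],
  [.ofNat (nat_lit 0), .ofNat (nat_lit 66291080702322170880), .ofNat (nat_lit 0)],
  [],
  []],
  [[],
  [],
  [],
  [],
  [],
  [.ofNat (nat_lit 0), .ofNat (nat_lit 68344065411206767488), .ofNat (nat_lit 0)],
  [.ofNat (nat_lit 0), .negSucc (nat_lit 12088732109257601279), .ofNat (nat_lit 0)],
  []],
  [[],
  [],
  [],
  [],
  [],
  [],
  [.ofNat (nat_lit 0), .negSucc (nat_lit 2304861872386055327), .ofNat (nat_lit 0)],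
  [.ofNat (nat_lit 0), .negSucc (nat_lit 5839072513057866239), .ofNat (nat_lit 0)]],
  [[],
  [],
  [],
  [],
  [],
  [],
  [.ofNat (nat_lit 0), .ofNat (nat_lit 23901529341358552320), .ofNat (nat_lit 0)],
  [.ofNat (nat_lit 0), .negSucc (nat_lit 7785430017410488319), .ofNat (nat_lit 0)]]],
  [],
  [],
  [],
  [],
  [],
  []],
  [[],
  [],
  [],
  [],
  [[[.ofNat (nat_lit 0), .negSucc (nat_lit 116993781188295515135), .negSucc (nat_lit 5499575935481097215)],
  [.ofNat (nat_lit 0), .ofNat (nat_lit 301018216330384736256), .ofNat (nat_lit 0)],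
  [],
  [],
  [],
  [],
  [],
  []],
  [[.ofNat (nat_lit 126531102761519827968), .negSucc (nat_lit 14841995311830034943), .ofNat (nat_lit 0)],
  [.negSucc (nat_lit 323703643082925625343), .negSucc (nat_lit 24383749709644213247), .ofNat (nat_lit 0)],
  [],
  [],
  [],
  [],
  [],
  []],
  [[],
  [.ofNat (nat_lit 0), .negSucc (nat_lit 21974839966614134015), .ofNat (nat_lit 0)],
  [.ofNat (nat_lit 0), .ofNat (nat_lit 92490158937635808768), .ofNat (nat_lit 0)],
  [],
  [],
  [],
  [],
  []],
  [[],
  [],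
  [.ofNat (nat_lit 0), .ofNat (nat_lit 72347979453313860864), .ofNat (nat_lit 0)],
  [.ofNat (nat_lit 0), .ofNat (nat_lit 14844887840329989120), .ofNat (nat_lit 0)],
  [],
  [],
  [],
  []],
  [[],
  [],
  [],
  [.ofNat (nat_lit 0), .ofNat (nat_lit 118538482214897990784), .ofNat (nat_lit 0)],
  [.ofNat (nat_lit 0), .negSucc (nat_lit 295279923032350198271), .ofNat (nat_lit 0)],
  [],
  [],
  []],
  [[],
  [],
  [],
  [],
  [.ofNat (nat_lit 0), .negSucc (nat_lit 17560084359277304639), .ofNat (nat_lit 0)],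
  [.ofNat (nat_lit 0), .negSucc (nat_lit 63392866728915568895), .ofNat (nat_lit 0)],
  [],
  []],
  [[],
  [],
  [],
  [],
  [.ofNat (nat_lit 0), .negSucc (nat_lit 17852501456112128255), .ofNat (nat_lit 0)],
  [.ofNat (nat_lit 0), .ofNat (nat_lit 59936843574292534272), .ofNat (nat_lit 0)],
  [],
  []],
  [[],
  [],
  [],
  [],
  [],
  [.ofNat (nat_lit 0), .negSucc (nat_lit 66406662141494701823), .ofNat (nat_lit 0)],
  [.ofNat (nat_lit 0), .ofNat (nat_lit 58375925686455120000), .ofNat (nat_lit 0)],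
  []],
  [[],
  [],
  [],
  [],
  [],
  [],
  [.ofNat (nat_lit 0), .negSucc (nat_lit 1890705103722536255), .ofNat (nat_lit 0)],
  [.ofNat (nat_lit 0), .negSucc (nat_lit 5839072513057866239), .ofNat (nat_lit 0)]],
  [[],
  [],
  [],
  [],
  [],
  [],
  [.ofNat (nat_lit 0), .negSucc (nat_lit 29225129551338716927), .ofNat (nat_lit 0)],
  [.ofNat (nat_lit 0), .negSucc (nat_lit 7785430017410488319), .ofNat (nat_lit 0)]]],
  [],
  [],
  [],
  [],
  []],
  [[],
  [],
  [],
  [],
  [],
  [[[.ofNat (nat_lit 0), .negSucc (nat_lit 36962410405201625087), .ofNat (nat_lit 7479928133516924928)],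
  [.ofNat (nat_lit 0), .ofNat (nat_lit 96478679327520605184), .ofNat (nat_lit 0)],
  [],
  [],
  [],
  [],
  [],
  []],
  [[.ofNat (nat_lit 39868651652193036288), .negSucc (nat_lit 34262703313615041407), .ofNat (nat_lit 0)],
  [.negSucc (nat_lit 104365438042017807359), .ofNat (nat_lit 42747273507668564736), .ofNat (nat_lit 0)],
  [],
  [],
  [],
  [],
  [],
  []],
  [[],
  [.ofNat (nat_lit 0), .ofNat (nat_lit 22374570787755031296), .ofNat (nat_lit 0)],
  [.ofNat (nat_lit 0), .negSucc (nat_lit 124026831378068308991), .ofNat (nat_lit 0)],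
  [],
  [],
  [],
  [],
  []],
  [[],
  [],
  [.ofNat (nat_lit 0), .ofNat (nat_lit 48445469710004135808), .ofNat (nat_lit 0)],
  [.ofNat (nat_lit 0), .negSucc (nat_lit 24860709519666931583), .ofNat (nat_lit 0)],
  [],
  [],
  [],
  []],
  [[],
  [],
  [],
  [.ofNat (nat_lit 0), .ofNat (nat_lit 17560084359277304640), .ofNat (nat_lit 0)],
  [.ofNat (nat_lit 0), .ofNat (nat_lit 63392866728915568896), .ofNat (nat_lit 0)],
  [],
  [],
  []],
  [[],
  [],
  [],
  [],
  [.ofNat (nat_lit 0), .negSucc (nat_lit 9547106861767653215), .ofNat (nat_lit 0)],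
  [.ofNat (nat_lit 0), .negSucc (nat_lit 1223502581525618303), .ofNat (nat_lit 0)],
  [],
  []],
  [[],
  [],
  [],
  [],
  [.ofNat (nat_lit 0), .ofNat (nat_lit 10050144984464548608), .ofNat (nat_lit 0)],
  [.ofNat (nat_lit 0), .negSucc (nat_lit 16669842233574493439), .ofNat (nat_lit 0)],
  [],
  []],
  [[],
  [],
  [],
  [],
  [],
  [.ofNat (nat_lit 0), .negSucc (nat_lit 20815449338368867679), .ofNat (nat_lit 0)],
  [.ofNat (nat_lit 0), .ofNat (nat_lit 6827538473789817600), .ofNat (nat_lit 0)],
  []],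
  [[],
  [],
  [],
  [],
  [],
  [],
  [.ofNat (nat_lit 0), .negSucc (nat_lit 6520312826101270799), .ofNat (nat_lit 0)],
  [.ofNat (nat_lit 0), .negSucc (nat_lit 2140993254787884287), .ofNat (nat_lit 0)]],
  [[],
  [],
  [],
  [],
  [],
  [],
  [.ofNat (nat_lit 0), .negSucc (nat_lit 18196444270051713791), .ofNat (nat_lit 0)],
  [.ofNat (nat_lit 0), .ofNat (nat_lit 778543001741048832), .ofNat (nat_lit 0)]]],
  [[[.ofNat (nat_lit 0), .ofNat (nat_lit 19994496482888008704), .ofNat (nat_lit 8732319431550308352)],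
  [.ofNat (nat_lit 0), .negSucc (nat_lit 53386306009126364159), .ofNat (nat_lit 0)],
  [],
  [],
  [],
  [],
  [],
  []],
  [[.negSucc (nat_lit 33298393095028896767), .ofNat (nat_lit 28023317704815363072), .ofNat (nat_lit 0)],
  [.ofNat (nat_lit 87358453045526762496), .negSucc (nat_lit 85417069974161577983), .ofNat (nat_lit 0)],
  [],
  [],
  [],
  [],
  [],
  []],
  [[],
  [.ofNat (nat_lit 0), .negSucc (nat_lit 11871194060024054783), .ofNat (nat_lit 0)],
  [.ofNat (nat_lit 0), .ofNat (nat_lit 14029097438583281664), .ofNat (nat_lit 0)],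
  [],
  [],
  [],
  [],
  []],
  [[],
  [],
  [.ofNat (nat_lit 0), .negSucc (nat_lit 26262961672576773887), .ofNat (nat_lit 0)],
  [.ofNat (nat_lit 0), .ofNat (nat_lit 66291080702322170880), .ofNat (nat_lit 0)],
  [],
  [],
  [],
  []],
  [[],
  [],
  [],
  [.ofNat (nat_lit 0), .ofNat (nat_lit 17852501456112128256), .ofNat (nat_lit 0)],
  [.ofNat (nat_lit 0), .negSucc (nat_lit 59936843574292534271), .ofNat (nat_lit 0)],
  [],
  [],
  []],
  [[],
  [],
  [],
  [],
  [.ofNat (nat_lit 0), .ofNat (nat_lit 10050144984464548608), .ofNat (nat_lit 0)],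
  [.ofNat (nat_lit 0), .negSucc (nat_lit 16669842233574493439), .ofNat (nat_lit 0)],
  [],
  []],
  [[],
  [],
  [],
  [],
  [.ofNat (nat_lit 0), .ofNat (nat_lit 3386826710873902080), .ofNat (nat_lit 0)],
  [.ofNat (nat_lit 0), .ofNat (nat_lit 4395928795014067200), .ofNat (nat_lit 0)],
  [],
  []],
  [[],
  [],
  [],
  [],
  [],
  [.ofNat (nat_lit 0), .ofNat (nat_lit 4952038029872621184), .ofNat (nat_lit 0)],
  [.ofNat (nat_lit 0), .ofNat (nat_lit 32969465962605504000), .ofNat (nat_lit 0)],
  []],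
  [[],
  [],
  [],
  [],
  [],
  [],
  [.ofNat (nat_lit 0), .ofNat (nat_lit 2822830229851573824), .ofNat (nat_lit 0)],
  [.ofNat (nat_lit 0), .ofNat (nat_lit 778543001741048832), .ofNat (nat_lit 0)]],
  [[],
  [],
  [],
  [],
  [],
  [],
  [.ofNat (nat_lit 0), .negSucc (nat_lit 7413700989779080703), .ofNat (nat_lit 0)],
  [.ofNat (nat_lit 0), .negSucc (nat_lit 3114172006964195327), .ofNat (nat_lit 0)]]],
  [],
  [],
  []],
  [[],
  [],
  [],
  [],
  [],
  [],
  [],
  [[[.ofNat (nat_lit 0), .ofNat (nat_lit 167108951284104591360), .negSucc (nat_lit 13408915021730491391)],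
  [.ofNat (nat_lit 0), .negSucc (nat_lit 425651197781603487743), .ofNat (nat_lit 0)],
  [],
  [],
  [],
  [],
  [],
  []],
  [[.negSucc (nat_lit 165956701104390076415), .ofNat (nat_lit 38813930743342620672), .ofNat (nat_lit 0)],
  [.ofNat (nat_lit 422830605118913243136), .ofNat (nat_lit 23013335772959680512), .ofNat (nat_lit 0)],
  [],
  [],
  [],
  [],
  [],
  []],
  [[],
  [.ofNat (nat_lit 0), .negSucc (nat_lit 6776931851053094015), .ofNat (nat_lit 0)],
  [.ofNat (nat_lit 0), .ofNat (nat_lit 23326691163984380160), .ofNat (nat_lit 0)],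
  [],
  [],
  [],
  [],
  []],
  [[],
  [],
  [.ofNat (nat_lit 0), .negSucc (nat_lit 68344065411206767487), .ofNat (nat_lit 0)],
  [.ofNat (nat_lit 0), .ofNat (nat_lit 12088732109257601280), .ofNat (nat_lit 0)],
  [],
  [],
  [],
  []],
  [[],
  [],
  [],
  [.ofNat (nat_lit 0), .negSucc (nat_lit 66406662141494701823), .ofNat (nat_lit 0)],
  [.ofNat (nat_lit 0), .ofNat (nat_lit 58375925686455120000), .ofNat (nat_lit 0)],
  [],
  [],
  []],
  [[],
  [],
  [],
  [],
  [.ofNat (nat_lit 0), .ofNat (nat_lit 20815449338368867680), .ofNat (nat_lit 0)],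
  [.ofNat (nat_lit 0), .negSucc (nat_lit 6827538473789817599), .ofNat (nat_lit 0)],
  [],
  []],
  [[],
  [],
  [],
  [],
  [.ofNat (nat_lit 0), .negSucc (nat_lit 4952038029872621183), .ofNat (nat_lit 0)],
  [.ofNat (nat_lit 0), .negSucc (nat_lit 32969465962605503999), .ofNat (nat_lit 0)],
  [],
  []],
  [[],
  [],
  [],
  [],
  [],
  [.ofNat (nat_lit 0), .ofNat (nat_lit 65791713709782699264), .ofNat (nat_lit 0)],
  [.ofNat (nat_lit 0), .ofNat (nat_lit 7720551433932067584), .ofNat (nat_lit 0)],
  []],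
  [[],
  [],
  [],
  [],
  [],
  [],
  [.ofNat (nat_lit 0), .negSucc (nat_lit 4772172367297328543), .ofNat (nat_lit 0)],
  [.ofNat (nat_lit 0), .negSucc (nat_lit 583907251305786623), .ofNat (nat_lit 0)]],
  [[],
  [],
  [],
  [],
  [],
  [],
  [.ofNat (nat_lit 0), .ofNat (nat_lit 22141807739087765760), .ofNat (nat_lit 0)],
  [.ofNat (nat_lit 0), .negSucc (nat_lit 1557086003482097663), .ofNat (nat_lit 0)]]],
  [],
  []],
  [[],
  [],
  [],
  [],
  [],
  [],
  [],
  [],
  [[[.ofNat (nat_lit 0), .ofNat (nat_lit 10122816178433240064), .negSucc (nat_lit 1129771033191677951)],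
  [.ofNat (nat_lit 0), .negSucc (nat_lit 27004848041674432511), .ofNat (nat_lit 0)],
  [],
  [],
  [],
  [],
  [],
  []],
  [[.negSucc (nat_lit 10122816178433240063), .ofNat (nat_lit 42163576771848192), .ofNat (nat_lit 0)],
  [.ofNat (nat_lit 27004848041674432512), .negSucc (nat_lit 2335629005223146495), .ofNat (nat_lit 0)],
  [],
  [],
  [],
  [],
  [],
  []],
  [[],
  [.ofNat (nat_lit 0), .ofNat (nat_lit 3262822369259489280), .ofNat (nat_lit 0)],
  [.ofNat (nat_lit 0), .ofNat (nat_lit 7006887015669439488), .ofNat (nat_lit 0)],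
  [],
  [],
  [],
  [],
  []],
  [[],
  [],
  [.ofNat (nat_lit 0), .negSucc (nat_lit 2304861872386055327), .ofNat (nat_lit 0)],
  [.ofNat (nat_lit 0), .negSucc (nat_lit 5839072513057866239), .ofNat (nat_lit 0)],
  [],
  [],
  [],
  []],
  [[],
  [],
  [],
  [.ofNat (nat_lit 0), .ofNat (nat_lit 1890705103722536256), .ofNat (nat_lit 0)],
  [.ofNat (nat_lit 0), .ofNat (nat_lit 5839072513057866240), .ofNat (nat_lit 0)],
  [],
  [],
  []],
  [[],
  [],
  [],
  [],
  [.ofNat (nat_lit 0), .negSucc (nat_lit 6520312826101270799), .ofNat (nat_lit 0)],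
  [.ofNat (nat_lit 0), .negSucc (nat_lit 2140993254787884287), .ofNat (nat_lit 0)],
  [],
  []],
  [[],
  [],
  [],
  [],
  [.ofNat (nat_lit 0), .ofNat (nat_lit 2822830229851573824), .ofNat (nat_lit 0)],
  [.ofNat (nat_lit 0), .ofNat (nat_lit 778543001741048832), .ofNat (nat_lit 0)],
  [],
  []],
  [[],
  [],
  [],
  [],
  [],
  [.ofNat (nat_lit 0), .ofNat (nat_lit 4772172367297328544), .ofNat (nat_lit 0)],
  [.ofNat (nat_lit 0), .ofNat (nat_lit 583907251305786624), .ofNat (nat_lit 0)],
  []],
  [[],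
  [],
  [],
  [],
  [],
  [],
  [.ofNat (nat_lit 0), .ofNat (nat_lit 5038230667404610584), .ofNat (nat_lit 0)],
  []],
  [[],
  [],
  [],
  [],
  [],
  [],
  [.ofNat (nat_lit 0), .negSucc (nat_lit 4815218602934843903), .ofNat (nat_lit 0)],
  []]],
  [[[.ofNat (nat_lit 0), .negSucc (nat_lit 115120755519783045119), .ofNat (nat_lit 6730847638880440320)],
  [.ofNat (nat_lit 0), .ofNat (nat_lit 294836817970106873856), .ofNat (nat_lit 0)],
  [],
  [],
  [],
  [],
  [],
  []],
  [[.ofNat (nat_lit 115120755519783045120), .negSucc (nat_lit 18272353414625164799), .ofNat (nat_lit 0)],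
  [.negSucc (nat_lit 294836817970106873855), .negSucc (nat_lit 6228344013928390655), .ofNat (nat_lit 0)],
  [],
  [],
  [],
  [],
  [],
  []],
  [[],
  [.ofNat (nat_lit 0), .negSucc (nat_lit 1323058604631390719), .ofNat (nat_lit 0)],
  [.ofNat (nat_lit 0), .ofNat (nat_lit 3114172006964195328), .ofNat (nat_lit 0)],
  [],
  [],
  [],
  [],
  []],
  [[],
  [],
  [.ofNat (nat_lit 0), .ofNat (nat_lit 23901529341358552320), .ofNat (nat_lit 0)],
  [.ofNat (nat_lit 0), .negSucc (nat_lit 7785430017410488319), .ofNat (nat_lit 0)],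
  [],
  [],
  [],
  []],
  [[],
  [],
  [],
  [.ofNat (nat_lit 0), .ofNat (nat_lit 29225129551338716928), .ofNat (nat_lit 0)],
  [.ofNat (nat_lit 0), .ofNat (nat_lit 7785430017410488320), .ofNat (nat_lit 0)],
  [],
  [],
  []],
  [[],
  [],
  [],
  [],
  [.ofNat (nat_lit 0), .negSucc (nat_lit 18196444270051713791), .ofNat (nat_lit 0)],
  [.ofNat (nat_lit 0), .ofNat (nat_lit 778543001741048832), .ofNat (nat_lit 0)],
  [],
  []],
  [[],
  [],
  [],
  [],
  [.ofNat (nat_lit 0), .negSucc (nat_lit 7413700989779080703), .ofNat (nat_lit 0)],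
  [.ofNat (nat_lit 0), .negSucc (nat_lit 3114172006964195327), .ofNat (nat_lit 0)],
  [],
  []],
  [[],
  [],
  [],
  [],
  [],
  [.ofNat (nat_lit 0), .negSucc (nat_lit 22141807739087765759), .ofNat (nat_lit 0)],
  [.ofNat (nat_lit 0), .ofNat (nat_lit 1557086003482097664), .ofNat (nat_lit 0)],
  []],
  [[],
  [],
  [],
  [],
  [],
  [],
  [.ofNat (nat_lit 0), .negSucc (nat_lit 4815218602934843903), .ofNat (nat_lit 0)],
  []],
  [[],
  [],
  [],
  [],
  [],
  [],
  [.ofNat (nat_lit 0), .ofNat (nat_lit 5357707043775964416), .ofNat (nat_lit 0)],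
  []]]]],
  [[[[[.ofNat (nat_lit 0), .ofNat (nat_lit 0), .ofNat (nat_lit 130169012854634496)],
  [.ofNat (nat_lit 0), .ofNat (nat_lit 0), .negSucc (nat_lit 304244828289128447)],
  [],
  [],
  [],
  [],
  [],
  []],
  [[.ofNat (nat_lit 0), .negSucc (nat_lit 1942424059861757951), .ofNat (nat_lit 0)],
  [.ofNat (nat_lit 0), .ofNat (nat_lit 5397377735471026176), .ofNat (nat_lit 0)],
  [],
  [],
  [],
  [],
  [],
  []],
  [[],
  [.ofNat (nat_lit 0), .negSucc (nat_lit 4158078232477612031), .ofNat (nat_lit 0)],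
  [.ofNat (nat_lit 0), .ofNat (nat_lit 12063459695945472000), .ofNat (nat_lit 0)],
  [],
  [],
  [],
  [],
  []],
  [[],
  [],
  [.ofNat (nat_lit 0), .ofNat (nat_lit 2245611060861179904), .ofNat (nat_lit 0)],
  [.ofNat (nat_lit 0), .negSucc (nat_lit 4624877381492616191), .ofNat (nat_lit 0)],
  [],
  [],
  [],
  []],
  [[],
  [],
  [],
  [.ofNat (nat_lit 0), .ofNat (nat_lit 4768660786612156416), .ofNat (nat_lit 0)],
  [.ofNat (nat_lit 0), .negSucc (nat_lit 11342713376270444543), .ofNat (nat_lit 0)],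
  [],
  [],
  []],
  [[],
  [],
  [],
  [],
  [.ofNat (nat_lit 0), .negSucc (nat_lit 1453120623495705599), .ofNat (nat_lit 0)],
  [.ofNat (nat_lit 0), .ofNat (nat_lit 3943379357248601088), .ofNat (nat_lit 0)],
  [],
  []],
  [[],
  [],
  [],
  [],
  [.ofNat (nat_lit 0), .ofNat (nat_lit 6651948306070444032), .ofNat (nat_lit 0)],
  [.ofNat (nat_lit 0), .negSucc (nat_lit 16986073518200199167), .ofNat (nat_lit 0)],
  [],
  []],
  [[],
  [],
  [],
  [],
  [],
  [.ofNat (nat_lit 0), .ofNat (nat_lit 576125089857257472), .ofNat (nat_lit 0)],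
  [.ofNat (nat_lit 0), .negSucc (nat_lit 1410296331345122303), .ofNat (nat_lit 0)],
  []],
  [[],
  [],
  [],
  [],
  [],
  [],
  [],
  []],
  [[],
  [],
  [],
  [],
  [],
  [],
  [],
  []]],
  [],
  [],
  [],
  [],
  [],
  [],
  [],
  [],
  []],
  [[],
  [],
  [],
  [],
  [],
  [],
  [],
  [],
  [],
  []],
  [[],
  [[[.ofNat (nat_lit 0), .negSucc (nat_lit 4823864252281027583), .negSucc (nat_lit 869403294206447615)],
  [.ofNat (nat_lit 0), .ofNat (nat_lit 12469484647066696704), .ofNat (nat_lit 0)],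
  [],
  [],
  [],
  [],
  [],
  []],
  [[.ofNat (nat_lit 4823864252281027584), .ofNat (nat_lit 22861881511513344000), .ofNat (nat_lit 0)],
  [.negSucc (nat_lit 12469484647066696703), .negSucc (nat_lit 55646409293559581183), .ofNat (nat_lit 0)],
  [],
  [],
  [],
  [],
  [],
  []],
  [[],
  [.ofNat (nat_lit 0), .ofNat (nat_lit 21494835047578060800), .ofNat (nat_lit 0)],
  [.ofNat (nat_lit 0), .negSucc (nat_lit 61148681707442328575), .ofNat (nat_lit 0)],
  [],
  [],
  [],
  [],
  []],
  [[],
  [],
  [.ofNat (nat_lit 0), .negSucc (nat_lit 41942728234636927487), .ofNat (nat_lit 0)],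
  [.ofNat (nat_lit 0), .ofNat (nat_lit 101922728126798301696), .ofNat (nat_lit 0)],
  [],
  [],
  [],
  []],
  [[],
  [],
  [],
  [.ofNat (nat_lit 0), .negSucc (nat_lit 71322378760948792319), .ofNat (nat_lit 0)],
  [.ofNat (nat_lit 0), .ofNat (nat_lit 179922699061875514368), .ofNat (nat_lit 0)],
  [],
  [],
  []],
  [[],
  [],
  [],
  [],
  [.ofNat (nat_lit 0), .ofNat (nat_lit 31862064942155310336), .ofNat (nat_lit 0)],
  [.ofNat (nat_lit 0), .negSucc (nat_lit 81850289105790768383), .ofNat (nat_lit 0)],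
  [],
  []],
  [[],
  [],
  [],
  [],
  [.ofNat (nat_lit 0), .negSucc (nat_lit 83009081804037064703), .ofNat (nat_lit 0)],
  [.ofNat (nat_lit 0), .ofNat (nat_lit 215061434593301698560), .ofNat (nat_lit 0)],
  [],
  []],
  [[],
  [],
  [],
  [],
  [],
  [.ofNat (nat_lit 0), .ofNat (nat_lit 18874801505376626688), .ofNat (nat_lit 0)],
  [.ofNat (nat_lit 0), .negSucc (nat_lit 45680119726250520575), .ofNat (nat_lit 0)],
  []],
  [[],
  [],
  [],
  [],
  [],
  [],
  [.ofNat (nat_lit 0), .ofNat (nat_lit 2592562904357658624), .ofNat (nat_lit 0)],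
  [.ofNat (nat_lit 0), .negSucc (nat_lit 6346333491053050367), .ofNat (nat_lit 0)]],
  [[],
  [],
  [],
  [],
  [],
  [],
  [.ofNat (nat_lit 0), .ofNat (nat_lit 6913501078287089664), .ofNat (nat_lit 0)],
  [.ofNat (nat_lit 0), .negSucc (nat_lit 16923555976141467647), .ofNat (nat_lit 0)]]],
  [],
  [],
  [],
  [],
  [],
  [],
  [],
  []],
  [[],
  [],
  [[[.ofNat (nat_lit 0), .negSucc (nat_lit 30660993260619909119), .negSucc (nat_lit 2722518971977577471)],
  [.ofNat (nat_lit 0), .ofNat (nat_lit 80427875142756621312), .ofNat (nat_lit 0)],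
  [],
  [],
  [],
  [],
  [],
  []],
  [[.ofNat (nat_lit 30660993260619909120), .negSucc (nat_lit 18772316075600483327), .ofNat (nat_lit 0)],
  [.negSucc (nat_lit 80427875142756621311), .ofNat (nat_lit 61148681707442328576), .ofNat (nat_lit 0)],
  [],
  [],
  [],
  [],
  [],
  []],
  [[],
  [.ofNat (nat_lit 0), .negSucc (nat_lit 36334801147635569663), .ofNat (nat_lit 0)],
  [.ofNat (nat_lit 0), .ofNat (nat_lit 99798986098572622848), .ofNat (nat_lit 0)],
  [],
  [],
  [],
  [],
  []],
  [[],
  [],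
  [.ofNat (nat_lit 0), .ofNat (nat_lit 7749842256280553472), .ofNat (nat_lit 0)],
  [.ofNat (nat_lit 0), .negSucc (nat_lit 19844241352579252223), .ofNat (nat_lit 0)],
  [],
  [],
  [],
  []],
  [[],
  [],
  [],
  [.ofNat (nat_lit 0), .ofNat (nat_lit 81621137591528477184), .ofNat (nat_lit 0)],
  [.ofNat (nat_lit 0), .negSucc (nat_lit 212460599894190801407), .ofNat (nat_lit 0)],
  [],
  [],
  []],
  [[],
  [],
  [],
  [],
  [.ofNat (nat_lit 0), .ofNat (nat_lit 46822417898057920512), .ofNat (nat_lit 0)],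
  [.ofNat (nat_lit 0), .negSucc (nat_lit 124077847488486409727), .ofNat (nat_lit 0)],
  [],
  []],
  [[],
  [],
  [],
  [],
  [.ofNat (nat_lit 0), .ofNat (nat_lit 1991715991802136576), .ofNat (nat_lit 0)],
  [.ofNat (nat_lit 0), .negSucc (nat_lit 4033148751896039423), .ofNat (nat_lit 0)],
  [],
  []],
  [[],
  [],
  [],
  [],
  [],
  [.ofNat (nat_lit 0), .ofNat (nat_lit 33823132222589832960), .ofNat (nat_lit 0)],
  [.ofNat (nat_lit 0), .negSucc (nat_lit 86225226343666871039), .ofNat (nat_lit 0)],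
  []],
  [[],
  [],
  [],
  [],
  [],
  [],
  [.ofNat (nat_lit 0), .ofNat (nat_lit 7777688713072975872), .ofNat (nat_lit 0)],
  [.ofNat (nat_lit 0), .negSucc (nat_lit 19039000473159151103), .ofNat (nat_lit 0)]],
  [[],
  [],
  [],
  [],
  [],
  [],
  [.ofNat (nat_lit 0), .ofNat (nat_lit 3456750539143544832), .ofNat (nat_lit 0)],
  [.ofNat (nat_lit 0), .negSucc (nat_lit 8461777988070733823), .ofNat (nat_lit 0)]]],
  [],
  [],
  [],
  [],
  [],
  [],
  []],
  [[],
  [],
  [],
  [[[.ofNat (nat_lit 0), .negSucc (nat_lit 6773531851121568767), .ofNat (nat_lit 10529509871571720192)],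
  [.ofNat (nat_lit 0), .ofNat (nat_lit 16393937197606640640), .ofNat (nat_lit 0)],
  [],
  [],
  [],
  [],
  [],
  []],
  [[.ofNat (nat_lit 6773531851121568768), .negSucc (nat_lit 52472238106208647679), .ofNat (nat_lit 0)],
  [.negSucc (nat_lit 16393937197606640639), .ofNat (nat_lit 101922728126798301696), .ofNat (nat_lit 0)],
  [],
  [],
  [],
  [],
  [],
  []],
  [[],
  [.ofNat (nat_lit 0), .negSucc (nat_lit 7749842256280553471), .ofNat (nat_lit 0)],
  [.ofNat (nat_lit 0), .ofNat (nat_lit 19844241352579252224), .ofNat (nat_lit 0)],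
  [],
  [],
  [],
  [],
  []],
  [[],
  [],
  [.ofNat (nat_lit 0), .ofNat (nat_lit 139113884434886825472), .ofNat (nat_lit 0)],
  [.ofNat (nat_lit 0), .negSucc (nat_lit 352203619495356248831), .ofNat (nat_lit 0)],
  [],
  [],
  [],
  []],
  [[],
  [],
  [],
  [.ofNat (nat_lit 0), .ofNat (nat_lit 138839211677346057216), .ofNat (nat_lit 0)],
  [.ofNat (nat_lit 0), .negSucc (nat_lit 351316760933628831743), .ofNat (nat_lit 0)],
  [],
  [],
  []],
  [[],
  [],
  [],
  [],
  [.ofNat (nat_lit 0), .negSucc (nat_lit 74606459108712211583), .ofNat (nat_lit 0)],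
  [.ofNat (nat_lit 0), .ofNat (nat_lit 189374164022684294784), .ofNat (nat_lit 0)],
  [],
  []],
  [[],
  [],
  [],
  [],
  [.ofNat (nat_lit 0), .ofNat (nat_lit 28271511800778286080), .ofNat (nat_lit 0)],
  [.ofNat (nat_lit 0), .negSucc (nat_lit 75523609211663877119), .ofNat (nat_lit 0)],
  [],
  []],
  [[],
  [],
  [],
  [],
  [],
  [.ofNat (nat_lit 0), .negSucc (nat_lit 62972702865234881279), .ofNat (nat_lit 0)],
  [.ofNat (nat_lit 0), .ofNat (nat_lit 158889190931269274880), .ofNat (nat_lit 0)],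
  []],
  [[],
  [],
  [],
  [],
  [],
  [],
  [.ofNat (nat_lit 0), .ofNat (nat_lit 6481407260894146560), .ofNat (nat_lit 0)],
  [.ofNat (nat_lit 0), .negSucc (nat_lit 15865833727632625919), .ofNat (nat_lit 0)]],
  [[],
  [],
  [],
  [],
  [],
  [],
  [.ofNat (nat_lit 0), .ofNat (nat_lit 8641876347858862080), .ofNat (nat_lit 0)],
  [.ofNat (nat_lit 0), .negSucc (nat_lit 21154444970176834559), .ofNat (nat_lit 0)]]],
  [],
  [],
  [],
  [],
  [],
  []],
  [[],
  [],
  [],
  [],
  [[[.ofNat (nat_lit 0), .ofNat (nat_lit 128042934222784389120), .ofNat (nat_lit 4467225128023977984)],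
  [.ofNat (nat_lit 0), .negSucc (nat_lit 339526849704672697343), .ofNat (nat_lit 0)],
  [],
  [],
  [],
  [],
  [],
  []],
  [[.negSucc (nat_lit 128042934222784389119), .ofNat (nat_lit 66855153632924814336), .ofNat (nat_lit 0)],
  [.ofNat (nat_lit 339526849704672697344), .negSucc (nat_lit 179922699061875514367), .ofNat (nat_lit 0)],
  [],
  [],
  [],
  [],
  [],
  []],
  [[],
  [.ofNat (nat_lit 0), .ofNat (nat_lit 81621137591528477184), .ofNat (nat_lit 0)],
  [.ofNat (nat_lit 0), .negSucc (nat_lit 212460599894190801407), .ofNat (nat_lit 0)],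
  [],
  [],
  [],
  [],
  []],
  [[],
  [],
  [.ofNat (nat_lit 0), .negSucc (nat_lit 138839211677346057215), .ofNat (nat_lit 0)],
  [.ofNat (nat_lit 0), .ofNat (nat_lit 351316760933628831744), .ofNat (nat_lit 0)],
  [],
  [],
  [],
  []],
  [[],
  [],
  [],
  [.ofNat (nat_lit 0), .negSucc (nat_lit 152934798224920361471), .ofNat (nat_lit 0)],
  [.ofNat (nat_lit 0), .ofNat (nat_lit 401609618408209881600), .ofNat (nat_lit 0)],
  [],
  [],
  []],
  [[],
  [],
  [],
  [],
  [.ofNat (nat_lit 0), .negSucc (nat_lit 23898984459882414335), .ofNat (nat_lit 0)],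
  [.ofNat (nat_lit 0), .ofNat (nat_lit 64277793338574587904), .ofNat (nat_lit 0)],
  [],
  []],
  [[],
  [],
  [],
  [],
  [.ofNat (nat_lit 0), .ofNat (nat_lit 34928207924716311552), .ofNat (nat_lit 0)],
  [.ofNat (nat_lit 0), .negSucc (nat_lit 91157554307479154687), .ofNat (nat_lit 0)],
  [],
  []],
  [[],
  [],
  [],
  [],
  [],
  [.ofNat (nat_lit 0), .negSucc (nat_lit 34939691975858255999), .ofNat (nat_lit 0)],
  [.ofNat (nat_lit 0), .ofNat (nat_lit 83814056649227571840), .ofNat (nat_lit 0)],
  []],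
  [[],
  [],
  [],
  [],
  [],
  [],
  [.ofNat (nat_lit 0), .ofNat (nat_lit 6481407260894146560), .ofNat (nat_lit 0)],
  [.ofNat (nat_lit 0), .negSucc (nat_lit 15865833727632625919), .ofNat (nat_lit 0)]],
  [[],
  [],
  [],
  [],
  [],
  [],
  [.ofNat (nat_lit 0), .ofNat (nat_lit 8641876347858862080), .ofNat (nat_lit 0)],
  [.ofNat (nat_lit 0), .negSucc (nat_lit 21154444970176834559), .ofNat (nat_lit 0)]]],
  [],
  [],
  [],
  [],
  []],
  [[],
  [],
  [],
  [],
  [],
  [[[.ofNat (nat_lit 0), .ofNat (nat_lit 39157376495361214464), .negSucc (nat_lit 18710092919114717183)],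
  [.ofNat (nat_lit 0), .negSucc (nat_lit 98303129114292900863), .ofNat (nat_lit 0)],
  [],
  [],
  [],
  [],
  [],
  []],
  [[.negSucc (nat_lit 39157376495361214463), .ofNat (nat_lit 50572157861270027520), .ofNat (nat_lit 0)],
  [.ofNat (nat_lit 98303129114292900864), .negSucc (nat_lit 81850289105790768383), .ofNat (nat_lit 0)],
  [],
  [],
  [],
  [],
  [],
  []],
  [[],
  [.ofNat (nat_lit 0), .negSucc (nat_lit 46822417898057920511), .ofNat (nat_lit 0)],
  [.ofNat (nat_lit 0), .ofNat (nat_lit 124077847488486409728), .ofNat (nat_lit 0)],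
  [],
  [],
  [],
  [],
  []],
  [[],
  [],
  [.ofNat (nat_lit 0), .negSucc (nat_lit 74606459108712211583), .ofNat (nat_lit 0)],
  [.ofNat (nat_lit 0), .ofNat (nat_lit 189374164022684294784), .ofNat (nat_lit 0)],
  [],
  [],
  [],
  []],
  [[],
  [],
  [],
  [.ofNat (nat_lit 0), .ofNat (nat_lit 23898984459882414336), .ofNat (nat_lit 0)],
  [.ofNat (nat_lit 0), .negSucc (nat_lit 64277793338574587903), .ofNat (nat_lit 0)],
  [],
  [],
  []],
  [[],
  [],
  [],
  [],
  [.ofNat (nat_lit 0), .ofNat (nat_lit 39498146836882856064), .ofNat (nat_lit 0)],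
  [.ofNat (nat_lit 0), .negSucc (nat_lit 99052303114025225855), .ofNat (nat_lit 0)],
  [],
  []],
  [[],
  [],
  [],
  [],
  [.ofNat (nat_lit 0), .ofNat (nat_lit 17028384247316176128), .ofNat (nat_lit 0)],
  [.ofNat (nat_lit 0), .negSucc (nat_lit 41595927081923766527), .ofNat (nat_lit 0)],
  [],
  []],
  [[],
  [],
  [],
  [],
  [],
  [.ofNat (nat_lit 0), .negSucc (nat_lit 31374831381685482239), .ofNat (nat_lit 0)],
  [.ofNat (nat_lit 0), .ofNat (nat_lit 78251007500212757760), .ofNat (nat_lit 0)],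
  []],
  [[],
  [],
  [],
  [],
  [],
  [],
  [.ofNat (nat_lit 0), .ofNat (nat_lit 2376515995661187072), .ofNat (nat_lit 0)],
  [.ofNat (nat_lit 0), .negSucc (nat_lit 5817472366798629503), .ofNat (nat_lit 0)]],
  [[],
  [],
  [],
  [],
  [],
  [],
  [.ofNat (nat_lit 0), .negSucc (nat_lit 864187634785886207), .ofNat (nat_lit 0)],
  [.ofNat (nat_lit 0), .ofNat (nat_lit 2115444497017683456), .ofNat (nat_lit 0)]]],
  [[[.ofNat (nat_lit 0), .negSucc (nat_lit 30655237095539103743), .negSucc (nat_lit 8783506777915975679)],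
  [.ofNat (nat_lit 0), .ofNat (nat_lit 82069469714824399872), .ofNat (nat_lit 0)],
  [],
  [],
  [],
  [],
  [],
  []],
  [[.ofNat (nat_lit 30655237095539103744), .negSucc (nat_lit 74225575026121089023), .ofNat (nat_lit 0)],
  [.negSucc (nat_lit 82069469714824399871), .ofNat (nat_lit 215061434593301698560), .ofNat (nat_lit 0)],
  [],
  [],
  [],
  [],
  [],
  []],
  [[],
  [.ofNat (nat_lit 0), .negSucc (nat_lit 1991715991802136575), .ofNat (nat_lit 0)],
  [.ofNat (nat_lit 0), .ofNat (nat_lit 4033148751896039424), .ofNat (nat_lit 0)],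
  [],
  [],
  [],
  [],
  []],
  [[],
  [],
  [.ofNat (nat_lit 0), .ofNat (nat_lit 28271511800778286080), .ofNat (nat_lit 0)],
  [.ofNat (nat_lit 0), .negSucc (nat_lit 75523609211663877119), .ofNat (nat_lit 0)],
  [],
  [],
  [],
  []],
  [[],
  [],
  [],
  [.ofNat (nat_lit 0), .negSucc (nat_lit 34928207924716311551), .ofNat (nat_lit 0)],
  [.ofNat (nat_lit 0), .ofNat (nat_lit 91157554307479154688), .ofNat (nat_lit 0)],
  [],
  [],
  []],
  [[],
  [],
  [],
  [],
  [.ofNat (nat_lit 0), .ofNat (nat_lit 17028384247316176128), .ofNat (nat_lit 0)],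
  [.ofNat (nat_lit 0), .negSucc (nat_lit 41595927081923766527), .ofNat (nat_lit 0)],
  [],
  []],
  [[],
  [],
  [],
  [],
  [.ofNat (nat_lit 0), .ofNat (nat_lit 1021473793606192128), .ofNat (nat_lit 0)],
  [.ofNat (nat_lit 0), .negSucc (nat_lit 2851851433719610367), .ofNat (nat_lit 0)],
  [],
  []],
  [[],
  [],
  [],
  [],
  [],
  [.ofNat (nat_lit 0), .ofNat (nat_lit 7661053452046440960), .ofNat (nat_lit 0)],
  [.ofNat (nat_lit 0), .negSucc (nat_lit 21388885752897077759), .ofNat (nat_lit 0)],
  []],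
  [[],
  [],
  [],
  [],
  [],
  [],
  [.ofNat (nat_lit 0), .negSucc (nat_lit 864187634785886207), .ofNat (nat_lit 0)],
  [.ofNat (nat_lit 0), .ofNat (nat_lit 2115444497017683456), .ofNat (nat_lit 0)]],
  [[],
  [],
  [],
  [],
  [],
  [],
  [.ofNat (nat_lit 0), .ofNat (nat_lit 3456750539143544832), .ofNat (nat_lit 0)],
  [.ofNat (nat_lit 0), .negSucc (nat_lit 8461777988070733823), .ofNat (nat_lit 0)]]],
  [],
  [],
  []],
  [[],
  [],
  [],
  [],
  [],
  [],
  [],
  [[[.ofNat (nat_lit 0), .negSucc (nat_lit 167294013786801192959), .ofNat (nat_lit 18626097120800007168)],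
  [.ofNat (nat_lit 0), .ofNat (nat_lit 440072639869887802368), .ofNat (nat_lit 0)],
  [],
  [],
  [],
  [],
  [],
  []],
  [[.ofNat (nat_lit 167294013786801192960), .negSucc (nat_lit 37500898626176633855), .ofNat (nat_lit 0)],
  [.negSucc (nat_lit 440072639869887802367), .ofNat (nat_lit 45680119726250520576), .ofNat (nat_lit 0)],
  [],
  [],
  [],
  [],
  [],
  []],
  [[],
  [.ofNat (nat_lit 0), .ofNat (nat_lit 33823132222589832960), .ofNat (nat_lit 0)],
  [.ofNat (nat_lit 0), .negSucc (nat_lit 86225226343666871039), .ofNat (nat_lit 0)],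
  [],
  [],
  [],
  [],
  []],
  [[],
  [],
  [.ofNat (nat_lit 0), .ofNat (nat_lit 62972702865234881280), .ofNat (nat_lit 0)],
  [.ofNat (nat_lit 0), .negSucc (nat_lit 158889190931269274879), .ofNat (nat_lit 0)],
  [],
  [],
  [],
  []],
  [[],
  [],
  [],
  [.ofNat (nat_lit 0), .negSucc (nat_lit 34939691975858255999), .ofNat (nat_lit 0)],
  [.ofNat (nat_lit 0), .ofNat (nat_lit 83814056649227571840), .ofNat (nat_lit 0)],
  [],
  [],
  []],
  [[],
  [],
  [],
  [],
  [.ofNat (nat_lit 0), .ofNat (nat_lit 31374831381685482240), .ofNat (nat_lit 0)],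
  [.ofNat (nat_lit 0), .negSucc (nat_lit 78251007500212757759), .ofNat (nat_lit 0)],
  [],
  []],
  [[],
  [],
  [],
  [],
  [.ofNat (nat_lit 0), .negSucc (nat_lit 7661053452046440959), .ofNat (nat_lit 0)],
  [.ofNat (nat_lit 0), .ofNat (nat_lit 21388885752897077760), .ofNat (nat_lit 0)],
  [],
  []],
  [[],
  [],
  [],
  [],
  [],
  [.ofNat (nat_lit 0), .negSucc (nat_lit 8569860711626704895), .ofNat (nat_lit 0)],
  [.ofNat (nat_lit 0), .ofNat (nat_lit 20978157928758694272), .ofNat (nat_lit 0)],
  []],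
  [[],
  [],
  [],
  [],
  [],
  [],
  [.ofNat (nat_lit 0), .ofNat (nat_lit 648140726089414656), .ofNat (nat_lit 0)],
  [.ofNat (nat_lit 0), .negSucc (nat_lit 1586583372763262591), .ofNat (nat_lit 0)]],
  [[],
  [],
  [],
  [],
  [],
  [],
  [.ofNat (nat_lit 0), .ofNat (nat_lit 1728375269571772416), .ofNat (nat_lit 0)],
  [.ofNat (nat_lit 0), .negSucc (nat_lit 4230888994035366911), .ofNat (nat_lit 0)]]],
  [],
  []],
  [[],
  [],
  [],
  [],
  [],
  [],
  [],
  [],
  [[[.ofNat (nat_lit 0), .negSucc (nat_lit 9329719288837109759), .ofNat (nat_lit 2326916511264024576)],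
  [.ofNat (nat_lit 0), .ofNat (nat_lit 23859940241177588736), .ofNat (nat_lit 0)],
  [],
  [],
  [],
  [],
  [],
  []],
  [[.ofNat (nat_lit 9329719288837109760), .ofNat (nat_lit 265646393093634048), .ofNat (nat_lit 0)],
  [.negSucc (nat_lit 23859940241177588735), .negSucc (nat_lit 6346333491053050367), .ofNat (nat_lit 0)],
  [],
  [],
  [],
  [],
  [],
  []],
  [[],
  [.ofNat (nat_lit 0), .negSucc (nat_lit 7777688713072975871), .ofNat (nat_lit 0)],
  [.ofNat (nat_lit 0), .ofNat (nat_lit 19039000473159151104), .ofNat (nat_lit 0)],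
  [],
  [],
  [],
  [],
  []],
  [[],
  [],
  [.ofNat (nat_lit 0), .ofNat (nat_lit 6481407260894146560), .ofNat (nat_lit 0)],
  [.ofNat (nat_lit 0), .negSucc (nat_lit 15865833727632625919), .ofNat (nat_lit 0)],
  [],
  [],
  [],
  []],
  [[],
  [],
  [],
  [.ofNat (nat_lit 0), .negSucc (nat_lit 6481407260894146559), .ofNat (nat_lit 0)],
  [.ofNat (nat_lit 0), .ofNat (nat_lit 15865833727632625920), .ofNat (nat_lit 0)],
  [],
  [],
  []],
  [[],
  [],
  [],
  [],
  [.ofNat (nat_lit 0), .ofNat (nat_lit 2376515995661187072), .ofNat (nat_lit 0)],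
  [.ofNat (nat_lit 0), .negSucc (nat_lit 5817472366798629503), .ofNat (nat_lit 0)],
  [],
  []],
  [[],
  [],
  [],
  [],
  [.ofNat (nat_lit 0), .negSucc (nat_lit 864187634785886207), .ofNat (nat_lit 0)],
  [.ofNat (nat_lit 0), .ofNat (nat_lit 2115444497017683456), .ofNat (nat_lit 0)],
  [],
  []],
  [[],
  [],
  [],
  [],
  [],
  [.ofNat (nat_lit 0), .negSucc (nat_lit 648140726089414655), .ofNat (nat_lit 0)],
  [.ofNat (nat_lit 0), .ofNat (nat_lit 1586583372763262592), .ofNat (nat_lit 0)],
  []],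
  [[],
  [],
  [],
  [],
  [],
  [],
  [],
  []],
  [[],
  [],
  [],
  [],
  [],
  [],
  [],
  []]],
  [[[.ofNat (nat_lit 0), .ofNat (nat_lit 111278149380367911936), .negSucc (nat_lit 6769969841070554111)],
  [.ofNat (nat_lit 0), .negSucc (nat_lit 294461261088618802175), .ofNat (nat_lit 0)],
  [],
  [],
  [],
  [],
  [],
  []],
  [[.negSucc (nat_lit 111278149380367911935), .ofNat (nat_lit 13683470919357643776), .ofNat (nat_lit 0)],
  [.ofNat (nat_lit 294461261088618802176), .negSucc (nat_lit 16923555976141467647), .ofNat (nat_lit 0)],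
  [],
  [],
  [],
  [],
  [],
  []],
  [[],
  [.ofNat (nat_lit 0), .negSucc (nat_lit 3456750539143544831), .ofNat (nat_lit 0)],
  [.ofNat (nat_lit 0), .ofNat (nat_lit 8461777988070733824), .ofNat (nat_lit 0)],
  [],
  [],
  [],
  [],
  []],
  [[],
  [],
  [.ofNat (nat_lit 0), .ofNat (nat_lit 8641876347858862080), .ofNat (nat_lit 0)],
  [.ofNat (nat_lit 0), .negSucc (nat_lit 21154444970176834559), .ofNat (nat_lit 0)],
  [],
  [],
  [],
  []],
  [[],
  [],
  [],
  [.ofNat (nat_lit 0), .negSucc (nat_lit 8641876347858862079), .ofNat (nat_lit 0)],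
  [.ofNat (nat_lit 0), .ofNat (nat_lit 21154444970176834560), .ofNat (nat_lit 0)],
  [],
  [],
  []],
  [[],
  [],
  [],
  [],
  [.ofNat (nat_lit 0), .negSucc (nat_lit 864187634785886207), .ofNat (nat_lit 0)],
  [.ofNat (nat_lit 0), .ofNat (nat_lit 2115444497017683456), .ofNat (nat_lit 0)],
  [],
  []],
  [[],
  [],
  [],
  [],
  [.ofNat (nat_lit 0), .ofNat (nat_lit 3456750539143544832), .ofNat (nat_lit 0)],
  [.ofNat (nat_lit 0), .negSucc (nat_lit 8461777988070733823), .ofNat (nat_lit 0)],
  [],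
  []],
  [[],
  [],
  [],
  [],
  [],
  [.ofNat (nat_lit 0), .negSucc (nat_lit 1728375269571772415), .ofNat (nat_lit 0)],
  [.ofNat (nat_lit 0), .ofNat (nat_lit 4230888994035366912), .ofNat (nat_lit 0)],
  []],
  [[],
  [],
  [],
  [],
  [],
  [],
  [],
  []],
  [[],
  [],
  [],
  [],
  [],
  [],
  [],
  []]]]]]

noncomputable def BP1_E : L5 := [[[[[],
  []],
  [[],
  []],
  [[],
  []]],
  [[[.ofNat (nat_lit 207231394404117888), .ofNat (nat_lit 140163947412740352), .ofNat (nat_lit 0)],
  []],
  [[.ofNat (nat_lit 0), .negSucc (nat_lit 54161862328845503), .ofNat (nat_lit 0)],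
  []],
  [[],
  []]],
  [[[.negSucc (nat_lit 1518520713737558111), .negSucc (nat_lit 1041125144620869791), .ofNat (nat_lit 0)],
  []],
  [[.ofNat (nat_lit 0), .ofNat (nat_lit 245092921709359968), .ofNat (nat_lit 0)],
  []],
  [[],
  []]],
  [[[.ofNat (nat_lit 4209600416897759328), .ofNat (nat_lit 3637655583078410496), .ofNat (nat_lit 0)],
  []],
  [[.ofNat (nat_lit 0), .negSucc (nat_lit 42782977711972511), .ofNat (nat_lit 0)],
  []],
  [[],
  []]],
  [[[.negSucc (nat_lit 4982552235447345215), .negSucc (nat_lit 7981811196427315583), .ofNat (nat_lit 0)],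
  []],
  [[.ofNat (nat_lit 0), .negSucc (nat_lit 1369766791947537503), .ofNat (nat_lit 0)],
  []],
  [[],
  []]],
  [[[.ofNat (nat_lit 951352578777242016), .ofNat (nat_lit 11467686721301135136), .ofNat (nat_lit 0)],
  []],
  [[.ofNat (nat_lit 0), .ofNat (nat_lit 2644283013970159008), .ofNat (nat_lit 0)],
  []],
  [[],
  []]],
  [[[.ofNat (nat_lit 3371289068131338528), .negSucc (nat_lit 10215362867903840447), .ofNat (nat_lit 0)],
  []],
  [[.ofNat (nat_lit 0), .negSucc (nat_lit 1774537714142296991), .ofNat (nat_lit 0)],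
  []],
  [[],
  []]],
  [[[.negSucc (nat_lit 3053924493697295423), .ofNat (nat_lit 5032235678057521632), .ofNat (nat_lit 0)],
  []],
  [[.ofNat (nat_lit 0), .ofNat (nat_lit 217783948769888256), .ofNat (nat_lit 0)],
  []],
  [[],
  []]],
  [[[.ofNat (nat_lit 815523984671740992), .negSucc (nat_lit 1039442720897781791), .ofNat (nat_lit 0)],
  []],
  [[.ofNat (nat_lit 0), .ofNat (nat_lit 134089461681245280), .ofNat (nat_lit 0)],
  []],
  [[],
  []]]],
  [[[[],
  []],
  [[],
  []],
  [[],
  []]],
  [[[.negSucc (nat_lit 76948221758275583), .ofNat (nat_lit 0), .ofNat (nat_lit 0)],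
  []],
  [[.ofNat (nat_lit 0), .ofNat (nat_lit 6237008364321792), .ofNat (nat_lit 0)],
  [.ofNat (nat_lit 0), .ofNat (nat_lit 19976296838805792), .ofNat (nat_lit 0)]],
  [[.ofNat (nat_lit 0), .negSucc (nat_lit 33487454776833791), .ofNat (nat_lit 0)],
  [.ofNat (nat_lit 0), .ofNat (nat_lit 59782542484543776), .ofNat (nat_lit 0)]]],
  [[[.ofNat (nat_lit 725468143400045568), .ofNat (nat_lit 48273305912115264), .ofNat (nat_lit 0)],
  []],
  [[.ofNat (nat_lit 0), .ofNat (nat_lit 106981802984699424), .ofNat (nat_lit 0)],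
  [.ofNat (nat_lit 0), .negSucc (nat_lit 39952593677611583), .ofNat (nat_lit 0)]],
  [[.ofNat (nat_lit 0), .ofNat (nat_lit 66974909553667584), .ofNat (nat_lit 0)],
  [.ofNat (nat_lit 0), .negSucc (nat_lit 119565084969087551), .ofNat (nat_lit 0)]]],
  [[[.negSucc (nat_lit 1939676980627866527), .negSucc (nat_lit 854569851895456127), .ofNat (nat_lit 0)],
  []],
  [[.ofNat (nat_lit 0), .ofNat (nat_lit 433143041353574400), .ofNat (nat_lit 0)],
  [.ofNat (nat_lit 0), .ofNat (nat_lit 19976296838805792), .ofNat (nat_lit 0)]],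
  [[.ofNat (nat_lit 0), .negSucc (nat_lit 33487454776833791), .ofNat (nat_lit 0)],
  [.ofNat (nat_lit 0), .ofNat (nat_lit 59782542484543776), .ofNat (nat_lit 0)]]],
  [[[.ofNat (nat_lit 380882849247344160), .ofNat (nat_lit 4528379368789075584), .ofNat (nat_lit 0)],
  []],
  [[.ofNat (nat_lit 0), .negSucc (nat_lit 2820357322672316831), .ofNat (nat_lit 0)],
  []],
  [[],
  []]],
  [[[.ofNat (nat_lit 6241941758769171840), .negSucc (nat_lit 10592669878185557375), .ofNat (nat_lit 0)],
  []],
  [[.ofNat (nat_lit 0), .ofNat (nat_lit 5945612403958744896), .ofNat (nat_lit 0)],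
  []],
  [[],
  []]],
  [[[.negSucc (nat_lit 10861807569772622975), .ofNat (nat_lit 12469725777177062208), .ofNat (nat_lit 0)],
  []],
  [[.ofNat (nat_lit 0), .negSucc (nat_lit 7353374850890100287), .ofNat (nat_lit 0)],
  []],
  [[],
  []]],
  [[[.ofNat (nat_lit 7358472061295342112), .negSucc (nat_lit 7291749970949165567), .ofNat (nat_lit 0)],
  []],
  [[.ofNat (nat_lit 0), .ofNat (nat_lit 5300076697366912128), .ofNat (nat_lit 0)],
  []],
  [[],
  []]],
  [[[.negSucc (nat_lit 1828332040553138591), .ofNat (nat_lit 1692611249151926016), .ofNat (nat_lit 0)],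
  []],
  [[.ofNat (nat_lit 0), .negSucc (nat_lit 1618318780465835519), .ofNat (nat_lit 0)],
  []],
  [[],
  []]]],
  [[[[],
  []],
  [[],
  []],
  [[],
  []]],
  [[[.ofNat (nat_lit 0), .negSucc (nat_lit 12183794127604223), .ofNat (nat_lit 0)],
  []],
  [[.ofNat (nat_lit 0), .negSucc (nat_lit 63467879592722111), .ofNat (nat_lit 0)],
  [.ofNat (nat_lit 0), .ofNat (nat_lit 301316769649935648), .ofNat (nat_lit 0)]],
  [[.ofNat (nat_lit 0), .ofNat (nat_lit 129939944764925376), .ofNat (nat_lit 0)],
  [.ofNat (nat_lit 0), .negSucc (nat_lit 376983115498295999), .ofNat (nat_lit 0)]]],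
  [[[],
  []],
  [[],
  []],
  [[],
  []]],
  [[[.negSucc (nat_lit 252898724778774623), .ofNat (nat_lit 848609317395290592), .ofNat (nat_lit 0)],
  []],
  [[.ofNat (nat_lit 0), .negSucc (nat_lit 1542368302158765023), .ofNat (nat_lit 0)],
  [.ofNat (nat_lit 0), .negSucc (nat_lit 903950308949806943), .ofNat (nat_lit 0)]],
  [[.ofNat (nat_lit 0), .negSucc (nat_lit 389819834294776127), .ofNat (nat_lit 0)],
  [.ofNat (nat_lit 0), .ofNat (nat_lit 1130949346494888000), .ofNat (nat_lit 0)]]],
  [[[.ofNat (nat_lit 1689237150486427872), .negSucc (nat_lit 4321900726409895551), .ofNat (nat_lit 0)],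
  []],
  [[.ofNat (nat_lit 0), .ofNat (nat_lit 6223657416010118784), .ofNat (nat_lit 0)],
  [.ofNat (nat_lit 0), .ofNat (nat_lit 602633539299871296), .ofNat (nat_lit 0)]],
  [[.ofNat (nat_lit 0), .ofNat (nat_lit 259879889529850752), .ofNat (nat_lit 0)],
  [.ofNat (nat_lit 0), .negSucc (nat_lit 753966230996591999), .ofNat (nat_lit 0)]]],
  [[[.negSucc (nat_lit 4574224340800776575), .ofNat (nat_lit 9226222045107021504), .ofNat (nat_lit 0)],
  []],
  [[.ofNat (nat_lit 0), .negSucc (nat_lit 10024475870495985407), .ofNat (nat_lit 0)],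
  []],
  [[],
  []]],
  [[[.ofNat (nat_lit 6115562393488242624), .negSucc (nat_lit 10040015647378444031), .ofNat (nat_lit 0)],
  []],
  [[.ofNat (nat_lit 0), .ofNat (nat_lit 9213011188132630464), .ofNat (nat_lit 0)],
  []],
  [[],
  []]],
  [[[.negSucc (nat_lit 4000906742625993887), .ofNat (nat_lit 5531208036992182368), .ofNat (nat_lit 0)],
  []],
  [[.ofNat (nat_lit 0), .negSucc (nat_lit 5091107760874899935), .ofNat (nat_lit 0)],
  []],
  [[],
  []]],
  [[[.ofNat (nat_lit 1023230264230874592), .negSucc (nat_lit 1231939231578550655), .ofNat (nat_lit 0)],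
  []],
  [[.ofNat (nat_lit 0), .ofNat (nat_lit 1284751208979623232), .ofNat (nat_lit 0)],
  []],
  [[],
  []]]],
  [[[[],
  []],
  [[],
  []],
  [[],
  []]],
  [[[.negSucc (nat_lit 4762706420925503), .negSucc (nat_lit 8011755902248991), .ofNat (nat_lit 0)],
  [.ofNat (nat_lit 7038750416289120), .ofNat (nat_lit 0), .ofNat (nat_lit 0)]],
  [[.ofNat (nat_lit 0), .negSucc (nat_lit 27160252512213887), .ofNat (nat_lit 0)],
  [.ofNat (nat_lit 0), .negSucc (nat_lit 54163510072732223), .ofNat (nat_lit 0)]],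
  [[.ofNat (nat_lit 0), .ofNat (nat_lit 70175345651911872), .ofNat (nat_lit 0)],
  [.ofNat (nat_lit 0), .negSucc (nat_lit 144527418171644255), .ofNat (nat_lit 0)]]],
  [[[],
  []],
  [[],
  []],
  [[],
  []]],
  [[[],
  []],
  [[],
  []],
  [[],
  []]],
  [[[.ofNat (nat_lit 481469517461813472), .ofNat (nat_lit 32837864178610368), .ofNat (nat_lit 0)],
  [.negSucc (nat_lit 28155001665156479), .ofNat (nat_lit 0), .ofNat (nat_lit 0)]],
  [[.ofNat (nat_lit 0), .ofNat (nat_lit 492075233224479360), .ofNat (nat_lit 0)],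
  [.ofNat (nat_lit 0), .ofNat (nat_lit 216654040290928896), .ofNat (nat_lit 0)]],
  [[.ofNat (nat_lit 0), .negSucc (nat_lit 280701382607647487), .ofNat (nat_lit 0)],
  [.ofNat (nat_lit 0), .ofNat (nat_lit 578109672686577024), .ofNat (nat_lit 0)]]],
  [[[.negSucc (nat_lit 2084848425647409311), .ofNat (nat_lit 258831969684527808), .ofNat (nat_lit 0)],
  [.ofNat (nat_lit 21116251248867360), .ofNat (nat_lit 0), .ofNat (nat_lit 0)]],
  [[.ofNat (nat_lit 0), .negSucc (nat_lit 1373870418968464415), .ofNat (nat_lit 0)],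
  [.ofNat (nat_lit 0), .negSucc (nat_lit 162490530218196671), .ofNat (nat_lit 0)]],
  [[.ofNat (nat_lit 0), .ofNat (nat_lit 210526036955735616), .ofNat (nat_lit 0)],
  [.ofNat (nat_lit 0), .negSucc (nat_lit 433582254514932767), .ofNat (nat_lit 0)]]],
  [[[.ofNat (nat_lit 3402260905273407072), .negSucc (nat_lit 888383513570306687), .ofNat (nat_lit 0)],
  []],
  [[.ofNat (nat_lit 0), .ofNat (nat_lit 2715336908684966304), .ofNat (nat_lit 0)],
  []],
  [[],
  []]],
  [[[.negSucc (nat_lit 2442515658505361567), .ofNat (nat_lit 925001952688331424), .ofNat (nat_lit 0)],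
  []],
  [[.ofNat (nat_lit 0), .negSucc (nat_lit 3087241725776959583), .ofNat (nat_lit 0)],
  []],
  [[],
  []]],
  [[[.ofNat (nat_lit 648396367838475840), .negSucc (nat_lit 320276517078913919), .ofNat (nat_lit 0)],
  []],
  [[.ofNat (nat_lit 0), .ofNat (nat_lit 1280860255348192224), .ofNat (nat_lit 0)],
  []],
  [[],
  []]]],
  [[[[],
  []],
  [[],
  []],
  [[],
  []]],
  [[[.ofNat (nat_lit 4685137872732864), .ofNat (nat_lit 4425968692685952), .ofNat (nat_lit 0)],
  [.negSucc (nat_lit 5064627512902751), .ofNat (nat_lit 0), .ofNat (nat_lit 0)]],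
  [[.ofNat (nat_lit 0), .ofNat (nat_lit 37469151674354880), .ofNat (nat_lit 0)],
  [.ofNat (nat_lit 0), .ofNat (nat_lit 139834069799476032), .ofNat (nat_lit 0)]],
  [[.ofNat (nat_lit 0), .negSucc (nat_lit 149020649581629887), .ofNat (nat_lit 0)],
  [.ofNat (nat_lit 0), .ofNat (nat_lit 354459793008451392), .ofNat (nat_lit 0)]]],
  [[[],
  []],
  [[],
  []],
  [[],
  []]],
  [[[],
  []],
  [[],
  []],
  [[],
  []]],
  [[[],
  []],
  [[],
  []],
  [[],
  []]],
  [[[.ofNat (nat_lit 524693825739205632), .negSucc (nat_lit 227796536830835231), .ofNat (nat_lit 0)],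
  [.ofNat (nat_lit 25323137564513760), .ofNat (nat_lit 0), .ofNat (nat_lit 0)]],
  [[.ofNat (nat_lit 0), .ofNat (nat_lit 26366051953302624), .ofNat (nat_lit 0)],
  [.ofNat (nat_lit 0), .negSucc (nat_lit 699170348997380159), .ofNat (nat_lit 0)]],
  [[.ofNat (nat_lit 0), .ofNat (nat_lit 745103247908149440), .ofNat (nat_lit 0)],
  [.ofNat (nat_lit 0), .negSucc (nat_lit 1772298965042256959), .ofNat (nat_lit 0)]]],
  [[[.negSucc (nat_lit 1662909025868608031), .ofNat (nat_lit 741309237970403904), .ofNat (nat_lit 0)],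
  [.negSucc (nat_lit 20258510051611007), .ofNat (nat_lit 0), .ofNat (nat_lit 0)]],
  [[.ofNat (nat_lit 0), .negSucc (nat_lit 1751529115406366207), .ofNat (nat_lit 0)],
  [.ofNat (nat_lit 0), .ofNat (nat_lit 559336279197904128), .ofNat (nat_lit 0)]],
  [[.ofNat (nat_lit 0), .negSucc (nat_lit 596082598326519551), .ofNat (nat_lit 0)],
  [.ofNat (nat_lit 0), .ofNat (nat_lit 1417839172033805568), .ofNat (nat_lit 0)]]],
  [[[.ofNat (nat_lit 1718940609410469120), .negSucc (nat_lit 830210646297103775), .ofNat (nat_lit 0)],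
  []],
  [[.ofNat (nat_lit 0), .ofNat (nat_lit 3161676013232340384), .ofNat (nat_lit 0)],
  []],
  [[],
  []]],
  [[[.negSucc (nat_lit 585410547153799583), .ofNat (nat_lit 312271976464849152), .ofNat (nat_lit 0)],
  []],
  [[.ofNat (nat_lit 0), .negSucc (nat_lit 1473982101453631679), .ofNat (nat_lit 0)],
  []],
  [[],
  []]]],
  [[[[],
  []],
  [[],
  []],
  [[],
  []]],
  [[[.ofNat (nat_lit 2672834843607552), .ofNat (nat_lit 607843232220096), .ofNat (nat_lit 0)],
  [.negSucc (nat_lit 4736471023008863), .ofNat (nat_lit 0), .ofNat (nat_lit 0)]],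
  [[.ofNat (nat_lit 0), .ofNat (nat_lit 16910074638795456), .ofNat (nat_lit 0)],
  [.ofNat (nat_lit 0), .negSucc (nat_lit 137739596487013727), .ofNat (nat_lit 0)]],
  [[.ofNat (nat_lit 0), .negSucc (nat_lit 45410019484240799), .ofNat (nat_lit 0)],
  [.ofNat (nat_lit 0), .ofNat (nat_lit 123230604914018784), .ofNat (nat_lit 0)]]],
  [[[],
  []],
  [[],
  []],
  [[],
  []]],
  [[[],
  []],
  [[],
  []],
  [[],
  []]],
  [[[],
  []],
  [[],
  []],
  [[],
  []]],
  [[[],
  []],
  [[],
  []],
  [[],
  []]],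
  [[[.ofNat (nat_lit 18199491109929792), .ofNat (nat_lit 17072590256705952), .ofNat (nat_lit 0)],
  [.ofNat (nat_lit 28418826138053184), .ofNat (nat_lit 0), .ofNat (nat_lit 0)]],
  [[.ofNat (nat_lit 0), .negSucc (nat_lit 149396190949728287), .ofNat (nat_lit 0)],
  [.ofNat (nat_lit 0), .ofNat (nat_lit 826437578922082368), .ofNat (nat_lit 0)]],
  [[.ofNat (nat_lit 0), .ofNat (nat_lit 272460116905444800), .ofNat (nat_lit 0)],
  [.ofNat (nat_lit 0), .negSucc (nat_lit 739383629484112703), .ofNat (nat_lit 0)]]],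
  [[[.negSucc (nat_lit 55108826125112447), .negSucc (nat_lit 38400083138952575), .ofNat (nat_lit 0)],
  [.negSucc (nat_lit 23682355115044319), .ofNat (nat_lit 0), .ofNat (nat_lit 0)]],
  [[.ofNat (nat_lit 0), .ofNat (nat_lit 180421859427888384), .ofNat (nat_lit 0)],
  [.ofNat (nat_lit 0), .negSucc (nat_lit 688697982435068639), .ofNat (nat_lit 0)]],
  [[.ofNat (nat_lit 0), .negSucc (nat_lit 227050097421203999), .ofNat (nat_lit 0)],
  [.ofNat (nat_lit 0), .ofNat (nat_lit 616153024570093920), .ofNat (nat_lit 0)]]],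
  [[[.ofNat (nat_lit 34236500171575104), .ofNat (nat_lit 20719649650026528), .ofNat (nat_lit 0)],
  []],
  [[.ofNat (nat_lit 0), .negSucc (nat_lit 47935743116955551), .ofNat (nat_lit 0)],
  []],
  [[],
  []]]],
  [[[[],
  []],
  [[],
  []],
  [[],
  []]],
  [[[.ofNat (nat_lit 47378916547488), .ofNat (nat_lit 1610517489776064), .ofNat (nat_lit 0)],
  [.negSucc (nat_lit 14038007971041791), .ofNat (nat_lit 0), .ofNat (nat_lit 0)]],
  [[.ofNat (nat_lit 0), .negSucc (nat_lit 83131611617087711), .ofNat (nat_lit 0)],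
  [.ofNat (nat_lit 0), .ofNat (nat_lit 144988382731537728), .ofNat (nat_lit 0)]],
  [[.ofNat (nat_lit 0), .ofNat (nat_lit 207873384564701376), .ofNat (nat_lit 0)],
  [.ofNat (nat_lit 0), .negSucc (nat_lit 530814797443756223), .ofNat (nat_lit 0)]]],
  [[[],
  []],
  [[],
  []],
  [[],
  []]],
  [[[],
  []],
  [[],
  []],
  [[],
  []]],
  [[[],
  []],
  [[],
  []],
  [[],
  []]],
  [[[],
  []],
  [[],
  []],
  [[],
  []]],
  [[[.ofNat (nat_lit 123599473550631648), .negSucc (nat_lit 86041525136554655), .ofNat (nat_lit 0)],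
  [.ofNat (nat_lit 84228047826250752), .ofNat (nat_lit 0), .ofNat (nat_lit 0)]],
  [[.ofNat (nat_lit 0), .ofNat (nat_lit 911037222971385120), .ofNat (nat_lit 0)],
  [.ofNat (nat_lit 0), .negSucc (nat_lit 869930296389226367), .ofNat (nat_lit 0)]],
  [[.ofNat (nat_lit 0), .negSucc (nat_lit 1247240307388208255), .ofNat (nat_lit 0)],
  [.ofNat (nat_lit 0), .ofNat (nat_lit 3184888784662537344), .ofNat (nat_lit 0)]]],
  [[[.negSucc (nat_lit 247530599517095711), .ofNat (nat_lit 160809427844676864), .ofNat (nat_lit 0)],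
  [.negSucc (nat_lit 70190039855208959), .ofNat (nat_lit 0), .ofNat (nat_lit 0)]],
  [[.ofNat (nat_lit 0), .negSucc (nat_lit 1240153164623156255), .ofNat (nat_lit 0)],
  [.ofNat (nat_lit 0), .ofNat (nat_lit 724941913657688640), .ofNat (nat_lit 0)]],
  [[.ofNat (nat_lit 0), .ofNat (nat_lit 1039366922823506880), .ofNat (nat_lit 0)],
  [.ofNat (nat_lit 0), .negSucc (nat_lit 2654073987218781119), .ofNat (nat_lit 0)]]],
  [[[.ofNat (nat_lit 123883747049916576), .negSucc (nat_lit 76378420197898271), .ofNat (nat_lit 0)],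
  []],
  [[.ofNat (nat_lit 0), .ofNat (nat_lit 412247553268858848), .ofNat (nat_lit 0)],
  []],
  [[],
  []]]],
  [[[[],
  []],
  [[],
  []],
  [[],
  []]],
  [[[.negSucc (nat_lit 4715715337370207), .negSucc (nat_lit 1542059896383359), .ofNat (nat_lit 0)],
  [.ofNat (nat_lit 6853053638340864), .ofNat (nat_lit 0), .ofNat (nat_lit 0)]],
  [[.ofNat (nat_lit 0), .ofNat (nat_lit 12879023238132768), .ofNat (nat_lit 0)],
  [.ofNat (nat_lit 0), .ofNat (nat_lit 16219645869605184), .ofNat (nat_lit 0)]],
  [[.ofNat (nat_lit 0), .negSucc (nat_lit 18003909058039295), .ofNat (nat_lit 0)],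
  [.ofNat (nat_lit 0), .ofNat (nat_lit 44071760354535072), .ofNat (nat_lit 0)]]],
  [[[],
  []],
  [[],
  []],
  [[],
  []]],
  [[[],
  []],
  [[],
  []],
  [[],
  []]],
  [[[],
  []],
  [[],
  []],
  [[],
  []]],
  [[[],
  []],
  [[],
  []],
  [[],
  []]],
  [[[],
  []],
  [[],
  []],
  [[],
  []]],
  [[[.ofNat (nat_lit 33010007361591456), .ofNat (nat_lit 10794419274683520), .ofNat (nat_lit 0)],
  [.negSucc (nat_lit 47971375468386047), .ofNat (nat_lit 0), .ofNat (nat_lit 0)]],
  [[.ofNat (nat_lit 0), .negSucc (nat_lit 90153162666929375), .ofNat (nat_lit 0)],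
  [.ofNat (nat_lit 0), .negSucc (nat_lit 113537521087236287), .ofNat (nat_lit 0)]],
  [[.ofNat (nat_lit 0), .ofNat (nat_lit 126027363406275072), .ofNat (nat_lit 0)],
  [.ofNat (nat_lit 0), .negSucc (nat_lit 308502322481745503), .ofNat (nat_lit 0)]]],
  [[[.negSucc (nat_lit 28294292024221247), .negSucc (nat_lit 9252359378300159), .ofNat (nat_lit 0)],
  [.ofNat (nat_lit 41118321830045184), .ofNat (nat_lit 0), .ofNat (nat_lit 0)]],
  [[.ofNat (nat_lit 0), .ofNat (nat_lit 77274139428796608), .ofNat (nat_lit 0)],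
  [.ofNat (nat_lit 0), .ofNat (nat_lit 97317875217631104), .ofNat (nat_lit 0)]],
  [[.ofNat (nat_lit 0), .negSucc (nat_lit 108023454348235775), .ofNat (nat_lit 0)],
  [.ofNat (nat_lit 0), .ofNat (nat_lit 264430562127210432), .ofNat (nat_lit 0)]]]],
  [[[[],
  []],
  [[],
  []],
  [[],
  []]],
  [[[],
  []],
  [[],
  []],
  [[],
  []]],
  [[[],
  []],
  [[],
  []],
  [[],
  []]],
  [[[],
  []],
  [[],
  []],
  [[],
  []]],
  [[[],
  []],
  [[],
  []],
  [[],
  []]],
  [[[],
  []],
  [[],
  []],
  [[],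
  []]],
  [[[],
  []],
  [[],
  []],
  [[],
  []]],
  [[[],
  []],
  [[],
  []],
  [[],
  []]],
  [[[],
  []],
  [[],
  []],
  [[],
  []]]],
  [[[[],
  []],
  [[],
  []],
  [[],
  []]],
  [[[],
  []],
  [[],
  []],
  [[],
  []]],
  [[[],
  []],
  [[],
  []],
  [[],
  []]],
  [[[],
  []],
  [[],
  []],
  [[],
  []]],
  [[[],
  []],
  [[],
  []],
  [[],
  []]],
  [[[],
  []],
  [[],
  []],
  [[],
  []]],
  [[[],
  []],
  [[],
  []],
  [[],
  []]],
  [[[],
  []],
  [[],
  []],
  [[],
  []]],
  [[[],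
  []],
  [[],
  []],
  [[],
  []]]]]

noncomputable def BP1_tn : List (List ℕ) := [[nat_lit 16384, nat_lit 0, nat_lit 0],
  [nat_lit 32768, nat_lit 16384, nat_lit 0],
  [nat_lit 16384, nat_lit 16384, nat_lit 16384]]

noncomputable def BP1_zn : List (List ℕ) := [[nat_lit 281474976710656, nat_lit 52776558133248, nat_lit 9895604649984, nat_lit 1855425871872, nat_lit 347892350976, nat_lit 65229815808, nat_lit 12230590464, nat_lit 2293235712, nat_lit 429981696],
  [nat_lit 2251799813685248, nat_lit 536561674354688, nat_lit 122045790683136, nat_lit 26903675142144, nat_lit 5798205849600, nat_lit 1228494864384, nat_lit 256842399744, nat_lit 53126627328, nat_lit 10892869632],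
  [nat_lit 7881299347898368, nat_lit 2278188092751872, nat_lit 623697970855936, nat_lit 162504382611456, nat_lit 40645423005696, nat_lit 9835206672384, nat_lit 2316677677056, nat_lit 533750611968, nat_lit 120729305088],
  [nat_lit 15762598695796736, nat_lit 5356820650524672, nat_lit 1733380081188864, nat_lit 532825052807168, nat_lit 155746251571200, nat_lit 43500435406848, nat_lit 11679307923456, nat_lit 3031646994432, nat_lit 764618932224],
  [nat_lit 19703248369745920, nat_lit 7696581394432000, nat_lit 2890341191516160, nat_lit 1038308343808000, nat_lit 355301437997056, nat_lit 115592921088000, nat_lit 35822748303360, nat_lit 10619707392000, nat_lit 3026616606720],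
  [nat_lit 15762598695796736, nat_lit 6957709580566528, nat_lit 2984074557784064, nat_lit 1237345718239232, nat_lit 493196463308800, nat_lit 187841644593152, nat_lit 68030856953856, nat_lit 23405835091968, nat_lit 7667428737024],
  [nat_lit 7881299347898368, nat_lit 3879077022793728, nat_lit 1874392447451136, nat_lit 885897134342144, nat_lit 407583269584896, nat_lit 181415618543616, nat_lit 77515548000256, nat_lit 31521651474432, nat_lit 12140095500288],
  [nat_lit 2251799813685248, nat_lit 1222656930086912, nat_lit 658057709223936, nat_lit 350409201811456, nat_lit 184119879270400, nat_lit 95109425135616, nat_lit 48032992722944, nat_lit 23509391286272, nat_lit 10983895928832],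
  [nat_lit 281474976710656, nat_lit 167125767421952, nat_lit 99230924406784, nat_lit 58918361366528, nat_lit 34982777061376, nat_lit 20771023880192, nat_lit 12332795428864, nat_lit 7322597285888, nat_lit 4347792138496],
  [nat_lit 281474976710656, nat_lit 167125767421952, nat_lit 99230924406784, nat_lit 58918361366528, nat_lit 34982777061376, nat_lit 20771023880192, nat_lit 12332795428864, nat_lit 7322597285888, nat_lit 4347792138496],
  [nat_lit 2251799813685248, nat_lit 1451355348664320, nat_lit 929637081284608, nat_lit 592284580052992, nat_lit 375604553711616, nat_lit 237226956947456, nat_lit 149291734138880, nat_lit 93652165287936, nat_lit 58580778287104],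
  [nat_lit 7881299347898368, nat_lit 5479965952835584, nat_lit 3775448051875840, nat_lit 2579024782032896, nat_lit 1747975990673408, nat_lit 1176238341226496, nat_lit 786326737911808, nat_lit 522521069486080, nat_lit 345318272008192],
  [nat_lit 15762598695796736, nat_lit 11760376370692096, nat_lit 8687241371058176, nat_lit 6354472833908736, nat_lit 4604017036492800, nat_lit 3305372764864512, nat_lit 2352476682452992, nat_lit 1660588698632192, nat_lit 1163177337290752],
  [nat_lit 19703248369745920, nat_lit 15701026044641280, nat_lit 12395619213639680, nat_lit 9692667445248000, nat_lit 7505477093031936, nat_lit 5755021295616000, nat_lit 4369939976683520, nat_lit 3286539844976640, nat_lit 2448794394296320],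
  [nat_lit 15762598695796736, nat_lit 13361265300733952, nat_lit 11238658103312384, nat_lit 9375905017233408, nat_lit 7754133956198400, nat_lit 6354472833908736, nat_lit 5158049564065792, nat_lit 4145992060370944, nat_lit 3299428236525568],
  [nat_lit 7881299347898368, nat_lit 7080854882877440, nat_lit 6326864784130048, nat_lit 5619329051656192, nat_lit 4958247685455872, nat_lit 4343620685529088, nat_lit 3775448051875840, nat_lit 3253729784496128, nat_lit 2778465883389952],
  [nat_lit 2251799813685248, nat_lit 2137450604396544, nat_lit 2023101395107840, nat_lit 1908752185819136, nat_lit 1794402976530432, nat_lit 1680053767241728, nat_lit 1565704557953024, nat_lit 1451355348664320, nat_lit 1337006139375616],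
  [nat_lit 281474976710656, nat_lit 281474976710656, nat_lit 281474976710656, nat_lit 281474976710656, nat_lit 281474976710656, nat_lit 281474976710656, nat_lit 281474976710656, nat_lit 281474976710656, nat_lit 281474976710656],
  [nat_lit 281474976710656, nat_lit 281474976710656, nat_lit 281474976710656, nat_lit 281474976710656, nat_lit 281474976710656, nat_lit 281474976710656, nat_lit 281474976710656, nat_lit 281474976710656, nat_lit 281474976710656],
  [nat_lit 2251799813685248, nat_lit 2366149022973952, nat_lit 2480498232262656, nat_lit 2594847441551360, nat_lit 2709196650840064, nat_lit 2823545860128768, nat_lit 2937895069417472, nat_lit 3052244278706176, nat_lit 3166593487994880],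
  [nat_lit 7881299347898368, nat_lit 8681743812919296, nat_lit 9528642644213760, nat_lit 10421995841781760, nat_lit 11361803405623296, nat_lit 12348065335738368, nat_lit 13380781632126976, nat_lit 14459952294789120, nat_lit 15585577323724800],
  [nat_lit 15762598695796736, nat_lit 18163932090859520, nat_lit 20843991683563520, nat_lit 23821649560207360, nat_lit 27115777807089664, nat_lit 30745248510509056, nat_lit 34728933756764160, nat_lit 39085705632153600, nat_lit 43834436222976000],
  [nat_lit 19703248369745920, nat_lit 23705470694850560, nat_lit 28404508514058240, nat_lit 33894722258862080, nat_lit 40278139145814016, nat_lit 47664453176524800, nat_lit 56171025137664000, nat_lit 65922882600960000, nat_lit 77052719923200000],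
  [nat_lit 15762598695796736, nat_lit 19764821020901376, nat_lit 24696130671476736, nat_lit 30745248510509056, nat_lit 38131562541219840, nat_lit 47108242538496000, nat_lit 57965354680320000, nat_lit 71032976179200000, nat_lit 86684309913600000],
  [nat_lit 7881299347898368, nat_lit 10282632742961152, nat_lit 13380781632126976, nat_lit 17364466878382080, nat_lit 22468410055065600, nat_lit 28982677340160000, nat_lit 37263288729600000, nat_lit 47744092569600000, nat_lit 60949905408000000],
  [nat_lit 2251799813685248, nat_lit 3052244278706176, nat_lit 4131414941368320, nat_lit 5583672233164800, nat_lit 7534043725824000, nat_lit 10147568025600000, nat_lit 13641169305600000, nat_lit 18298576512000000, nat_lit 24488801280000000],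
  [nat_lit 281474976710656, nat_lit 395824185999360, nat_lit 556627761561600, nat_lit 782757789696000, nat_lit 1100753141760000, nat_lit 1547934105600000, nat_lit 2176782336000000, nat_lit 3061100160000000, nat_lit 4304672100000000]]

noncomputable def BP1_sn : List (List ℕ) := [[nat_lit 4096, nat_lit 0, nat_lit 0],
  [nat_lit 8192, nat_lit 3072, nat_lit 0],
  [nat_lit 4096, nat_lit 3072, nat_lit 2304]]

noncomputable def BP1_en : List (List ℕ) := [[nat_lit 72057594037927936, nat_lit 27021597764222976, nat_lit 10133099161583616, nat_lit 3799912185593856, nat_lit 1424967069597696, nat_lit 534362651099136, nat_lit 200385994162176, nat_lit 75144747810816],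
  [nat_lit 504403158265495552, nat_lit 191402984163246080, nat_lit 72620543991349248, nat_lit 27549363345555456, nat_lit 10449758510383104, nat_lit 3963189662318592, nat_lit 1502894956216320, nat_lit 569847670898688],
  [nat_lit 1513209474796486656, nat_lit 580964351930793984, nat_lit 222998550299017216, nat_lit 85577189013061632, nat_lit 32833616228646912, nat_lit 12594630818267136, nat_lit 4830137400950784, nat_lit 1852004930420736],
  [nat_lit 2522015791327477760, nat_lit 979532918953082880, nat_lit 380343062280273920, nat_lit 147644620401016832, nat_lit 57298849458290688, nat_lit 22231094321479680, nat_lit 8623091739525120, nat_lit 3343897791037440],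
  [nat_lit 2522015791327477760, nat_lit 990791918021509120, nat_lit 389139155302481920, nat_lit 152796931888775168, nat_lit 59980627037913088, nat_lit 23539298410168320, nat_lit 9235527232389120, nat_lit 3622555940290560],
  [nat_lit 1513209474796486656, nat_lit 601230550253961216, nat_lit 238831517738991616, nat_lit 94852669104979968, nat_lit 37662877456269312, nat_lit 14951410370084864, nat_lit 5934091635523584, nat_lit 2354661361188864],
  [nat_lit 504403158265495552, nat_lit 202661983231672320, nat_lit 81416637013557248, nat_lit 32703873856569344, nat_lit 13134972063842304, nat_lit 5274748120465408, nat_lit 2117949372497920, nat_lit 850294380429312],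
  [nat_lit 72057594037927936, nat_lit 29273397577908224, nat_lit 11892317766025216, nat_lit 4831254092447744, nat_lit 1962696975056896, nat_lit 797345646116864, nat_lit 323921668734976, nat_lit 131593177923584]]

noncomputable def BP1_en1 : List (List ℕ) := [[nat_lit 256, nat_lit 96],
  [nat_lit 256, nat_lit 104]]


end Crest.Agent.R163.Ck
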