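import Crest.Agent.R163.B8m1b_256D

/-! Row 163: Bellman certificate, data (generated). -/

set_option autoImplicit false
set_option Elab.async false
set_option maxRecDepth 100000

namespace Crest.Agent.R163.Ck

noncomputable def BP2 : Bell := ⟨false, 8, 3, 3, 2, 8, 32, fs3_8, lams3_8, TT3_8,
  [[[[.ofNat (nat_lit 14490331417465659), .ofNat (nat_lit 30988556664946272), .negSucc (nat_lit 227309356747989773), .negSucc (nat_lit 56741199414750242), .ofNat (nat_lit 535556647945852920), .ofNat (nat_lit 889773894086745906), .ofNat (nat_lit 47893147452696087), .negSucc (nat_lit 116827947954417707), .negSucc (nat_lit 519740198440503785), .negSucc (nat_lit 4066034700371716349), .negSucc (nat_lit 21867114287963474), .negSucc (nat_lit 136450762839404351), .ofNat (nat_lit 567429867558481230), .ofNat (nat_lit 2205103071631979520), .ofNat (nat_lit 5776135600640803956), .ofNat (nat_lit 5584276754745678), .ofNat (nat_lit 87498113723843706), .negSucc (nat_lit 87047427036698405), .negSucc (nat_lit 462262729670445671), .negSucc (nat_lit 168273839435123339),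 .negSucc (nat_lit 5532267179212689761), .negSucc (nat_lit 2130364290893182595), .negSucc (nat_lit 751171830292196), .negSucc (nat_lit 18937373716334933), .negSucc (nat_lit 8914100177137967), .ofNat (nat_lit 19188647572558644), .ofNat (nat_lit 62491362700174488), .ofNat (nat_lit 1027820392296762312), .ofNat (nat_lit 990676621359133362), .ofNat (nat_lit 2184024349965071952), .ofNat (nat_lit 41459620731891), .ofNat (nat_lit 1432047586845606), .ofNat (nat_lit 2350269353860086), .ofNat (nat_lit 3001523080317636), .negSucc (nat_lit 2829993528009197), .negSucc (nat_lit 59174509825579751), .negSucc (nat_lit 3831134536487459), .negSucc (nat_lit 208932726957841877), .negSucc (nat_lit 226357576361864981), .negSucc (nat_lit 396564848174583077)],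
  [.negSucc (nat_lit 6923993082133157), .negSucc (nat_lit 106558741178179829), .ofNat (nat_lit 350694528378213132), .ofNat (nat_lit 185080179697680987), .negSucc (nat_lit 804626869319261171), .negSucc (nat_lit 1912027552793791703), .negSucc (nat_lit 154121518604764808), .negSucc (nat_lit 76809964841207423), .ofNat (nat_lit 968022306968815026), .ofNat (nat_lit 9139582106278103376), .ofNat (nat_lit 70503622640745633), .ofNat (nat_lit 492969625716945600), .negSucc (nat_lit 1033553687836298345), .negSucc (nat_lit 4991585669045104409), .negSucc (nat_lit 13486351175922652235), .negSucc (nat_lit 18191928941361512), .negSucc (nat_lit 255857879286180161), .ofNat (nat_lit 97117552731667752), .ofNat (nat_lit 1021854653101190718), .ofNat (nat_lit 336386182782850632), .ofNat (nat_lit 13074204872512155438), .ofNat (nat_lit 5128178024739218382), .ofNat (nat_lit 2487097052332044), .ofNat (nat_lit 52328488307619666), .ofNat (nat_lit 41934276211286520), .negSucc (nat_lit 31339648791775205), .negSucc (nat_lit 121504982488134113), .negSucc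 (nat_lit 2437375359365157455), .negSucc (nat_lit 2371140041885143601), .negSucc (nat_lit 5323888209733212005), .negSucc (nat_lit 140209457363999), .negSucc (nat_lit 3863732837361581), .negSucc (nat_lit 7183215366322193), .negSucc (nat_lit 8297908408492763), .ofNat (nat_lit 4264809581675142), .ofNat (nat_lit 139790879594210376), .ofNat (nat_lit 7864711025363754), .ofNat (nat_lit 502744351728962622), .ofNat (nat_lit 556648041602368278), .ofNat (nat_lit 978685978532492610)]],
  [[.ofNat (nat_lit 8701088083180938), .negSucc (nat_lit 15068467266765767), .negSucc (nat_lit 41589623248910153), .ofNat (nat_lit 12054440833425990), .ofNat (nat_lit 105602401139955336), .ofNat (nat_lit 13095247296667950), .negSucc (nat_lit 3661296578142182), .negSucc (nat_lit 82407642043474619), .negSucc (nat_lit 31858150463472725), .ofNat (nat_lit 22271364267709770), .negSucc (nat_lit 299325211167320), .ofNat (nat_lit 38199198011664294), .ofNat (nat_lit 22277897312042016), .negSucc (nat_lit 20416781841487505), .negSucc (nat_lit 132504801874923221),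 .ofNat (nat_lit 470611397229822), .negSucc (nat_lit 10251610029179243), .negSucc (nat_lit 5051035645187777), .ofNat (nat_lit 4799970809178804), .ofNat (nat_lit 1148784171757686), .ofNat (nat_lit 147614181350051628), .ofNat (nat_lit 72581254082706654), .negSucc (nat_lit 109833940238810), .ofNat (nat_lit 1473716316123168), .ofNat (nat_lit 700011180154422), .negSucc (nat_lit 406161867093551), .negSucc (nat_lit 1756522502001743), .negSucc (nat_lit 30819428806779917), .negSucc (nat_lit 27774872927072525), .negSucc (nat_lit 77796399483529343), .ofNat (nat_lit 8517386179155), .negSucc (nat_lit 87688668701351), .negSucc (nat_lit 48977864495633), .ofNat (nat_lit 14093607463932), .ofNat (nat_lit 215613036158448), .ofNat (nat_lit 2312029578223548), .ofNat (nat_lit 159867459594420), .ofNat (nat_lit 5890206227513556), .ofNat (nat_lit 8166527364404376), .ofNat (nat_lit 14151599351237490)],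
  []],
  [[],
  []]],
  [[[.negSucc (nat_lit 15857747032709771), .ofNat (nat_lit 46001914978437891), .ofNat (nat_lit 67917543117920838), .negSucc (nat_lit 43705848643561331), .negSucc (nat_lit 231834413802646313), .negSucc (nat_lit 116871627846814613), .ofNat (nat_lit 24951558827122191), .ofNat (nat_lit 193429997326789020), .ofNat (nat_lit 108883838391714954), .ofNat (nat_lit 413715313795375818), .negSucc (nat_lit 11502479423380850), .negSucc (nat_lit 79061625745856387), .negSucc (nat_lit 137040676210694429), .negSucc (nat_lit 222382745230858181), .negSucc (nat_lit 379762667327281391), .ofNat (nat_lit 3800311608527793), .ofNat (nat_lit 16217972032188060), .ofNat (nat_lit 51648704810306748), .ofNat (nat_lit 59881000574183490), .ofNat (nat_lit 23547235348133370), .ofNat (nat_lit 306523466138678400), .ofNat (nat_lit 90611357159665008), .negSucc (nat_lit 698171724898475), .negSucc (nat_lit 1466506772968187), .negSucc (nat_lit 9488696956107101), .negSucc (nat_lit 8183130089159411), .negSucc (nat_lit 10073830474178573), .negSucc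 (nat_lit 54291784835209301), .negSucc (nat_lit 45980996186546633), .negSucc (nat_lit 72621303392904317), .ofNat (nat_lit 51659227851065), .ofNat (nat_lit 30348244917584), .ofNat (nat_lit 619109381063122), .ofNat (nat_lit 506534441564998), .ofNat (nat_lit 996507409141976), .ofNat (nat_lit 3419485849098240), .ofNat (nat_lit 304427817294308), .ofNat (nat_lit 9403499925111268), .ofNat (nat_lit 5281830746303628), .ofNat (nat_lit 11192205165137026)],
  [.ofNat (nat_lit 1695365673337575), .negSucc (nat_lit 21093235260771131), .ofNat (nat_lit 21093235260771132), .negSucc (nat_lit 3127922998680725), .ofNat (nat_lit 19930386626427744), .negSucc (nat_lit 16802463627747017), .ofNat (nat_lit 14699493406100448), .negSucc (nat_lit 54368998818528959), .ofNat (nat_lit 35240530606555680), .ofNat (nat_lit 4428974805872832), .negSucc (nat_lit 2659544564272955), .ofNat (nat_lit 3380346468257652), .negSucc (nat_lit 5319089128545911), .ofNat (nat_lit 18393148898244864), .negSucc (nat_lit 13794861673683647), .negSucc (nat_lit 1968870014662175),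 .ofNat (nat_lit 11296222045229520), .negSucc (nat_lit 17657620200537695), .negSucc (nat_lit 9290439805677263), .ofNat (nat_lit 8847266212713888), .ofNat (nat_lit 16512887440380384), .negSucc (nat_lit 7739445677446655), .ofNat (nat_lit 760807868905656), .negSucc (nat_lit 3828540637549871), .ofNat (nat_lit 4410203663780424), .ofNat (nat_lit 2584074914500032), .negSucc (nat_lit 1366972188157799), .negSucc (nat_lit 2804586551694359), .negSucc (nat_lit 2192054226154559), .ofNat (nat_lit 2437067156370480), .negSucc (nat_lit 74791348754975), .ofNat (nat_lit 373956743774880), .negSucc (nat_lit 149582697509951), .negSucc (nat_lit 373956743774879), .negSucc (nat_lit 299165395019903), .negSucc (nat_lit 224374046264927), .ofNat (nat_lit 373956743774880), .negSucc (nat_lit 373956743774879), .ofNat (nat_lit 2243740462649280), .negSucc (nat_lit 1495826975099519)]],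
  [[.ofNat (nat_lit 1787943904504614), .negSucc (nat_lit 1055895485656823), .ofNat (nat_lit 1055895485656824), .negSucc (nat_lit 2723165967420881), .ofNat (nat_lit 8697445645091058), .negSucc (nat_lit 5974279677670175), .ofNat (nat_lit 1133987348261052), .negSucc (nat_lit 2603183694135083), .negSucc (nat_lit 463569353035091), .ofNat (nat_lit 1932765698909124), .ofNat (nat_lit 180383832493704), .negSucc (nat_lit 1269218248937027), .ofNat (nat_lit 360767664987408), .ofNat (nat_lit 2912267005823664), .negSucc (nat_lit 2184200254367747), .negSucc (nat_lit 193969196546471), .ofNat (nat_lit 921561690225600), .negSucc (nat_lit 333136706957891), .negSucc (nat_lit 1365133795973027), .negSucc (nat_lit 152202297668003), .ofNat (nat_lit 1761253635733128), .negSucc (nat_lit 638373328813331), .ofNat (nat_lit 42972737754876), .negSucc (nat_lit 206460803010191), .ofNat (nat_lit 74843443427274), .ofNat (nat_lit 261493881781482), .ofNat (nat_lit 97047507592230), .negSucc (nat_lit 185867909903789), .negSucc (nat_lit 395940054008489), .ofNat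 (nat_lit 311911196366610), .negSucc (nat_lit 3292366856255), .ofNat (nat_lit 16461834281280), .negSucc (nat_lit 6584733712511), .negSucc (nat_lit 16461834281279), .negSucc (nat_lit 13169467425023), .negSucc (nat_lit 9877100568767), .ofNat (nat_lit 16461834281280), .negSucc (nat_lit 16461834281279), .ofNat (nat_lit 98771005687680), .negSucc (nat_lit 65847337125119)],
  []],
  [[],
  []]],
  [[[.ofNat (nat_lit 2165784969187593), .negSucc (nat_lit 5066479922722991), .ofNat (nat_lit 5066479922722992), .negSucc (nat_lit 1735064089631315), .ofNat (nat_lit 7738432230255444), .negSucc (nat_lit 6003368140624127), .ofNat (nat_lit 4845127377332232), .negSucc (nat_lit 17660857902605495), .ofNat (nat_lit 11096078918549832), .ofNat (nat_lit 1719651606723432), .negSucc (nat_lit 937564990134371), .ofNat (nat_lit 1483892319353544), .negSucc (nat_lit 1875129980268743), .ofNat (nat_lit 5315210604198288), .negSucc (nat_lit 3986407953148715), .negSucc (nat_lit 584475535648511), .ofNat (nat_lit 3402523170980352), .negSucc (nat_lit 5201488856403935),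 .negSucc (nat_lit 3043993963770143), .ofNat (nat_lit 2487771263982816), .ofNat (nat_lit 5670667755897408), .negSucc (nat_lit 2731003835037983), .ofNat (nat_lit 233598554000232), .negSucc (nat_lit 1177107499103063), .ofNat (nat_lit 1285813674652248), .ofNat (nat_lit 871261685961264), .negSucc (nat_lit 351419458651319), .negSucc (nat_lit 953294247878399), .negSucc (nat_lit 725426020330799), .ofNat (nat_lit 816573311349840), .negSucc (nat_lit 23115550771631), .ofNat (nat_lit 115577753858160), .negSucc (nat_lit 46231101543263), .negSucc (nat_lit 115577753858159), .negSucc (nat_lit 92462203086527), .negSucc (nat_lit 69346652314895), .ofNat (nat_lit 115577753858160), .negSucc (nat_lit 115577753858159), .ofNat (nat_lit 693466523148960), .negSucc (nat_lit 462311015432639)],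
  [.negSucc (nat_lit 1340787755698496), .ofNat (nat_lit 9874090880738568), .negSucc (nat_lit 9874090880738567), .ofNat (nat_lit 5164102497858696), .negSucc (nat_lit 20429352933945371), .ofNat (nat_lit 15265250436086676), .negSucc (nat_lit 12124765713988151), .ofNat (nat_lit 43959206648409192), .negSucc (nat_lit 27294584726877623), .negSucc (nat_lit 4539856207543415), .ofNat (nat_lit 1912426531097220), .negSucc (nat_lit 1603522421880839), .ofNat (nat_lit 3824853062194440), .negSucc (nat_lit 16535028685643279), .ofNat (nat_lit 12401271514232460), .ofNat (nat_lit 1741558649425488), .negSucc (nat_lit 9856997059135967), .ofNat (nat_lit 13682210740140240), .ofNat (nat_lit 9479394814157280), .negSucc (nat_lit 6159127167846719), .negSucc (nat_lit 16589370278646719), .ofNat (nat_lit 7702330301906400), .negSucc (nat_lit 649837980799271), .ofNat (nat_lit 3262110001467264), .negSucc (nat_lit 3379919611432247), .negSucc (nat_lit 2546142800586623), .ofNat (nat_lit 780567688235160), .ofNat (nat_lit 2662423677824760), .ofNat (nat_lit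 2339421241052160), .negSucc (nat_lit 2468622215761199), .ofNat (nat_lit 63119816978112), .negSucc (nat_lit 315599084890559), .ofNat (nat_lit 126239633956224), .ofNat (nat_lit 315599084890560), .ofNat (nat_lit 252479267912448), .ofNat (nat_lit 189359450934336), .negSucc (nat_lit 315599084890559), .ofNat (nat_lit 315599084890560), .negSucc (nat_lit 1893594509343359), .ofNat (nat_lit 1262396339562240)]],
  [[.negSucc (nat_lit 2361749257734110), .negSucc (nat_lit 489601863554651), .ofNat (nat_lit 489601863554652), .ofNat (nat_lit 1827590368154328), .negSucc (nat_lit 5237970172685657), .ofNat (nat_lit 3410379804531330), .negSucc (nat_lit 443129278287995), .ofNat (nat_lit 608523741444060), .ofNat (nat_lit 998598908551860), .negSucc (nat_lit 1163993371707923), .negSucc (nat_lit 70955559295307), .ofNat (nat_lit 396126412265556), .negSucc (nat_lit 141911118590615), .negSucc (nat_lit 733038937518527), .ofNat (nat_lit 549779203138896), .ofNat (nat_lit 12163850613000), .negSucc (nat_lit 5192358698015), .negSucc (nat_lit 253394156245139),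 .ofNat (nat_lit 96898190540220), .ofNat (nat_lit 178631919350172), .ofNat (nat_lit 77366598839496), .negSucc (nat_lit 106474044399731), .ofNat (nat_lit 6827769418812), .negSucc (nat_lit 39100165614743), .ofNat (nat_lit 69535326313818), .ofNat (nat_lit 21682509579594), .negSucc (nat_lit 42224248638569), .negSucc (nat_lit 66334376265749), .ofNat (nat_lit 57698586751350), .negSucc (nat_lit 8085401544509), .negSucc (nat_lit 1122770279951), .ofNat (nat_lit 5613851399760), .negSucc (nat_lit 2245540559903), .negSucc (nat_lit 5613851399759), .negSucc (nat_lit 4491081119807), .negSucc (nat_lit 3368310839855), .ofNat (nat_lit 5613851399760), .negSucc (nat_lit 5613851399759), .ofNat (nat_lit 33683108398560), .negSucc (nat_lit 22455405599039)],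
  []],
  [[],
  []]]],
  [[.negSucc (nat_lit 237088009472381), .negSucc (nat_lit 353812405375187)],
  [.ofNat (nat_lit 499412325612015), .ofNat (nat_lit 0)],
  [.ofNat (nat_lit 0), .ofNat (nat_lit 0)]],
  [[[[.ofNat (nat_lit 2510471102199690240), .negSucc (nat_lit 15128346740341045247), .ofNat (nat_lit 14429926275305730048), .ofNat (nat_lit 32524155382743585792), .negSucc (nat_lit 69639344045520592895), .negSucc (nat_lit 19878334760991052799), .ofNat (nat_lit 8903520597225664512), .ofNat (nat_lit 66316303255315709952), .negSucc (nat_lit 4578548164628438015), .negSucc (nat_lit 24847106365279060991)],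
  [.negSucc (nat_lit 5454041794779036671), .ofNat (nat_lit 35884404736908807168), .negSucc (nat_lit 23317416335870005247), .negSucc (nat_lit 60768159260856689663), .ofNat (nat_lit 98663527865583922176), .ofNat (nat_lit 32174886931394052096), .ofNat (nat_lit 2085794696222972928), .negSucc (nat_lit 104638905193437490175), .ofNat (nat_lit 11394847182409150464), .ofNat (nat_lit 29548818952286542848)]],
  [[.negSucc (nat_lit 1040731793317564415), .ofNat (nat_lit 2571929640173758464), .negSucc (nat_lit 13459154035163848703), .negSucc (nat_lit 5695561026487305215), .ofNat (nat_lit 33941457054020155392), .ofNat (nat_lit 6138512509739544576), .negSucc (nat_lit 12408126416947077119), .negSucc (nat_lit 25421252434635598847), .negSucc (nat_lit 2184308074957823), .ofNat (nat_lit 14214516240575665152)],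
  []]],
  [[[.negSucc (nat_lit 15213844590455937023), .ofNat (nat_lit 88859781793426599936), .negSucc (nat_lit 37408137770295447551), .negSucc (nat_lit 283425996585883253759), .ofNat (nat_lit 298015603380874644480), .ofNat (nat_lit 233165863939426753536), .ofNat (nat_lit 97295189534289395712), .negSucc (nat_lit 521895099236458595327), .ofNat (nat_lit 34829733625965250560), .ofNat (nat_lit 154296017325205318656)],
  [.ofNat (nat_lit 33810482864202605568), .negSucc (nat_lit 203101399899313035263), .ofNat (nat_lit 13458553058474634240), .ofNat (nat_lit 707029345689178586112), .negSucc (nat_lit 602617561435787387903), .negSucc (nat_lit 614363166431085947903), .negSucc (nat_lit 296902625290188162047), .ofNat (nat_lit 1280035587258922116096), .negSucc (nat_lit 83200438836365183999), .negSucc (nat_lit 364720798455695271935)]],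
  [[.ofNat (nat_lit 2006740566958952448), .negSucc (nat_lit 11997574285133306879), .ofNat (nat_lit 49146878466095136768), .negSucc (nat_lit 10258595112145333247), .negSucc (nat_lit 67092455795218394111), .ofNat (nat_lit 23533281224647741440), .ofNat (nat_lit 17063960204488375296), .ofNat (nat_lit 13183674853147776000), .negSucc (nat_lit 4726370498494003199), .negSucc (nat_lit 6749199839274190847)],
  []]],
  [[[.ofNat (nat_lit 12057914599468904448), .negSucc (nat_lit 75125628509567993855), .ofNat (nat_lit 20255724930311543808), .ofNat (nat_lit 258081233747214809088), .negSucc (nat_lit 248910641373283964927), .negSucc (nat_lit 212555583062608785407), .negSucc (nat_lit 115143082238191039487), .ofNat (nat_lit 477373395439131402240), .negSucc (nat_lit 46810245731910764543), .negSucc (nat_lit 106066656731218747391)],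
  [.negSucc (nat_lit 26767055704798052351), .ofNat (nat_lit 169423286781676732416), .negSucc (nat_lit 5364423167881079807), .negSucc (nat_lit 674352036054606090239), .ofNat (nat_lit 621759297032050793472), .ofNat (nat_lit 592800554039261156352), .ofNat (nat_lit 300592781425093487616), .negSucc (nat_lit 1308123038157660887039), .ofNat (nat_lit 119132748597762422784), .ofNat (nat_lit 316092677484667216896)]],
  [[.negSucc (nat_lit 1950357175105794047), .ofNat (nat_lit 9151248885157896192), .negSucc (nat_lit 26995640530745834495), .ofNat (nat_lit 15700249958087384064), .ofNat (nat_lit 11917794758630676480), .negSucc (nat_lit 29653629087973773311), .ofNat (nat_lit 2094672413849011200), .ofNat (nat_lit 32609275444450335744), .ofNat (nat_lit 3336181631091330048), .negSucc (nat_lit 20157167789352013823)],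
  []]]]⟩

noncomputable def BP2_A : L6 := [[[[[[.negSucc (nat_lit 1933751684350448639), .negSucc (nat_lit 679616543986965503), .ofNat (nat_lit 1040731793317564416)],
  [.ofNat (nat_lit 1736054449497676800), .ofNat (nat_lit 5454041794779036672), .ofNat (nat_lit 0)],
  [],
  [],
  [],
  [],
  [],
  []],
  [[.ofNat (nat_lit 2510471102199690240), .negSucc (nat_lit 1040731793317564415), .ofNat (nat_lit 0)],
  [.negSucc (nat_lit 5454041794779036671), .ofNat (nat_lit 0), .ofNat (nat_lit 0)],
  [],
  [],
  [],
  [],
  [],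
  []],
  [[.ofNat (nat_lit 1421407061856645120), .ofNat (nat_lit 1136575458162643968), .ofNat (nat_lit 0)],
  [.ofNat (nat_lit 288517723455716352), .ofNat (nat_lit 1136575458162643968), .ofNat (nat_lit 0)],
  [.negSucc (nat_lit 1132889338400928767), .ofNat (nat_lit 0), .ofNat (nat_lit 0)],
  [],
  [],
  [],
  [],
  []],
  [[.ofNat (nat_lit 7925451933211739136), .ofNat (nat_lit 632815560134774784), .ofNat (nat_lit 0)],
  [.negSucc (nat_lit 15522820516566125567), .ofNat (nat_lit 0), .ofNat (nat_lit 0)],
  [.negSucc (nat_lit 7925451933211739135), .negSucc (nat_lit 632815560134774783), .ofNat (nat_lit 0)],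
  [.ofNat (nat_lit 15522820516566125568), .ofNat (nat_lit 0), .ofNat (nat_lit 0)],
  [],
  [],
  [],
  []],
  [[.negSucc (nat_lit 4852177380482752511), .negSucc (nat_lit 2702986054822204415), .ofNat (nat_lit 0)],
  [.ofNat (nat_lit 8979851124991577088), .ofNat (nat_lit 0), .ofNat (nat_lit 0)],
  [],
  [.negSucc (nat_lit 4852177380482752511), .negSucc (nat_lit 2702986054822204415), .ofNat (nat_lit 0)],
  [.ofNat (nat_lit 8979851124991577088), .ofNat (nat_lit 0), .ofNat (nat_lit 0)],
  [],
  [],
  []],
  [[.negSucc (nat_lit 2541047670256333823), .ofNat (nat_lit 687548074833552384), .ofNat (nat_lit 0)],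
  [.ofNat (nat_lit 4882501757992928256), .ofNat (nat_lit 0), .ofNat (nat_lit 0)],
  [],
  [],
  [.ofNat (nat_lit 2541047670256333824), .negSucc (nat_lit 687548074833552383), .ofNat (nat_lit 0)],
  [.negSucc (nat_lit 4882501757992928255), .ofNat (nat_lit 0), .ofNat (nat_lit 0)],
  [],
  []],
  [[.ofNat (nat_lit 986423503321211904), .ofNat (nat_lit 975799289011921920), .ofNat (nat_lit 0)],
  [.negSucc (nat_lit 741587273149676543), .ofNat (nat_lit 0), .ofNat (nat_lit 0)],
  [],
  [],
  [.negSucc (nat_lit 986423503321211903), .negSucc (nat_lit 975799289011921919), .ofNat (nat_lit 0)],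
  [.ofNat (nat_lit 741587273149676544), .ofNat (nat_lit 0), .ofNat (nat_lit 0)],
  [],
  []],
  [[.ofNat (nat_lit 1935282957182650368), .negSucc (nat_lit 193792130342396927), .ofNat (nat_lit 0)],
  [.negSucc (nat_lit 4227302866602157055), .ofNat (nat_lit 0), .ofNat (nat_lit 0)],
  [],
  [],
  [],
  [.ofNat (nat_lit 1935282957182650368), .negSucc (nat_lit 193792130342396927), .ofNat (nat_lit 0)],
  [.negSucc (nat_lit 4227302866602157055), .ofNat (nat_lit 0), .ofNat (nat_lit 0)],
  []],
  [[],
  [],
  [],
  [],
  [],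
  [],
  [],
  []],
  [[],
  [],
  [],
  [],
  [],
  [],
  [],
  []]],
  [],
  [],
  [],
  [],
  [],
  [],
  [],
  [],
  []],
  [[],
  [],
  [],
  [],
  [],
  [],
  [],
  [],
  [],
  []],
  [[],
  [[[.ofNat (nat_lit 9122865250483620864), .ofNat (nat_lit 14317419007356604416), .negSucc (nat_lit 2571929640173758463)],
  [.negSucc (nat_lit 16199604680272229375), .negSucc (nat_lit 35884404736908807167), .ofNat (nat_lit 0)],
  [],
  [],
  [],
  [],
  [],
  []],
  [[.negSucc (nat_lit 50395223903573670911), .negSucc (nat_lit 3122659554855796223), .ofNat (nat_lit 0)],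
  [.ofNat (nat_lit 101083675917583107072), .ofNat (nat_lit 0), .ofNat (nat_lit 0)],
  [],
  [],
  [],
  [],
  [],
  []],
  [[],
  [.ofNat (nat_lit 5566533929081192448), .negSucc (nat_lit 11690408353237650431), .ofNat (nat_lit 0)],
  [.negSucc (nat_lit 22773209551095407615), .ofNat (nat_lit 0), .ofNat (nat_lit 0)],
  [],
  [],
  [],
  [],
  []],
  [[],
  [],
  [.ofNat (nat_lit 80181461570375755008), .ofNat (nat_lit 10095607692515725056), .ofNat (nat_lit 0)],
  [.negSucc (nat_lit 152239847080959196415), .ofNat (nat_lit 0), .ofNat (nat_lit 0)],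
  [],
  [],
  [],
  []],
  [[],
  [],
  [],
  [.negSucc (nat_lit 3177315481174571519), .ofNat (nat_lit 29575480337896066560), .ofNat (nat_lit 0)],
  [.ofNat (nat_lit 24554921114677317120), .ofNat (nat_lit 0), .ofNat (nat_lit 0)],
  [],
  [],
  []],
  [[],
  [],
  [],
  [],
  [.negSucc (nat_lit 63762129125325896831), .negSucc (nat_lit 2991012948714024575), .ofNat (nat_lit 0)],
  [.ofNat (nat_lit 122226564406879870848), .ofNat (nat_lit 0), .ofNat (nat_lit 0)],
  [],
  []],
  [[],
  [],
  [],
  [],
  [.negSucc (nat_lit 12353488800843432959), .ofNat (nat_lit 4600213637259598848), .ofNat (nat_lit 0)],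
  [.ofNat (nat_lit 41704806869129788416), .ofNat (nat_lit 0), .ofNat (nat_lit 0)],
  [],
  []],
  [[],
  [],
  [],
  [],
  [],
  [.negSucc (nat_lit 21344861268384975359), .negSucc (nat_lit 18253998542134798847), .ofNat (nat_lit 0)],
  [.ofNat (nat_lit 32050792213075814400), .ofNat (nat_lit 0), .ofNat (nat_lit 0)],
  []],
  [[],
  [],
  [],
  [],
  [],
  [],
  [.negSucc (nat_lit 1734956561472883199), .negSucc (nat_lit 1685395853895541247), .ofNat (nat_lit 0)],
  [.ofNat (nat_lit 7026336955359106560), .ofNat (nat_lit 0), .ofNat (nat_lit 0)]],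
  [[],
  [],
  [],
  [],
  [],
  [],
  [.ofNat (nat_lit 20759734530547094016), .negSucc (nat_lit 5974672240064696831), .ofNat (nat_lit 0)],
  [.negSucc (nat_lit 58325661474650187263), .ofNat (nat_lit 0), .ofNat (nat_lit 0)]]],
  [],
  [],
  [],
  [],
  [],
  [],
  [],
  []],
  [[],
  [],
  [[[.ofNat (nat_lit 2529199001359964160), .negSucc (nat_lit 18883018445592351743), .ofNat (nat_lit 13459154035163848704)],
  [.negSucc (nat_lit 10204357952731004927), .ofNat (nat_lit 23317416335870005248), .ofNat (nat_lit 0)],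
  [],
  [],
  [],
  [],
  [],
  []],
  [[.ofNat (nat_lit 8863392346224537600), .negSucc (nat_lit 1768745681926198271), .ofNat (nat_lit 0)],
  [.negSucc (nat_lit 544206784774597631), .ofNat (nat_lit 0), .ofNat (nat_lit 0)],
  [],
  [],
  [],
  [],
  [],
  []],
  [[],
  [.negSucc (nat_lit 53076939092667270143), .negSucc (nat_lit 2767357422354604031), .ofNat (nat_lit 0)],
  [.ofNat (nat_lit 141813588819942706176), .ofNat (nat_lit 0), .ofNat (nat_lit 0)],
  [],
  [],
  [],
  [],
  []],
  [[],
  [],
  [.ofNat (nat_lit 62589153765920223744), .negSucc (nat_lit 24617124115478830079), .ofNat (nat_lit 0)],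
  [.negSucc (nat_lit 133815281560029379583), .ofNat (nat_lit 0), .ofNat (nat_lit 0)],
  [],
  [],
  [],
  []],
  [[],
  [],
  [],
  [.ofNat (nat_lit 261214300327433552640), .ofNat (nat_lit 7623851636976346368), .ofNat (nat_lit 0)],
  [.negSucc (nat_lit 649735403700844723967), .ofNat (nat_lit 0), .ofNat (nat_lit 0)],
  [],
  [],
  []],
  [[],
  [],
  [],
  [],
  [.negSucc (nat_lit 75733265601749385215), .ofNat (nat_lit 20501648343235671552), .ofNat (nat_lit 0)],
  [.ofNat (nat_lit 151514606189999220480), .ofNat (nat_lit 0), .ofNat (nat_lit 0)],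
  [],
  []],
  [[],
  [],
  [],
  [],
  [.ofNat (nat_lit 116016891473403016704), .negSucc (nat_lit 6013123640908526591), .ofNat (nat_lit 0)],
  [.negSucc (nat_lit 271527338594691878399), .ofNat (nat_lit 0), .ofNat (nat_lit 0)],
  [],
  []],
  [[],
  [],
  [],
  [],
  [],
  [.negSucc (nat_lit 295941871475198960255), .negSucc (nat_lit 5596374054101397119), .ofNat (nat_lit 0)],
  [.ofNat (nat_lit 723111842351333708928), .ofNat (nat_lit 0), .ofNat (nat_lit 0)],
  []],
  [[],
  [],
  [],
  [],
  [],
  [],
  [.negSucc (nat_lit 5204869684418649599), .negSucc (nat_lit 5056187561686623743), .ofNat (nat_lit 0)],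
  [.ofNat (nat_lit 21079010866077319680), .ofNat (nat_lit 0), .ofNat (nat_lit 0)]],
  [[],
  [],
  [],
  [],
  [],
  [],
  [.negSucc (nat_lit 180259305052594023935), .negSucc (nat_lit 141046000025421311), .ofNat (nat_lit 0)],
  [.ofNat (nat_lit 436566148556291108352), .ofNat (nat_lit 0), .ofNat (nat_lit 0)]]],
  [],
  [],
  [],
  [],
  [],
  [],
  []],
  [[],
  [],
  [],
  [[[.negSucc (nat_lit 10935330861229286399), .negSucc (nat_lit 31677898287520143359), .ofNat (nat_lit 5695561026487305216)],
  [.ofNat (nat_lit 22849635117558822912), .ofNat (nat_lit 60768159260856689664), .ofNat (nat_lit 0)],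
  [],
  [],
  [],
  [],
  [],
  []],
  [[.ofNat (nat_lit 112705616953119340800), .ofNat (nat_lit 4400046666028419840), .ofNat (nat_lit 0)],
  [.negSucc (nat_lit 213008006341815886079), .ofNat (nat_lit 0), .ofNat (nat_lit 0)],
  [],
  [],
  [],
  [],
  [],
  []],
  [[],
  [.negSucc (nat_lit 62589153765920223743), .ofNat (nat_lit 24617124115478830080), .ofNat (nat_lit 0)],
  [.ofNat (nat_lit 133815281560029379584), .ofNat (nat_lit 0), .ofNat (nat_lit 0)],
  [],
  [],
  [],
  [],
  []],
  [[],
  [],
  [.negSucc (nat_lit 266316818507884526975), .negSucc (nat_lit 32122853119858331519), .ofNat (nat_lit 0)],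
  [.ofNat (nat_lit 525132759270200084352), .ofNat (nat_lit 0), .ofNat (nat_lit 0)],
  [],
  [],
  [],
  []],
  [[],
  [],
  [],
  [.ofNat (nat_lit 152060770423053938304), .negSucc (nat_lit 38615091418142913023), .ofNat (nat_lit 0)],
  [.negSucc (nat_lit 429140280860516271743), .ofNat (nat_lit 0), .ofNat (nat_lit 0)],
  [],
  [],
  []],
  [[],
  [],
  [],
  [],
  [.ofNat (nat_lit 232789220923561665984), .ofNat (nat_lit 29199969933493432320), .ofNat (nat_lit 0)],
  [.negSucc (nat_lit 477436921063208087615), .ofNat (nat_lit 0), .ofNat (nat_lit 0)],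
  [],
  []],
  [[],
  [],
  [],
  [],
  [.ofNat (nat_lit 105203110579824883968), .negSucc (nat_lit 1654842713421277439), .ofNat (nat_lit 0)],
  [.negSucc (nat_lit 287787037362963837695), .ofNat (nat_lit 0), .ofNat (nat_lit 0)],
  [],
  []],
  [[],
  [],
  [],
  [],
  [],
  [.negSucc (nat_lit 96287782266977201279), .ofNat (nat_lit 17967383559956359296), .ofNat (nat_lit 0)],
  [.ofNat (nat_lit 346062027546786078720), .ofNat (nat_lit 0), .ofNat (nat_lit 0)],
  []],
  [[],
  [],
  [],
  [],
  [],
  [],
  [.ofNat (nat_lit 56065910767917107040), .negSucc (nat_lit 7011303893821588319), .ofNat (nat_lit 0)],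
  [.negSucc (nat_lit 131737835862421703711), .ofNat (nat_lit 0), .ofNat (nat_lit 0)]],
  [[],
  [],
  [],
  [],
  [],
  [],
  [.negSucc (nat_lit 314048656181629861631), .ofNat (nat_lit 4693190641646757120), .ofNat (nat_lit 0)],
  [.ofNat (nat_lit 808574685991509507840), .ofNat (nat_lit 0), .ofNat (nat_lit 0)]]],
  [],
  [],
  [],
  [],
  [],
  []],
  [[],
  [],
  [],
  [],
  [[[.ofNat (nat_lit 581867740729810944), .ofNat (nat_lit 70895186132772547584), .negSucc (nat_lit 33941457054020155391)],
  [.ofNat (nat_lit 2680117853582490624), .negSucc (nat_lit 98663527865583922175), .ofNat (nat_lit 0)],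
  [],
  [],
  [],
  [],
  [],
  []],
  [[.negSucc (nat_lit 66462028564346021375), .ofNat (nat_lit 4365976716124088832), .ofNat (nat_lit 0)],
  [.ofNat (nat_lit 74108606750906605056), .ofNat (nat_lit 0), .ofNat (nat_lit 0)],
  [],
  [],
  [],
  [],
  [],
  []],
  [[],
  [.ofNat (nat_lit 261214300327433552640), .ofNat (nat_lit 7623851636976346368), .ofNat (nat_lit 0)],
  [.negSucc (nat_lit 649735403700844723967), .ofNat (nat_lit 0), .ofNat (nat_lit 0)],
  [],
  [],
  [],
  [],
  []],
  [[],
  [],
  [.negSucc (nat_lit 152060770423053938303), .ofNat (nat_lit 38615091418142913024), .ofNat (nat_lit 0)],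
  [.ofNat (nat_lit 429140280860516271744), .ofNat (nat_lit 0), .ofNat (nat_lit 0)],
  [],
  [],
  [],
  []],
  [[],
  [],
  [],
  [.negSucc (nat_lit 1087290635732804123135), .negSucc (nat_lit 2730143857239647999), .ofNat (nat_lit 0)],
  [.ofNat (nat_lit 2804408652972489734016), .ofNat (nat_lit 0), .ofNat (nat_lit 0)],
  [],
  [],
  []],
  [[],
  [],
  [],
  [],
  [.ofNat (nat_lit 246473620042905028224), .negSucc (nat_lit 3493025187326130239), .ofNat (nat_lit 0)],
  [.negSucc (nat_lit 644832332965661666111), .ofNat (nat_lit 0), .ofNat (nat_lit 0)],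
  [],
  []],
  [[],
  [],
  [],
  [],
  [.negSucc (nat_lit 517905407985931554047), .ofNat (nat_lit 29361926473614832896), .ofNat (nat_lit 0)],
  [.ofNat (nat_lit 1237422230472120648192), .ofNat (nat_lit 0), .ofNat (nat_lit 0)],
  [],
  []],
  [[],
  [],
  [],
  [],
  [],
  [.ofNat (nat_lit 1393731369777490674048), .negSucc (nat_lit 18746641339996919039), .ofNat (nat_lit 0)],
  [.negSucc (nat_lit 3536646850024207707455), .ofNat (nat_lit 0), .ofNat (nat_lit 0)],
  []],
  [[],
  [],
  [],
  [],
  [],
  [],
  [.ofNat (nat_lit 116469212939516422080), .negSucc (nat_lit 9809118152904323519), .ofNat (nat_lit 0)],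
  [.negSucc (nat_lit 281041514113241173823), .ofNat (nat_lit 0), .ofNat (nat_lit 0)]],
  [[],
  [],
  [],
  [],
  [],
  [],
  [.ofNat (nat_lit 786010260375986214528), .negSucc (nat_lit 29578874288188642559), .ofNat (nat_lit 0)],
  [.negSucc (nat_lit 1944844145032139644031), .ofNat (nat_lit 0), .ofNat (nat_lit 0)]]],
  [],
  [],
  [],
  [],
  []],
  [[],
  [],
  [],
  [],
  [],
  [[[.ofNat (nat_lit 4068711832795499520), .ofNat (nat_lit 19592171338410233856), .negSucc (nat_lit 6138512509739544575)],
  [.negSucc (nat_lit 8013858909658647551), .negSucc (nat_lit 32174886931394052095), .ofNat (nat_lit 0)],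
  [],
  [],
  [],
  [],
  [],
  []],
  [[.negSucc (nat_lit 83640463886316949631), .ofNat (nat_lit 3147499561025520000), .ofNat (nat_lit 0)],
  [.ofNat (nat_lit 154401451338273922944), .ofNat (nat_lit 0), .ofNat (nat_lit 0)],
  [],
  [],
  [],
  [],
  [],
  []],
  [[],
  [.ofNat (nat_lit 75733265601749385216), .negSucc (nat_lit 20501648343235671551), .ofNat (nat_lit 0)],
  [.negSucc (nat_lit 151514606189999220479), .ofNat (nat_lit 0), .ofNat (nat_lit 0)],
  [],
  [],
  [],
  [],
  []],
  [[],
  [],
  [.ofNat (nat_lit 232789220923561665984), .ofNat (nat_lit 29199969933493432320), .ofNat (nat_lit 0)],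
  [.negSucc (nat_lit 477436921063208087615), .ofNat (nat_lit 0), .ofNat (nat_lit 0)],
  [],
  [],
  [],
  []],
  [[],
  [],
  [],
  [.negSucc (nat_lit 246473620042905028223), .ofNat (nat_lit 3493025187326130240), .ofNat (nat_lit 0)],
  [.ofNat (nat_lit 644832332965661666112), .ofNat (nat_lit 0), .ofNat (nat_lit 0)],
  [],
  [],
  []],
  [[],
  [],
  [],
  [],
  [.negSucc (nat_lit 285968956198720098527), .negSucc (nat_lit 28616041645571044511), .ofNat (nat_lit 0)],
  [.ofNat (nat_lit 617771940367678471584), .ofNat (nat_lit 0), .ofNat (nat_lit 0)],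
  [],
  []],
  [[],
  [],
  [],
  [],
  [.negSucc (nat_lit 216318043828834945919), .ofNat (nat_lit 8426860283708831232), .ofNat (nat_lit 0)],
  [.ofNat (nat_lit 534927520734961781376), .ofNat (nat_lit 0), .ofNat (nat_lit 0)],
  [],
  []],
  [[],
  [],
  [],
  [],
  [],
  [.ofNat (nat_lit 270152348202102620736), .negSucc (nat_lit 3209688276850626911), .ofNat (nat_lit 0)],
  [.negSucc (nat_lit 787124511335137087583), .ofNat (nat_lit 0), .ofNat (nat_lit 0)],
  []],
  [[],
  [],
  [],
  [],
  [],
  [],
  [.negSucc (nat_lit 92152758976654456799), .ofNat (nat_lit 1896291638960756400), .ofNat (nat_lit 0)],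
  [.ofNat (nat_lit 230663627131198628736), .ofNat (nat_lit 0), .ofNat (nat_lit 0)]],
  [[],
  [],
  [],
  [],
  [],
  [],
  [.ofNat (nat_lit 625490269378966164672), .negSucc (nat_lit 21473477939235159935), .ofNat (nat_lit 0)],
  [.negSucc (nat_lit 1549701363165138122687), .ofNat (nat_lit 0), .ofNat (nat_lit 0)]]],
  [[[.ofNat (nat_lit 163167389049056256), .negSucc (nat_lit 9505038323689878527), .ofNat (nat_lit 12408126416947077120)],
  [.negSucc (nat_lit 2598781256978485247), .negSucc (nat_lit 2085794696222972927), .ofNat (nat_lit 0)],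
  [],
  [],
  [],
  [],
  [],
  []],
  [[.negSucc (nat_lit 3449968203617768447), .negSucc (nat_lit 7807912779687478271), .ofNat (nat_lit 0)],
  [.ofNat (nat_lit 43790601565352761344), .ofNat (nat_lit 0), .ofNat (nat_lit 0)],
  [],
  [],
  [],
  [],
  [],
  []],
  [[],
  [.negSucc (nat_lit 116016891473403016703), .ofNat (nat_lit 6013123640908526592), .ofNat (nat_lit 0)],
  [.ofNat (nat_lit 271527338594691878400), .ofNat (nat_lit 0), .ofNat (nat_lit 0)],
  [],
  [],
  [],
  [],
  []],
  [[],
  [],
  [.ofNat (nat_lit 105203110579824883968), .negSucc (nat_lit 1654842713421277439), .ofNat (nat_lit 0)],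
  [.negSucc (nat_lit 287787037362963837695), .ofNat (nat_lit 0), .ofNat (nat_lit 0)],
  [],
  [],
  [],
  []],
  [[],
  [],
  [],
  [.ofNat (nat_lit 517905407985931554048), .negSucc (nat_lit 29361926473614832895), .ofNat (nat_lit 0)],
  [.negSucc (nat_lit 1237422230472120648191), .ofNat (nat_lit 0), .ofNat (nat_lit 0)],
  [],
  [],
  []],
  [[],
  [],
  [],
  [],
  [.negSucc (nat_lit 216318043828834945919), .ofNat (nat_lit 8426860283708831232), .ofNat (nat_lit 0)],
  [.ofNat (nat_lit 534927520734961781376), .ofNat (nat_lit 0), .ofNat (nat_lit 0)],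
  [],
  []],
  [[],
  [],
  [],
  [],
  [.ofNat (nat_lit 172838403265994210304), .negSucc (nat_lit 19903073477916496895), .ofNat (nat_lit 0)],
  [.negSucc (nat_lit 387474287696629466111), .ofNat (nat_lit 0), .ofNat (nat_lit 0)],
  [],
  []],
  [[],
  [],
  [],
  [],
  [],
  [.negSucc (nat_lit 518128157335170887423), .ofNat (nat_lit 23639585639242660992), .ofNat (nat_lit 0)],
  [.ofNat (nat_lit 1240907794057749997440), .ofNat (nat_lit 0), .ofNat (nat_lit 0)],
  []],
  [[],
  [],
  [],
  [],
  [],
  [],
  [.ofNat (nat_lit 99404605633255418880), .negSucc (nat_lit 3741721605894167999), .ofNat (nat_lit 0)],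
  [.negSucc (nat_lit 246754422503148014207), .ofNat (nat_lit 0), .ofNat (nat_lit 0)]],
  [[],
  [],
  [],
  [],
  [],
  [],
  [.negSucc (nat_lit 414488979712720348415), .ofNat (nat_lit 9612196871191345152), .ofNat (nat_lit 0)],
  [.ofNat (nat_lit 1016072247292885769472), .ofNat (nat_lit 0), .ofNat (nat_lit 0)]]],
  [],
  [],
  []],
  [[],
  [],
  [],
  [],
  [],
  [],
  [],
  [[[.negSucc (nat_lit 1865804444777493503), .negSucc (nat_lit 66162694587270230015), .ofNat (nat_lit 25421252434635598848)],
  [.ofNat (nat_lit 3489465167512160256), .ofNat (nat_lit 104638905193437490176), .ofNat (nat_lit 0)],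
  [],
  [],
  [],
  [],
  [],
  []],
  [[.ofNat (nat_lit 87661164523700685312), .negSucc (nat_lit 7167253892500799999), .ofNat (nat_lit 0)],
  [.negSucc (nat_lit 136689697406513304575), .ofNat (nat_lit 0), .ofNat (nat_lit 0)],
  [],
  [],
  [],
  [],
  [],
  []],
  [[],
  [.negSucc (nat_lit 295941871475198960255), .negSucc (nat_lit 5596374054101397119), .ofNat (nat_lit 0)],
  [.ofNat (nat_lit 723111842351333708928), .ofNat (nat_lit 0), .ofNat (nat_lit 0)],
  [],
  [],
  [],
  [],
  []],
  [[],
  [],
  [.ofNat (nat_lit 96287782266977201280), .negSucc (nat_lit 17967383559956359295), .ofNat (nat_lit 0)],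
  [.negSucc (nat_lit 346062027546786078719), .ofNat (nat_lit 0), .ofNat (nat_lit 0)],
  [],
  [],
  [],
  []],
  [[],
  [],
  [],
  [.ofNat (nat_lit 1393731369777490674048), .negSucc (nat_lit 18746641339996919039), .ofNat (nat_lit 0)],
  [.negSucc (nat_lit 3536646850024207707455), .ofNat (nat_lit 0), .ofNat (nat_lit 0)],
  [],
  [],
  []],
  [[],
  [],
  [],
  [],
  [.negSucc (nat_lit 270152348202102620735), .ofNat (nat_lit 3209688276850626912), .ofNat (nat_lit 0)],
  [.ofNat (nat_lit 787124511335137087584), .ofNat (nat_lit 0), .ofNat (nat_lit 0)],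
  [],
  []],
  [[],
  [],
  [],
  [],
  [.ofNat (nat_lit 518128157335170887424), .negSucc (nat_lit 23639585639242660991), .ofNat (nat_lit 0)],
  [.negSucc (nat_lit 1240907794057749997439), .ofNat (nat_lit 0), .ofNat (nat_lit 0)],
  [],
  []],
  [[],
  [],
  [],
  [],
  [],
  [.negSucc (nat_lit 1654604340685408786463), .ofNat (nat_lit 84293066770607801376), .ofNat (nat_lit 0)],
  [.ofNat (nat_lit 4123289668427510820480), .ofNat (nat_lit 0), .ofNat (nat_lit 0)],
  []],
  [[],
  [],
  [],
  [],
  [],
  [],
  [.negSucc (nat_lit 71784628965089963279), .ofNat (nat_lit 2267035892502810624), .ofNat (nat_lit 0)],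
  [.ofNat (nat_lit 178425086527354803408), .ofNat (nat_lit 0), .ofNat (nat_lit 0)]],
  [[],
  [],
  [],
  [],
  [],
  [],
  [.negSucc (nat_lit 1049768423030030132159), .ofNat (nat_lit 35657416055898167040), .ofNat (nat_lit 0)],
  [.ofNat (nat_lit 2622826050417010618560), .ofNat (nat_lit 0), .ofNat (nat_lit 0)]]],
  [],
  []],
  [[],
  [],
  [],
  [],
  [],
  [],
  [],
  [],
  [[[.ofNat (nat_lit 0), .ofNat (nat_lit 4578548164628438016), .ofNat (nat_lit 2184308074957824)],
  [.ofNat (nat_lit 0), .negSucc (nat_lit 11394847182409150463), .ofNat (nat_lit 0)],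
  [],
  [],
  [],
  [],
  [],
  []],
  [[.negSucc (nat_lit 6313504726101321215), .negSucc (nat_lit 1687580161970499071), .ofNat (nat_lit 0)],
  [.ofNat (nat_lit 18421184137768257024), .ofNat (nat_lit 0), .ofNat (nat_lit 0)],
  [],
  [],
  [],
  [],
  [],
  []],
  [[],
  [.ofNat (nat_lit 5204869684418649600), .ofNat (nat_lit 5056187561686623744), .ofNat (nat_lit 0)],
  [.negSucc (nat_lit 21079010866077319679), .ofNat (nat_lit 0), .ofNat (nat_lit 0)],
  [],
  [],
  [],
  [],
  []],
  [[],
  [],
  [.ofNat (nat_lit 56065910767917107040), .negSucc (nat_lit 7011303893821588319), .ofNat (nat_lit 0)],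
  [.negSucc (nat_lit 131737835862421703711), .ofNat (nat_lit 0), .ofNat (nat_lit 0)],
  [],
  [],
  [],
  []],
  [[],
  [],
  [],
  [.negSucc (nat_lit 116469212939516422079), .ofNat (nat_lit 9809118152904323520), .ofNat (nat_lit 0)],
  [.ofNat (nat_lit 281041514113241173824), .ofNat (nat_lit 0), .ofNat (nat_lit 0)],
  [],
  [],
  []],
  [[],
  [],
  [],
  [],
  [.negSucc (nat_lit 92152758976654456799), .ofNat (nat_lit 1896291638960756400), .ofNat (nat_lit 0)],
  [.ofNat (nat_lit 230663627131198628736), .ofNat (nat_lit 0), .ofNat (nat_lit 0)],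
  [],
  []],
  [[],
  [],
  [],
  [],
  [.ofNat (nat_lit 99404605633255418880), .negSucc (nat_lit 3741721605894167999), .ofNat (nat_lit 0)],
  [.negSucc (nat_lit 246754422503148014207), .ofNat (nat_lit 0), .ofNat (nat_lit 0)],
  [],
  []],
  [[],
  [],
  [],
  [],
  [],
  [.ofNat (nat_lit 71784628965089963280), .negSucc (nat_lit 2267035892502810623), .ofNat (nat_lit 0)],
  [.negSucc (nat_lit 178425086527354803407), .ofNat (nat_lit 0), .ofNat (nat_lit 0)],
  []],
  [[],
  [],
  [],
  [],
  [],
  [],
  [.ofNat (nat_lit 7911028220757680232), .negSucc (nat_lit 795728307206615831), .ofNat (nat_lit 0)],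
  [.negSucc (nat_lit 1521378017489833919), .ofNat (nat_lit 0), .ofNat (nat_lit 0)]],
  [[],
  [],
  [],
  [],
  [],
  [],
  [.negSucc (nat_lit 25289962922201437727), .ofNat (nat_lit 1347506579268468288), .ofNat (nat_lit 0)],
  [.ofNat (nat_lit 49162243626661951008), .ofNat (nat_lit 0), .ofNat (nat_lit 0)]]],
  [[[.ofNat (nat_lit 0), .ofNat (nat_lit 24847106365279060992), .negSucc (nat_lit 14214516240575665151)],
  [.ofNat (nat_lit 0), .negSucc (nat_lit 29548818952286542847), .ofNat (nat_lit 0)],
  [],
  [],
  [],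
  [],
  [],
  []],
  [[.negSucc (nat_lit 4087371834731966975), .ofNat (nat_lit 8239844000510968320), .ofNat (nat_lit 0)],
  [.negSucc (nat_lit 28776842522363644415), .ofNat (nat_lit 0), .ofNat (nat_lit 0)],
  [],
  [],
  [],
  [],
  [],
  []],
  [[],
  [.ofNat (nat_lit 180259305052594023936), .ofNat (nat_lit 141046000025421312), .ofNat (nat_lit 0)],
  [.negSucc (nat_lit 436566148556291108351), .ofNat (nat_lit 0), .ofNat (nat_lit 0)],
  [],
  [],
  [],
  [],
  []],
  [[],
  [],
  [.negSucc (nat_lit 314048656181629861631), .ofNat (nat_lit 4693190641646757120), .ofNat (nat_lit 0)],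
  [.ofNat (nat_lit 808574685991509507840), .ofNat (nat_lit 0), .ofNat (nat_lit 0)],
  [],
  [],
  [],
  []],
  [[],
  [],
  [],
  [.negSucc (nat_lit 786010260375986214527), .ofNat (nat_lit 29578874288188642560), .ofNat (nat_lit 0)],
  [.ofNat (nat_lit 1944844145032139644032), .ofNat (nat_lit 0), .ofNat (nat_lit 0)],
  [],
  [],
  []],
  [[],
  [],
  [],
  [],
  [.ofNat (nat_lit 625490269378966164672), .negSucc (nat_lit 21473477939235159935), .ofNat (nat_lit 0)],
  [.negSucc (nat_lit 1549701363165138122687), .ofNat (nat_lit 0), .ofNat (nat_lit 0)],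
  [],
  []],
  [[],
  [],
  [],
  [],
  [.negSucc (nat_lit 414488979712720348415), .ofNat (nat_lit 9612196871191345152), .ofNat (nat_lit 0)],
  [.ofNat (nat_lit 1016072247292885769472), .ofNat (nat_lit 0), .ofNat (nat_lit 0)],
  [],
  []],
  [[],
  [],
  [],
  [],
  [],
  [.ofNat (nat_lit 1049768423030030132160), .negSucc (nat_lit 35657416055898167039), .ofNat (nat_lit 0)],
  [.negSucc (nat_lit 2622826050417010618559), .ofNat (nat_lit 0), .ofNat (nat_lit 0)],
  []],
  [[],
  [],
  [],
  [],
  [],
  [],
  [.negSucc (nat_lit 25289962922201437727), .ofNat (nat_lit 1347506579268468288), .ofNat (nat_lit 0)],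
  [.ofNat (nat_lit 49162243626661951008), .ofNat (nat_lit 0), .ofNat (nat_lit 0)]],
  [[],
  [],
  [],
  [],
  [],
  [],
  [.ofNat (nat_lit 439572498328350017280), .negSucc (nat_lit 17250570397293880319), .ofNat (nat_lit 0)],
  [.negSucc (nat_lit 1048911991775139628799), .ofNat (nat_lit 0), .ofNat (nat_lit 0)]]]]],
  [[[[[.ofNat (nat_lit 4435527616896190464), .ofNat (nat_lit 10376982110616477696), .negSucc (nat_lit 2006740566958952447)],
  [.negSucc (nat_lit 2745933323670521855), .negSucc (nat_lit 33810482864202605567), .ofNat (nat_lit 0)],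
  [],
  [],
  [],
  [],
  [],
  []],
  [[.negSucc (nat_lit 24336709840939557887), .ofNat (nat_lit 2817668299943393280), .ofNat (nat_lit 0)],
  [.ofNat (nat_lit 50010087544474834944), .ofNat (nat_lit 0), .ofNat (nat_lit 0)],
  [],
  [],
  [],
  [],
  [],
  []],
  [[],
  [.ofNat (nat_lit 2529199001359964160), .negSucc (nat_lit 4453092170286621695), .ofNat (nat_lit 0)],
  [.negSucc (nat_lit 10204357952731004927), .ofNat (nat_lit 0), .ofNat (nat_lit 0)],
  [],
  [],
  [],
  [],
  []],
  [[],
  [],
  [.ofNat (nat_lit 10935330861229286400), .negSucc (nat_lit 846257095223442431), .ofNat (nat_lit 0)],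
  [.negSucc (nat_lit 22849635117558822911), .ofNat (nat_lit 0), .ofNat (nat_lit 0)],
  [],
  [],
  [],
  []],
  [[],
  [],
  [],
  [.ofNat (nat_lit 581867740729810944), .ofNat (nat_lit 1255842087251954688), .ofNat (nat_lit 0)],
  [.ofNat (nat_lit 2680117853582490624), .ofNat (nat_lit 0), .ofNat (nat_lit 0)],
  [],
  [],
  []],
  [[],
  [],
  [],
  [],
  [.negSucc (nat_lit 4068711832795499519), .ofNat (nat_lit 286163422580818944), .ofNat (nat_lit 0)],
  [.ofNat (nat_lit 8013858909658647552), .ofNat (nat_lit 0), .ofNat (nat_lit 0)],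
  [],
  []],
  [[],
  [],
  [],
  [],
  [.negSucc (nat_lit 163167389049056255), .ofNat (nat_lit 601517726464214016), .ofNat (nat_lit 0)],
  [.ofNat (nat_lit 2598781256978485248), .ofNat (nat_lit 0), .ofNat (nat_lit 0)],
  [],
  []],
  [[],
  [],
  [],
  [],
  [],
  [.negSucc (nat_lit 1865804444777493503), .ofNat (nat_lit 153608668045479936), .ofNat (nat_lit 0)],
  [.ofNat (nat_lit 3489465167512160256), .ofNat (nat_lit 0), .ofNat (nat_lit 0)],
  []],
  [[],
  [],
  [],
  [],
  [],
  [],
  [],
  []],
  [[],
  [],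
  [],
  [],
  [],
  [],
  [],
  []]],
  [],
  [],
  [],
  [],
  [],
  [],
  [],
  [],
  []],
  [[],
  [],
  [],
  [],
  [],
  [],
  [],
  [],
  [],
  []],
  [[],
  [[[.negSucc (nat_lit 7782113161302515711), .negSucc (nat_lit 89611810255846545407), .ofNat (nat_lit 11997574285133306880)],
  [.ofNat (nat_lit 15166603592814440448), .ofNat (nat_lit 203101399899313035264), .ofNat (nat_lit 0)],
  [],
  [],
  [],
  [],
  [],
  []],
  [[.ofNat (nat_lit 129482261847178062336), .negSucc (nat_lit 2428790021659431935), .ofNat (nat_lit 0)],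
  [.negSucc (nat_lit 271986668851491426815), .ofNat (nat_lit 0), .ofNat (nat_lit 0)],
  [],
  [],
  [],
  [],
  [],
  []],
  [[],
  [.negSucc (nat_lit 58124314736561415167), .ofNat (nat_lit 22578600973745894400), .ofNat (nat_lit 0)],
  [.ofNat (nat_lit 148931690423030498304), .ofNat (nat_lit 0), .ofNat (nat_lit 0)],
  [],
  [],
  [],
  [],
  []],
  [[],
  [],
  [.negSucc (nat_lit 77544920300954155775), .negSucc (nat_lit 6900776710276038911), .ofNat (nat_lit 0)],
  [.ofNat (nat_lit 137983284434773260288), .ofNat (nat_lit 0), .ofNat (nat_lit 0)],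
  [],
  [],
  [],
  []],
  [[],
  [],
  [],
  [.ofNat (nat_lit 89416969454656742400), .negSucc (nat_lit 23338089787745567231), .ofNat (nat_lit 0)],
  [.negSucc (nat_lit 247097611973069125631), .ofNat (nat_lit 0), .ofNat (nat_lit 0)],
  [],
  [],
  []],
  [[],
  [],
  [],
  [],
  [.ofNat (nat_lit 54892060815111410304), .ofNat (nat_lit 57039754520186496), .ofNat (nat_lit 0)],
  [.negSucc (nat_lit 104586722584176973823), .ofNat (nat_lit 0), .ofNat (nat_lit 0)],
  [],
  []],
  [[],
  [],
  [],
  [],
  [.ofNat (nat_lit 12238199577765061632), .negSucc (nat_lit 4613832220137311231), .ofNat (nat_lit 0)],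
  [.negSucc (nat_lit 42219108110395957247), .ofNat (nat_lit 0), .ofNat (nat_lit 0)],
  [],
  []],
  [[],
  [],
  [],
  [],
  [],
  [.negSucc (nat_lit 29538288607542206975), .ofNat (nat_lit 6346095598466210304), .ofNat (nat_lit 0)],
  [.ofNat (nat_lit 83867300392023788544), .ofNat (nat_lit 0), .ofNat (nat_lit 0)],
  []],
  [[],
  [],
  [],
  [],
  [],
  [],
  [.negSucc (nat_lit 7412837995807782911), .ofNat (nat_lit 691239006204659712), .ofNat (nat_lit 0)],
  [.ofNat (nat_lit 15702593253804721152), .ofNat (nat_lit 0), .ofNat (nat_lit 0)]],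
  [[],
  [],
  [],
  [],
  [],
  [],
  [.negSucc (nat_lit 17110305768543358463), .ofNat (nat_lit 1843304016545759232), .ofNat (nat_lit 0)],
  [.ofNat (nat_lit 41873582010145923072), .ofNat (nat_lit 0), .ofNat (nat_lit 0)]]],
  [],
  [],
  [],
  [],
  [],
  [],
  [],
  []],
  [[],
  [],
  [[[.negSucc (nat_lit 7924154603781574655), .ofNat (nat_lit 42771819227125561344), .negSucc (nat_lit 49146878466095136767)],
  [.ofNat (nat_lit 20919657404360060928), .negSucc (nat_lit 13458553058474634239), .ofNat (nat_lit 0)],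
  [],
  [],
  [],
  [],
  [],
  []],
  [[.ofNat (nat_lit 20716176966265967616), .ofNat (nat_lit 26568277492349242368), .ofNat (nat_lit 0)],
  [.negSucc (nat_lit 135473137364555864063), .ofNat (nat_lit 0), .ofNat (nat_lit 0)],
  [],
  [],
  [],
  [],
  [],
  []],
  [[],
  [.ofNat (nat_lit 39740950296068345856), .negSucc (nat_lit 4145356433508097535), .ofNat (nat_lit 0)],
  [.negSucc (nat_lit 95362771555386132479), .ofNat (nat_lit 0), .ofNat (nat_lit 0)],
  [],
  [],
  [],
  [],
  []],
  [[],
  [],
  [.negSucc (nat_lit 169497296376086262527), .ofNat (nat_lit 21099710367607873536), .ofNat (nat_lit 0)],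
  [.ofNat (nat_lit 404059469518989020160), .ofNat (nat_lit 0), .ofNat (nat_lit 0)],
  [],
  [],
  [],
  []],
  [[],
  [],
  [],
  [.negSucc (nat_lit 63721609408069267967), .ofNat (nat_lit 236627815505787648), .ofNat (nat_lit 0)],
  [.ofNat (nat_lit 133855873140158493696), .ofNat (nat_lit 0), .ofNat (nat_lit 0)],
  [],
  [],
  []],
  [[],
  [],
  [],
  [],
  [.ofNat (nat_lit 139074974119028717568), .negSucc (nat_lit 8046755426497010687), .ofNat (nat_lit 0)],
  [.negSucc (nat_lit 307901263269122085887), .ofNat (nat_lit 0), .ofNat (nat_lit 0)],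
  [],
  []],
  [[],
  [],
  [],
  [],
  [.negSucc (nat_lit 26580645779505850367), .ofNat (nat_lit 2053388752878449664), .ofNat (nat_lit 0)],
  [.ofNat (nat_lit 41633147230637395968), .ofNat (nat_lit 0), .ofNat (nat_lit 0)],
  [],
  []],
  [[],
  [],
  [],
  [],
  [],
  [.ofNat (nat_lit 30479618700709716096), .ofNat (nat_lit 3738894756053696640), .ofNat (nat_lit 0)],
  [.negSucc (nat_lit 37603696570446481919), .ofNat (nat_lit 0), .ofNat (nat_lit 0)],
  []],
  [[],
  [],
  [],
  [],
  [],
  [],
  [.negSucc (nat_lit 22238513987423348735), .ofNat (nat_lit 2073717018613979136), .ofNat (nat_lit 0)],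
  [.ofNat (nat_lit 47107779761414163456), .ofNat (nat_lit 0), .ofNat (nat_lit 0)]],
  [[],
  [],
  [],
  [],
  [],
  [],
  [.ofNat (nat_lit 2019611038088249856), .ofNat (nat_lit 921652008272879616), .ofNat (nat_lit 0)],
  [.ofNat (nat_lit 20936791005072961536), .ofNat (nat_lit 0), .ofNat (nat_lit 0)]]],
  [],
  [],
  [],
  [],
  [],
  [],
  []],
  [[],
  [],
  [],
  [[[.ofNat (nat_lit 14763721565114800128), .ofNat (nat_lit 283235462164327468032), .ofNat (nat_lit 10258595112145333248)],
  [.negSucc (nat_lit 36673275956453038079), .negSucc (nat_lit 707029345689178586111), .ofNat (nat_lit 0)],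
  [],
  [],
  [],
  [],
  [],
  []],
  [[.negSucc (nat_lit 360970916886837409535), .negSucc (nat_lit 17159371822421372159), .ofNat (nat_lit 0)],
  [.ofNat (nat_lit 845012630123951846400), .ofNat (nat_lit 0), .ofNat (nat_lit 0)],
  [],
  [],
  [],
  [],
  [],
  []],
  [[],
  [.ofNat (nat_lit 169497296376086262528), .negSucc (nat_lit 21099710367607873535), .ofNat (nat_lit 0)],
  [.negSucc (nat_lit 404059469518989020159), .ofNat (nat_lit 0), .ofNat (nat_lit 0)],
  [],
  [],
  [],
  [],
  []],
  [[],
  [],
  [.ofNat (nat_lit 107164139267671906176), .ofNat (nat_lit 21610819447868295936), .ofNat (nat_lit 0)],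
  [.negSucc (nat_lit 121695753078549573119), .ofNat (nat_lit 0), .ofNat (nat_lit 0)],
  [],
  [],
  [],
  []],
  [[],
  [],
  [],
  [.negSucc (nat_lit 252122037566310631295), .ofNat (nat_lit 25641700643771343360), .ofNat (nat_lit 0)],
  [.ofNat (nat_lit 656705162092264353792), .ofNat (nat_lit 0), .ofNat (nat_lit 0)],
  [],
  [],
  []],
  [[],
  [],
  [],
  [],
  [.negSucc (nat_lit 8662905693970932095), .negSucc (nat_lit 11378416616476907327), .ofNat (nat_lit 0)],
  [.negSucc (nat_lit 84367193836777334783), .ofNat (nat_lit 0), .ofNat (nat_lit 0)],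
  [],
  []],
  [[],
  [],
  [],
  [],
  [.ofNat (nat_lit 27111471054213235968), .negSucc (nat_lit 3879765543177377279), .ofNat (nat_lit 0)],
  [.negSucc (nat_lit 50538716666368450559), .ofNat (nat_lit 0), .ofNat (nat_lit 0)],
  [],
  []],
  [[],
  [],
  [],
  [],
  [],
  [.ofNat (nat_lit 62578780702298178048), .negSucc (nat_lit 8226804275914262399), .ofNat (nat_lit 0)],
  [.negSucc (nat_lit 215082187144855280639), .ofNat (nat_lit 0), .ofNat (nat_lit 0)],
  []],
  [[],
  [],
  [],
  [],
  [],
  [],
  [.negSucc (nat_lit 18080272600889268383), .ofNat (nat_lit 1728097515511649280), .ofNat (nat_lit 0)],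
  [.ofNat (nat_lit 39256483134511802880), .ofNat (nat_lit 0), .ofNat (nat_lit 0)]],
  [[],
  [],
  [],
  [],
  [],
  [],
  [.negSucc (nat_lit 18103760783746649855), .ofNat (nat_lit 2304130020682199040), .ofNat (nat_lit 0)],
  [.ofNat (nat_lit 52341977512682403840), .ofNat (nat_lit 0), .ofNat (nat_lit 0)]]],
  [],
  [],
  [],
  [],
  [],
  []],
  [[],
  [],
  [],
  [],
  [[[.ofNat (nat_lit 1081693884898344960), .negSucc (nat_lit 298718457824827118591), .ofNat (nat_lit 67092455795218394112)],
  [.negSucc (nat_lit 6141534954339041279), .ofNat (nat_lit 602617561435787387904), .ofNat (nat_lit 0)],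
  [],
  [],
  [],
  [],
  [],
  []],
  [[.ofNat (nat_lit 208598633926217902080), .negSucc (nat_lit 43754366007472826879), .ofNat (nat_lit 0)],
  [.negSucc (nat_lit 355519949462718262271), .ofNat (nat_lit 0), .ofNat (nat_lit 0)],
  [],
  [],
  [],
  [],
  [],
  []],
  [[],
  [.negSucc (nat_lit 63721609408069267967), .ofNat (nat_lit 236627815505787648), .ofNat (nat_lit 0)],
  [.ofNat (nat_lit 133855873140158493696), .ofNat (nat_lit 0), .ofNat (nat_lit 0)],
  [],
  [],
  [],
  [],
  []],
  [[],
  [],
  [.ofNat (nat_lit 252122037566310631296), .negSucc (nat_lit 25641700643771343359), .ofNat (nat_lit 0)],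
  [.negSucc (nat_lit 656705162092264353791), .ofNat (nat_lit 0), .ofNat (nat_lit 0)],
  [],
  [],
  [],
  []],
  [[],
  [],
  [],
  [.negSucc (nat_lit 141532743431416422527), .ofNat (nat_lit 12835783591629707520), .ofNat (nat_lit 0)],
  [.ofNat (nat_lit 371741792464595208960), .ofNat (nat_lit 0), .ofNat (nat_lit 0)],
  [],
  [],
  []],
  [[],
  [],
  [],
  [],
  [.negSucc (nat_lit 106095405847129635455), .ofNat (nat_lit 1308476470307041152), .ofNat (nat_lit 0)],
  [.ofNat (nat_lit 245427980589672800256), .ofNat (nat_lit 0), .ofNat (nat_lit 0)],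
  [],
  []],
  [[],
  [],
  [],
  [],
  [.ofNat (nat_lit 52948548513048195072), .negSucc (nat_lit 2136124708900867583), .ofNat (nat_lit 0)],
  [.negSucc (nat_lit 62625806796764270591), .ofNat (nat_lit 0), .ofNat (nat_lit 0)],
  [],
  []],
  [[],
  [],
  [],
  [],
  [],
  [.ofNat (nat_lit 108034772447666272320), .negSucc (nat_lit 11955332746066345919), .ofNat (nat_lit 0)],
  [.negSucc (nat_lit 332853713361317663999), .ofNat (nat_lit 0), .ofNat (nat_lit 0)],
  []],
  [[],
  [],
  [],
  [],
  [],
  [],
  [.negSucc (nat_lit 17628450212259079487), .ofNat (nat_lit 1728097515511649280), .ofNat (nat_lit 0)],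
  [.ofNat (nat_lit 39256483134511802880), .ofNat (nat_lit 0), .ofNat (nat_lit 0)]],
  [[],
  [],
  [],
  [],
  [],
  [],
  [.negSucc (nat_lit 46666495387087257599), .ofNat (nat_lit 2304130020682199040), .ofNat (nat_lit 0)],
  [.ofNat (nat_lit 52341977512682403840), .ofNat (nat_lit 0), .ofNat (nat_lit 0)]]],
  [],
  [],
  [],
  [],
  []],
  [[],
  [],
  [],
  [],
  [],
  [[[.negSucc (nat_lit 4708121995263025151), .negSucc (nat_lit 233320426249444531199), .negSucc (nat_lit 23533281224647741439)],
  [.ofNat (nat_lit 12741677670133979136), .ofNat (nat_lit 614363166431085947904), .ofNat (nat_lit 0)],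
  [],
  [],
  [],
  [],
  [],
  []],
  [[.ofNat (nat_lit 288057924754538163840), .ofNat (nat_lit 23590320979167927936), .ofNat (nat_lit 0)],
  [.negSucc (nat_lit 718949889015262921727), .ofNat (nat_lit 0), .ofNat (nat_lit 0)],
  [],
  [],
  [],
  [],
  [],
  []],
  [[],
  [.negSucc (nat_lit 139074974119028717567), .ofNat (nat_lit 8046755426497010688), .ofNat (nat_lit 0)],
  [.ofNat (nat_lit 307901263269122085888), .ofNat (nat_lit 0), .ofNat (nat_lit 0)],
  [],
  [],
  [],
  [],
  []],
  [[],
  [],
  [.negSucc (nat_lit 8662905693970932095), .negSucc (nat_lit 11378416616476907327), .ofNat (nat_lit 0)],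
  [.negSucc (nat_lit 84367193836777334783), .ofNat (nat_lit 0), .ofNat (nat_lit 0)],
  [],
  [],
  [],
  []],
  [[],
  [],
  [],
  [.ofNat (nat_lit 106095405847129635456), .negSucc (nat_lit 1308476470307041151), .ofNat (nat_lit 0)],
  [.negSucc (nat_lit 245427980589672800255), .ofNat (nat_lit 0), .ofNat (nat_lit 0)],
  [],
  [],
  []],
  [[],
  [],
  [],
  [],
  [.negSucc (nat_lit 15177994008120844703), .ofNat (nat_lit 6260484442297726080), .ofNat (nat_lit 0)],
  [.ofNat (nat_lit 155813029526110290048), .ofNat (nat_lit 0), .ofNat (nat_lit 0)],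
  [],
  []],
  [[],
  [],
  [],
  [],
  [.negSucc (nat_lit 37999841963325682175), .ofNat (nat_lit 4686678993601851264), .ofNat (nat_lit 0)],
  [.ofNat (nat_lit 107848572535754657280), .ofNat (nat_lit 0), .ofNat (nat_lit 0)],
  [],
  []],
  [[],
  [],
  [],
  [],
  [],
  [.ofNat (nat_lit 74164248476978647680), .negSucc (nat_lit 5839277227368526079), .ofNat (nat_lit 0)],
  [.negSucc (nat_lit 126973961626827283199), .ofNat (nat_lit 0), .ofNat (nat_lit 0)],
  []],
  [[],
  [],
  [],
  [],
  [],
  [],
  [.negSucc (nat_lit 11436730948304167535), .ofNat (nat_lit 633635755687604736), .ofNat (nat_lit 0)],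
  [.ofNat (nat_lit 14394043815987661056), .ofNat (nat_lit 0), .ofNat (nat_lit 0)]],
  [[],
  [],
  [],
  [],
  [],
  [],
  [.negSucc (nat_lit 10332035616620981375), .negSucc (nat_lit 230413002068219903), .ofNat (nat_lit 0)],
  [.negSucc (nat_lit 5234197751268240383), .ofNat (nat_lit 0), .ofNat (nat_lit 0)]]],
  [[[.negSucc (nat_lit 1982311460082597887), .negSucc (nat_lit 97202404937244321791), .negSucc (nat_lit 17063960204488375295)],
  [.ofNat (nat_lit 6535248177992933376), .ofNat (nat_lit 296902625290188162048), .ofNat (nat_lit 0)],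
  [],
  [],
  [],
  [],
  [],
  []],
  [[.ofNat (nat_lit 109533389112054457344), .ofNat (nat_lit 12450127984351064064), .ofNat (nat_lit 0)],
  [.negSucc (nat_lit 339121733400584119295), .ofNat (nat_lit 0), .ofNat (nat_lit 0)],
  [],
  [],
  [],
  [],
  [],
  []],
  [[],
  [.ofNat (nat_lit 26580645779505850368), .negSucc (nat_lit 2053388752878449663), .ofNat (nat_lit 0)],
  [.negSucc (nat_lit 41633147230637395967), .ofNat (nat_lit 0), .ofNat (nat_lit 0)],
  [],
  [],
  [],
  [],
  []],
  [[],
  [],
  [.ofNat (nat_lit 27111471054213235968), .negSucc (nat_lit 3879765543177377279), .ofNat (nat_lit 0)],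
  [.negSucc (nat_lit 50538716666368450559), .ofNat (nat_lit 0), .ofNat (nat_lit 0)],
  [],
  [],
  [],
  []],
  [[],
  [],
  [],
  [.negSucc (nat_lit 52948548513048195071), .ofNat (nat_lit 2136124708900867584), .ofNat (nat_lit 0)],
  [.ofNat (nat_lit 62625806796764270592), .ofNat (nat_lit 0), .ofNat (nat_lit 0)],
  [],
  [],
  []],
  [[],
  [],
  [],
  [],
  [.negSucc (nat_lit 37999841963325682175), .ofNat (nat_lit 4686678993601851264), .ofNat (nat_lit 0)],
  [.ofNat (nat_lit 107848572535754657280), .ofNat (nat_lit 0), .ofNat (nat_lit 0)],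
  [],
  []],
  [[],
  [],
  [],
  [],
  [.negSucc (nat_lit 6043930048866004991), .negSucc (nat_lit 313675808949812735), .ofNat (nat_lit 0)],
  [.negSucc (nat_lit 12658470041559398399), .ofNat (nat_lit 0), .ofNat (nat_lit 0)],
  [],
  []],
  [[],
  [],
  [],
  [],
  [],
  [.ofNat (nat_lit 66293098578597540096), .negSucc (nat_lit 2352568567123595519), .ofNat (nat_lit 0)],
  [.negSucc (nat_lit 94938525311695487999), .ofNat (nat_lit 0), .ofNat (nat_lit 0)],
  []],
  [[],
  [],
  [],
  [],
  [],
  [],
  [.ofNat (nat_lit 4651708405161721536), .negSucc (nat_lit 230413002068219903), .ofNat (nat_lit 0)],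
  [.negSucc (nat_lit 5234197751268240383), .ofNat (nat_lit 0), .ofNat (nat_lit 0)]],
  [[],
  [],
  [],
  [],
  [],
  [],
  [.negSucc (nat_lit 5498578885134422015), .ofNat (nat_lit 921652008272879616), .ofNat (nat_lit 0)],
  [.ofNat (nat_lit 20936791005072961536), .ofNat (nat_lit 0), .ofNat (nat_lit 0)]]],
  [],
  [],
  []],
  [[],
  [],
  [],
  [],
  [],
  [],
  [],
  [[[.ofNat (nat_lit 2156958273602525184), .ofNat (nat_lit 521999867176821476352), .negSucc (nat_lit 13183674853147775999)],
  [.negSucc (nat_lit 5889836361861586943), .negSucc (nat_lit 1280035587258922116095), .ofNat (nat_lit 0)],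
  [],
  [],
  [],
  [],
  [],
  []],
  [[.negSucc (nat_lit 492356810628916388351), .ofNat (nat_lit 6837579254681565696), .ofNat (nat_lit 0)],
  [.ofNat (nat_lit 1196168286866898327552), .ofNat (nat_lit 0), .ofNat (nat_lit 0)],
  [],
  [],
  [],
  [],
  [],
  []],
  [[],
  [.ofNat (nat_lit 30479618700709716096), .ofNat (nat_lit 3738894756053696640), .ofNat (nat_lit 0)],
  [.negSucc (nat_lit 37603696570446481919), .ofNat (nat_lit 0), .ofNat (nat_lit 0)],
  [],
  [],
  [],
  [],
  []],
  [[],
  [],
  [.negSucc (nat_lit 62578780702298178047), .ofNat (nat_lit 8226804275914262400), .ofNat (nat_lit 0)],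
  [.ofNat (nat_lit 215082187144855280640), .ofNat (nat_lit 0), .ofNat (nat_lit 0)],
  [],
  [],
  [],
  []],
  [[],
  [],
  [],
  [.ofNat (nat_lit 108034772447666272320), .negSucc (nat_lit 11955332746066345919), .ofNat (nat_lit 0)],
  [.negSucc (nat_lit 332853713361317663999), .ofNat (nat_lit 0), .ofNat (nat_lit 0)],
  [],
  [],
  []],
  [[],
  [],
  [],
  [],
  [.negSucc (nat_lit 74164248476978647679), .ofNat (nat_lit 5839277227368526080), .ofNat (nat_lit 0)],
  [.ofNat (nat_lit 126973961626827283200), .ofNat (nat_lit 0), .ofNat (nat_lit 0)],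
  [],
  []],
  [[],
  [],
  [],
  [],
  [.negSucc (nat_lit 66293098578597540095), .ofNat (nat_lit 2352568567123595520), .ofNat (nat_lit 0)],
  [.ofNat (nat_lit 94938525311695488000), .ofNat (nat_lit 0), .ofNat (nat_lit 0)],
  [],
  []],
  [[],
  [],
  [],
  [],
  [],
  [.ofNat (nat_lit 68388233029342793280), .negSucc (nat_lit 2284928937176514047), .ofNat (nat_lit 0)],
  [.negSucc (nat_lit 51905794366743383807), .ofNat (nat_lit 0), .ofNat (nat_lit 0)],
  []],
  [[],
  [],
  [],
  [],
  [],
  [],
  [.negSucc (nat_lit 5630368942134509759), .ofNat (nat_lit 172809751551164928), .ofNat (nat_lit 0)],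
  [.ofNat (nat_lit 3925648313451180288), .ofNat (nat_lit 0), .ofNat (nat_lit 0)]],
  [[],
  [],
  [],
  [],
  [],
  [],
  [.ofNat (nat_lit 6920942665570019712), .ofNat (nat_lit 460826004136439808), .ofNat (nat_lit 0)],
  [.ofNat (nat_lit 10468395502536480768), .ofNat (nat_lit 0), .ofNat (nat_lit 0)]]],
  [],
  []],
  [[],
  [],
  [],
  [],
  [],
  [],
  [],
  [],
  [[[.ofNat (nat_lit 0), .negSucc (nat_lit 34829733625965250559), .ofNat (nat_lit 4726370498494003200)],
  [.ofNat (nat_lit 0), .ofNat (nat_lit 83200438836365184000), .ofNat (nat_lit 0)],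
  [],
  [],
  [],
  [],
  [],
  []],
  [[.ofNat (nat_lit 27416895630157467648), .negSucc (nat_lit 4035131492289343487), .ofNat (nat_lit 0)],
  [.negSucc (nat_lit 67497845582560462847), .ofNat (nat_lit 0), .ofNat (nat_lit 0)],
  [],
  [],
  [],
  [],
  [],
  []],
  [[],
  [.ofNat (nat_lit 22238513987423348736), .negSucc (nat_lit 2073717018613979135), .ofNat (nat_lit 0)],
  [.negSucc (nat_lit 47107779761414163455), .ofNat (nat_lit 0), .ofNat (nat_lit 0)],
  [],
  [],
  [],
  [],
  []],
  [[],
  [],
  [.negSucc (nat_lit 18080272600889268383), .ofNat (nat_lit 1728097515511649280), .ofNat (nat_lit 0)],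
  [.ofNat (nat_lit 39256483134511802880), .ofNat (nat_lit 0), .ofNat (nat_lit 0)],
  [],
  [],
  [],
  []],
  [[],
  [],
  [],
  [.ofNat (nat_lit 17628450212259079488), .negSucc (nat_lit 1728097515511649279), .ofNat (nat_lit 0)],
  [.negSucc (nat_lit 39256483134511802879), .ofNat (nat_lit 0), .ofNat (nat_lit 0)],
  [],
  [],
  []],
  [[],
  [],
  [],
  [],
  [.negSucc (nat_lit 11436730948304167535), .ofNat (nat_lit 633635755687604736), .ofNat (nat_lit 0)],
  [.ofNat (nat_lit 14394043815987661056), .ofNat (nat_lit 0), .ofNat (nat_lit 0)],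
  [],
  []],
  [[],
  [],
  [],
  [],
  [.ofNat (nat_lit 4651708405161721536), .negSucc (nat_lit 230413002068219903), .ofNat (nat_lit 0)],
  [.negSucc (nat_lit 5234197751268240383), .ofNat (nat_lit 0), .ofNat (nat_lit 0)],
  [],
  []],
  [[],
  [],
  [],
  [],
  [],
  [.ofNat (nat_lit 5630368942134509760), .negSucc (nat_lit 172809751551164927), .ofNat (nat_lit 0)],
  [.negSucc (nat_lit 3925648313451180287), .ofNat (nat_lit 0), .ofNat (nat_lit 0)],
  []],
  [[],
  [],
  [],
  [],
  [],
  [],
  [.negSucc (nat_lit 6289898791302764999), .ofNat (nat_lit 0), .ofNat (nat_lit 0)],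
  []],
  [[],
  [],
  [],
  [],
  [],
  [],
  [.ofNat (nat_lit 3781430746804708416), .ofNat (nat_lit 0), .ofNat (nat_lit 0)],
  []]],
  [[[.ofNat (nat_lit 0), .negSucc (nat_lit 154296017325205318655), .ofNat (nat_lit 6749199839274190848)],
  [.ofNat (nat_lit 0), .ofNat (nat_lit 364720798455695271936), .ofNat (nat_lit 0)],
  [],
  [],
  [],
  [],
  [],
  []],
  [[.ofNat (nat_lit 137185711556661960192), .negSucc (nat_lit 4905895822728431615), .ofNat (nat_lit 0)],
  [.negSucc (nat_lit 322847216445549348863), .ofNat (nat_lit 0), .ofNat (nat_lit 0)],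
  [],
  [],
  [],
  [],
  [],
  []],
  [[],
  [.negSucc (nat_lit 2019611038088249855), .negSucc (nat_lit 921652008272879615), .ofNat (nat_lit 0)],
  [.negSucc (nat_lit 20936791005072961535), .ofNat (nat_lit 0), .ofNat (nat_lit 0)],
  [],
  [],
  [],
  [],
  []],
  [[],
  [],
  [.negSucc (nat_lit 18103760783746649855), .ofNat (nat_lit 2304130020682199040), .ofNat (nat_lit 0)],
  [.ofNat (nat_lit 52341977512682403840), .ofNat (nat_lit 0), .ofNat (nat_lit 0)],
  [],
  [],
  [],
  []],
  [[],
  [],
  [],
  [.ofNat (nat_lit 46666495387087257600), .negSucc (nat_lit 2304130020682199039), .ofNat (nat_lit 0)],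
  [.negSucc (nat_lit 52341977512682403839), .ofNat (nat_lit 0), .ofNat (nat_lit 0)],
  [],
  [],
  []],
  [[],
  [],
  [],
  [],
  [.negSucc (nat_lit 10332035616620981375), .negSucc (nat_lit 230413002068219903), .ofNat (nat_lit 0)],
  [.negSucc (nat_lit 5234197751268240383), .ofNat (nat_lit 0), .ofNat (nat_lit 0)],
  [],
  []],
  [[],
  [],
  [],
  [],
  [.negSucc (nat_lit 5498578885134422015), .ofNat (nat_lit 921652008272879616), .ofNat (nat_lit 0)],
  [.ofNat (nat_lit 20936791005072961536), .ofNat (nat_lit 0), .ofNat (nat_lit 0)],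
  [],
  []],
  [[],
  [],
  [],
  [],
  [],
  [.negSucc (nat_lit 6920942665570019711), .negSucc (nat_lit 460826004136439807), .ofNat (nat_lit 0)],
  [.negSucc (nat_lit 10468395502536480767), .ofNat (nat_lit 0), .ofNat (nat_lit 0)],
  []],
  [[],
  [],
  [],
  [],
  [],
  [],
  [.ofNat (nat_lit 3781430746804708416), .ofNat (nat_lit 0), .ofNat (nat_lit 0)],
  []],
  [[],
  [],
  [],
  [],
  [],
  [],
  [.negSucc (nat_lit 23089787762823440639), .ofNat (nat_lit 0), .ofNat (nat_lit 0)],
  []]]]],
  [[[[[.negSucc (nat_lit 728334365099157503), .negSucc (nat_lit 10523719935188794367), .ofNat (nat_lit 1950357175105794048)],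
  [.negSucc (nat_lit 1086911709312577535), .ofNat (nat_lit 26767055704798052352), .ofNat (nat_lit 0)],
  [],
  [],
  [],
  [],
  [],
  []],
  [[.ofNat (nat_lit 15948971180120162304), .negSucc (nat_lit 1574342943895821311), .ofNat (nat_lit 0)],
  [.negSucc (nat_lit 34350357501205272575), .ofNat (nat_lit 0), .ofNat (nat_lit 0)],
  [],
  [],
  [],
  [],
  [],
  []],
  [[],
  [.negSucc (nat_lit 3962077301890787327), .ofNat (nat_lit 2681840728415056896), .ofNat (nat_lit 0)],
  [.ofNat (nat_lit 10459828702180030464), .ofNat (nat_lit 0), .ofNat (nat_lit 0)],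
  [],
  [],
  [],
  [],
  []],
  [[],
  [],
  [.negSucc (nat_lit 7381860782557400063), .ofNat (nat_lit 95267210777892864), .ofNat (nat_lit 0)],
  [.ofNat (nat_lit 18336637978226519040), .ofNat (nat_lit 0), .ofNat (nat_lit 0)],
  [],
  [],
  [],
  []],
  [[],
  [],
  [],
  [.ofNat (nat_lit 540846942449172480), .negSucc (nat_lit 351427221976237055), .ofNat (nat_lit 0)],
  [.negSucc (nat_lit 3070767477169520639), .ofNat (nat_lit 0), .ofNat (nat_lit 0)],
  [],
  [],
  []],
  [[],
  [],
  [],
  [],
  [.ofNat (nat_lit 2354060997631512576), .ofNat (nat_lit 77281155008888832), .ofNat (nat_lit 0)],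
  [.negSucc (nat_lit 6370838835066989567), .ofNat (nat_lit 0), .ofNat (nat_lit 0)],
  [],
  []],
  [[],
  [],
  [],
  [],
  [.ofNat (nat_lit 991155730041298944), .negSucc (nat_lit 46392298522536959), .ofNat (nat_lit 0)],
  [.negSucc (nat_lit 3267624088996466687), .ofNat (nat_lit 0), .ofNat (nat_lit 0)],
  [],
  []],
  [[],
  [],
  [],
  [],
  [],
  [.ofNat (nat_lit 1078479136801262592), .ofNat (nat_lit 52383970181440512), .ofNat (nat_lit 0)],
  [.negSucc (nat_lit 2944918180930793471), .ofNat (nat_lit 0), .ofNat (nat_lit 0)],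
  []],
  [[],
  [],
  [],
  [],
  [],
  [],
  [],
  []],
  [[],
  [],
  [],
  [],
  [],
  [],
  [],
  []]],
  [],
  [],
  [],
  [],
  [],
  [],
  [],
  [],
  []],
  [[],
  [],
  [],
  [],
  [],
  [],
  [],
  [],
  [],
  []],
  [[],
  [[[.ofNat (nat_lit 0), .ofNat (nat_lit 75125628509567993856), .negSucc (nat_lit 9151248885157896191)],
  [.ofNat (nat_lit 0), .negSucc (nat_lit 169423286781676732415), .ofNat (nat_lit 0)],
  [],
  [],
  [],
  [],
  [],
  []],
  [[.negSucc (nat_lit 94712368024450861055), .ofNat (nat_lit 1298788427419310592), .ofNat (nat_lit 0)],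
  [.ofNat (nat_lit 215182003486246327296), .ofNat (nat_lit 0), .ofNat (nat_lit 0)],
  [],
  [],
  [],
  [],
  [],
  []],
  [[],
  [.ofNat (nat_lit 47468119386349910016), .negSucc (nat_lit 9456285685051717631), .ofNat (nat_lit 0)],
  [.negSucc (nat_lit 124592409724531470335), .ofNat (nat_lit 0), .ofNat (nat_lit 0)],
  [],
  [],
  [],
  [],
  []],
  [[],
  [],
  [.ofNat (nat_lit 43755894893974920192), .ofNat (nat_lit 6341403304772727552), .ofNat (nat_lit 0)],
  [.negSucc (nat_lit 103921907712463862783), .ofNat (nat_lit 0), .ofNat (nat_lit 0)],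
  [],
  [],
  [],
  []],
  [[],
  [],
  [],
  [.negSucc (nat_lit 76489016003936944127), .ofNat (nat_lit 3466606016671630848), .ofNat (nat_lit 0)],
  [.ofNat (nat_lit 215896904832674119680), .ofNat (nat_lit 0), .ofNat (nat_lit 0)],
  [],
  [],
  []],
  [[],
  [],
  [],
  [],
  [.negSucc (nat_lit 31686361682698266623), .negSucc (nat_lit 2389380860992862591), .ofNat (nat_lit 0)],
  [.ofNat (nat_lit 80509691864950944768), .ofNat (nat_lit 0), .ofNat (nat_lit 0)],
  [],
  []],
  [[],
  [],
  [],
  [],
  [.negSucc (nat_lit 17017864728027844607), .negSucc (nat_lit 919360290792655871), .ofNat (nat_lit 0)],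
  [.ofNat (nat_lit 48510964149992091648), .ofNat (nat_lit 0), .ofNat (nat_lit 0)],
  [],
  []],
  [[],
  [],
  [],
  [],
  [],
  [.ofNat (nat_lit 25488916750962229248), .negSucc (nat_lit 26868436688742911), .ofNat (nat_lit 0)],
  [.negSucc (nat_lit 72951072298585648127), .ofNat (nat_lit 0), .ofNat (nat_lit 0)],
  []],
  [[],
  [],
  [],
  [],
  [],
  [],
  [.ofNat (nat_lit 4853156115605681664), .ofNat (nat_lit 235727865816482304), .ofNat (nat_lit 0)],
  [.negSucc (nat_lit 13252131814188570623), .ofNat (nat_lit 0), .ofNat (nat_lit 0)]],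
  [[],
  [],
  [],
  [],
  [],
  [],
  [.ofNat (nat_lit 12941749641615151104), .ofNat (nat_lit 628607642177286144), .ofNat (nat_lit 0)],
  [.negSucc (nat_lit 35339018171169521663), .ofNat (nat_lit 0), .ofNat (nat_lit 0)]]],
  [],
  [],
  [],
  [],
  [],
  [],
  [],
  []],
  [[],
  [],
  [[[.ofNat (nat_lit 0), .negSucc (nat_lit 20255724930311543807), .ofNat (nat_lit 26995640530745834496)],
  [.ofNat (nat_lit 0), .ofNat (nat_lit 5364423167881079808), .ofNat (nat_lit 0)],
  [],
  [],
  [],
  [],
  [],
  []],
  [[.negSucc (nat_lit 27212394456038366207), .negSucc (nat_lit 17539354845694116863), .ofNat (nat_lit 0)],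
  [.ofNat (nat_lit 119227986556650390528), .ofNat (nat_lit 0), .ofNat (nat_lit 0)],
  [],
  [],
  [],
  [],
  [],
  []],
  [[],
  [.negSucc (nat_lit 33818635582345497599), .negSucc (nat_lit 375917882381756927), .ofNat (nat_lit 0)],
  [.ofNat (nat_lit 84905805763755021312), .ofNat (nat_lit 0), .ofNat (nat_lit 0)],
  [],
  [],
  [],
  [],
  []],
  [[],
  [],
  [.ofNat (nat_lit 123555343294435617792), .ofNat (nat_lit 375165310495915008), .ofNat (nat_lit 0)],
  [.negSucc (nat_lit 331917045602355846143), .ofNat (nat_lit 0), .ofNat (nat_lit 0)],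
  [],
  [],
  [],
  []],
  [[],
  [],
  [],
  [.ofNat (nat_lit 47050907978047352832), .ofNat (nat_lit 6433723361778497280), .ofNat (nat_lit 0)],
  [.negSucc (nat_lit 123143185864694015999), .ofNat (nat_lit 0), .ofNat (nat_lit 0)],
  [],
  [],
  []],
  [[],
  [],
  [],
  [],
  [.negSucc (nat_lit 92931782639101613567), .negSucc (nat_lit 4224478357025385983), .ofNat (nat_lit 0)],
  [.ofNat (nat_lit 246616693822882123776), .ofNat (nat_lit 0), .ofNat (nat_lit 0)],
  [],
  []],
  [[],
  [],
  [],
  [],
  [.ofNat (nat_lit 12564357994169874432), .ofNat (nat_lit 367500261875899392), .ofNat (nat_lit 0)],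
  [.negSucc (nat_lit 34640815791126011903), .ofNat (nat_lit 0), .ofNat (nat_lit 0)],
  [],
  []],
  [[],
  [],
  [],
  [],
  [],
  [.negSucc (nat_lit 10996518602804705279), .negSucc (nat_lit 2330799952954193279), .ofNat (nat_lit 0)],
  [.ofNat (nat_lit 23520351257110172160), .ofNat (nat_lit 0), .ofNat (nat_lit 0)],
  []],
  [[],
  [],
  [],
  [],
  [],
  [],
  [.ofNat (nat_lit 14559468346817044992), .ofNat (nat_lit 707183597449446912), .ofNat (nat_lit 0)],
  [.negSucc (nat_lit 39756395442565711871), .ofNat (nat_lit 0), .ofNat (nat_lit 0)]],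
  [[],
  [],
  [],
  [],
  [],
  [],
  [.ofNat (nat_lit 6470874820807575552), .ofNat (nat_lit 314303821088643072), .ofNat (nat_lit 0)],
  [.negSucc (nat_lit 17669509085584760831), .ofNat (nat_lit 0), .ofNat (nat_lit 0)]]],
  [],
  [],
  [],
  [],
  [],
  [],
  []],
  [[],
  [],
  [],
  [[[.ofNat (nat_lit 0), .negSucc (nat_lit 258081233747214809087), .negSucc (nat_lit 15700249958087384063)],
  [.ofNat (nat_lit 0), .ofNat (nat_lit 674352036054606090240), .ofNat (nat_lit 0)],
  [],
  [],
  [],
  [],
  [],
  []],
  [[.ofNat (nat_lit 301837128641189729280), .ofNat (nat_lit 22041653262860111616), .ofNat (nat_lit 0)],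
  [.negSucc (nat_lit 778273943767069953023), .ofNat (nat_lit 0), .ofNat (nat_lit 0)],
  [],
  [],
  [],
  [],
  [],
  []],
  [[],
  [.negSucc (nat_lit 123555343294435617791), .negSucc (nat_lit 375165310495915007), .ofNat (nat_lit 0)],
  [.ofNat (nat_lit 331917045602355846144), .ofNat (nat_lit 0), .ofNat (nat_lit 0)],
  [],
  [],
  [],
  [],
  []],
  [[],
  [],
  [.negSucc (nat_lit 37650334963765199615), .negSucc (nat_lit 11794633757508492287), .ofNat (nat_lit 0)],
  [.ofNat (nat_lit 75734100178886004480), .ofNat (nat_lit 0), .ofNat (nat_lit 0)],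
  [],
  [],
  [],
  []],
  [[],
  [],
  [],
  [.ofNat (nat_lit 208680858731662248960), .ofNat (nat_lit 11190560674223052288), .ofNat (nat_lit 0)],
  [.negSucc (nat_lit 566054349015733908479), .ofNat (nat_lit 0), .ofNat (nat_lit 0)],
  [],
  [],
  []],
  [[],
  [],
  [],
  [],
  [.negSucc (nat_lit 27790903888331908607), .ofNat (nat_lit 1429043111643420864), .ofNat (nat_lit 0)],
  [.ofNat (nat_lit 84554791887758423040), .ofNat (nat_lit 0), .ofNat (nat_lit 0)],
  [],
  []],
  [[],
  [],
  [],
  [],
  [.negSucc (nat_lit 13346749696179363839), .ofNat (nat_lit 1172545799538792960), .ofNat (nat_lit 0)],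
  [.ofNat (nat_lit 38937254863635578880), .ofNat (nat_lit 0), .ofNat (nat_lit 0)],
  [],
  []],
  [[],
  [],
  [],
  [],
  [],
  [.negSucc (nat_lit 68179675145957015039), .negSucc (nat_lit 4677247187808531839), .ofNat (nat_lit 0)],
  [.ofNat (nat_lit 184303626969755842560), .ofNat (nat_lit 0), .ofNat (nat_lit 0)],
  []],
  [[],
  [],
  [],
  [],
  [],
  [],
  [.ofNat (nat_lit 12132890289014204160), .ofNat (nat_lit 589319664541205760), .ofNat (nat_lit 0)],
  [.negSucc (nat_lit 33130329535471426559), .ofNat (nat_lit 0), .ofNat (nat_lit 0)]],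
  [[],
  [],
  [],
  [],
  [],
  [],
  [.ofNat (nat_lit 16177187052018938880), .ofNat (nat_lit 785759552721607680), .ofNat (nat_lit 0)],
  [.negSucc (nat_lit 44173772713961902079), .ofNat (nat_lit 0), .ofNat (nat_lit 0)]]],
  [],
  [],
  [],
  [],
  [],
  []],
  [[],
  [],
  [],
  [],
  [[[.ofNat (nat_lit 0), .ofNat (nat_lit 248910641373283964928), .negSucc (nat_lit 11917794758630676479)],
  [.ofNat (nat_lit 0), .negSucc (nat_lit 621759297032050793471), .ofNat (nat_lit 0)],
  [],
  [],
  [],
  [],
  [],
  []],
  [[.negSucc (nat_lit 172421625369347020799), .ofNat (nat_lit 8451188741959045632), .ofNat (nat_lit 0)],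
  [.ofNat (nat_lit 405862392199376673792), .ofNat (nat_lit 0), .ofNat (nat_lit 0)],
  [],
  [],
  [],
  [],
  [],
  []],
  [[],
  [.ofNat (nat_lit 47050907978047352832), .ofNat (nat_lit 6433723361778497280), .ofNat (nat_lit 0)],
  [.negSucc (nat_lit 123143185864694015999), .ofNat (nat_lit 0), .ofNat (nat_lit 0)],
  [],
  [],
  [],
  [],
  []],
  [[],
  [],
  [.negSucc (nat_lit 208680858731662248959), .negSucc (nat_lit 11190560674223052287), .ofNat (nat_lit 0)],
  [.ofNat (nat_lit 566054349015733908480), .ofNat (nat_lit 0), .ofNat (nat_lit 0)],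
  [],
  [],
  [],
  []],
  [[],
  [],
  [],
  [.ofNat (nat_lit 106642020152402224128), .ofNat (nat_lit 631935571374888192), .ofNat (nat_lit 0)],
  [.negSucc (nat_lit 287458821221164508159), .ofNat (nat_lit 0), .ofNat (nat_lit 0)],
  [],
  [],
  []],
  [[],
  [],
  [],
  [],
  [.ofNat (nat_lit 74739675956303036160), .ofNat (nat_lit 7112273994627555456), .ofNat (nat_lit 0)],
  [.negSucc (nat_lit 192839596786768895999), .ofNat (nat_lit 0), .ofNat (nat_lit 0)],
  [],
  []],
  [[],
  [],
  [],
  [],
  [.negSucc (nat_lit 17657451495287331839), .ofNat (nat_lit 207771504679116288), .ofNat (nat_lit 0)],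
  [.ofNat (nat_lit 47520310813950504960), .ofNat (nat_lit 0), .ofNat (nat_lit 0)],
  [],
  []],
  [[],
  [],
  [],
  [],
  [],
  [.negSucc (nat_lit 102561381613515985919), .negSucc (nat_lit 5879957292806742719), .ofNat (nat_lit 0)],
  [.ofNat (nat_lit 276802811912326498560), .ofNat (nat_lit 0), .ofNat (nat_lit 0)],
  []],
  [[],
  [],
  [],
  [],
  [],
  [],
  [.ofNat (nat_lit 12132890289014204160), .ofNat (nat_lit 589319664541205760), .ofNat (nat_lit 0)],
  [.negSucc (nat_lit 33130329535471426559), .ofNat (nat_lit 0), .ofNat (nat_lit 0)]],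
  [[],
  [],
  [],
  [],
  [],
  [],
  [.ofNat (nat_lit 16177187052018938880), .ofNat (nat_lit 785759552721607680), .ofNat (nat_lit 0)],
  [.negSucc (nat_lit 44173772713961902079), .ofNat (nat_lit 0), .ofNat (nat_lit 0)]]],
  [],
  [],
  [],
  [],
  []],
  [[],
  [],
  [],
  [],
  [],
  [[[.ofNat (nat_lit 0), .ofNat (nat_lit 212555583062608785408), .ofNat (nat_lit 29653629087973773312)],
  [.ofNat (nat_lit 0), .negSucc (nat_lit 592800554039261156351), .ofNat (nat_lit 0)],
  [],
  [],
  [],
  [],
  [],
  []],
  [[.negSucc (nat_lit 244241944745307052031), .negSucc (nat_lit 32043009948966635903), .ofNat (nat_lit 0)],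
  [.ofNat (nat_lit 673310245904212101120), .ofNat (nat_lit 0), .ofNat (nat_lit 0)],
  [],
  [],
  [],
  [],
  [],
  []],
  [[],
  [.ofNat (nat_lit 92931782639101613568), .ofNat (nat_lit 4224478357025385984), .ofNat (nat_lit 0)],
  [.negSucc (nat_lit 246616693822882123775), .ofNat (nat_lit 0), .ofNat (nat_lit 0)],
  [],
  [],
  [],
  [],
  []],
  [[],
  [],
  [.negSucc (nat_lit 27790903888331908607), .ofNat (nat_lit 1429043111643420864), .ofNat (nat_lit 0)],
  [.ofNat (nat_lit 84554791887758423040), .ofNat (nat_lit 0), .ofNat (nat_lit 0)],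
  [],
  [],
  [],
  []],
  [[],
  [],
  [],
  [.negSucc (nat_lit 74739675956303036159), .negSucc (nat_lit 7112273994627555455), .ofNat (nat_lit 0)],
  [.ofNat (nat_lit 192839596786768896000), .ofNat (nat_lit 0), .ofNat (nat_lit 0)],
  [],
  [],
  []],
  [[],
  [],
  [],
  [],
  [.ofNat (nat_lit 49005510777627072768), .ofNat (nat_lit 3052567817072165376), .ofNat (nat_lit 0)],
  [.negSucc (nat_lit 132908790287389286015), .ofNat (nat_lit 0), .ofNat (nat_lit 0)],
  [],
  []],
  [[],
  [],
  [],
  [],
  [.ofNat (nat_lit 33308958774583977984), .ofNat (nat_lit 1629702112939972992), .ofNat (nat_lit 0)],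
  [.negSucc (nat_lit 90884010597730039295), .ofNat (nat_lit 0), .ofNat (nat_lit 0)],
  [],
  []],
  [[],
  [],
  [],
  [],
  [],
  [.negSucc (nat_lit 39703832414938644479), .negSucc (nat_lit 2067474326881489919), .ofNat (nat_lit 0)],
  [.ofNat (nat_lit 108630672510384495360), .ofNat (nat_lit 0), .ofNat (nat_lit 0)],
  []],
  [[],
  [],
  [],
  [],
  [],
  [],
  [.ofNat (nat_lit 4448726439305208192), .ofNat (nat_lit 216083876998442112), .ofNat (nat_lit 0)],
  [.negSucc (nat_lit 12147787496339523071), .ofNat (nat_lit 0), .ofNat (nat_lit 0)]],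
  [[],
  [],
  [],
  [],
  [],
  [],
  [.negSucc (nat_lit 1617718705201893887), .negSucc (nat_lit 78575955272160767), .ofNat (nat_lit 0)],
  [.ofNat (nat_lit 4417377271396190208), .ofNat (nat_lit 0), .ofNat (nat_lit 0)]]],
  [[[.ofNat (nat_lit 0), .ofNat (nat_lit 115143082238191039488), .negSucc (nat_lit 2094672413849011199)],
  [.ofNat (nat_lit 0), .negSucc (nat_lit 300592781425093487615), .ofNat (nat_lit 0)],
  [],
  [],
  [],
  [],
  [],
  []],
  [[.negSucc (nat_lit 132160946966218884095), .ofNat (nat_lit 1175312123056355328), .ofNat (nat_lit 0)],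
  [.ofNat (nat_lit 349103745575085579264), .ofNat (nat_lit 0), .ofNat (nat_lit 0)],
  [],
  [],
  [],
  [],
  [],
  []],
  [[],
  [.negSucc (nat_lit 12564357994169874431), .negSucc (nat_lit 367500261875899391), .ofNat (nat_lit 0)],
  [.ofNat (nat_lit 34640815791126011904), .ofNat (nat_lit 0), .ofNat (nat_lit 0)],
  [],
  [],
  [],
  [],
  []],
  [[],
  [],
  [.negSucc (nat_lit 13346749696179363839), .ofNat (nat_lit 1172545799538792960), .ofNat (nat_lit 0)],
  [.ofNat (nat_lit 38937254863635578880), .ofNat (nat_lit 0), .ofNat (nat_lit 0)],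
  [],
  [],
  [],
  []],
  [[],
  [],
  [],
  [.ofNat (nat_lit 17657451495287331840), .negSucc (nat_lit 207771504679116287), .ofNat (nat_lit 0)],
  [.negSucc (nat_lit 47520310813950504959), .ofNat (nat_lit 0), .ofNat (nat_lit 0)],
  [],
  [],
  []],
  [[],
  [],
  [],
  [],
  [.ofNat (nat_lit 33308958774583977984), .ofNat (nat_lit 1629702112939972992), .ofNat (nat_lit 0)],
  [.negSucc (nat_lit 90884010597730039295), .ofNat (nat_lit 0), .ofNat (nat_lit 0)],
  [],
  []],
  [[],
  [],
  [],
  [],
  [.negSucc (nat_lit 3818338682184400895), .negSucc (nat_lit 232732029987030527), .ofNat (nat_lit 0)],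
  [.ofNat (nat_lit 10145860679224940544), .ofNat (nat_lit 0), .ofNat (nat_lit 0)],
  [],
  []],
  [[],
  [],
  [],
  [],
  [],
  [.negSucc (nat_lit 28637540116383006719), .negSucc (nat_lit 1745490224902728959), .ofNat (nat_lit 0)],
  [.ofNat (nat_lit 76093955094187054080), .ofNat (nat_lit 0), .ofNat (nat_lit 0)],
  []],
  [[],
  [],
  [],
  [],
  [],
  [],
  [.negSucc (nat_lit 1617718705201893887), .negSucc (nat_lit 78575955272160767), .ofNat (nat_lit 0)],
  [.ofNat (nat_lit 4417377271396190208), .ofNat (nat_lit 0), .ofNat (nat_lit 0)]],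
  [[],
  [],
  [],
  [],
  [],
  [],
  [.ofNat (nat_lit 6470874820807575552), .ofNat (nat_lit 314303821088643072), .ofNat (nat_lit 0)],
  [.negSucc (nat_lit 17669509085584760831), .ofNat (nat_lit 0), .ofNat (nat_lit 0)]]],
  [],
  [],
  []],
  [[],
  [],
  [],
  [],
  [],
  [],
  [],
  [[[.ofNat (nat_lit 0), .negSucc (nat_lit 477373395439131402239), .negSucc (nat_lit 32609275444450335743)],
  [.ofNat (nat_lit 0), .ofNat (nat_lit 1308123038157660887040), .ofNat (nat_lit 0)],
  [],
  [],
  [],
  [],
  [],
  []],
  [[.ofNat (nat_lit 451884478688169172992), .ofNat (nat_lit 32636143881139078656), .ofNat (nat_lit 0)],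
  [.negSucc (nat_lit 1235171965859075238911), .ofNat (nat_lit 0), .ofNat (nat_lit 0)],
  [],
  [],
  [],
  [],
  [],
  []],
  [[],
  [.negSucc (nat_lit 10996518602804705279), .negSucc (nat_lit 2330799952954193279), .ofNat (nat_lit 0)],
  [.ofNat (nat_lit 23520351257110172160), .ofNat (nat_lit 0), .ofNat (nat_lit 0)],
  [],
  [],
  [],
  [],
  []],
  [[],
  [],
  [.ofNat (nat_lit 68179675145957015040), .ofNat (nat_lit 4677247187808531840), .ofNat (nat_lit 0)],
  [.negSucc (nat_lit 184303626969755842559), .ofNat (nat_lit 0), .ofNat (nat_lit 0)],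
  [],
  [],
  [],
  []],
  [[],
  [],
  [],
  [.negSucc (nat_lit 102561381613515985919), .negSucc (nat_lit 5879957292806742719), .ofNat (nat_lit 0)],
  [.ofNat (nat_lit 276802811912326498560), .ofNat (nat_lit 0), .ofNat (nat_lit 0)],
  [],
  [],
  []],
  [[],
  [],
  [],
  [],
  [.ofNat (nat_lit 39703832414938644480), .ofNat (nat_lit 2067474326881489920), .ofNat (nat_lit 0)],
  [.negSucc (nat_lit 108630672510384495359), .ofNat (nat_lit 0), .ofNat (nat_lit 0)],
  [],
  []],
  [[],
  [],
  [],
  [],
  [.ofNat (nat_lit 28637540116383006720), .ofNat (nat_lit 1745490224902728960), .ofNat (nat_lit 0)],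
  [.negSucc (nat_lit 76093955094187054079), .ofNat (nat_lit 0), .ofNat (nat_lit 0)],
  [],
  []],
  [[],
  [],
  [],
  [],
  [],
  [.negSucc (nat_lit 16042377159918781055), .negSucc (nat_lit 779211556448927615), .ofNat (nat_lit 0)],
  [.ofNat (nat_lit 43805657941345552896), .ofNat (nat_lit 0), .ofNat (nat_lit 0)],
  []],
  [[],
  [],
  [],
  [],
  [],
  [],
  [.ofNat (nat_lit 1213289028901420416), .ofNat (nat_lit 58931966454120576), .ofNat (nat_lit 0)],
  [.negSucc (nat_lit 3313032953547142655), .ofNat (nat_lit 0), .ofNat (nat_lit 0)]],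
  [[],
  [],
  [],
  [],
  [],
  [],
  [.ofNat (nat_lit 3235437410403787776), .ofNat (nat_lit 157151910544321536), .ofNat (nat_lit 0)],
  [.negSucc (nat_lit 8834754542792380415), .ofNat (nat_lit 0), .ofNat (nat_lit 0)]]],
  [],
  []],
  [[],
  [],
  [],
  [],
  [],
  [],
  [],
  [],
  [[[.ofNat (nat_lit 0), .ofNat (nat_lit 46810245731910764544), .negSucc (nat_lit 3336181631091330047)],
  [.ofNat (nat_lit 0), .negSucc (nat_lit 119132748597762422783), .ofNat (nat_lit 0)],
  [],
  [],
  [],
  [],
  [],
  []],
  [[.negSucc (nat_lit 41957089616305082879), .ofNat (nat_lit 3571909496907812352), .ofNat (nat_lit 0)],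
  [.ofNat (nat_lit 105880616783573852160), .ofNat (nat_lit 0), .ofNat (nat_lit 0)],
  [],
  [],
  [],
  [],
  [],
  []],
  [[],
  [.negSucc (nat_lit 14559468346817044991), .negSucc (nat_lit 707183597449446911), .ofNat (nat_lit 0)],
  [.ofNat (nat_lit 39756395442565711872), .ofNat (nat_lit 0), .ofNat (nat_lit 0)],
  [],
  [],
  [],
  [],
  []],
  [[],
  [],
  [.ofNat (nat_lit 12132890289014204160), .ofNat (nat_lit 589319664541205760), .ofNat (nat_lit 0)],
  [.negSucc (nat_lit 33130329535471426559), .ofNat (nat_lit 0), .ofNat (nat_lit 0)],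
  [],
  [],
  [],
  []],
  [[],
  [],
  [],
  [.negSucc (nat_lit 12132890289014204159), .negSucc (nat_lit 589319664541205759), .ofNat (nat_lit 0)],
  [.ofNat (nat_lit 33130329535471426560), .ofNat (nat_lit 0), .ofNat (nat_lit 0)],
  [],
  [],
  []],
  [[],
  [],
  [],
  [],
  [.ofNat (nat_lit 4448726439305208192), .ofNat (nat_lit 216083876998442112), .ofNat (nat_lit 0)],
  [.negSucc (nat_lit 12147787496339523071), .ofNat (nat_lit 0), .ofNat (nat_lit 0)],
  [],
  []],
  [[],
  [],
  [],
  [],
  [.negSucc (nat_lit 1617718705201893887), .negSucc (nat_lit 78575955272160767), .ofNat (nat_lit 0)],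
  [.ofNat (nat_lit 4417377271396190208), .ofNat (nat_lit 0), .ofNat (nat_lit 0)],
  [],
  []],
  [[],
  [],
  [],
  [],
  [],
  [.negSucc (nat_lit 1213289028901420415), .negSucc (nat_lit 58931966454120575), .ofNat (nat_lit 0)],
  [.ofNat (nat_lit 3313032953547142656), .ofNat (nat_lit 0), .ofNat (nat_lit 0)],
  []],
  [[],
  [],
  [],
  [],
  [],
  [],
  [],
  []],
  [[],
  [],
  [],
  [],
  [],
  [],
  [],
  []]],
  [[[.ofNat (nat_lit 0), .ofNat (nat_lit 106066656731218747392), .ofNat (nat_lit 20157167789352013824)],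
  [.ofNat (nat_lit 0), .negSucc (nat_lit 316092677484667216895), .ofNat (nat_lit 0)],
  [],
  [],
  [],
  [],
  [],
  []],
  [[.negSucc (nat_lit 93124907089603596287), .negSucc (nat_lit 19528560147174727679), .ofNat (nat_lit 0)],
  [.ofNat (nat_lit 280753659313497695232), .ofNat (nat_lit 0), .ofNat (nat_lit 0)],
  [],
  [],
  [],
  [],
  [],
  []],
  [[],
  [.negSucc (nat_lit 6470874820807575551), .negSucc (nat_lit 314303821088643071), .ofNat (nat_lit 0)],
  [.ofNat (nat_lit 17669509085584760832), .ofNat (nat_lit 0), .ofNat (nat_lit 0)],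
  [],
  [],
  [],
  [],
  []],
  [[],
  [],
  [.ofNat (nat_lit 16177187052018938880), .ofNat (nat_lit 785759552721607680), .ofNat (nat_lit 0)],
  [.negSucc (nat_lit 44173772713961902079), .ofNat (nat_lit 0), .ofNat (nat_lit 0)],
  [],
  [],
  [],
  []],
  [[],
  [],
  [],
  [.negSucc (nat_lit 16177187052018938879), .negSucc (nat_lit 785759552721607679), .ofNat (nat_lit 0)],
  [.ofNat (nat_lit 44173772713961902080), .ofNat (nat_lit 0), .ofNat (nat_lit 0)],
  [],
  [],
  []],
  [[],
  [],
  [],
  [],
  [.negSucc (nat_lit 1617718705201893887), .negSucc (nat_lit 78575955272160767), .ofNat (nat_lit 0)],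
  [.ofNat (nat_lit 4417377271396190208), .ofNat (nat_lit 0), .ofNat (nat_lit 0)],
  [],
  []],
  [[],
  [],
  [],
  [],
  [.ofNat (nat_lit 6470874820807575552), .ofNat (nat_lit 314303821088643072), .ofNat (nat_lit 0)],
  [.negSucc (nat_lit 17669509085584760831), .ofNat (nat_lit 0), .ofNat (nat_lit 0)],
  [],
  []],
  [[],
  [],
  [],
  [],
  [],
  [.negSucc (nat_lit 3235437410403787775), .negSucc (nat_lit 157151910544321535), .ofNat (nat_lit 0)],
  [.ofNat (nat_lit 8834754542792380416), .ofNat (nat_lit 0), .ofNat (nat_lit 0)],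
  []],
  [[],
  [],
  [],
  [],
  [],
  [],
  [],
  []],
  [[],
  [],
  [],
  [],
  [],
  [],
  [],
  []]]]]]

noncomputable def BP2_E : L5 := [[[[[],
  []],
  [[],
  []],
  [[],
  []]],
  [[[.ofNat (nat_lit 463690605358901088), .ofNat (nat_lit 278434818661790016), .ofNat (nat_lit 0)],
  [.negSucc (nat_lit 221567778628261055), .ofNat (nat_lit 0), .ofNat (nat_lit 0)]],
  [[.negSucc (nat_lit 447018164910761183), .ofNat (nat_lit 0), .ofNat (nat_lit 0)],
  []],
  [[],
  []]],
  [[[.negSucc (nat_lit 6282265602657392063), .negSucc (nat_lit 1813058896501629503), .ofNat (nat_lit 0)],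
  [.ofNat (nat_lit 7812345190401065664), .ofNat (nat_lit 0), .ofNat (nat_lit 0)]],
  [[.ofNat (nat_lit 3645422659083479328), .ofNat (nat_lit 0), .ofNat (nat_lit 0)],
  []],
  [[],
  []]],
  [[[.ofNat (nat_lit 43794858963771154656), .ofNat (nat_lit 4184066856641576832), .ofNat (nat_lit 0)],
  [.negSucc (nat_lit 81010375757291900447), .ofNat (nat_lit 0), .ofNat (nat_lit 0)]],
  [[.negSucc (nat_lit 12557180489376712319), .ofNat (nat_lit 0), .ofNat (nat_lit 0)],
  []],
  [[],
  []]],
  [[[.negSucc (nat_lit 148950710378046136223), .negSucc (nat_lit 3060983194156152287), .ofNat (nat_lit 0)],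
  [.ofNat (nat_lit 316053533753630277408), .ofNat (nat_lit 0), .ofNat (nat_lit 0)]],
  [[.ofNat (nat_lit 23711382666912063456), .ofNat (nat_lit 0), .ofNat (nat_lit 0)],
  []],
  [[],
  []]],
  [[[.ofNat (nat_lit 268491221206524700128), .negSucc (nat_lit 2967802035323895647), .ofNat (nat_lit 0)],
  [.negSucc (nat_lit 606336553102283640287), .ofNat (nat_lit 0), .ofNat (nat_lit 0)]],
  [[.negSucc (nat_lit 26552006206018279775), .ofNat (nat_lit 0), .ofNat (nat_lit 0)],
  []],
  [[],
  []]],
  [[[.negSucc (nat_lit 265188258424625612543), .ofNat (nat_lit 6761988996369842304), .ofNat (nat_lit 0)],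
  [.ofNat (nat_lit 620278127284465319904), .ofNat (nat_lit 0), .ofNat (nat_lit 0)]],
  [[.ofNat (nat_lit 17671361525493851808), .ofNat (nat_lit 0), .ofNat (nat_lit 0)],
  []],
  [[],
  []]],
  [[[.ofNat (nat_lit 136179159301437941088), .negSucc (nat_lit 4367663744974025759), .ofNat (nat_lit 0)],
  [.negSucc (nat_lit 326031948182149892927), .ofNat (nat_lit 0), .ofNat (nat_lit 0)]],
  [[.negSucc (nat_lit 6489741453823104191), .ofNat (nat_lit 0), .ofNat (nat_lit 0)],
  []],
  [[],
  []]],
  [[[.negSucc (nat_lit 28507695671763556127), .ofNat (nat_lit 985017199282494048), .ofNat (nat_lit 0)],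
  [.ofNat (nat_lit 69456438591857031744), .ofNat (nat_lit 0), .ofNat (nat_lit 0)]],
  [[.ofNat (nat_lit 1017779462639462880), .ofNat (nat_lit 0), .ofNat (nat_lit 0)],
  []],
  [[],
  []]]],
  [[[[],
  []],
  [[],
  []],
  [[],
  []]],
  [[[.negSucc (nat_lit 76948221758275583), .ofNat (nat_lit 0), .ofNat (nat_lit 0)],
  []],
  [[.negSucc (nat_lit 285089539077613151), .ofNat (nat_lit 25341491655763776), .ofNat (nat_lit 0)],
  [.ofNat (nat_lit 506237646258507168), .ofNat (nat_lit 0), .ofNat (nat_lit 0)]],
  [[.ofNat (nat_lit 121595518145351808), .ofNat (nat_lit 11750444725311648), .ofNat (nat_lit 0)],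
  [.negSucc (nat_lit 236978181137725631), .ofNat (nat_lit 0), .ofNat (nat_lit 0)]]],
  [[[.ofNat (nat_lit 4628583521246117088), .ofNat (nat_lit 183243019446057888), .ofNat (nat_lit 0)],
  [.negSucc (nat_lit 9020992171753164671), .ofNat (nat_lit 0), .ofNat (nat_lit 0)]],
  [[.ofNat (nat_lit 385380589423279104), .negSucc (nat_lit 50682983311527551), .ofNat (nat_lit 0)],
  [.negSucc (nat_lit 1012475292517014335), .ofNat (nat_lit 0), .ofNat (nat_lit 0)]],
  [[.negSucc (nat_lit 243191036290703615), .negSucc (nat_lit 23500889450623295), .ofNat (nat_lit 0)],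
  [.ofNat (nat_lit 473956362275451264), .ofNat (nat_lit 0), .ofNat (nat_lit 0)]]],
  [[[.negSucc (nat_lit 48156302059979826815), .ofNat (nat_lit 528654449768833440), .ofNat (nat_lit 0)],
  [.ofNat (nat_lit 109545019785079376544), .ofNat (nat_lit 0), .ofNat (nat_lit 0)]],
  [[.ofNat (nat_lit 1414076666865213600), .ofNat (nat_lit 25341491655763776), .ofNat (nat_lit 0)],
  [.ofNat (nat_lit 506237646258507168), .ofNat (nat_lit 0), .ofNat (nat_lit 0)]],
  [[.ofNat (nat_lit 121595518145351808), .ofNat (nat_lit 11750444725311648), .ofNat (nat_lit 0)],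
  [.negSucc (nat_lit 236978181137725631), .ofNat (nat_lit 0), .ofNat (nat_lit 0)]]],
  [[[.ofNat (nat_lit 198757408426947983520), .negSucc (nat_lit 5727561245940149855), .ofNat (nat_lit 0)],
  [.negSucc (nat_lit 471978150985841761727), .ofNat (nat_lit 0), .ofNat (nat_lit 0)]],
  [[.negSucc (nat_lit 5782995895684705631), .ofNat (nat_lit 0), .ofNat (nat_lit 0)],
  []],
  [[],
  []]],
  [[[.negSucc (nat_lit 411259746040843795199), .ofNat (nat_lit 14313581821363717728), .ofNat (nat_lit 0)],
  [.ofNat (nat_lit 995579399289817505952), .ofNat (nat_lit 0), .ofNat (nat_lit 0)]],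
  [[.ofNat (nat_lit 9676951482946028256), .ofNat (nat_lit 0), .ofNat (nat_lit 0)],
  []],
  [[],
  []]],
  [[[.ofNat (nat_lit 455121488351364693120), .negSucc (nat_lit 16487133215928096095), .ofNat (nat_lit 0)],
  [.negSucc (nat_lit 1115486095991411101823), .ofNat (nat_lit 0), .ofNat (nat_lit 0)]],
  [[.negSucc (nat_lit 8732522816105271839), .ofNat (nat_lit 0), .ofNat (nat_lit 0)],
  []],
  [[],
  []]],
  [[[.negSucc (nat_lit 257944725563259574079), .ofNat (nat_lit 9201035586005123904), .ofNat (nat_lit 0)],
  [.ofNat (nat_lit 638547452161858838016), .ofNat (nat_lit 0), .ofNat (nat_lit 0)]],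
  [[.ofNat (nat_lit 4179134668788830880), .ofNat (nat_lit 0), .ofNat (nat_lit 0)],
  []],
  [[],
  []]],
  [[[.ofNat (nat_lit 58930241586282677952), .negSucc (nat_lit 2011820414715487007), .ofNat (nat_lit 0)],
  [.negSucc (nat_lit 147186632087749692287), .ofNat (nat_lit 0), .ofNat (nat_lit 0)]],
  [[.negSucc (nat_lit 854935157155761215), .ofNat (nat_lit 0), .ofNat (nat_lit 0)],
  []],
  [[],
  []]]],
  [[[[],
  []],
  [[],
  []],
  [[],
  []]],
  [[[.negSucc (nat_lit 44418970683020159), .negSucc (nat_lit 35517983067582623), .ofNat (nat_lit 0)],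
  [.ofNat (nat_lit 35402791825029024), .ofNat (nat_lit 0), .ofNat (nat_lit 0)]],
  [[.negSucc (nat_lit 79037468792498879), .ofNat (nat_lit 139159130321456928), .ofNat (nat_lit 0)],
  [.ofNat (nat_lit 318886186022843904), .ofNat (nat_lit 0), .ofNat (nat_lit 0)]],
  [[.ofNat (nat_lit 123814915684087104), .negSucc (nat_lit 83807522762970527), .ofNat (nat_lit 0)],
  [.negSucc (nat_lit 326869646943125951), .ofNat (nat_lit 0), .ofNat (nat_lit 0)]]],
  [[[],
  []],
  [[],
  []],
  [[],
  []]],
  [[[.ofNat (nat_lit 18088139862370214496), .negSucc (nat_lit 884848398076279295), .ofNat (nat_lit 0)],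
  [.negSucc (nat_lit 42388286029967364191), .ofNat (nat_lit 0), .ofNat (nat_lit 0)]],
  [[.negSucc (nat_lit 1429128626849689247), .negSucc (nat_lit 417477390964370783), .ofNat (nat_lit 0)],
  [.negSucc (nat_lit 956658558068531711), .ofNat (nat_lit 0), .ofNat (nat_lit 0)]],
  [[.negSucc (nat_lit 371444747052261311), .ofNat (nat_lit 251422568288911584), .ofNat (nat_lit 0)],
  [.ofNat (nat_lit 980608940829377856), .ofNat (nat_lit 0), .ofNat (nat_lit 0)]]],
  [[[.negSucc (nat_lit 88850167670486898431), .ofNat (nat_lit 3601481596922361600), .ofNat (nat_lit 0)],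
  [.ofNat (nat_lit 212014604810944569600), .ofNat (nat_lit 0), .ofNat (nat_lit 0)]],
  [[.ofNat (nat_lit 6369243957025285248), .ofNat (nat_lit 278318260642913856), .ofNat (nat_lit 0)],
  [.ofNat (nat_lit 637772372045687808), .ofNat (nat_lit 0), .ofNat (nat_lit 0)]],
  [[.ofNat (nat_lit 247629831368174208), .negSucc (nat_lit 167615045525941055), .ofNat (nat_lit 0)],
  [.negSucc (nat_lit 653739293886251903), .ofNat (nat_lit 0), .ofNat (nat_lit 0)]]],
  [[[.ofNat (nat_lit 180483591363169922208), .negSucc (nat_lit 6262024909074134399), .ofNat (nat_lit 0)],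
  [.negSucc (nat_lit 437199778733321936159), .ofNat (nat_lit 0), .ofNat (nat_lit 0)]],
  [[.negSucc (nat_lit 10130862905611966943), .ofNat (nat_lit 0), .ofNat (nat_lit 0)],
  []],
  [[],
  []]],
  [[[.negSucc (nat_lit 188035358170457994335), .ofNat (nat_lit 6364363892350216320), .ofNat (nat_lit 0)],
  [.ofNat (nat_lit 462427722440708461344), .ofNat (nat_lit 0), .ofNat (nat_lit 0)]],
  [[.ofNat (nat_lit 7677346374091896768), .ofNat (nat_lit 0), .ofNat (nat_lit 0)],
  []],
  [[],
  []]],
  [[[.ofNat (nat_lit 99890846416283884416), .negSucc (nat_lit 3675711573313000991), .ofNat (nat_lit 0)],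
  [.negSucc (nat_lit 249620917318167774815), .ofNat (nat_lit 0), .ofNat (nat_lit 0)]],
  [[.negSucc (nat_lit 2740174443653095295), .ofNat (nat_lit 0), .ofNat (nat_lit 0)],
  []],
  [[],
  []]],
  [[[.negSucc (nat_lit 21532632830196108191), .ofNat (nat_lit 892257374258419392), .ofNat (nat_lit 0)],
  [.ofNat (nat_lit 54731252037979015200), .ofNat (nat_lit 0), .ofNat (nat_lit 0)]],
  [[.ofNat (nat_lit 332613113790068352), .ofNat (nat_lit 0), .ofNat (nat_lit 0)],
  []],
  [[],
  []]]],
  [[[[],
  []],
  [[],
  []],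
  [[],
  []]],
  [[[.negSucc (nat_lit 247670372912866847), .negSucc (nat_lit 19775486254211711), .ofNat (nat_lit 0)],
  [.ofNat (nat_lit 485088141142691424), .ofNat (nat_lit 0), .ofNat (nat_lit 0)]],
  [[.ofNat (nat_lit 341729089413415200), .negSucc (nat_lit 26445534225732575), .ofNat (nat_lit 0)],
  [.negSucc (nat_lit 714051097423713215), .ofNat (nat_lit 0), .ofNat (nat_lit 0)]],
  [[.negSucc (nat_lit 230683149454918751), .ofNat (nat_lit 2977100336809152), .ofNat (nat_lit 0)],
  [.ofNat (nat_lit 573019936819578720), .ofNat (nat_lit 0), .ofNat (nat_lit 0)]]],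
  [[[],
  []],
  [[],
  []],
  [[],
  []]],
  [[[],
  []],
  [[],
  []],
  [[],
  []]],
  [[[.negSucc (nat_lit 7371022933936653695), .ofNat (nat_lit 1037445562169220672), .ofNat (nat_lit 0)],
  [.ofNat (nat_lit 17678141630411827968), .ofNat (nat_lit 0), .ofNat (nat_lit 0)]],
  [[.negSucc (nat_lit 831432990739912415), .ofNat (nat_lit 105782136902930304), .ofNat (nat_lit 0)],
  [.ofNat (nat_lit 2856204389694852864), .ofNat (nat_lit 0), .ofNat (nat_lit 0)]],
  [[.ofNat (nat_lit 922732597819675008), .negSucc (nat_lit 11908401347236607), .ofNat (nat_lit 0)],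
  [.negSucc (nat_lit 2292079747278314879), .ofNat (nat_lit 0), .ofNat (nat_lit 0)]]],
  [[[.ofNat (nat_lit 47702152985628002400), .negSucc (nat_lit 3570839736357791807), .ofNat (nat_lit 0)],
  [.negSucc (nat_lit 115623277216684239167), .ofNat (nat_lit 0), .ofNat (nat_lit 0)]],
  [[.negSucc (nat_lit 694545499640524607), .negSucc (nat_lit 79336602677197727), .ofNat (nat_lit 0)],
  [.negSucc (nat_lit 2142153292271139647), .ofNat (nat_lit 0), .ofNat (nat_lit 0)]],
  [[.negSucc (nat_lit 692049448364756255), .ofNat (nat_lit 8931301010427456), .ofNat (nat_lit 0)],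
  [.ofNat (nat_lit 1719059810458736160), .ofNat (nat_lit 0), .ofNat (nat_lit 0)]]],
  [[[.negSucc (nat_lit 94915433047676962463), .ofNat (nat_lit 4956207163805156544), .ofNat (nat_lit 0)],
  [.ofNat (nat_lit 233203364057237216256), .ofNat (nat_lit 0), .ofNat (nat_lit 0)]],
  [[.ofNat (nat_lit 2332778936019071616), .ofNat (nat_lit 0), .ofNat (nat_lit 0)],
  []],
  [[],
  []]],
  [[[.ofNat (nat_lit 77942191484606600448), .negSucc (nat_lit 3211248963434338367), .ofNat (nat_lit 0)],
  [.negSucc (nat_lit 193645079974067866847), .ofNat (nat_lit 0), .ofNat (nat_lit 0)]],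
  [[.negSucc (nat_lit 1648293036050826143), .ofNat (nat_lit 0), .ofNat (nat_lit 0)],
  []],
  [[],
  []]],
  [[[.negSucc (nat_lit 23110218115708119839), .ofNat (nat_lit 808211460071964672), .ofNat (nat_lit 0)],
  [.ofNat (nat_lit 57901763361960370368), .ofNat (nat_lit 0), .ofNat (nat_lit 0)]],
  [[.ofNat (nat_lit 499763500998776352), .ofNat (nat_lit 0), .ofNat (nat_lit 0)],
  []],
  [[],
  []]]],
  [[[[],
  []],
  [[],
  []],
  [[],
  []]],
  [[[.ofNat (nat_lit 151630543140086016), .ofNat (nat_lit 84468314213193888), .ofNat (nat_lit 0)],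
  [.negSucc (nat_lit 280620347655986783), .ofNat (nat_lit 0), .ofNat (nat_lit 0)]],
  [[.negSucc (nat_lit 18183366897806591), .negSucc (nat_lit 39245065226623583), .ofNat (nat_lit 0)],
  [.negSucc (nat_lit 83753682924452831), .ofNat (nat_lit 0), .ofNat (nat_lit 0)]],
  [[.negSucc (nat_lit 16901466951536639), .ofNat (nat_lit 10982100686757408), .ofNat (nat_lit 0)],
  [.ofNat (nat_lit 95961483661547520), .ofNat (nat_lit 0), .ofNat (nat_lit 0)]]],
  [[[],
  []],
  [[],
  []],
  [[],
  []]],
  [[[],
  []],
  [[],
  []],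
  [[],
  []]],
  [[[],
  []],
  [[],
  []],
  [[],
  []]],
  [[[.negSucc (nat_lit 13606771007022572735), .ofNat (nat_lit 93049052207550048), .ofNat (nat_lit 0)],
  [.ofNat (nat_lit 33703952685210534528), .ofNat (nat_lit 0), .ofNat (nat_lit 0)]],
  [[.ofNat (nat_lit 105896096127272448), .ofNat (nat_lit 196225326133117920), .ofNat (nat_lit 0)],
  [.ofNat (nat_lit 418768414622264160), .ofNat (nat_lit 0), .ofNat (nat_lit 0)]],
  [[.ofNat (nat_lit 84507334757683200), .negSucc (nat_lit 54910503433787039), .ofNat (nat_lit 0)],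
  [.negSucc (nat_lit 479807418307737599), .ofNat (nat_lit 0), .ofNat (nat_lit 0)]]],
  [[[.ofNat (nat_lit 37833760000751866560), .negSucc (nat_lit 1440983415312811007), .ofNat (nat_lit 0)],
  [.negSucc (nat_lit 96019436220871208255), .ofNat (nat_lit 0), .ofNat (nat_lit 0)]],
  [[.ofNat (nat_lit 61283321607699648), .negSucc (nat_lit 156980260906494335), .ofNat (nat_lit 0)],
  [.negSucc (nat_lit 335014731697811327), .ofNat (nat_lit 0), .ofNat (nat_lit 0)]],
  [[.negSucc (nat_lit 67605867806146559), .ofNat (nat_lit 43928402747029632), .ofNat (nat_lit 0)],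
  [.ofNat (nat_lit 383845934646190080), .ofNat (nat_lit 0), .ofNat (nat_lit 0)]]],
  [[[.negSucc (nat_lit 35908620782416617023), .ofNat (nat_lit 2011541474510614656), .ofNat (nat_lit 0)],
  [.ofNat (nat_lit 92891356819702720416), .ofNat (nat_lit 0), .ofNat (nat_lit 0)]],
  [[.negSucc (nat_lit 312971363312570495), .ofNat (nat_lit 0), .ofNat (nat_lit 0)],
  []],
  [[],
  []]],
  [[[.ofNat (nat_lit 11530001245547237184), .negSucc (nat_lit 748075425618547583), .ofNat (nat_lit 0)],
  [.negSucc (nat_lit 30295252936386059903), .ofNat (nat_lit 0), .ofNat (nat_lit 0)]],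
  [[.ofNat (nat_lit 163975312475404992), .ofNat (nat_lit 0), .ofNat (nat_lit 0)],
  []],
  [[],
  []]]],
  [[[[],
  []],
  [[],
  []],
  [[],
  []]],
  [[[.ofNat (nat_lit 79407739695510432), .negSucc (nat_lit 21485877338548511), .ofNat (nat_lit 0)],
  [.negSucc (nat_lit 152578179937279007), .ofNat (nat_lit 0), .ofNat (nat_lit 0)]],
  [[.negSucc (nat_lit 127147244774859359), .ofNat (nat_lit 8942606955650592), .ofNat (nat_lit 0)],
  [.ofNat (nat_lit 250433090926832736), .ofNat (nat_lit 0), .ofNat (nat_lit 0)]],
  [[.ofNat (nat_lit 73564406175984768), .ofNat (nat_lit 2415036094027776), .ofNat (nat_lit 0)],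
  [.negSucc (nat_lit 199088713595843423), .ofNat (nat_lit 0), .ofNat (nat_lit 0)]]],
  [[[],
  []],
  [[],
  []],
  [[],
  []]],
  [[[],
  []],
  [[],
  []],
  [[],
  []]],
  [[[],
  []],
  [[],
  []],
  [[],
  []]],
  [[[],
  []],
  [[],
  []],
  [[],
  []]],
  [[[.ofNat (nat_lit 176286678626613024), .ofNat (nat_lit 179748468240963264), .ofNat (nat_lit 0)],
  [.negSucc (nat_lit 712605911318126783), .ofNat (nat_lit 0), .ofNat (nat_lit 0)]],
  [[.ofNat (nat_lit 701428343293472544), .negSucc (nat_lit 53655641733903551), .ofNat (nat_lit 0)],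
  [.negSucc (nat_lit 1502598545560996415), .ofNat (nat_lit 0), .ofNat (nat_lit 0)]],
  [[.negSucc (nat_lit 441386437055908607), .negSucc (nat_lit 14490216564166655), .ofNat (nat_lit 0)],
  [.ofNat (nat_lit 1194532281575060544), .ofNat (nat_lit 0), .ofNat (nat_lit 0)]]],
  [[[.negSucc (nat_lit 908427535121799071), .negSucc (nat_lit 209095795112086943), .ofNat (nat_lit 0)],
  [.ofNat (nat_lit 2493259082197206624), .ofNat (nat_lit 0), .ofNat (nat_lit 0)]],
  [[.negSucc (nat_lit 512825973162929567), .ofNat (nat_lit 44713034778252960), .ofNat (nat_lit 0)],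
  [.ofNat (nat_lit 1252165454634163680), .ofNat (nat_lit 0), .ofNat (nat_lit 0)]],
  [[.ofNat (nat_lit 367822030879923840), .ofNat (nat_lit 12075180470138880), .ofNat (nat_lit 0)],
  [.negSucc (nat_lit 995443567979217119), .ofNat (nat_lit 0), .ofNat (nat_lit 0)]]],
  [[[.ofNat (nat_lit 652733116799675616), .ofNat (nat_lit 50833204209672192), .ofNat (nat_lit 0)],
  [.negSucc (nat_lit 1628074990941800831), .ofNat (nat_lit 0), .ofNat (nat_lit 0)]],
  [[.negSucc (nat_lit 61455125355683615), .ofNat (nat_lit 0), .ofNat (nat_lit 0)],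
  []],
  [[],
  []]]],
  [[[[],
  []],
  [[],
  []],
  [[],
  []]],
  [[[.negSucc (nat_lit 30825734478787871), .negSucc (nat_lit 30493727781622559), .ofNat (nat_lit 0)],
  [.ofNat (nat_lit 23174602285927392), .ofNat (nat_lit 0), .ofNat (nat_lit 0)]],
  [[.negSucc (nat_lit 5098980907783007), .ofNat (nat_lit 18797428952006688), .ofNat (nat_lit 0)],
  [.ofNat (nat_lit 81211914280577664), .ofNat (nat_lit 0), .ofNat (nat_lit 0)]],
  [[.ofNat (nat_lit 30973616563790592), .negSucc (nat_lit 1449759328829279), .ofNat (nat_lit 0)],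
  [.negSucc (nat_lit 102113252781139583), .ofNat (nat_lit 0), .ofNat (nat_lit 0)]]],
  [[[],
  []],
  [[],
  []],
  [[],
  []]],
  [[[],
  []],
  [[],
  []],
  [[],
  []]],
  [[[],
  []],
  [[],
  []],
  [[],
  []]],
  [[[],
  []],
  [[],
  []],
  [[],
  []]],
  [[[.ofNat (nat_lit 338933216600521632), .ofNat (nat_lit 411035283936981216), .ofNat (nat_lit 0)],
  [.ofNat (nat_lit 335829078498454560), .ofNat (nat_lit 0), .ofNat (nat_lit 0)]],
  [[.negSucc (nat_lit 299365337602462175), .negSucc (nat_lit 112784573712040127), .ofNat (nat_lit 0)],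
  [.negSucc (nat_lit 487271485683465983), .ofNat (nat_lit 0), .ofNat (nat_lit 0)]],
  [[.negSucc (nat_lit 185841699382743551), .ofNat (nat_lit 8698555972975680), .ofNat (nat_lit 0)],
  [.ofNat (nat_lit 612679516686837504), .ofNat (nat_lit 0), .ofNat (nat_lit 0)]]],
  [[[.negSucc (nat_lit 462086291849528159), .negSucc (nat_lit 608614473402604511), .ofNat (nat_lit 0)],
  [.negSucc (nat_lit 833880372998400863), .ofNat (nat_lit 0), .ofNat (nat_lit 0)]],
  [[.ofNat (nat_lit 634423541559405408), .ofNat (nat_lit 93987144760033440), .ofNat (nat_lit 0)],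
  [.ofNat (nat_lit 406059571402888320), .ofNat (nat_lit 0), .ofNat (nat_lit 0)]],
  [[.ofNat (nat_lit 154868082818952960), .negSucc (nat_lit 7248796644146399), .ofNat (nat_lit 0)],
  [.negSucc (nat_lit 510566263905697919), .ofNat (nat_lit 0), .ofNat (nat_lit 0)]]],
  [[[.ofNat (nat_lit 153978809727794400), .ofNat (nat_lit 228072917247245856), .ofNat (nat_lit 0)],
  [.ofNat (nat_lit 474876692214018912), .ofNat (nat_lit 0), .ofNat (nat_lit 0)]],
  [[.negSucc (nat_lit 329959223049160223), .ofNat (nat_lit 0), .ofNat (nat_lit 0)],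
  []],
  [[],
  []]]],
  [[[[],
  []],
  [[],
  []],
  [[],
  []]],
  [[[.negSucc (nat_lit 60477592411957823), .ofNat (nat_lit 6056004073199904), .ofNat (nat_lit 0)],
  [.ofNat (nat_lit 132103214581317408), .ofNat (nat_lit 0), .ofNat (nat_lit 0)]],
  [[.ofNat (nat_lit 58306388899296672), .negSucc (nat_lit 4800270876421247), .ofNat (nat_lit 0)],
  [.negSucc (nat_lit 109045786484755007), .ofNat (nat_lit 0), .ofNat (nat_lit 0)]],
  [[.negSucc (nat_lit 33702473025039455), .negSucc (nat_lit 1636999068170015), .ofNat (nat_lit 0)],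
  [.ofNat (nat_lit 92028693154087296), .ofNat (nat_lit 0), .ofNat (nat_lit 0)]]],
  [[[],
  []],
  [[],
  []],
  [[],
  []]],
  [[[],
  []],
  [[],
  []],
  [[],
  []]],
  [[[],
  []],
  [[],
  []],
  [[],
  []]],
  [[[],
  []],
  [[],
  []],
  [[],
  []]],
  [[[],
  []],
  [[],
  []],
  [[],
  []]],
  [[[.ofNat (nat_lit 423343146883704768), .negSucc (nat_lit 42392028512399327), .ofNat (nat_lit 0)],
  [.negSucc (nat_lit 924722502069221855), .ofNat (nat_lit 0), .ofNat (nat_lit 0)]],
  [[.negSucc (nat_lit 408144722295076703), .ofNat (nat_lit 33601896134948736), .ofNat (nat_lit 0)],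
  [.ofNat (nat_lit 763320505393285056), .ofNat (nat_lit 0), .ofNat (nat_lit 0)]],
  [[.ofNat (nat_lit 235917311175276192), .ofNat (nat_lit 11458993477190112), .ofNat (nat_lit 0)],
  [.negSucc (nat_lit 644200852078611071), .ofNat (nat_lit 0), .ofNat (nat_lit 0)]]],
  [[[.negSucc (nat_lit 362865554471746943), .ofNat (nat_lit 36336024439199424), .ofNat (nat_lit 0)],
  [.ofNat (nat_lit 792619287487904448), .ofNat (nat_lit 0), .ofNat (nat_lit 0)]],
  [[.ofNat (nat_lit 349838333395780032), .negSucc (nat_lit 28801625258527487), .ofNat (nat_lit 0)],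
  [.negSucc (nat_lit 654274718908530047), .ofNat (nat_lit 0), .ofNat (nat_lit 0)]],
  [[.negSucc (nat_lit 202214838150236735), .negSucc (nat_lit 9821994409020095), .ofNat (nat_lit 0)],
  [.ofNat (nat_lit 552172158924523776), .ofNat (nat_lit 0), .ofNat (nat_lit 0)]]]],
  [[[[],
  []],
  [[],
  []],
  [[],
  []]],
  [[[],
  []],
  [[],
  []],
  [[],
  []]],
  [[[],
  []],
  [[],
  []],
  [[],
  []]],
  [[[],
  []],
  [[],
  []],
  [[],
  []]],
  [[[],
  []],
  [[],
  []],
  [[],
  []]],
  [[[],
  []],
  [[],
  []],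
  [[],
  []]],
  [[[],
  []],
  [[],
  []],
  [[],
  []]],
  [[[],
  []],
  [[],
  []],
  [[],
  []]],
  [[[],
  []],
  [[],
  []],
  [[],
  []]]],
  [[[[],
  []],
  [[],
  []],
  [[],
  []]],
  [[[],
  []],
  [[],
  []],
  [[],
  []]],
  [[[],
  []],
  [[],
  []],
  [[],
  []]],
  [[[],
  []],
  [[],
  []],
  [[],
  []]],
  [[[],
  []],
  [[],
  []],
  [[],
  []]],
  [[[],
  []],
  [[],
  []],
  [[],
  []]],
  [[[],
  []],
  [[],
  []],
  [[],
  []]],
  [[[],
  []],
  [[],
  []],
  [[],
  []]],
  [[[],
  []],
  [[],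
  []],
  [[],
  []]]]]

noncomputable def BP2_tn : List (List ℕ) := [[nat_lit 16384, nat_lit 0, nat_lit 0],
  [nat_lit 32768, nat_lit 16384, nat_lit 0],
  [nat_lit 16384, nat_lit 16384, nat_lit 16384]]

noncomputable def BP2_zn : List (List ℕ) := [[nat_lit 281474976710656, nat_lit 52776558133248, nat_lit 9895604649984, nat_lit 1855425871872, nat_lit 347892350976, nat_lit 65229815808, nat_lit 12230590464, nat_lit 2293235712, nat_lit 429981696],
  [nat_lit 2251799813685248, nat_lit 536561674354688, nat_lit 122045790683136, nat_lit 26903675142144, nat_lit 5798205849600, nat_lit 1228494864384, nat_lit 256842399744, nat_lit 53126627328, nat_lit 10892869632],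
  [nat_lit 7881299347898368, nat_lit 2278188092751872, nat_lit 623697970855936, nat_lit 162504382611456, nat_lit 40645423005696, nat_lit 9835206672384, nat_lit 2316677677056, nat_lit 533750611968, nat_lit 120729305088],
  [nat_lit 15762598695796736, nat_lit 5356820650524672, nat_lit 1733380081188864, nat_lit 532825052807168, nat_lit 155746251571200, nat_lit 43500435406848, nat_lit 11679307923456, nat_lit 3031646994432, nat_lit 764618932224],
  [nat_lit 19703248369745920, nat_lit 7696581394432000, nat_lit 2890341191516160, nat_lit 1038308343808000, nat_lit 355301437997056, nat_lit 115592921088000, nat_lit 35822748303360, nat_lit 10619707392000, nat_lit 3026616606720],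
  [nat_lit 15762598695796736, nat_lit 6957709580566528, nat_lit 2984074557784064, nat_lit 1237345718239232, nat_lit 493196463308800, nat_lit 187841644593152, nat_lit 68030856953856, nat_lit 23405835091968, nat_lit 7667428737024],
  [nat_lit 7881299347898368, nat_lit 3879077022793728, nat_lit 1874392447451136, nat_lit 885897134342144, nat_lit 407583269584896, nat_lit 181415618543616, nat_lit 77515548000256, nat_lit 31521651474432, nat_lit 12140095500288],
  [nat_lit 2251799813685248, nat_lit 1222656930086912, nat_lit 658057709223936, nat_lit 350409201811456, nat_lit 184119879270400, nat_lit 95109425135616, nat_lit 48032992722944, nat_lit 23509391286272, nat_lit 10983895928832],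
  [nat_lit 281474976710656, nat_lit 167125767421952, nat_lit 99230924406784, nat_lit 58918361366528, nat_lit 34982777061376, nat_lit 20771023880192, nat_lit 12332795428864, nat_lit 7322597285888, nat_lit 4347792138496],
  [nat_lit 281474976710656, nat_lit 167125767421952, nat_lit 99230924406784, nat_lit 58918361366528, nat_lit 34982777061376, nat_lit 20771023880192, nat_lit 12332795428864, nat_lit 7322597285888, nat_lit 4347792138496],
  [nat_lit 2251799813685248, nat_lit 1451355348664320, nat_lit 929637081284608, nat_lit 592284580052992, nat_lit 375604553711616, nat_lit 237226956947456, nat_lit 149291734138880, nat_lit 93652165287936, nat_lit 58580778287104],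
  [nat_lit 7881299347898368, nat_lit 5479965952835584, nat_lit 3775448051875840, nat_lit 2579024782032896, nat_lit 1747975990673408, nat_lit 1176238341226496, nat_lit 786326737911808, nat_lit 522521069486080, nat_lit 345318272008192],
  [nat_lit 15762598695796736, nat_lit 11760376370692096, nat_lit 8687241371058176, nat_lit 6354472833908736, nat_lit 4604017036492800, nat_lit 3305372764864512, nat_lit 2352476682452992, nat_lit 1660588698632192, nat_lit 1163177337290752],
  [nat_lit 19703248369745920, nat_lit 15701026044641280, nat_lit 12395619213639680, nat_lit 9692667445248000, nat_lit 7505477093031936, nat_lit 5755021295616000, nat_lit 4369939976683520, nat_lit 3286539844976640, nat_lit 2448794394296320],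
  [nat_lit 15762598695796736, nat_lit 13361265300733952, nat_lit 11238658103312384, nat_lit 9375905017233408, nat_lit 7754133956198400, nat_lit 6354472833908736, nat_lit 5158049564065792, nat_lit 4145992060370944, nat_lit 3299428236525568],
  [nat_lit 7881299347898368, nat_lit 7080854882877440, nat_lit 6326864784130048, nat_lit 5619329051656192, nat_lit 4958247685455872, nat_lit 4343620685529088, nat_lit 3775448051875840, nat_lit 3253729784496128, nat_lit 2778465883389952],
  [nat_lit 2251799813685248, nat_lit 2137450604396544, nat_lit 2023101395107840, nat_lit 1908752185819136, nat_lit 1794402976530432, nat_lit 1680053767241728, nat_lit 1565704557953024, nat_lit 1451355348664320, nat_lit 1337006139375616],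
  [nat_lit 281474976710656, nat_lit 281474976710656, nat_lit 281474976710656, nat_lit 281474976710656, nat_lit 281474976710656, nat_lit 281474976710656, nat_lit 281474976710656, nat_lit 281474976710656, nat_lit 281474976710656],
  [nat_lit 281474976710656, nat_lit 281474976710656, nat_lit 281474976710656, nat_lit 281474976710656, nat_lit 281474976710656, nat_lit 281474976710656, nat_lit 281474976710656, nat_lit 281474976710656, nat_lit 281474976710656],
  [nat_lit 2251799813685248, nat_lit 2366149022973952, nat_lit 2480498232262656, nat_lit 2594847441551360, nat_lit 2709196650840064, nat_lit 2823545860128768, nat_lit 2937895069417472, nat_lit 3052244278706176, nat_lit 3166593487994880],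
  [nat_lit 7881299347898368, nat_lit 8681743812919296, nat_lit 9528642644213760, nat_lit 10421995841781760, nat_lit 11361803405623296, nat_lit 12348065335738368, nat_lit 13380781632126976, nat_lit 14459952294789120, nat_lit 15585577323724800],
  [nat_lit 15762598695796736, nat_lit 18163932090859520, nat_lit 20843991683563520, nat_lit 23821649560207360, nat_lit 27115777807089664, nat_lit 30745248510509056, nat_lit 34728933756764160, nat_lit 39085705632153600, nat_lit 43834436222976000],
  [nat_lit 19703248369745920, nat_lit 23705470694850560, nat_lit 28404508514058240, nat_lit 33894722258862080, nat_lit 40278139145814016, nat_lit 47664453176524800, nat_lit 56171025137664000, nat_lit 65922882600960000, nat_lit 77052719923200000],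
  [nat_lit 15762598695796736, nat_lit 19764821020901376, nat_lit 24696130671476736, nat_lit 30745248510509056, nat_lit 38131562541219840, nat_lit 47108242538496000, nat_lit 57965354680320000, nat_lit 71032976179200000, nat_lit 86684309913600000],
  [nat_lit 7881299347898368, nat_lit 10282632742961152, nat_lit 13380781632126976, nat_lit 17364466878382080, nat_lit 22468410055065600, nat_lit 28982677340160000, nat_lit 37263288729600000, nat_lit 47744092569600000, nat_lit 60949905408000000],
  [nat_lit 2251799813685248, nat_lit 3052244278706176, nat_lit 4131414941368320, nat_lit 5583672233164800, nat_lit 7534043725824000, nat_lit 10147568025600000, nat_lit 13641169305600000, nat_lit 18298576512000000, nat_lit 24488801280000000],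
  [nat_lit 281474976710656, nat_lit 395824185999360, nat_lit 556627761561600, nat_lit 782757789696000, nat_lit 1100753141760000, nat_lit 1547934105600000, nat_lit 2176782336000000, nat_lit 3061100160000000, nat_lit 4304672100000000]]

noncomputable def BP2_sn : List (List ℕ) := [[nat_lit 4096, nat_lit 3072, nat_lit 2304],
  [nat_lit 8192, nat_lit 11264, nat_lit 12288],
  [nat_lit 4096, nat_lit 8192, nat_lit 16384]]

noncomputable def BP2_en : List (List ℕ) := [[nat_lit 72057594037927936, nat_lit 27021597764222976, nat_lit 10133099161583616, nat_lit 3799912185593856, nat_lit 1424967069597696, nat_lit 534362651099136, nat_lit 200385994162176, nat_lit 75144747810816],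
  [nat_lit 504403158265495552, nat_lit 191402984163246080, nat_lit 72620543991349248, nat_lit 27549363345555456, nat_lit 10449758510383104, nat_lit 3963189662318592, nat_lit 1502894956216320, nat_lit 569847670898688],
  [nat_lit 1513209474796486656, nat_lit 580964351930793984, nat_lit 222998550299017216, nat_lit 85577189013061632, nat_lit 32833616228646912, nat_lit 12594630818267136, nat_lit 4830137400950784, nat_lit 1852004930420736],
  [nat_lit 2522015791327477760, nat_lit 979532918953082880, nat_lit 380343062280273920, nat_lit 147644620401016832, nat_lit 57298849458290688, nat_lit 22231094321479680, nat_lit 8623091739525120, nat_lit 3343897791037440],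
  [nat_lit 2522015791327477760, nat_lit 990791918021509120, nat_lit 389139155302481920, nat_lit 152796931888775168, nat_lit 59980627037913088, nat_lit 23539298410168320, nat_lit 9235527232389120, nat_lit 3622555940290560],
  [nat_lit 1513209474796486656, nat_lit 601230550253961216, nat_lit 238831517738991616, nat_lit 94852669104979968, nat_lit 37662877456269312, nat_lit 14951410370084864, nat_lit 5934091635523584, nat_lit 2354661361188864],
  [nat_lit 504403158265495552, nat_lit 202661983231672320, nat_lit 81416637013557248, nat_lit 32703873856569344, nat_lit 13134972063842304, nat_lit 5274748120465408, nat_lit 2117949372497920, nat_lit 850294380429312],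
  [nat_lit 72057594037927936, nat_lit 29273397577908224, nat_lit 11892317766025216, nat_lit 4831254092447744, nat_lit 1962696975056896, nat_lit 797345646116864, nat_lit 323921668734976, nat_lit 131593177923584]]

noncomputable def BP2_en1 : List (List ℕ) := [[nat_lit 256, nat_lit 96],
  [nat_lit 256, nat_lit 104]]


end Crest.Agent.R163.Ck
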