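import Crest.Agent.R163.BP3D

/-! Row 163: Bellman certificate, kernel checks (generated). -/

set_option autoImplicit false
set_option Elab.async false
set_option maxRecDepth 100000

namespace Crest.Agent.R163.Ck

theorem BP3_p0_0_0 : pcAll 288 BP3_A B9m1b_288_degs B9m1b_288_rp 10 B9m1b_288_cp B9m1b_288_rw BP3_tn (chunk 10 0 B9m1b_288_sw)
    (chunk 1 0 BP3_en) (chunk 1 0 BP3_sn) = true := by decide +kernel

theorem BP3_p0_1_0 : pcAll 288 BP3_A B9m1b_288_degs B9m1b_288_rp 10 B9m1b_288_cp B9m1b_288_rw BP3_tn (chunk 10 0 B9m1b_288_sw)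
    (chunk 1 1 BP3_en) (chunk 1 0 BP3_sn) = true := by decide +kernel

theorem BP3_p0_2_0 : pcAll 288 BP3_A B9m1b_288_degs B9m1b_288_rp 10 B9m1b_288_cp B9m1b_288_rw BP3_tn (chunk 10 0 B9m1b_288_sw)
    (chunk 1 2 BP3_en) (chunk 1 0 BP3_sn) = true := by decide +kernel

theorem BP3_p0_3_0 : pcAll 288 BP3_A B9m1b_288_degs B9m1b_288_rp 10 B9m1b_288_cp B9m1b_288_rw BP3_tn (chunk 10 0 B9m1b_288_sw)
    (chunk 1 3 BP3_en) (chunk 1 0 BP3_sn) = true := by decide +kernel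

theorem BP3_p0_4_0 : pcAll 288 BP3_A B9m1b_288_degs B9m1b_288_rp 10 B9m1b_288_cp B9m1b_288_rw BP3_tn (chunk 10 0 B9m1b_288_sw)
    (chunk 1 4 BP3_en) (chunk 1 0 BP3_sn) = true := by decide +kernel

theorem BP3_p0_5_0 : pcAll 288 BP3_A B9m1b_288_degs B9m1b_288_rp 10 B9m1b_288_cp B9m1b_288_rw BP3_tn (chunk 10 0 B9m1b_288_sw)
    (chunk 1 5 BP3_en) (chunk 1 0 BP3_sn) = true := by decide +kernel

theorem BP3_p0_6_0 : pcAll 288 BP3_A B9m1b_288_degs B9m1b_288_rp 10 B9m1b_288_cp B9m1b_288_rw BP3_tn (chunk 10 0 B9m1b_288_sw)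
    (chunk 1 6 BP3_en) (chunk 1 0 BP3_sn) = true := by decide +kernel

theorem BP3_p0_7_0 : pcAll 288 BP3_A B9m1b_288_degs B9m1b_288_rp 10 B9m1b_288_cp B9m1b_288_rw BP3_tn (chunk 10 0 B9m1b_288_sw)
    (chunk 1 7 BP3_en) (chunk 1 0 BP3_sn) = true := by decide +kernel

theorem BP3_p0_8_0 : pcAll 288 BP3_A B9m1b_288_degs B9m1b_288_rp 10 B9m1b_288_cp B9m1b_288_rw BP3_tn (chunk 10 0 B9m1b_288_sw)
    (chunk 1 8 BP3_en) (chunk 1 0 BP3_sn) = true := by decide +kernel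

theorem BP3_p1_0_0 : pcAll 288 BP3_A B9m1b_288_degs B9m1b_288_rp 10 B9m1b_288_cp B9m1b_288_rw BP3_tn (chunk 10 0 B9m1b_288_sw)
    (chunk 1 0 BP3_en) (chunk 1 1 BP3_sn) = true := by decide +kernel

theorem BP3_p1_1_0 : pcAll 288 BP3_A B9m1b_288_degs B9m1b_288_rp 10 B9m1b_288_cp B9m1b_288_rw BP3_tn (chunk 10 0 B9m1b_288_sw)
    (chunk 1 1 BP3_en) (chunk 1 1 BP3_sn) = true := by decide +kernel

theorem BP3_p1_2_0 : pcAll 288 BP3_A B9m1b_288_degs B9m1b_288_rp 10 B9m1b_288_cp B9m1b_288_rw BP3_tn (chunk 10 0 B9m1b_288_sw)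
    (chunk 1 2 BP3_en) (chunk 1 1 BP3_sn) = true := by decide +kernel

theorem BP3_p1_3_0 : pcAll 288 BP3_A B9m1b_288_degs B9m1b_288_rp 10 B9m1b_288_cp B9m1b_288_rw BP3_tn (chunk 10 0 B9m1b_288_sw)
    (chunk 1 3 BP3_en) (chunk 1 1 BP3_sn) = true := by decide +kernel

theorem BP3_p1_4_0 : pcAll 288 BP3_A B9m1b_288_degs B9m1b_288_rp 10 B9m1b_288_cp B9m1b_288_rw BP3_tn (chunk 10 0 B9m1b_288_sw)
    (chunk 1 4 BP3_en) (chunk 1 1 BP3_sn) = true := by decide +kernel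

theorem BP3_p1_5_0 : pcAll 288 BP3_A B9m1b_288_degs B9m1b_288_rp 10 B9m1b_288_cp B9m1b_288_rw BP3_tn (chunk 10 0 B9m1b_288_sw)
    (chunk 1 5 BP3_en) (chunk 1 1 BP3_sn) = true := by decide +kernel

theorem BP3_p1_6_0 : pcAll 288 BP3_A B9m1b_288_degs B9m1b_288_rp 10 B9m1b_288_cp B9m1b_288_rw BP3_tn (chunk 10 0 B9m1b_288_sw)
    (chunk 1 6 BP3_en) (chunk 1 1 BP3_sn) = true := by decide +kernel

theorem BP3_p1_7_0 : pcAll 288 BP3_A B9m1b_288_degs B9m1b_288_rp 10 B9m1b_288_cp B9m1b_288_rw BP3_tn (chunk 10 0 B9m1b_288_sw)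
    (chunk 1 7 BP3_en) (chunk 1 1 BP3_sn) = true := by decide +kernel

theorem BP3_p1_8_0 : pcAll 288 BP3_A B9m1b_288_degs B9m1b_288_rp 10 B9m1b_288_cp B9m1b_288_rw BP3_tn (chunk 10 0 B9m1b_288_sw)
    (chunk 1 8 BP3_en) (chunk 1 1 BP3_sn) = true := by decide +kernel

theorem BP3_p2_0_0 : pcAll 288 BP3_A B9m1b_288_degs B9m1b_288_rp 10 B9m1b_288_cp B9m1b_288_rw BP3_tn (chunk 10 0 B9m1b_288_sw)
    (chunk 1 0 BP3_en) (chunk 1 2 BP3_sn) = true := by decide +kernel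

theorem BP3_p2_1_0 : pcAll 288 BP3_A B9m1b_288_degs B9m1b_288_rp 10 B9m1b_288_cp B9m1b_288_rw BP3_tn (chunk 10 0 B9m1b_288_sw)
    (chunk 1 1 BP3_en) (chunk 1 2 BP3_sn) = true := by decide +kernel

theorem BP3_p2_2_0 : pcAll 288 BP3_A B9m1b_288_degs B9m1b_288_rp 10 B9m1b_288_cp B9m1b_288_rw BP3_tn (chunk 10 0 B9m1b_288_sw)
    (chunk 1 2 BP3_en) (chunk 1 2 BP3_sn) = true := by decide +kernel

theorem BP3_p2_3_0 : pcAll 288 BP3_A B9m1b_288_degs B9m1b_288_rp 10 B9m1b_288_cp B9m1b_288_rw BP3_tn (chunk 10 0 B9m1b_288_sw)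
    (chunk 1 3 BP3_en) (chunk 1 2 BP3_sn) = true := by decide +kernel

theorem BP3_p2_4_0 : pcAll 288 BP3_A B9m1b_288_degs B9m1b_288_rp 10 B9m1b_288_cp B9m1b_288_rw BP3_tn (chunk 10 0 B9m1b_288_sw)
    (chunk 1 4 BP3_en) (chunk 1 2 BP3_sn) = true := by decide +kernel

theorem BP3_p2_5_0 : pcAll 288 BP3_A B9m1b_288_degs B9m1b_288_rp 10 B9m1b_288_cp B9m1b_288_rw BP3_tn (chunk 10 0 B9m1b_288_sw)
    (chunk 1 5 BP3_en) (chunk 1 2 BP3_sn) = true := by decide +kernel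

theorem BP3_p2_6_0 : pcAll 288 BP3_A B9m1b_288_degs B9m1b_288_rp 10 B9m1b_288_cp B9m1b_288_rw BP3_tn (chunk 10 0 B9m1b_288_sw)
    (chunk 1 6 BP3_en) (chunk 1 2 BP3_sn) = true := by decide +kernel

theorem BP3_p2_7_0 : pcAll 288 BP3_A B9m1b_288_degs B9m1b_288_rp 10 B9m1b_288_cp B9m1b_288_rw BP3_tn (chunk 10 0 B9m1b_288_sw)
    (chunk 1 7 BP3_en) (chunk 1 2 BP3_sn) = true := by decide +kernel

theorem BP3_p2_8_0 : pcAll 288 BP3_A B9m1b_288_degs B9m1b_288_rp 10 B9m1b_288_cp B9m1b_288_rw BP3_tn (chunk 10 0 B9m1b_288_sw)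
    (chunk 1 8 BP3_en) (chunk 1 2 BP3_sn) = true := by decide +kernel

theorem BP3_e0_0 : ecAll 288 BP3_E B9m1b_288_degs B9m1b_288_re 15 B9m1b_288_ce BP3_zn (chunk 1 0 BP3_tn) BP3_en1
    (chunk 1 0 BP3_sn) = true := by decide +kernel

theorem BP3_e0_1 : ecAll 288 BP3_E B9m1b_288_degs B9m1b_288_re 15 B9m1b_288_ce BP3_zn (chunk 1 1 BP3_tn) BP3_en1
    (chunk 1 0 BP3_sn) = true := by decide +kernel

theorem BP3_e0_2 : ecAll 288 BP3_E B9m1b_288_degs B9m1b_288_re 15 B9m1b_288_ce BP3_zn (chunk 1 2 BP3_tn) BP3_en1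
    (chunk 1 0 BP3_sn) = true := by decide +kernel

theorem BP3_e1_0 : ecAll 288 BP3_E B9m1b_288_degs B9m1b_288_re 15 B9m1b_288_ce BP3_zn (chunk 1 0 BP3_tn) BP3_en1
    (chunk 1 1 BP3_sn) = true := by decide +kernel

theorem BP3_e1_1 : ecAll 288 BP3_E B9m1b_288_degs B9m1b_288_re 15 B9m1b_288_ce BP3_zn (chunk 1 1 BP3_tn) BP3_en1
    (chunk 1 1 BP3_sn) = true := by decide +kernel

theorem BP3_e1_2 : ecAll 288 BP3_E B9m1b_288_degs B9m1b_288_re 15 B9m1b_288_ce BP3_zn (chunk 1 2 BP3_tn) BP3_en1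
    (chunk 1 1 BP3_sn) = true := by decide +kernel

theorem BP3_e2_0 : ecAll 288 BP3_E B9m1b_288_degs B9m1b_288_re 15 B9m1b_288_ce BP3_zn (chunk 1 0 BP3_tn) BP3_en1
    (chunk 1 2 BP3_sn) = true := by decide +kernel

theorem BP3_e2_1 : ecAll 288 BP3_E B9m1b_288_degs B9m1b_288_re 15 B9m1b_288_ce BP3_zn (chunk 1 1 BP3_tn) BP3_en1
    (chunk 1 2 BP3_sn) = true := by decide +kernel

theorem BP3_e2_2 : ecAll 288 BP3_E B9m1b_288_degs B9m1b_288_re 15 B9m1b_288_ce BP3_zn (chunk 1 2 BP3_tn) BP3_en1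
    (chunk 1 2 BP3_sn) = true := by decide +kernel

theorem BP3_A_eq : BP3.arrP = BP3_A := by decide +kernel

theorem BP3_E_eq : BP3.arrE = BP3_E := by decide +kernel

theorem BP3_G : sc BP3.arrG BP3_en1 BP3_sn = true := by decide +kernel


end Crest.Agent.R163.Ck
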