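import Crest.Agent.R163.B9m1b_288D

/-! Row 163: Bellman certificate, data (generated). -/

set_option autoImplicit false
set_option Elab.async false
set_option maxRecDepth 100000

namespace Crest.Agent.R163.Ck

noncomputable def BP3 : Bell := ⟨false, 9, 3, 3, 2, 9, 32, fs3_9, lams3_9, TT3_9,
  [[[[.ofNat (nat_lit 36745172630381763), .negSucc (nat_lit 43431043752826172), .negSucc (nat_lit 305625305091843557), .ofNat (nat_lit 40357038143341242), .ofNat (nat_lit 913068422486708616), .ofNat (nat_lit 453956209532509986), .negSucc (nat_lit 17909604054416672), .negSucc (nat_lit 775311614372305781), .negSucc (nat_lit 592163910950608583), .negSucc (nat_lit 1724495476459191623), .ofNat (nat_lit 3100873092453045), .ofNat (nat_lit 401016496995866088), .ofNat (nat_lit 805925253700974042), .ofNat (nat_lit 1206626406141152844), .ofNat (nat_lit 1682640363408760764), .negSucc (nat_lit 54104764098383), .negSucc (nat_lit 127001521288197431), .negSucc (nat_lit 323202729087339209), .negSucc (nat_lit 511010630095168097),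 .negSucc (nat_lit 207724082367620105), .negSucc (nat_lit 1745337664846257983), .negSucc (nat_lit 375430400412061805), .ofNat (nat_lit 58489995815271), .ofNat (nat_lit 23890175186131422), .ofNat (nat_lit 76404987857035152), .ofNat (nat_lit 131238135885680334), .ofNat (nat_lit 118312045784405316), .ofNat (nat_lit 513481704974182440), .ofNat (nat_lit 320601636751166730), .ofNat (nat_lit 379229941098171396), .negSucc (nat_lit 36382933995497), .negSucc (nat_lit 2424684603303377), .negSucc (nat_lit 9763225486309817), .negSucc (nat_lit 19030138761898349), .negSucc (nat_lit 18045753521625989), .negSucc (nat_lit 81126763886388887), .negSucc (nat_lit 10536441507850697), .negSucc (nat_lit 119041329244368905), .negSucc (nat_lit 65466503286792317), .negSucc (nat_lit 74371117530352085), .ofNat (nat_lit 4129512923943), .ofNat (nat_lit 100241768022072), .ofNat (nat_lit 508199172432630), .ofNat (nat_lit 1207747224454896), .ofNat (nat_lit 1167885159399486), .ofNat (nat_lit 5457221535503544), .ofNat (nat_lit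 1532851022938422), .ofNat (nat_lit 8559601136172588), .ofNat (nat_lit 4477740168495438), .ofNat (nat_lit 5389047413246556), .ofNat (nat_lit 11766601791654006), .ofNat (nat_lit 1715808734841312)],
  [.ofNat (nat_lit 0), .ofNat (nat_lit 0), .ofNat (nat_lit 0), .ofNat (nat_lit 0), .ofNat (nat_lit 0), .ofNat (nat_lit 0), .negSucc (nat_lit 2022024235902191), .ofNat (nat_lit 8088096943608768), .negSucc (nat_lit 6066072707706575), .ofNat (nat_lit 0), .ofNat (nat_lit 1906649077105368), .negSucc (nat_lit 8016727208600195), .ofNat (nat_lit 3813298154210736), .ofNat (nat_lit 9187119909136368), .negSucc (nat_lit 6890339931852275), .ofNat (nat_lit 401090393743128), .negSucc (nat_lit 3527456776962623), .ofNat (nat_lit 9028194443354700), .ofNat (nat_lit 2592733535311500), .negSucc (nat_lit 4780913645631347), .negSucc (nat_lit 9669124728638423), .ofNat (nat_lit 5955476778823068), .negSucc (nat_lit 671174484450659), .ofNat (nat_lit 4052614281228720), .negSucc (nat_lit 5009001485107229), .negSucc (nat_lit 5212020028801229),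 .ofNat (nat_lit 2324303547304590), .ofNat (nat_lit 11482696759580010), .negSucc (nat_lit 5935849714805489), .negSucc (nat_lit 1031568874948709), .ofNat (nat_lit 184688018964288), .negSucc (nat_lit 1086670910735423), .ofNat (nat_lit 570900498744384), .ofNat (nat_lit 1864531345403520), .ofNat (nat_lit 1113563588893632), .negSucc (nat_lit 3248594590337279), .negSucc (nat_lit 1173314436845759), .ofNat (nat_lit 1864531345403520), .negSucc (nat_lit 268904578472639), .ofNat (nat_lit 179269718981760), .negSucc (nat_lit 15869662658303), .ofNat (nat_lit 95217975949824), .ofNat (nat_lit 36440008211880), .negSucc (nat_lit 226875960111527), .negSucc (nat_lit 263315968323407), .ofNat (nat_lit 263315968323408), .ofNat (nat_lit 131657984161704), .ofNat (nat_lit 534867847487064), .ofNat (nat_lit 0), .negSucc (nat_lit 201604931662679), .negSucc (nat_lit 1061499784133879), .ofNat (nat_lit 707666522755920)]],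
  [[.negSucc (nat_lit 23303269120464926), .ofNat (nat_lit 63039265476824034), .ofNat (nat_lit 219645819199041480), .negSucc (nat_lit 58934163128951492), .negSucc (nat_lit 932074867288715741), .negSucc (nat_lit 387332999526515237), .ofNat (nat_lit 28442579064156297), .ofNat (nat_lit 872371348214345226), .ofNat (nat_lit 784419615191736900), .ofNat (nat_lit 1888940482275638556), .negSucc (nat_lit 6939924940105271), .negSucc (nat_lit 465014872844672507), .negSucc (nat_lit 1172091346612513127), .negSucc (nat_lit 1434229826762549951), .negSucc (nat_lit 2384872266848092559), .ofNat (nat_lit 462347077212387), .ofNat (nat_lit 152024008639863906), .ofNat (nat_lit 482908401912697056), .ofNat (nat_lit 615458528874267228), .ofNat (nat_lit 329331624967489284), .ofNat (nat_lit 2712995418228467418), .ofNat (nat_lit 777842523558610902), .ofNat (nat_lit 162084476873331), .negSucc (nat_lit 30366938500746911), .negSucc (nat_lit 115329712426068671), .negSucc (nat_lit 155484972128441411), .negSucc (nat_lit 190130041064804813),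 .negSucc (nat_lit 824946711311583323), .negSucc (nat_lit 517226274502741691), .negSucc (nat_lit 946552989807682829), .negSucc (nat_lit 38363373732347), .ofNat (nat_lit 3416392575423792), .ofNat (nat_lit 15078277174268070), .ofNat (nat_lit 21675927762239202), .ofNat (nat_lit 28348125333338808), .ofNat (nat_lit 133880792597253612), .ofNat (nat_lit 16792956416000826), .ofNat (nat_lit 182133888255519984), .ofNat (nat_lit 182322597513623760), .ofNat (nat_lit 222477524700736842), .ofNat (nat_lit 2533523931177), .negSucc (nat_lit 166196598741041), .negSucc (nat_lit 838799006086823), .negSucc (nat_lit 1287475513241489), .negSucc (nat_lit 1749770813108951), .negSucc (nat_lit 9192679487741219), .negSucc (nat_lit 2281790575698815), .negSucc (nat_lit 12949301166402107), .negSucc (nat_lit 14460395390159579), .negSucc (nat_lit 6174122878831625), .negSucc (nat_lit 34105226030160707), .negSucc (nat_lit 6097765361004887)],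
  []],
  [[],
  []]],
  [[[],
  []],
  [[.ofNat (nat_lit 10798979488725267), .negSucc (nat_lit 26573947442606240), .negSucc (nat_lit 87078227683327109), .ofNat (nat_lit 37393295967332325), .ofNat (nat_lit 409064105980164060), .ofNat (nat_lit 60527296263468654), .negSucc (nat_lit 45589721319185435), .negSucc (nat_lit 387638078928320969), .negSucc (nat_lit 306199946781271061), .negSucc (nat_lit 475896887761681295), .ofNat (nat_lit 34784868061158660), .ofNat (nat_lit 205579220692178124), .ofNat (nat_lit 402287442289578432), .ofNat (nat_lit 421830683024260698), .ofNat (nat_lit 592205773397083596), .negSucc (nat_lit 11656892723655194), .negSucc (nat_lit 91869474527553077), .negSucc (nat_lit 157914365726332583), .negSucc (nat_lit 113409423710117333), .negSucc (nat_lit 52542296562158279), .negSucc (nat_lit 744660081103747445), .negSucc (nat_lit 64343448492827849), .ofNat (nat_lit 1081301174297019), .ofNat (nat_lit 31936304568312378), .ofNat (nat_lit 21981298283240256), .ofNat (nat_lit 9907050665645586),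 .ofNat (nat_lit 29848767283530144), .ofNat (nat_lit 228247666367583960), .ofNat (nat_lit 44272052901030150), .ofNat (nat_lit 36580872416502888), .ofNat (nat_lit 197321168538000), .negSucc (nat_lit 6317385637639499), .ofNat (nat_lit 3822784381253718), .negSucc (nat_lit 2178621176057423), .negSucc (nat_lit 10768813557623243), .negSucc (nat_lit 33387848830941659), .ofNat (nat_lit 1748234691284850), .ofNat (nat_lit 16634279269970856), .negSucc (nat_lit 1902579066708335), .ofNat (nat_lit 50766374778010146), .negSucc (nat_lit 33496489794388), .ofNat (nat_lit 503322238082970), .negSucc (nat_lit 975785763167765), .ofNat (nat_lit 499265479905642), .ofNat (nat_lit 1348580790406878), .ofNat (nat_lit 1728099209294226), .negSucc (nat_lit 396055016239175), .ofNat (nat_lit 889565040260784), .negSucc (nat_lit 1300288999548563), .negSucc (nat_lit 7066784790394343), .negSucc (nat_lit 22794433762494851), .negSucc (nat_lit 3969920017707129)],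
  [.ofNat (nat_lit 0), .negSucc (nat_lit 6493006309460615), .ofNat (nat_lit 6493006309460616), .ofNat (nat_lit 3418922235051396), .negSucc (nat_lit 7010263550423879), .ofNat (nat_lit 3591341315372484), .ofNat (nat_lit 10338915688443792), .negSucc (nat_lit 42913499098313807), .ofNat (nat_lit 34132419754408656), .negSucc (nat_lit 1557836344538639), .negSucc (nat_lit 15262589876778827), .ofNat (nat_lit 68169303531426636), .negSucc (nat_lit 30525179753557655), .negSucc (nat_lit 89526135604360607), .ofNat (nat_lit 67144601703270456), .negSucc (nat_lit 440004905566055), .ofNat (nat_lit 12678462440828064), .ofNat (nat_lit 54495034373145276), .negSucc (nat_lit 111287272993794755), .negSucc (nat_lit 76771924915839011), .ofNat (nat_lit 262728278017316424), .negSucc (nat_lit 141402572016089939), .ofNat (nat_lit 4358084911417620), .negSucc (nat_lit 27351470012109479), .ofNat (nat_lit 5521179202417890), .ofNat (nat_lit 67067857730468970), .ofNat (nat_lit 11911160443252590), .negSucc (nat_lit 117117266825661389),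 .ofNat (nat_lit 21908869549873110), .ofNat (nat_lit 33701585000340690), .negSucc (nat_lit 1396488927979823), .ofNat (nat_lit 8337874176284592), .negSucc (nat_lit 13585817800102079), .negSucc (nat_lit 5677611450454991), .ofNat (nat_lit 18659986902195168), .ofNat (nat_lit 28610866040976), .negSucc (nat_lit 9181517102843855), .negSucc (nat_lit 5677611450454991), .ofNat (nat_lit 25477724361945024), .negSucc (nat_lit 16985149574630015), .ofNat (nat_lit 131777871593032), .negSucc (nat_lit 790667229558191), .ofNat (nat_lit 2357244420816684), .negSucc (nat_lit 775909961700299), .negSucc (nat_lit 3133154382516983), .ofNat (nat_lit 3133154382516984), .ofNat (nat_lit 1566577191258492), .negSucc (nat_lit 7101247798165835), .ofNat (nat_lit 0), .ofNat (nat_lit 4333912494712164), .ofNat (nat_lit 834939033131868), .negSucc (nat_lit 556626022087911)]],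
  [[.ofNat (nat_lit 1013218871151609), .ofNat (nat_lit 0), .ofNat (nat_lit 0), .ofNat (nat_lit 0), .ofNat (nat_lit 0), .ofNat (nat_lit 0), .ofNat (nat_lit 0), .ofNat (nat_lit 0), .ofNat (nat_lit 0), .ofNat (nat_lit 0), .ofNat (nat_lit 0), .ofNat (nat_lit 0), .ofNat (nat_lit 0), .ofNat (nat_lit 0), .ofNat (nat_lit 0), .ofNat (nat_lit 0), .ofNat (nat_lit 0), .ofNat (nat_lit 0), .ofNat (nat_lit 0), .ofNat (nat_lit 0), .ofNat (nat_lit 0), .ofNat (nat_lit 0), .ofNat (nat_lit 0), .ofNat (nat_lit 0), .ofNat (nat_lit 0), .ofNat (nat_lit 0), .ofNat (nat_lit 0), .ofNat (nat_lit 0), .ofNat (nat_lit 0), .ofNat (nat_lit 0), .ofNat (nat_lit 0), .ofNat (nat_lit 0), .ofNat (nat_lit 0), .ofNat (nat_lit 0), .ofNat (nat_lit 0), .ofNat (nat_lit 0), .ofNat (nat_lit 0), .ofNat (nat_lit 0), .ofNat (nat_lit 0), .ofNat (nat_lit 0), .ofNat (nat_lit 0), .ofNat (nat_lit 0), .ofNat (nat_lit 0), .ofNat (nat_lit 0), .ofNat (nat_lit 0), .ofNat (nat_lit 0), .ofNat (nat_lit 0), .ofNat (nat_lit 0), .ofNat (nat_lit 0), .ofNat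 (nat_lit 0), .ofNat (nat_lit 0), .ofNat (nat_lit 0)],
  [.negSucc (nat_lit 1610852683449725), .ofNat (nat_lit 0), .ofNat (nat_lit 0), .ofNat (nat_lit 0), .ofNat (nat_lit 0), .ofNat (nat_lit 0), .ofNat (nat_lit 0), .ofNat (nat_lit 0), .ofNat (nat_lit 0), .ofNat (nat_lit 0), .ofNat (nat_lit 0), .ofNat (nat_lit 0), .ofNat (nat_lit 0), .ofNat (nat_lit 0), .ofNat (nat_lit 0), .ofNat (nat_lit 0), .ofNat (nat_lit 0), .ofNat (nat_lit 0), .ofNat (nat_lit 0), .ofNat (nat_lit 0), .ofNat (nat_lit 0), .ofNat (nat_lit 0), .ofNat (nat_lit 0), .ofNat (nat_lit 0), .ofNat (nat_lit 0), .ofNat (nat_lit 0), .ofNat (nat_lit 0), .ofNat (nat_lit 0), .ofNat (nat_lit 0), .ofNat (nat_lit 0), .ofNat (nat_lit 0), .ofNat (nat_lit 0), .ofNat (nat_lit 0), .ofNat (nat_lit 0), .ofNat (nat_lit 0), .ofNat (nat_lit 0), .ofNat (nat_lit 0), .ofNat (nat_lit 0), .ofNat (nat_lit 0), .ofNat (nat_lit 0), .ofNat (nat_lit 0), .ofNat (nat_lit 0), .ofNat (nat_lit 0), .ofNat (nat_lit 0), .ofNat (nat_lit 0), .ofNat (nat_lit 0), .ofNat (nat_lit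 0), .ofNat (nat_lit 0), .ofNat (nat_lit 0), .ofNat (nat_lit 0), .ofNat (nat_lit 0), .ofNat (nat_lit 0)]]],
  [[[],
  []],
  [[.ofNat (nat_lit 0), .negSucc (nat_lit 5803011970779239), .ofNat (nat_lit 5803011970779240), .negSucc (nat_lit 1969447701686543), .ofNat (nat_lit 8809849090449252), .negSucc (nat_lit 6840401388762707), .ofNat (nat_lit 14572432558367784), .negSucc (nat_lit 56331985991149079), .ofNat (nat_lit 39801809190459240), .ofNat (nat_lit 1957744242322056), .negSucc (nat_lit 10539100831482467), .ofNat (nat_lit 42255615799217016), .negSucc (nat_lit 21078201662964935), .negSucc (nat_lit 42553253219078447), .ofNat (nat_lit 31914939914308836), .negSucc (nat_lit 3096393318372167), .ofNat (nat_lit 24225670346566896), .negSucc (nat_lit 1512399400385867), .negSucc (nat_lit 73170052556866091), .negSucc (nat_lit 25264188064142747), .ofNat (nat_lit 168929346859067736), .negSucc (nat_lit 90111983865867755), .ofNat (nat_lit 4424736553785396), .negSucc (nat_lit 26824130767761551), .ofNat (nat_lit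 17928917041513014), .ofNat (nat_lit 50096399935562982), .negSucc (nat_lit 229970826371429), .negSucc (nat_lit 92400431925074129), .ofNat (nat_lit 25110768045790170), .ofNat (nat_lit 21893711942555550), .negSucc (nat_lit 1259448837727295), .ofNat (nat_lit 7468395115355520), .negSucc (nat_lit 9324760924360031), .negSucc (nat_lit 7689437426764319), .ofNat (nat_lit 8352888835492896), .ofNat (nat_lit 7425138761515872), .negSucc (nat_lit 2629878602298239), .negSucc (nat_lit 7689437426764319), .ofNat (nat_lit 16039621516649760), .negSucc (nat_lit 10693081011099839), .ofNat (nat_lit 113861895653240), .negSucc (nat_lit 683171373919439), .ofNat (nat_lit 1301872073677980), .ofNat (nat_lit 64470674160900), .negSucc (nat_lit 1237401399517079), .ofNat (nat_lit 1237401399517080), .ofNat (nat_lit 618700699758540), .negSucc (nat_lit 5400900317194619), .ofNat (nat_lit 0), .ofNat (nat_lit 3009800508476580), .ofNat (nat_lit 2926097518160460), .negSucc (nat_lit 1950731678773639)],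
  [.ofNat (nat_lit 0), .ofNat (nat_lit 16609696546780620), .negSucc (nat_lit 16609696546780619), .ofNat (nat_lit 5839633470900042), .negSucc (nat_lit 25823748686090435), .ofNat (nat_lit 19984115215190394), .negSucc (nat_lit 37200472800864407), .ofNat (nat_lit 143063280384326424), .negSucc (nat_lit 100124196764330807), .negSucc (nat_lit 5738610819131207), .ofNat (nat_lit 26859899353939488), .negSucc (nat_lit 107833794873831935), .ofNat (nat_lit 53719798707878976), .ofNat (nat_lit 109016387248053888), .negSucc (nat_lit 81762290436040415), .ofNat (nat_lit 7273853562182256), .negSucc (nat_lit 58073520350680991), .ofNat (nat_lit 7260012294491232), .ofNat (nat_lit 173999786026179888), .ofNat (nat_lit 57970053471594960), .negSucc (nat_lit 405721167962709599), .ofNat (nat_lit 217290982958942256), .negSucc (nat_lit 10863756481374071), .ofNat (nat_lit 65976306574025664), .negSucc (nat_lit 45432090275764607), .negSucc (nat_lit 122286863059533863), .ofNat (nat_lit 1977064350268320), .ofNat (nat_lit 227204580563931600),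 .negSucc (nat_lit 64233523614950999), .negSucc (nat_lit 52341718056602039), .ofNat (nat_lit 3113539486751040), .negSucc (nat_lit 18473664280142783), .ofNat (nat_lit 22800610997419584), .ofNat (nat_lit 19335933334550784), .negSucc (nat_lit 19830637046422847), .negSucc (nat_lit 19399890320459135), .ofNat (nat_lit 5955499228529472), .ofNat (nat_lit 19335933334550784), .negSucc (nat_lit 38511974204330687), .ofNat (nat_lit 25674649469553792), .negSucc (nat_lit 282524554509903), .ofNat (nat_lit 1695147327059424), .negSucc (nat_lit 3138799513249847), .negSucc (nat_lit 251495140868999), .ofNat (nat_lit 2887304372380848), .negSucc (nat_lit 2887304372380847), .negSucc (nat_lit 1443652186190423), .ofNat (nat_lit 13309683475606392), .ofNat (nat_lit 0), .negSucc (nat_lit 7376667830898407), .negSucc (nat_lit 7535074730844695), .ofNat (nat_lit 5023383153896464)]],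
  [[.negSucc (nat_lit 233804683829015), .ofNat (nat_lit 0), .ofNat (nat_lit 0), .ofNat (nat_lit 0), .ofNat (nat_lit 0), .ofNat (nat_lit 0), .ofNat (nat_lit 0), .ofNat (nat_lit 0), .ofNat (nat_lit 0), .ofNat (nat_lit 0), .ofNat (nat_lit 0), .ofNat (nat_lit 0), .ofNat (nat_lit 0), .ofNat (nat_lit 0), .ofNat (nat_lit 0), .ofNat (nat_lit 0), .ofNat (nat_lit 0), .ofNat (nat_lit 0), .ofNat (nat_lit 0), .ofNat (nat_lit 0), .ofNat (nat_lit 0), .ofNat (nat_lit 0), .ofNat (nat_lit 0), .ofNat (nat_lit 0), .ofNat (nat_lit 0), .ofNat (nat_lit 0), .ofNat (nat_lit 0), .ofNat (nat_lit 0), .ofNat (nat_lit 0), .ofNat (nat_lit 0), .ofNat (nat_lit 0), .ofNat (nat_lit 0), .ofNat (nat_lit 0), .ofNat (nat_lit 0), .ofNat (nat_lit 0), .ofNat (nat_lit 0), .ofNat (nat_lit 0), .ofNat (nat_lit 0), .ofNat (nat_lit 0), .ofNat (nat_lit 0), .ofNat (nat_lit 0), .ofNat (nat_lit 0), .ofNat (nat_lit 0), .ofNat (nat_lit 0), .ofNat (nat_lit 0), .ofNat (nat_lit 0), .ofNat (nat_lit 0), .ofNat (nat_lit 0), .ofNat (nat_lit 0), .ofNat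 (nat_lit 0), .ofNat (nat_lit 0), .ofNat (nat_lit 0)],
  [.negSucc (nat_lit 1246002216353450), .ofNat (nat_lit 0), .ofNat (nat_lit 0), .ofNat (nat_lit 0), .ofNat (nat_lit 0), .ofNat (nat_lit 0), .ofNat (nat_lit 0), .ofNat (nat_lit 0), .ofNat (nat_lit 0), .ofNat (nat_lit 0), .ofNat (nat_lit 0), .ofNat (nat_lit 0), .ofNat (nat_lit 0), .ofNat (nat_lit 0), .ofNat (nat_lit 0), .ofNat (nat_lit 0), .ofNat (nat_lit 0), .ofNat (nat_lit 0), .ofNat (nat_lit 0), .ofNat (nat_lit 0), .ofNat (nat_lit 0), .ofNat (nat_lit 0), .ofNat (nat_lit 0), .ofNat (nat_lit 0), .ofNat (nat_lit 0), .ofNat (nat_lit 0), .ofNat (nat_lit 0), .ofNat (nat_lit 0), .ofNat (nat_lit 0), .ofNat (nat_lit 0), .ofNat (nat_lit 0), .ofNat (nat_lit 0), .ofNat (nat_lit 0), .ofNat (nat_lit 0), .ofNat (nat_lit 0), .ofNat (nat_lit 0), .ofNat (nat_lit 0), .ofNat (nat_lit 0), .ofNat (nat_lit 0), .ofNat (nat_lit 0), .ofNat (nat_lit 0), .ofNat (nat_lit 0), .ofNat (nat_lit 0), .ofNat (nat_lit 0), .ofNat (nat_lit 0), .ofNat (nat_lit 0), .ofNat (nat_lit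 0), .ofNat (nat_lit 0), .ofNat (nat_lit 0), .ofNat (nat_lit 0), .ofNat (nat_lit 0), .ofNat (nat_lit 0)]]]],
  [[.ofNat (nat_lit 0), .ofNat (nat_lit 0)],
  [.ofNat (nat_lit 0), .ofNat (nat_lit 0)],
  [.negSucc (nat_lit 796028435160146), .ofNat (nat_lit 2859492003106401)]],
  [[[[.ofNat (nat_lit 0), .negSucc (nat_lit 2746342882317634559), .negSucc (nat_lit 13963985721530237951), .ofNat (nat_lit 10661092923597907968), .ofNat (nat_lit 20100013023092355072), .negSucc (nat_lit 31194818939961409535), .ofNat (nat_lit 26698415069401085952), .ofNat (nat_lit 13017799906928658432), .ofNat (nat_lit 10930858700376462336), .negSucc (nat_lit 26286573253934905343), .ofNat (nat_lit 0), .ofNat (nat_lit 0)],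
  [.ofNat (nat_lit 0), .ofNat (nat_lit 2571825173917059072), .ofNat (nat_lit 17955119846772744192), .negSucc (nat_lit 14195695761872787455), .negSucc (nat_lit 57149220785539562495), .ofNat (nat_lit 82143120061232851968), .negSucc (nat_lit 59409540626253124607), .negSucc (nat_lit 45038913054058708991), .negSucc (nat_lit 23994721895539682303), .ofNat (nat_lit 64657642974790533120), .ofNat (nat_lit 0), .ofNat (nat_lit 0)]],
  [[.ofNat (nat_lit 1016767060563566592), .negSucc (nat_lit 2893484695285435391), .negSucc (nat_lit 768853142163016703), .ofNat (nat_lit 7221460868347806720), .negSucc (nat_lit 2857328753950632959), .negSucc (nat_lit 2046719610423816191), .ofNat (nat_lit 2118873415207209984), .negSucc (nat_lit 3433136408241979391), .ofNat (nat_lit 275519214664621056), .ofNat (nat_lit 2598596369785036800), .ofNat (nat_lit 0), .ofNat (nat_lit 0)],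
  [.negSucc (nat_lit 1665634998443461631), .ofNat (nat_lit 0), .ofNat (nat_lit 0), .ofNat (nat_lit 0), .ofNat (nat_lit 0), .ofNat (nat_lit 0), .ofNat (nat_lit 0), .ofNat (nat_lit 0), .ofNat (nat_lit 0), .ofNat (nat_lit 0), .ofNat (nat_lit 0), .ofNat (nat_lit 0)]]],
  [[[.ofNat (nat_lit 0), .negSucc (nat_lit 4644467326558218239), .negSucc (nat_lit 16612788848668415999), .negSucc (nat_lit 14240143331557438463), .ofNat (nat_lit 57417289950431619072), .ofNat (nat_lit 110314215748226746368), .negSucc (nat_lit 123336107249649592319), .negSucc (nat_lit 193970829193720879103), .negSucc (nat_lit 17409245692111994879), .ofNat (nat_lit 165551578503259871232), .ofNat (nat_lit 0), .ofNat (nat_lit 0)],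
  [.ofNat (nat_lit 0), .ofNat (nat_lit 16394150491894674432), .ofNat (nat_lit 50779972231598721024), .ofNat (nat_lit 14658534822683031552), .negSucc (nat_lit 141544908611065617407), .negSucc (nat_lit 239159575073746879487), .ofNat (nat_lit 308852602694528090112), .ofNat (nat_lit 432388608486366818304), .ofNat (nat_lit 42340009864157199360), .negSucc (nat_lit 389140887437466126335), .ofNat (nat_lit 0), .ofNat (nat_lit 0)]],
  [[.negSucc (nat_lit 553274879345077247), .ofNat (nat_lit 3869141649595241472), .ofNat (nat_lit 3181095124652630016), .negSucc (nat_lit 2332693885668996095), .negSucc (nat_lit 1025252488926461951), .negSucc (nat_lit 22896183438142221311), .ofNat (nat_lit 14974644193314683904), .ofNat (nat_lit 18093952814627976192), .ofNat (nat_lit 13120497926237159424), .negSucc (nat_lit 29190419983516271615), .ofNat (nat_lit 0), .ofNat (nat_lit 0)],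
  [.negSucc (nat_lit 2326781389162217471), .ofNat (nat_lit 0), .ofNat (nat_lit 0), .ofNat (nat_lit 0), .ofNat (nat_lit 0), .ofNat (nat_lit 0), .ofNat (nat_lit 0), .ofNat (nat_lit 0), .ofNat (nat_lit 0), .ofNat (nat_lit 0), .ofNat (nat_lit 0), .ofNat (nat_lit 0)]]],
  [[[.ofNat (nat_lit 0), .ofNat (nat_lit 214250928631252992), .ofNat (nat_lit 32083197301260647424), .ofNat (nat_lit 24308529523582768128), .negSucc (nat_lit 160935374114382919679), .negSucc (nat_lit 55945154268737077247), .ofNat (nat_lit 82623412651530461184), .ofNat (nat_lit 279469667960908443648), .negSucc (nat_lit 31812767433897090047), .negSucc (nat_lit 145250000918275064831), .ofNat (nat_lit 0), .ofNat (nat_lit 0)],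
  [.ofNat (nat_lit 0), .negSucc (nat_lit 735927094219843583), .negSucc (nat_lit 78199337902022479871), .negSucc (nat_lit 50800239686906394623), .ofNat (nat_lit 391962660954162776064), .ofNat (nat_lit 117956323096255872000), .negSucc (nat_lit 200212563718963943423), .negSucc (nat_lit 659903611966406995967), .ofNat (nat_lit 76760792163153976320), .ofNat (nat_lit 347472218920067260416), .ofNat (nat_lit 0), .ofNat (nat_lit 0)]],
  [[.negSucc (nat_lit 2609952749504612351), .negSucc (nat_lit 827328414186501119), .negSucc (nat_lit 2461496397745434623), .negSucc (nat_lit 5562258138403255295), .ofNat (nat_lit 611956123659537408), .ofNat (nat_lit 26160076501537591296), .negSucc (nat_lit 25037168195287507967), .negSucc (nat_lit 3909418183409965055), .negSucc (nat_lit 17342370357274948607), .ofNat (nat_lit 28619662681103026176), .ofNat (nat_lit 0), .ofNat (nat_lit 0)],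
  [.ofNat (nat_lit 9132393567387414528), .ofNat (nat_lit 0), .ofNat (nat_lit 0), .ofNat (nat_lit 0), .ofNat (nat_lit 0), .ofNat (nat_lit 0), .ofNat (nat_lit 0), .ofNat (nat_lit 0), .ofNat (nat_lit 0), .ofNat (nat_lit 0), .ofNat (nat_lit 0), .ofNat (nat_lit 0)]]]]⟩

noncomputable def BP3_A : L6 := [[[[[[.ofNat (nat_lit 0), .ofNat (nat_lit 0), .ofNat (nat_lit 20769063495681024)],
  [.ofNat (nat_lit 0), .ofNat (nat_lit 0), .ofNat (nat_lit 16121850590942208)],
  [],
  [],
  [],
  [],
  [],
  [],
  []],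
  [[.ofNat (nat_lit 0), .ofNat (nat_lit 1016767060563566592), .ofNat (nat_lit 0)],
  [.ofNat (nat_lit 0), .negSucc (nat_lit 1665634998443461631), .ofNat (nat_lit 0)],
  [],
  [],
  [],
  [],
  [],
  [],
  []],
  [[.ofNat (nat_lit 0), .ofNat (nat_lit 786933703282019328), .ofNat (nat_lit 0)],
  [.ofNat (nat_lit 0), .ofNat (nat_lit 786933703282019328), .ofNat (nat_lit 0)],
  [],
  [],
  [],
  [],
  [],
  [],
  []],
  [[.ofNat (nat_lit 1546609527683324928), .ofNat (nat_lit 859791758268976128), .ofNat (nat_lit 0)],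
  [.negSucc (nat_lit 3494057879638987775), .ofNat (nat_lit 0), .ofNat (nat_lit 0)],
  [.negSucc (nat_lit 1546609527683324927), .negSucc (nat_lit 859791758268976127), .ofNat (nat_lit 0)],
  [.ofNat (nat_lit 3494057879638987776), .ofNat (nat_lit 0), .ofNat (nat_lit 0)],
  [],
  [],
  [],
  [],
  []],
  [[.negSucc (nat_lit 2528753953705519103), .ofNat (nat_lit 531531992894469120), .ofNat (nat_lit 0)],
  [.ofNat (nat_lit 5810820324787989504), .ofNat (nat_lit 0), .ofNat (nat_lit 0)],
  [],
  [.negSucc (nat_lit 2528753953705519103), .ofNat (nat_lit 531531992894469120), .ofNat (nat_lit 0)],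
  [.ofNat (nat_lit 5810820324787989504), .ofNat (nat_lit 0), .ofNat (nat_lit 0)],
  [],
  [],
  [],
  []],
  [[.negSucc (nat_lit 1429268901890282495), .negSucc (nat_lit 61072305529393151), .ofNat (nat_lit 0)],
  [.ofNat (nat_lit 3482639165459506176), .ofNat (nat_lit 0), .ofNat (nat_lit 0)],
  [],
  [],
  [.ofNat (nat_lit 1429268901890282496), .ofNat (nat_lit 61072305529393152), .ofNat (nat_lit 0)],
  [.negSucc (nat_lit 3482639165459506175), .ofNat (nat_lit 0), .ofNat (nat_lit 0)],
  [],
  [],
  []],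
  [[.negSucc (nat_lit 436209368364352511), .negSucc (nat_lit 333649772196562943), .ofNat (nat_lit 0)],
  [.ofNat (nat_lit 1067107087935065088), .ofNat (nat_lit 0), .ofNat (nat_lit 0)],
  [],
  [],
  [.ofNat (nat_lit 436209368364352512), .ofNat (nat_lit 333649772196562944), .ofNat (nat_lit 0)],
  [.negSucc (nat_lit 1067107087935065087), .ofNat (nat_lit 0), .ofNat (nat_lit 0)],
  [],
  [],
  []],
  [[.ofNat (nat_lit 2735456688294792192), .negSucc (nat_lit 741404159153713151), .ofNat (nat_lit 0)],
  [.negSucc (nat_lit 6078238563703541759), .ofNat (nat_lit 0), .ofNat (nat_lit 0)],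
  [],
  [],
  [],
  [.ofNat (nat_lit 2735456688294792192), .negSucc (nat_lit 741404159153713151), .ofNat (nat_lit 0)],
  [.negSucc (nat_lit 6078238563703541759), .ofNat (nat_lit 0), .ofNat (nat_lit 0)],
  [],
  []],
  [[.ofNat (nat_lit 21169136760016896), .ofNat (nat_lit 6477609752985600), .ofNat (nat_lit 0)],
  [.negSucc (nat_lit 56145004919497727), .ofNat (nat_lit 0), .ofNat (nat_lit 0)],
  [],
  [],
  [],
  [],
  [.negSucc (nat_lit 21169136760016895), .negSucc (nat_lit 6477609752985599), .ofNat (nat_lit 0)],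
  [.ofNat (nat_lit 56145004919497728), .ofNat (nat_lit 0), .ofNat (nat_lit 0)],
  []],
  [[.negSucc (nat_lit 656627752042583039), .ofNat (nat_lit 634120339788361728), .ofNat (nat_lit 0)],
  [.ofNat (nat_lit 2016214246659704832), .ofNat (nat_lit 0), .ofNat (nat_lit 0)],
  [],
  [],
  [],
  [],
  [.ofNat (nat_lit 656627752042583040), .negSucc (nat_lit 634120339788361727), .ofNat (nat_lit 0)],
  [.negSucc (nat_lit 2016214246659704831), .ofNat (nat_lit 0), .ofNat (nat_lit 0)],
  []],
  [[],
  [],
  [],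
  [],
  [],
  [],
  [],
  [],
  []],
  [[],
  [],
  [],
  [],
  [],
  [],
  [],
  [],
  []]],
  [],
  [],
  [],
  [],
  [],
  [],
  [],
  [],
  [],
  [],
  []],
  [[],
  [],
  [],
  [],
  [],
  [],
  [],
  [],
  [],
  [],
  [],
  []],
  [[],
  [[[.ofNat (nat_lit 0), .ofNat (nat_lit 3855693639461999616), .ofNat (nat_lit 2893484695285435392)],
  [.ofNat (nat_lit 0), .negSucc (nat_lit 7558454019582812159), .ofNat (nat_lit 0)],
  [],
  [],
  [],
  [],
  [],
  [],
  []],
  [[.negSucc (nat_lit 5439243806008326143), .negSucc (nat_lit 11155465038767132159), .ofNat (nat_lit 0)],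
  [.ofNat (nat_lit 16548056692473010176), .ofNat (nat_lit 0), .ofNat (nat_lit 0)],
  [],
  [],
  [],
  [],
  [],
  [],
  []],
  [[],
  [.negSucc (nat_lit 11315606992883232767), .ofNat (nat_lit 3204493894807723008), .ofNat (nat_lit 0)],
  [.ofNat (nat_lit 9267049780596006912), .ofNat (nat_lit 0), .ofNat (nat_lit 0)],
  [],
  [],
  [],
  [],
  [],
  []],
  [[],
  [],
  [.ofNat (nat_lit 32665501081823424768), .ofNat (nat_lit 16638879331604772864), .ofNat (nat_lit 0)],
  [.negSucc (nat_lit 82585896904273340159), .ofNat (nat_lit 0), .ofNat (nat_lit 0)],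
  [],
  [],
  [],
  [],
  []],
  [[],
  [],
  [],
  [.ofNat (nat_lit 17368370829720875520), .negSucc (nat_lit 9034263641956455935), .ofNat (nat_lit 0)],
  [.negSucc (nat_lit 33308306548673149439), .ofNat (nat_lit 0), .ofNat (nat_lit 0)],
  [],
  [],
  [],
  []],
  [[],
  [],
  [],
  [],
  [.negSucc (nat_lit 48605859371988270719), .negSucc (nat_lit 20523037561585664255), .ofNat (nat_lit 0)],
  [.ofNat (nat_lit 103865661834821338752), .ofNat (nat_lit 0), .ofNat (nat_lit 0)],
  [],
  [],
  []],
  [[],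
  [],
  [],
  [],
  [.negSucc (nat_lit 23003588829168451583), .negSucc (nat_lit 4351844353274247167), .ofNat (nat_lit 0)],
  [.ofNat (nat_lit 49449342146374167552), .ofNat (nat_lit 0), .ofNat (nat_lit 0)],
  [],
  [],
  []],
  [[],
  [],
  [],
  [],
  [],
  [.negSucc (nat_lit 33993153119070282239), .negSucc (nat_lit 7615454761876317695), .ofNat (nat_lit 0)],
  [.ofNat (nat_lit 68928981329668271616), .ofNat (nat_lit 0), .ofNat (nat_lit 0)],
  [],
  []],
  [[],
  [],
  [],
  [],
  [],
  [],
  [.ofNat (nat_lit 15235487902981302912), .ofNat (nat_lit 8032470581804769792), .ofNat (nat_lit 0)],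
  [.negSucc (nat_lit 30743214662548060415), .ofNat (nat_lit 0), .ofNat (nat_lit 0)],
  []],
  [[],
  [],
  [],
  [],
  [],
  [],
  [.ofNat (nat_lit 14985458095025581056), .negSucc (nat_lit 3733767578475090431), .ofNat (nat_lit 0)],
  [.negSucc (nat_lit 23541613721279732735), .ofNat (nat_lit 0), .ofNat (nat_lit 0)],
  []],
  [[],
  [],
  [],
  [],
  [],
  [],
  [],
  [.ofNat (nat_lit 12794885194336584192), .ofNat (nat_lit 5831369001995116032), .ofNat (nat_lit 0)],
  [.negSucc (nat_lit 19598189452180964351), .ofNat (nat_lit 0), .ofNat (nat_lit 0)]],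
  [[],
  [],
  [],
  [],
  [],
  [],
  [],
  [.ofNat (nat_lit 4596394264298081280), .negSucc (nat_lit 4438842378518532095), .ofNat (nat_lit 0)],
  [.negSucc (nat_lit 14113499726617933823), .ofNat (nat_lit 0), .ofNat (nat_lit 0)]]],
  [],
  [],
  [],
  [],
  [],
  [],
  [],
  [],
  [],
  []],
  [[],
  [],
  [[[.ofNat (nat_lit 0), .ofNat (nat_lit 7932989284665071616), .ofNat (nat_lit 768853142163016704)],
  [.ofNat (nat_lit 0), .negSucc (nat_lit 14365864908955717631), .ofNat (nat_lit 0)],
  [],
  [],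
  [],
  [],
  [],
  [],
  []],
  [[.negSucc (nat_lit 2648378728647005183), .negSucc (nat_lit 3973347036970739711), .ofNat (nat_lit 0)],
  [.ofNat (nat_lit 8688070066176737280), .ofNat (nat_lit 0), .ofNat (nat_lit 0)],
  [],
  [],
  [],
  [],
  [],
  [],
  []],
  [[],
  [.negSucc (nat_lit 20799931819171944959), .negSucc (nat_lit 3583672615584428543), .ofNat (nat_lit 0)],
  [.ofNat (nat_lit 67521772337129653248), .ofNat (nat_lit 0), .ofNat (nat_lit 0)],
  [],
  [],
  [],
  [],
  [],
  []],
  [[],
  [],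
  [.negSucc (nat_lit 7594889700015111167), .ofNat (nat_lit 22164135544767184128), .ofNat (nat_lit 0)],
  [.ofNat (nat_lit 3661587130480565760), .ofNat (nat_lit 0), .ofNat (nat_lit 0)],
  [],
  [],
  [],
  [],
  []],
  [[],
  [],
  [],
  [.ofNat (nat_lit 103952063669624439552), .ofNat (nat_lit 21090938870690945280), .ofNat (nat_lit 0)],
  [.negSucc (nat_lit 245376237924333483263), .ofNat (nat_lit 0), .ofNat (nat_lit 0)],
  [],
  [],
  [],
  []],
  [[],
  [],
  [],
  [],
  [.negSucc (nat_lit 27217237713874910207), .negSucc (nat_lit 25387270052457611519), .ofNat (nat_lit 0)],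
  [.ofNat (nat_lit 75230149430244625920), .ofNat (nat_lit 0), .ofNat (nat_lit 0)],
  [],
  [],
  []],
  [[],
  [],
  [],
  [],
  [.ofNat (nat_lit 21998356427839140864), .ofNat (nat_lit 10972650264159131136), .ofNat (nat_lit 0)],
  [.negSucc (nat_lit 69494640057033974783), .ofNat (nat_lit 0), .ofNat (nat_lit 0)],
  [],
  [],
  []],
  [[],
  [],
  [],
  [],
  [],
  [.negSucc (nat_lit 85664528422244030591), .negSucc (nat_lit 19072975425274146815), .ofNat (nat_lit 0)],
  [.ofNat (nat_lit 188422296180038347392), .ofNat (nat_lit 0), .ofNat (nat_lit 0)],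
  [],
  []],
  [[],
  [],
  [],
  [],
  [],
  [],
  [.ofNat (nat_lit 26810503832079268992), .ofNat (nat_lit 15441044778963433728), .ofNat (nat_lit 0)],
  [.negSucc (nat_lit 63618389878245702911), .ofNat (nat_lit 0), .ofNat (nat_lit 0)],
  []],
  [[],
  [],
  [],
  [],
  [],
  [],
  [.negSucc (nat_lit 19088545705759079423), .negSucc (nat_lit 22026428842915187711), .ofNat (nat_lit 0)],
  [.ofNat (nat_lit 55158529796177430528), .ofNat (nat_lit 0), .ofNat (nat_lit 0)],
  []],
  [[],
  [],
  [],
  [],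
  [],
  [],
  [],
  [.ofNat (nat_lit 28170128673124129152), .ofNat (nat_lit 12203377550369858304), .ofNat (nat_lit 0)],
  [.negSucc (nat_lit 55860096165680072447), .ofNat (nat_lit 0), .ofNat (nat_lit 0)]],
  [[],
  [],
  [],
  [],
  [],
  [],
  [],
  [.negSucc (nat_lit 1374476731262263295), .negSucc (nat_lit 15783211687721886719), .ofNat (nat_lit 0)],
  []]],
  [],
  [],
  [],
  [],
  [],
  [],
  [],
  [],
  []],
  [[],
  [],
  [],
  [[[.ofNat (nat_lit 0), .negSucc (nat_lit 16900916194331182079), .negSucc (nat_lit 7221460868347806719)],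
  [.ofNat (nat_lit 0), .ofNat (nat_lit 32958655805957916672), .ofNat (nat_lit 0)],
  [],
  [],
  [],
  [],
  [],
  [],
  []],
  [[.ofNat (nat_lit 43326594005421332736), .ofNat (nat_lit 23860340199952579584), .ofNat (nat_lit 0)],
  [.negSucc (nat_lit 96781592666146127615), .ofNat (nat_lit 0), .ofNat (nat_lit 0)],
  [],
  [],
  [],
  [],
  [],
  [],
  []],
  [[],
  [.ofNat (nat_lit 7594889700015111168), .negSucc (nat_lit 22164135544767184127), .ofNat (nat_lit 0)],
  [.negSucc (nat_lit 3661587130480565759), .ofNat (nat_lit 0), .ofNat (nat_lit 0)],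
  [],
  [],
  [],
  [],
  [],
  []],
  [[],
  [],
  [.negSucc (nat_lit 160507308573942493823), .negSucc (nat_lit 62403693369898460543), .ofNat (nat_lit 0)],
  [.ofNat (nat_lit 357388118452593301248), .ofNat (nat_lit 0), .ofNat (nat_lit 0)],
  [],
  [],
  [],
  [],
  []],
  [[],
  [],
  [],
  [.ofNat (nat_lit 68631133189061790720), .ofNat (nat_lit 10542428034710374656), .ofNat (nat_lit 0)],
  [.negSucc (nat_lit 189883571977593824255), .ofNat (nat_lit 0), .ofNat (nat_lit 0)],
  [],
  [],
  [],
  []],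
  [[],
  [],
  [],
  [],
  [.ofNat (nat_lit 141473543413083070464), .ofNat (nat_lit 87684235428799415808), .ofNat (nat_lit 0)],
  [.negSucc (nat_lit 330547149578899462463), .ofNat (nat_lit 0), .ofNat (nat_lit 0)],
  [],
  [],
  []],
  [[],
  [],
  [],
  [],
  [.ofNat (nat_lit 72397908441597830400), .negSucc (nat_lit 3896227437941447423), .ofNat (nat_lit 0)],
  [.negSucc (nat_lit 114769893931316310527), .ofNat (nat_lit 0), .ofNat (nat_lit 0)],
  [],
  [],
  []],
  [[],
  [],
  [],
  [],
  [],
  [.negSucc (nat_lit 93793564534821591167), .ofNat (nat_lit 79982573994256270464), .ofNat (nat_lit 0)],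
  [.ofNat (nat_lit 230336444044197224064), .ofNat (nat_lit 0), .ofNat (nat_lit 0)],
  [],
  []],
  [[],
  [],
  [],
  [],
  [],
  [],
  [.negSucc (nat_lit 12608754337046617055), .negSucc (nat_lit 32292290462818547231), .ofNat (nat_lit 0)],
  [.ofNat (nat_lit 39597022471108401792), .ofNat (nat_lit 0), .ofNat (nat_lit 0)],
  []],
  [[],
  [],
  [],
  [],
  [],
  [],
  [.negSucc (nat_lit 69591838180825018367), .ofNat (nat_lit 66684149506544168448), .ofNat (nat_lit 0)],
  [.ofNat (nat_lit 132266806207167163392), .ofNat (nat_lit 0), .ofNat (nat_lit 0)],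
  []],
  [[],
  [],
  [],
  [],
  [],
  [],
  [],
  [.ofNat (nat_lit 19082456282702320704), .negSucc (nat_lit 22232295948495724415), .ofNat (nat_lit 0)],
  [.negSucc (nat_lit 56148287157802030463), .ofNat (nat_lit 0), .ofNat (nat_lit 0)]],
  [[],
  [],
  [],
  [],
  [],
  [],
  [],
  [.ofNat (nat_lit 12986059254339870720), .ofNat (nat_lit 25342011285713021952), .ofNat (nat_lit 0)],
  []]],
  [],
  [],
  [],
  [],
  [],
  [],
  [],
  []],
  [[],
  [],
  [],
  [],
  [[[.ofNat (nat_lit 0), .negSucc (nat_lit 5916041156412721151), .ofNat (nat_lit 2857328753950632960)],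
  [.ofNat (nat_lit 0), .ofNat (nat_lit 5109984075013484544), .ofNat (nat_lit 0)],
  [],
  [],
  [],
  [],
  [],
  [],
  []],
  [[.ofNat (nat_lit 2731642193371479552), .ofNat (nat_lit 6176934888005822976), .ofNat (nat_lit 0)],
  [.negSucc (nat_lit 23840914236866413055), .ofNat (nat_lit 0), .ofNat (nat_lit 0)],
  [],
  [],
  [],
  [],
  [],
  [],
  []],
  [[],
  [.ofNat (nat_lit 103952063669624439552), .ofNat (nat_lit 21090938870690945280), .ofNat (nat_lit 0)],
  [.negSucc (nat_lit 245376237924333483263), .ofNat (nat_lit 0), .ofNat (nat_lit 0)],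
  [],
  [],
  [],
  [],
  [],
  []],
  [[],
  [],
  [.negSucc (nat_lit 68631133189061790719), .negSucc (nat_lit 10542428034710374655), .ofNat (nat_lit 0)],
  [.ofNat (nat_lit 189883571977593824256), .ofNat (nat_lit 0), .ofNat (nat_lit 0)],
  [],
  [],
  [],
  [],
  []],
  [[],
  [],
  [],
  [.negSucc (nat_lit 237105137852102343167), .ofNat (nat_lit 10089279246481460352), .ofNat (nat_lit 0)],
  [.ofNat (nat_lit 517142966590752751872), .ofNat (nat_lit 0), .ofNat (nat_lit 0)],
  [],
  [],
  [],
  []],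
  [[],
  [],
  [],
  [],
  [.ofNat (nat_lit 215162347768876071936), .negSucc (nat_lit 8866297902136356863), .ofNat (nat_lit 0)],
  [.negSucc (nat_lit 513718674028778565503), .ofNat (nat_lit 0), .ofNat (nat_lit 0)],
  [],
  [],
  []],
  [[],
  [],
  [],
  [],
  [.ofNat (nat_lit 8083993573652649984), .negSucc (nat_lit 22695517968888137471), .ofNat (nat_lit 0)],
  [.ofNat (nat_lit 58286853708773764608), .ofNat (nat_lit 0), .ofNat (nat_lit 0)],
  [],
  [],
  []],
  [[],
  [],
  [],
  [],
  [],
  [.ofNat (nat_lit 61470800507499778368), .negSucc (nat_lit 98505096597053998271), .ofNat (nat_lit 0)],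
  [.negSucc (nat_lit 55314104315661489599), .ofNat (nat_lit 0), .ofNat (nat_lit 0)],
  [],
  []],
  [[],
  [],
  [],
  [],
  [],
  [],
  [.negSucc (nat_lit 59336098452149592959), .negSucc (nat_lit 37592428345219401407), .ofNat (nat_lit 0)],
  [.ofNat (nat_lit 163990925194809542400), .ofNat (nat_lit 0), .ofNat (nat_lit 0)],
  []],
  [[],
  [],
  [],
  [],
  [],
  [],
  [.negSucc (nat_lit 67449695587206853247), .ofNat (nat_lit 16870196238968832768), .ofNat (nat_lit 0)],
  [.ofNat (nat_lit 30657548979203420160), .ofNat (nat_lit 0), .ofNat (nat_lit 0)],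
  []],
  [[],
  [],
  [],
  [],
  [],
  [],
  [],
  [.ofNat (nat_lit 3601104094771034688), .negSucc (nat_lit 1757242372497974207), .ofNat (nat_lit 0)],
  [.negSucc (nat_lit 82126400635870456319), .ofNat (nat_lit 0), .ofNat (nat_lit 0)]],
  [[],
  [],
  [],
  [],
  [],
  [],
  [],
  [.ofNat (nat_lit 26833759034963120640), .ofNat (nat_lit 6673290201691453440), .ofNat (nat_lit 0)],
  [.negSucc (nat_lit 12541439588871997439), .ofNat (nat_lit 0), .ofNat (nat_lit 0)]]],
  [],
  [],
  [],
  [],
  [],
  [],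
  []],
  [[],
  [],
  [],
  [],
  [],
  [[[.ofNat (nat_lit 0), .ofNat (nat_lit 30404241419439596544), .ofNat (nat_lit 2046719610423816192)],
  [.ofNat (nat_lit 0), .negSucc (nat_lit 59543090550124222463), .ofNat (nat_lit 0)],
  [],
  [],
  [],
  [],
  [],
  [],
  []],
  [[.negSucc (nat_lit 79800678311949680255), .negSucc (nat_lit 22569757172009480447), .ofNat (nat_lit 0)],
  [.ofNat (nat_lit 186008781896054190720), .ofNat (nat_lit 0), .ofNat (nat_lit 0)],
  [],
  [],
  [],
  [],
  [],
  [],
  []],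
  [[],
  [.ofNat (nat_lit 27217237713874910208), .ofNat (nat_lit 25387270052457611520), .ofNat (nat_lit 0)],
  [.negSucc (nat_lit 75230149430244625919), .ofNat (nat_lit 0), .ofNat (nat_lit 0)],
  [],
  [],
  [],
  [],
  [],
  []],
  [[],
  [],
  [.ofNat (nat_lit 141473543413083070464), .ofNat (nat_lit 87684235428799415808), .ofNat (nat_lit 0)],
  [.negSucc (nat_lit 330547149578899462463), .ofNat (nat_lit 0), .ofNat (nat_lit 0)],
  [],
  [],
  [],
  [],
  []],
  [[],
  [],
  [],
  [.negSucc (nat_lit 215162347768876071935), .ofNat (nat_lit 8866297902136356864), .ofNat (nat_lit 0)],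
  [.ofNat (nat_lit 513718674028778565504), .ofNat (nat_lit 0), .ofNat (nat_lit 0)],
  [],
  [],
  [],
  []],
  [[],
  [],
  [],
  [],
  [.ofNat (nat_lit 20300343179803378272), .negSucc (nat_lit 141721343973187811711), .ofNat (nat_lit 0)],
  [.ofNat (nat_lit 79571566169681938560), .ofNat (nat_lit 0), .ofNat (nat_lit 0)],
  [],
  [],
  []],
  [[],
  [],
  [],
  [],
  [.negSucc (nat_lit 37455603456812145407), .ofNat (nat_lit 15362164551800833920), .ofNat (nat_lit 0)],
  [.negSucc (nat_lit 32419829341408800383), .ofNat (nat_lit 0), .ofNat (nat_lit 0)],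
  [],
  [],
  []],
  [[],
  [],
  [],
  [],
  [],
  [.ofNat (nat_lit 174942250641874558368), .negSucc (nat_lit 194079594638221521695), .ofNat (nat_lit 0)],
  [.negSucc (nat_lit 333035820445026206591), .ofNat (nat_lit 0), .ofNat (nat_lit 0)],
  [],
  []],
  [[],
  [],
  [],
  [],
  [],
  [],
  [.negSucc (nat_lit 64238725298189282687), .ofNat (nat_lit 37799935858553566896), .ofNat (nat_lit 0)],
  [.ofNat (nat_lit 66930721381010308608), .ofNat (nat_lit 0), .ofNat (nat_lit 0)],
  []],
  [[],
  [],
  [],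
  [],
  [],
  [],
  [.negSucc (nat_lit 72515931299140036031), .negSucc (nat_lit 75547507958705971583), .ofNat (nat_lit 0)],
  [.ofNat (nat_lit 48505864077998546688), .ofNat (nat_lit 0), .ofNat (nat_lit 0)],
  []],
  [[],
  [],
  [],
  [],
  [],
  [],
  [],
  [.negSucc (nat_lit 46339354649675513663), .ofNat (nat_lit 55206164664083615616), .ofNat (nat_lit 0)],
  [.negSucc (nat_lit 9550175187714977087), .ofNat (nat_lit 0), .ofNat (nat_lit 0)]],
  [[],
  [],
  [],
  [],
  [],
  [],
  [],
  [.negSucc (nat_lit 26166018105709868159), .negSucc (nat_lit 26259896978105158655), .ofNat (nat_lit 0)],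
  []]],
  [[[.ofNat (nat_lit 0), .ofNat (nat_lit 13966422700040349696), .negSucc (nat_lit 2118873415207209983)],
  [.ofNat (nat_lit 0), .negSucc (nat_lit 25045313730557054975), .ofNat (nat_lit 0)],
  [],
  [],
  [],
  [],
  [],
  [],
  []],
  [[.ofNat (nat_lit 3694826240232634368), .negSucc (nat_lit 2232970938067037183), .ofNat (nat_lit 0)],
  [.negSucc (nat_lit 9960198479878957055), .ofNat (nat_lit 0), .ofNat (nat_lit 0)],
  [],
  [],
  [],
  [],
  [],
  [],
  []],
  [[],
  [.negSucc (nat_lit 21998356427839140863), .negSucc (nat_lit 10972650264159131135), .ofNat (nat_lit 0)],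
  [.ofNat (nat_lit 69494640057033974784), .ofNat (nat_lit 0), .ofNat (nat_lit 0)],
  [],
  [],
  [],
  [],
  [],
  []],
  [[],
  [],
  [.ofNat (nat_lit 72397908441597830400), .negSucc (nat_lit 3896227437941447423), .ofNat (nat_lit 0)],
  [.negSucc (nat_lit 114769893931316310527), .ofNat (nat_lit 0), .ofNat (nat_lit 0)],
  [],
  [],
  [],
  [],
  []],
  [[],
  [],
  [],
  [.negSucc (nat_lit 8083993573652649983), .ofNat (nat_lit 22695517968888137472), .ofNat (nat_lit 0)],
  [.negSucc (nat_lit 58286853708773764607), .ofNat (nat_lit 0), .ofNat (nat_lit 0)],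
  [],
  [],
  [],
  []],
  [[],
  [],
  [],
  [],
  [.negSucc (nat_lit 37455603456812145407), .ofNat (nat_lit 15362164551800833920), .ofNat (nat_lit 0)],
  [.negSucc (nat_lit 32419829341408800383), .ofNat (nat_lit 0), .ofNat (nat_lit 0)],
  [],
  [],
  []],
  [[],
  [],
  [],
  [],
  [.negSucc (nat_lit 8091470927410716671), .ofNat (nat_lit 21780677125486043136), .ofNat (nat_lit 0)],
  [.ofNat (nat_lit 2279789987066067456), .ofNat (nat_lit 0), .ofNat (nat_lit 0)],
  [],
  [],
  []],
  [[],
  [],
  [],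
  [],
  [],
  [.ofNat (nat_lit 10312451694447283584), .negSucc (nat_lit 197961129315407231), .ofNat (nat_lit 0)],
  [.ofNat (nat_lit 38433355059849239808), .ofNat (nat_lit 0), .ofNat (nat_lit 0)],
  [],
  []],
  [[],
  [],
  [],
  [],
  [],
  [],
  [.ofNat (nat_lit 8992502427782627712), .ofNat (nat_lit 13576350321996856128), .ofNat (nat_lit 0)],
  [.ofNat (nat_lit 60086667026464017408), .ofNat (nat_lit 0), .ofNat (nat_lit 0)],
  []],
  [[],
  [],
  [],
  [],
  [],
  [],
  [.negSucc (nat_lit 12775227225111316223), .negSucc (nat_lit 9885910932926281727), .ofNat (nat_lit 0)],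
  [.ofNat (nat_lit 6639577109957772288), .ofNat (nat_lit 0), .ofNat (nat_lit 0)],
  []],
  [[],
  [],
  [],
  [],
  [],
  [],
  [],
  [.ofNat (nat_lit 17596849872915500544), .ofNat (nat_lit 32712151044170308608), .ofNat (nat_lit 0)],
  [.negSucc (nat_lit 37047936782372076287), .ofNat (nat_lit 0), .ofNat (nat_lit 0)]],
  [[],
  [],
  [],
  [],
  [],
  [],
  [],
  [.ofNat (nat_lit 903138014078784000), .negSucc (nat_lit 35029697691931858943), .ofNat (nat_lit 0)],
  []]],
  [],
  [],
  [],
  [],
  []],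
  [[],
  [],
  [],
  [],
  [],
  [],
  [],
  [[[.ofNat (nat_lit 0), .negSucc (nat_lit 42782734316657405951), .ofNat (nat_lit 3433136408241979392)],
  [.ofNat (nat_lit 0), .ofNat (nat_lit 89113860328018516992), .ofNat (nat_lit 0)],
  [],
  [],
  [],
  [],
  [],
  [],
  []],
  [[.ofNat (nat_lit 47010953025998940672), .ofNat (nat_lit 4182318353634338304), .ofNat (nat_lit 0)],
  [.negSucc (nat_lit 113967894383726980607), .ofNat (nat_lit 0), .ofNat (nat_lit 0)],
  [],
  [],
  [],
  [],
  [],
  [],
  []],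
  [[],
  [.negSucc (nat_lit 85664528422244030591), .negSucc (nat_lit 19072975425274146815), .ofNat (nat_lit 0)],
  [.ofNat (nat_lit 188422296180038347392), .ofNat (nat_lit 0), .ofNat (nat_lit 0)],
  [],
  [],
  [],
  [],
  [],
  []],
  [[],
  [],
  [.ofNat (nat_lit 93793564534821591168), .negSucc (nat_lit 79982573994256270463), .ofNat (nat_lit 0)],
  [.negSucc (nat_lit 230336444044197224063), .ofNat (nat_lit 0), .ofNat (nat_lit 0)],
  [],
  [],
  [],
  [],
  []],
  [[],
  [],
  [],
  [.ofNat (nat_lit 61470800507499778368), .negSucc (nat_lit 98505096597053998271), .ofNat (nat_lit 0)],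
  [.negSucc (nat_lit 55314104315661489599), .ofNat (nat_lit 0), .ofNat (nat_lit 0)],
  [],
  [],
  [],
  []],
  [[],
  [],
  [],
  [],
  [.negSucc (nat_lit 174942250641874558367), .ofNat (nat_lit 194079594638221521696), .ofNat (nat_lit 0)],
  [.ofNat (nat_lit 333035820445026206592), .ofNat (nat_lit 0), .ofNat (nat_lit 0)],
  [],
  [],
  []],
  [[],
  [],
  [],
  [],
  [.negSucc (nat_lit 10312451694447283583), .ofNat (nat_lit 197961129315407232), .ofNat (nat_lit 0)],
  [.negSucc (nat_lit 38433355059849239807), .ofNat (nat_lit 0), .ofNat (nat_lit 0)],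
  [],
  [],
  []],
  [[],
  [],
  [],
  [],
  [],
  [.ofNat (nat_lit 233775957345641887968), .ofNat (nat_lit 194068185291703890720), .ofNat (nat_lit 0)],
  [.negSucc (nat_lit 293779624755203859455), .ofNat (nat_lit 0), .ofNat (nat_lit 0)],
  [],
  []],
  [[],
  [],
  [],
  [],
  [],
  [],
  [.negSucc (nat_lit 5230973798545293503), .negSucc (nat_lit 8117473278093744095), .ofNat (nat_lit 0)],
  [.ofNat (nat_lit 49166173277574566976), .ofNat (nat_lit 0), .ofNat (nat_lit 0)],
  []],
  [[],
  [],
  [],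
  [],
  [],
  [],
  [.ofNat (nat_lit 64768455337432736448), .ofNat (nat_lit 124595706357366602112), .ofNat (nat_lit 0)],
  [.ofNat (nat_lit 93485476640249519616), .ofNat (nat_lit 0), .ofNat (nat_lit 0)],
  []],
  [[],
  [],
  [],
  [],
  [],
  [],
  [],
  [.negSucc (nat_lit 17836553926497037103), .ofNat (nat_lit 49176995949980715456), .ofNat (nat_lit 0)],
  [.negSucc (nat_lit 13965024041420018111), .ofNat (nat_lit 0), .ofNat (nat_lit 0)]],
  [[],
  [],
  [],
  [],
  [],
  [],
  [],
  [.negSucc (nat_lit 21821287278769694207), .ofNat (nat_lit 56626610840422129152), .ofNat (nat_lit 0)],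
  []]],
  [],
  [],
  [],
  []],
  [[],
  [],
  [],
  [],
  [],
  [],
  [],
  [],
  [[[.ofNat (nat_lit 0), .negSucc (nat_lit 5951656809722962943), .negSucc (nat_lit 275519214664621055)],
  [.ofNat (nat_lit 0), .ofNat (nat_lit 12642156346664448000), .ofNat (nat_lit 0)],
  [],
  [],
  [],
  [],
  [],
  [],
  []],
  [[.ofNat (nat_lit 26166346603357765248), .ofNat (nat_lit 8307989796469390848), .ofNat (nat_lit 0)],
  [.negSucc (nat_lit 54737936558087742719), .ofNat (nat_lit 0), .ofNat (nat_lit 0)],
  [],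
  [],
  [],
  [],
  [],
  [],
  []],
  [[],
  [.negSucc (nat_lit 26810503832079268991), .negSucc (nat_lit 15441044778963433727), .ofNat (nat_lit 0)],
  [.ofNat (nat_lit 63618389878245702912), .ofNat (nat_lit 0), .ofNat (nat_lit 0)],
  [],
  [],
  [],
  [],
  [],
  []],
  [[],
  [],
  [.negSucc (nat_lit 12608754337046617055), .negSucc (nat_lit 32292290462818547231), .ofNat (nat_lit 0)],
  [.ofNat (nat_lit 39597022471108401792), .ofNat (nat_lit 0), .ofNat (nat_lit 0)],
  [],
  [],
  [],
  [],
  []],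
  [[],
  [],
  [],
  [.ofNat (nat_lit 59336098452149592960), .ofNat (nat_lit 37592428345219401408), .ofNat (nat_lit 0)],
  [.negSucc (nat_lit 163990925194809542399), .ofNat (nat_lit 0), .ofNat (nat_lit 0)],
  [],
  [],
  [],
  []],
  [[],
  [],
  [],
  [],
  [.negSucc (nat_lit 64238725298189282687), .ofNat (nat_lit 37799935858553566896), .ofNat (nat_lit 0)],
  [.ofNat (nat_lit 66930721381010308608), .ofNat (nat_lit 0), .ofNat (nat_lit 0)],
  [],
  [],
  []],
  [[],
  [],
  [],
  [],
  [.ofNat (nat_lit 8992502427782627712), .ofNat (nat_lit 13576350321996856128), .ofNat (nat_lit 0)],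
  [.ofNat (nat_lit 60086667026464017408), .ofNat (nat_lit 0), .ofNat (nat_lit 0)],
  [],
  [],
  []],
  [[],
  [],
  [],
  [],
  [],
  [.ofNat (nat_lit 5230973798545293504), .ofNat (nat_lit 8117473278093744096), .ofNat (nat_lit 0)],
  [.negSucc (nat_lit 49166173277574566975), .ofNat (nat_lit 0), .ofNat (nat_lit 0)],
  [],
  []],
  [[],
  [],
  [],
  [],
  [],
  [],
  [.negSucc (nat_lit 37956652679013744455), .ofNat (nat_lit 41248646665987017528), .ofNat (nat_lit 0)],
  [.ofNat (nat_lit 9298550227233024576), .ofNat (nat_lit 0), .ofNat (nat_lit 0)],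
  []],
  [[],
  [],
  [],
  [],
  [],
  [],
  [.ofNat (nat_lit 61279367163355757664), .negSucc (nat_lit 75408578487580432895), .ofNat (nat_lit 0)],
  [.negSucc (nat_lit 12223298870374460543), .ofNat (nat_lit 0), .ofNat (nat_lit 0)],
  []],
  [[],
  [],
  [],
  [],
  [],
  [],
  [],
  [.negSucc (nat_lit 16498634237561181815), .ofNat (nat_lit 19224754048380850128), .ofNat (nat_lit 0)],
  [.negSucc (nat_lit 685586215695378815), .ofNat (nat_lit 0), .ofNat (nat_lit 0)]],
  [[],
  [],
  [],
  [],
  [],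
  [],
  [],
  [.negSucc (nat_lit 1107267182289967103), .ofNat (nat_lit 4418040128115964032), .ofNat (nat_lit 0)],
  [.ofNat (nat_lit 1764187465827241728), .ofNat (nat_lit 0), .ofNat (nat_lit 0)]]],
  [[[.ofNat (nat_lit 0), .ofNat (nat_lit 26585047764105348096), .negSucc (nat_lit 2598596369785036799)],
  [.ofNat (nat_lit 0), .negSucc (nat_lit 57762241989440209919), .ofNat (nat_lit 0)],
  [],
  [],
  [],
  [],
  [],
  [],
  []],
  [[.negSucc (nat_lit 11301115158909324287), .negSucc (nat_lit 1135171208690053631), .ofNat (nat_lit 0)],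
  [.ofNat (nat_lit 41116029253510800384), .ofNat (nat_lit 0), .ofNat (nat_lit 0)],
  [],
  [],
  [],
  [],
  [],
  [],
  []],
  [[],
  [.ofNat (nat_lit 19088545705759079424), .ofNat (nat_lit 22026428842915187712), .ofNat (nat_lit 0)],
  [.negSucc (nat_lit 55158529796177430527), .ofNat (nat_lit 0), .ofNat (nat_lit 0)],
  [],
  [],
  [],
  [],
  [],
  []],
  [[],
  [],
  [.negSucc (nat_lit 69591838180825018367), .ofNat (nat_lit 66684149506544168448), .ofNat (nat_lit 0)],
  [.ofNat (nat_lit 132266806207167163392), .ofNat (nat_lit 0), .ofNat (nat_lit 0)],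
  [],
  [],
  [],
  [],
  []],
  [[],
  [],
  [],
  [.ofNat (nat_lit 67449695587206853248), .negSucc (nat_lit 16870196238968832767), .ofNat (nat_lit 0)],
  [.negSucc (nat_lit 30657548979203420159), .ofNat (nat_lit 0), .ofNat (nat_lit 0)],
  [],
  [],
  [],
  []],
  [[],
  [],
  [],
  [],
  [.negSucc (nat_lit 72515931299140036031), .negSucc (nat_lit 75547507958705971583), .ofNat (nat_lit 0)],
  [.ofNat (nat_lit 48505864077998546688), .ofNat (nat_lit 0), .ofNat (nat_lit 0)],
  [],
  [],
  []],
  [[],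
  [],
  [],
  [],
  [.negSucc (nat_lit 12775227225111316223), .negSucc (nat_lit 9885910932926281727), .ofNat (nat_lit 0)],
  [.ofNat (nat_lit 6639577109957772288), .ofNat (nat_lit 0), .ofNat (nat_lit 0)],
  [],
  [],
  []],
  [[],
  [],
  [],
  [],
  [],
  [.negSucc (nat_lit 64768455337432736447), .negSucc (nat_lit 124595706357366602111), .ofNat (nat_lit 0)],
  [.negSucc (nat_lit 93485476640249519615), .ofNat (nat_lit 0), .ofNat (nat_lit 0)],
  [],
  []],
  [[],
  [],
  [],
  [],
  [],
  [],
  [.ofNat (nat_lit 61279367163355757664), .negSucc (nat_lit 75408578487580432895), .ofNat (nat_lit 0)],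
  [.negSucc (nat_lit 12223298870374460543), .ofNat (nat_lit 0), .ofNat (nat_lit 0)],
  []],
  [[],
  [],
  [],
  [],
  [],
  [],
  [.negSucc (nat_lit 45770799551936419583), .negSucc (nat_lit 10057772762350096895), .ofNat (nat_lit 0)],
  [.ofNat (nat_lit 48893195481497842176), .ofNat (nat_lit 0), .ofNat (nat_lit 0)],
  []],
  [[],
  [],
  [],
  [],
  [],
  [],
  [],
  [.ofNat (nat_lit 25018785568281941568), .negSucc (nat_lit 20747039408190953855), .ofNat (nat_lit 0)],
  [.negSucc (nat_lit 3528374931654483455), .ofNat (nat_lit 0), .ofNat (nat_lit 0)]],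
  [[],
  [],
  [],
  [],
  [],
  [],
  [],
  [.ofNat (nat_lit 27259169329105380864), .negSucc (nat_lit 6378654859170273791), .ofNat (nat_lit 0)],
  [.negSucc (nat_lit 7056749863308966911), .ofNat (nat_lit 0), .ofNat (nat_lit 0)]]],
  [],
  []],
  [[],
  [],
  [],
  [],
  [],
  [],
  [],
  [],
  [],
  [],
  [[[],
  [],
  [],
  [],
  [],
  [],
  [],
  [],
  []],
  [[.negSucc (nat_lit 12794885194336584191), .negSucc (nat_lit 5831369001995116031), .ofNat (nat_lit 0)],
  [.ofNat (nat_lit 19598189452180964352), .ofNat (nat_lit 0), .ofNat (nat_lit 0)],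
  [],
  [],
  [],
  [],
  [],
  [],
  []],
  [[],
  [.ofNat (nat_lit 28170128673124129152), .ofNat (nat_lit 12203377550369858304), .ofNat (nat_lit 0)],
  [.negSucc (nat_lit 55860096165680072447), .ofNat (nat_lit 0), .ofNat (nat_lit 0)],
  [],
  [],
  [],
  [],
  [],
  []],
  [[],
  [],
  [.negSucc (nat_lit 19082456282702320703), .ofNat (nat_lit 22232295948495724416), .ofNat (nat_lit 0)],
  [.ofNat (nat_lit 56148287157802030464), .ofNat (nat_lit 0), .ofNat (nat_lit 0)],
  [],
  [],
  [],
  [],
  []],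
  [[],
  [],
  [],
  [.ofNat (nat_lit 3601104094771034688), .negSucc (nat_lit 1757242372497974207), .ofNat (nat_lit 0)],
  [.negSucc (nat_lit 82126400635870456319), .ofNat (nat_lit 0), .ofNat (nat_lit 0)],
  [],
  [],
  [],
  []],
  [[],
  [],
  [],
  [],
  [.ofNat (nat_lit 46339354649675513664), .negSucc (nat_lit 55206164664083615615), .ofNat (nat_lit 0)],
  [.ofNat (nat_lit 9550175187714977088), .ofNat (nat_lit 0), .ofNat (nat_lit 0)],
  [],
  [],
  []],
  [[],
  [],
  [],
  [],
  [.negSucc (nat_lit 17596849872915500543), .negSucc (nat_lit 32712151044170308607), .ofNat (nat_lit 0)],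
  [.ofNat (nat_lit 37047936782372076288), .ofNat (nat_lit 0), .ofNat (nat_lit 0)],
  [],
  [],
  []],
  [[],
  [],
  [],
  [],
  [],
  [.negSucc (nat_lit 17836553926497037103), .ofNat (nat_lit 49176995949980715456), .ofNat (nat_lit 0)],
  [.negSucc (nat_lit 13965024041420018111), .ofNat (nat_lit 0), .ofNat (nat_lit 0)],
  [],
  []],
  [[],
  [],
  [],
  [],
  [],
  [],
  [.ofNat (nat_lit 16498634237561181816), .negSucc (nat_lit 19224754048380850127), .ofNat (nat_lit 0)],
  [.ofNat (nat_lit 685586215695378816), .ofNat (nat_lit 0), .ofNat (nat_lit 0)],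
  []],
  [[],
  [],
  [],
  [],
  [],
  [],
  [.negSucc (nat_lit 25018785568281941567), .ofNat (nat_lit 20747039408190953856), .ofNat (nat_lit 0)],
  [.ofNat (nat_lit 3528374931654483456), .ofNat (nat_lit 0), .ofNat (nat_lit 0)],
  []],
  [[],
  [],
  [],
  [],
  [],
  [],
  [],
  [.ofNat (nat_lit 42493824103254335352), .negSucc (nat_lit 60103551355395488855), .ofNat (nat_lit 0)],
  []],
  [[],
  [],
  [],
  [],
  [],
  [],
  [],
  [.negSucc (nat_lit 8101235670544234367), .ofNat (nat_lit 10794176272614528576), .ofNat (nat_lit 0)],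
  []]],
  [[[],
  [],
  [],
  [],
  [],
  [],
  [],
  [],
  []],
  [[.negSucc (nat_lit 4596394264298081279), .ofNat (nat_lit 4438842378518532096), .ofNat (nat_lit 0)],
  [.ofNat (nat_lit 14113499726617933824), .ofNat (nat_lit 0), .ofNat (nat_lit 0)],
  [],
  [],
  [],
  [],
  [],
  [],
  []],
  [[],
  [.negSucc (nat_lit 1374476731262263295), .negSucc (nat_lit 15783211687721886719), .ofNat (nat_lit 0)],
  [],
  [],
  [],
  [],
  [],
  [],
  []],
  [[],
  [],
  [.negSucc (nat_lit 12986059254339870719), .negSucc (nat_lit 25342011285713021951), .ofNat (nat_lit 0)],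
  [],
  [],
  [],
  [],
  [],
  []],
  [[],
  [],
  [],
  [.ofNat (nat_lit 26833759034963120640), .ofNat (nat_lit 6673290201691453440), .ofNat (nat_lit 0)],
  [.negSucc (nat_lit 12541439588871997439), .ofNat (nat_lit 0), .ofNat (nat_lit 0)],
  [],
  [],
  [],
  []],
  [[],
  [],
  [],
  [],
  [.ofNat (nat_lit 26166018105709868160), .ofNat (nat_lit 26259896978105158656), .ofNat (nat_lit 0)],
  [],
  [],
  [],
  []],
  [[],
  [],
  [],
  [],
  [.negSucc (nat_lit 903138014078783999), .ofNat (nat_lit 35029697691931858944), .ofNat (nat_lit 0)],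
  [],
  [],
  [],
  []],
  [[],
  [],
  [],
  [],
  [],
  [.negSucc (nat_lit 21821287278769694207), .ofNat (nat_lit 56626610840422129152), .ofNat (nat_lit 0)],
  [],
  [],
  []],
  [[],
  [],
  [],
  [],
  [],
  [],
  [.ofNat (nat_lit 1107267182289967104), .negSucc (nat_lit 4418040128115964031), .ofNat (nat_lit 0)],
  [.negSucc (nat_lit 1764187465827241727), .ofNat (nat_lit 0), .ofNat (nat_lit 0)],
  []],
  [[],
  [],
  [],
  [],
  [],
  [],
  [.negSucc (nat_lit 27259169329105380863), .ofNat (nat_lit 6378654859170273792), .ofNat (nat_lit 0)],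
  [.ofNat (nat_lit 7056749863308966912), .ofNat (nat_lit 0), .ofNat (nat_lit 0)],
  []],
  [[],
  [],
  [],
  [],
  [],
  [],
  [],
  [.negSucc (nat_lit 8101235670544234367), .ofNat (nat_lit 10794176272614528576), .ofNat (nat_lit 0)],
  []],
  [[],
  [],
  [],
  [],
  [],
  [],
  [],
  [.ofNat (nat_lit 21446182215723465216), .negSucc (nat_lit 45722106520189991423), .ofNat (nat_lit 0)],
  []]]]],
  [[[[[.ofNat (nat_lit 0), .ofNat (nat_lit 0), .ofNat (nat_lit 74442886863252480)],
  [.ofNat (nat_lit 0), .ofNat (nat_lit 0), .negSucc (nat_lit 225031149929650175)],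
  [],
  [],
  [],
  [],
  [],
  [],
  []],
  [[.ofNat (nat_lit 0), .negSucc (nat_lit 1662625636489442303), .ofNat (nat_lit 0)],
  [.ofNat (nat_lit 0), .ofNat (nat_lit 2659847456503535616), .ofNat (nat_lit 0)],
  [],
  [],
  [],
  [],
  [],
  [],
  []],
  [[],
  [.ofNat (nat_lit 0), .negSucc (nat_lit 6030996436865166335), .ofNat (nat_lit 0)],
  [.ofNat (nat_lit 0), .ofNat (nat_lit 3589254937817026560), .ofNat (nat_lit 0)],
  [],
  [],
  [],
  [],
  [],
  []],
  [[],
  [],
  [.ofNat (nat_lit 0), .ofNat (nat_lit 6239823270733274112), .ofNat (nat_lit 0)],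
  [.ofNat (nat_lit 0), .negSucc (nat_lit 18762960044085129215), .ofNat (nat_lit 0)],
  [],
  [],
  [],
  [],
  []],
  [[],
  [],
  [],
  [.ofNat (nat_lit 0), .ofNat (nat_lit 14183971866679633920), .ofNat (nat_lit 0)],
  [.ofNat (nat_lit 0), .negSucc (nat_lit 52039236710526077951), .ofNat (nat_lit 0)],
  [],
  [],
  [],
  []],
  [[],
  [],
  [],
  [],
  [.ofNat (nat_lit 0), .ofNat (nat_lit 790577520521812992), .ofNat (nat_lit 0)],
  [.ofNat (nat_lit 0), .negSucc (nat_lit 22600029511108629503), .ofNat (nat_lit 0)],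
  [],
  [],
  []],
  [[],
  [],
  [],
  [],
  [.ofNat (nat_lit 0), .negSucc (nat_lit 40664837769441435647), .ofNat (nat_lit 0)],
  [.ofNat (nat_lit 0), .ofNat (nat_lit 84454854356810179584), .ofNat (nat_lit 0)],
  [],
  [],
  []],
  [[],
  [],
  [],
  [],
  [],
  [.ofNat (nat_lit 0), .negSucc (nat_lit 29764934409728747519), .ofNat (nat_lit 0)],
  [.ofNat (nat_lit 0), .ofNat (nat_lit 44074947273959808000), .ofNat (nat_lit 0)],
  [],
  []],
  [[],
  [],
  [],
  [],
  [],
  [],
  [.ofNat (nat_lit 0), .negSucc (nat_lit 4979201890653499391), .ofNat (nat_lit 0)],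
  [.ofNat (nat_lit 0), .ofNat (nat_lit 11352565548875234304), .ofNat (nat_lit 0)],
  []],
  [[],
  [],
  [],
  [],
  [],
  [],
  [.ofNat (nat_lit 0), .negSucc (nat_lit 298474510170442751), .ofNat (nat_lit 0)],
  [.ofNat (nat_lit 0), .negSucc (nat_lit 6895400985350323199), .ofNat (nat_lit 0)],
  []],
  [[],
  [],
  [],
  [],
  [],
  [],
  [],
  [],
  []],
  [[],
  [],
  [],
  [],
  [],
  [],
  [],
  [],
  []]],
  [],
  [],
  [],
  [],
  [],
  [],
  [],
  [],
  [],
  [],
  []],
  [[],
  [],
  [],
  [],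
  [],
  [],
  [],
  [],
  [],
  [],
  [],
  []],
  [[],
  [[[.ofNat (nat_lit 0), .negSucc (nat_lit 4268959060558694399), .negSucc (nat_lit 3869141649595241471)],
  [.ofNat (nat_lit 0), .ofNat (nat_lit 9118343403960357888), .ofNat (nat_lit 0)],
  [],
  [],
  [],
  [],
  [],
  [],
  []],
  [[.negSucc (nat_lit 4644467326558218239), .ofNat (nat_lit 46454575860162994176), .ofNat (nat_lit 0)],
  [.ofNat (nat_lit 16394150491894674432), .negSucc (nat_lit 88312919412624473087), .ofNat (nat_lit 0)],
  [],
  [],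
  [],
  [],
  [],
  [],
  []],
  [[],
  [.ofNat (nat_lit 0), .ofNat (nat_lit 48760232937236573184), .ofNat (nat_lit 0)],
  [.ofNat (nat_lit 0), .negSucc (nat_lit 138886242633549121535), .ofNat (nat_lit 0)],
  [],
  [],
  [],
  [],
  [],
  []],
  [[],
  [],
  [.ofNat (nat_lit 0), .negSucc (nat_lit 185745341998568318975), .ofNat (nat_lit 0)],
  [.ofNat (nat_lit 0), .ofNat (nat_lit 379294299549067762944), .ofNat (nat_lit 0)],
  [],
  [],
  [],
  [],
  []],
  [[],
  [],
  [],
  [.ofNat (nat_lit 0), .ofNat (nat_lit 42790482001261518336), .ofNat (nat_lit 0)],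
  [.ofNat (nat_lit 0), .ofNat (nat_lit 128909989546092596736), .ofNat (nat_lit 0)],
  [],
  [],
  [],
  []],
  [[],
  [],
  [],
  [],
  [.ofNat (nat_lit 0), .ofNat (nat_lit 98040980355129227520), .ofNat (nat_lit 0)],
  [.ofNat (nat_lit 0), .negSucc (nat_lit 54353818014198922367), .ofNat (nat_lit 0)],
  [],
  [],
  []],
  [[],
  [],
  [],
  [],
  [.ofNat (nat_lit 0), .ofNat (nat_lit 783678870076061961216), .ofNat (nat_lit 0)],
  [.ofNat (nat_lit 0), .negSucc (nat_lit 1699547358187548499967), .ofNat (nat_lit 0)],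
  [],
  [],
  []],
  [[],
  [],
  [],
  [],
  [],
  [.ofNat (nat_lit 0), .ofNat (nat_lit 203075257506933846528), .ofNat (nat_lit 0)],
  [.ofNat (nat_lit 0), .negSucc (nat_lit 569475648288635314175), .ofNat (nat_lit 0)],
  [],
  []],
  [[],
  [],
  [],
  [],
  [],
  [],
  [.ofNat (nat_lit 0), .negSucc (nat_lit 26700191365185597311), .ofNat (nat_lit 0)],
  [.ofNat (nat_lit 0), .negSucc (nat_lit 36471374353204663679), .ofNat (nat_lit 0)],
  []],
  [[],
  [],
  [],
  [],
  [],
  [],
  [.ofNat (nat_lit 0), .negSucc (nat_lit 382881311881944675839), .ofNat (nat_lit 0)],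
  [.ofNat (nat_lit 0), .ofNat (nat_lit 697836691428600614400), .ofNat (nat_lit 0)],
  []],
  [[],
  [],
  [],
  [],
  [],
  [],
  [],
  [.ofNat (nat_lit 0), .negSucc (nat_lit 134497976811570717695), .ofNat (nat_lit 0)],
  [.ofNat (nat_lit 0), .ofNat (nat_lit 245470125022328166912), .ofNat (nat_lit 0)]],
  [[],
  [],
  [],
  [],
  [],
  [],
  [],
  [.ofNat (nat_lit 0), .negSucc (nat_lit 2089321571193099263), .ofNat (nat_lit 0)],
  [.ofNat (nat_lit 0), .negSucc (nat_lit 48267806897452262399), .ofNat (nat_lit 0)]]],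
  [],
  [],
  [],
  [],
  [],
  [],
  [],
  [],
  [],
  []],
  [[],
  [],
  [[[.ofNat (nat_lit 0), .ofNat (nat_lit 7591503380048381952), .negSucc (nat_lit 3181095124652630015)],
  [.ofNat (nat_lit 0), .negSucc (nat_lit 24336453577042114559), .ofNat (nat_lit 0)],
  [],
  [],
  [],
  [],
  [],
  [],
  []],
  [[.negSucc (nat_lit 16612788848668415999), .negSucc (nat_lit 45579137812583943167), .ofNat (nat_lit 0)],
  [.ofNat (nat_lit 50779972231598721024), .ofNat (nat_lit 138886242633549121536), .ofNat (nat_lit 0)],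
  [],
  [],
  [],
  [],
  [],
  [],
  []],
  [[],
  [.ofNat (nat_lit 0), .ofNat (nat_lit 508474825056447773184), .ofNat (nat_lit 0)],
  [.ofNat (nat_lit 0), .negSucc (nat_lit 1186569992762895670271), .ofNat (nat_lit 0)],
  [],
  [],
  [],
  [],
  [],
  []],
  [[],
  [],
  [.ofNat (nat_lit 0), .ofNat (nat_lit 191896114024430906112), .ofNat (nat_lit 0)],
  [.ofNat (nat_lit 0), .negSucc (nat_lit 705316886792895214079), .ofNat (nat_lit 0)],
  [],
  [],
  [],
  [],
  []],
  [[],
  [],
  [],
  [.ofNat (nat_lit 0), .negSucc (nat_lit 1484884691513698551551), .ofNat (nat_lit 0)],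
  [.ofNat (nat_lit 0), .ofNat (nat_lit 3306436916194450955520), .ofNat (nat_lit 0)],
  [],
  [],
  [],
  []],
  [[],
  [],
  [],
  [],
  [.ofNat (nat_lit 0), .negSucc (nat_lit 406034269590879988991), .ofNat (nat_lit 0)],
  [.ofNat (nat_lit 0), .ofNat (nat_lit 1325112909573661694208), .ofNat (nat_lit 0)],
  [],
  [],
  []],
  [[],
  [],
  [],
  [],
  [.ofNat (nat_lit 0), .ofNat (nat_lit 7284374937980222976), .ofNat (nat_lit 0)],
  [.ofNat (nat_lit 0), .negSucc (nat_lit 62598789832061509631), .ofNat (nat_lit 0)],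
  [],
  [],
  []],
  [[],
  [],
  [],
  [],
  [],
  [.ofNat (nat_lit 0), .ofNat (nat_lit 771074091886820129280), .ofNat (nat_lit 0)],
  [.ofNat (nat_lit 0), .negSucc (nat_lit 1525223959448464930175), .ofNat (nat_lit 0)],
  [],
  []],
  [[],
  [],
  [],
  [],
  [],
  [],
  [.ofNat (nat_lit 0), .ofNat (nat_lit 191355217590948276096), .ofNat (nat_lit 0)],
  [.ofNat (nat_lit 0), .negSucc (nat_lit 636555228277359521663), .ofNat (nat_lit 0)],
  []],
  [[],
  [],
  [],
  [],
  [],
  [],
  [.ofNat (nat_lit 0), .negSucc (nat_lit 271781321999729144831), .ofNat (nat_lit 0)],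
  [.ofNat (nat_lit 0), .ofNat (nat_lit 756383776766527140864), .ofNat (nat_lit 0)],
  []],
  [[],
  [],
  [],
  [],
  [],
  [],
  [],
  [.ofNat (nat_lit 0), .negSucc (nat_lit 178716383318995664255), .ofNat (nat_lit 0)],
  [.ofNat (nat_lit 0), .ofNat (nat_lit 277703049600769258368), .ofNat (nat_lit 0)]],
  [[],
  [],
  [],
  [],
  [],
  [],
  [],
  [.ofNat (nat_lit 0), .ofNat (nat_lit 24311049387390217728), .ofNat (nat_lit 0)],
  []]],
  [],
  [],
  [],
  [],
  [],
  [],
  [],
  [],
  []],
  [[],
  [],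
  [],
  [[[.ofNat (nat_lit 0), .ofNat (nat_lit 62347148886121491456), .ofNat (nat_lit 2332693885668996096)],
  [.ofNat (nat_lit 0), .negSucc (nat_lit 136612489158831273983), .ofNat (nat_lit 0)],
  [],
  [],
  [],
  [],
  [],
  [],
  []],
  [[.negSucc (nat_lit 14240143331557438463), .negSucc (nat_lit 188078035884237315071), .ofNat (nat_lit 0)],
  [.ofNat (nat_lit 14658534822683031552), .ofNat (nat_lit 379294299549067762944), .ofNat (nat_lit 0)],
  [],
  [],
  [],
  [],
  [],
  [],
  []],
  [[],
  [.ofNat (nat_lit 0), .negSucc (nat_lit 191896114024430906111), .ofNat (nat_lit 0)],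
  [.ofNat (nat_lit 0), .ofNat (nat_lit 705316886792895214080), .ofNat (nat_lit 0)],
  [],
  [],
  [],
  [],
  [],
  []],
  [[],
  [],
  [.ofNat (nat_lit 0), .ofNat (nat_lit 521042488535075848704), .ofNat (nat_lit 0)],
  [.ofNat (nat_lit 0), .negSucc (nat_lit 970303976589418053119), .ofNat (nat_lit 0)],
  [],
  [],
  [],
  [],
  []],
  [[],
  [],
  [],
  [.ofNat (nat_lit 0), .negSucc (nat_lit 1073536473964954226687), .ofNat (nat_lit 0)],
  [.ofNat (nat_lit 0), .ofNat (nat_lit 1710673226661207022848), .ofNat (nat_lit 0)],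
  [],
  [],
  [],
  []],
  [[],
  [],
  [],
  [],
  [.ofNat (nat_lit 0), .negSucc (nat_lit 319509514747825154495), .ofNat (nat_lit 0)],
  [.ofNat (nat_lit 0), .ofNat (nat_lit 328531222642307151168), .ofNat (nat_lit 0)],
  [],
  [],
  []],
  [[],
  [],
  [],
  [],
  [.ofNat (nat_lit 0), .negSucc (nat_lit 1589759447989665420287), .ofNat (nat_lit 0)],
  [.ofNat (nat_lit 0), .ofNat (nat_lit 3426987453778923457536), .ofNat (nat_lit 0)],
  [],
  [],
  []],
  [[],
  [],
  [],
  [],
  [],
  [.ofNat (nat_lit 0), .ofNat (nat_lit 1201181791808712729600), .ofNat (nat_lit 0)],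
  [.ofNat (nat_lit 0), .negSucc (nat_lit 2426785134197119569791), .ofNat (nat_lit 0)],
  [],
  []],
  [[],
  [],
  [],
  [],
  [],
  [],
  [.ofNat (nat_lit 0), .ofNat (nat_lit 267647507541099773568), .ofNat (nat_lit 0)],
  [.ofNat (nat_lit 0), .negSucc (nat_lit 440662043906139336767), .ofNat (nat_lit 0)],
  []],
  [[],
  [],
  [],
  [],
  [],
  [],
  [.ofNat (nat_lit 0), .ofNat (nat_lit 357249690254215459584), .ofNat (nat_lit 0)],
  [.ofNat (nat_lit 0), .negSucc (nat_lit 449687989293679913471), .ofNat (nat_lit 0)],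
  []],
  [[],
  [],
  [],
  [],
  [],
  [],
  [],
  [.ofNat (nat_lit 0), .negSucc (nat_lit 274279107126606206399), .ofNat (nat_lit 0)],
  [.ofNat (nat_lit 0), .ofNat (nat_lit 745460588860256799936), .ofNat (nat_lit 0)]],
  [[],
  [],
  [],
  [],
  [],
  [],
  [],
  [.ofNat (nat_lit 0), .ofNat (nat_lit 16107316967033828352), .ofNat (nat_lit 0)],
  []]],
  [],
  [],
  [],
  [],
  [],
  [],
  [],
  []],
  [[],
  [],
  [],
  [],
  [[[.ofNat (nat_lit 0), .negSucc (nat_lit 115968604554341369855), .ofNat (nat_lit 1025252488926461952)],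
  [.ofNat (nat_lit 0), .ofNat (nat_lit 291159285210692361216), .ofNat (nat_lit 0)],
  [],
  [],
  [],
  [],
  [],
  [],
  []],
  [[.ofNat (nat_lit 57417289950431619072), .negSucc (nat_lit 43815734490187980287), .ofNat (nat_lit 0)],
  [.negSucc (nat_lit 141544908611065617407), .negSucc (nat_lit 128909989546092596735), .ofNat (nat_lit 0)],
  [],
  [],
  [],
  [],
  [],
  [],
  []],
  [[],
  [.ofNat (nat_lit 0), .negSucc (nat_lit 1484884691513698551551), .ofNat (nat_lit 0)],
  [.ofNat (nat_lit 0), .ofNat (nat_lit 3306436916194450955520), .ofNat (nat_lit 0)],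
  [],
  [],
  [],
  [],
  [],
  []],
  [[],
  [],
  [.ofNat (nat_lit 0), .ofNat (nat_lit 1073536473964954226688), .ofNat (nat_lit 0)],
  [.ofNat (nat_lit 0), .negSucc (nat_lit 1710673226661207022847), .ofNat (nat_lit 0)],
  [],
  [],
  [],
  [],
  []],
  [[],
  [],
  [],
  [.ofNat (nat_lit 0), .ofNat (nat_lit 4227398580963772356480), .ofNat (nat_lit 0)],
  [.ofNat (nat_lit 0), .negSucc (nat_lit 9146867801879925386495), .ofNat (nat_lit 0)],
  [],
  [],
  [],
  []],
  [[],
  [],
  [],
  [],
  [.ofNat (nat_lit 0), .negSucc (nat_lit 985114028394686423231), .ofNat (nat_lit 0)],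
  [.ofNat (nat_lit 0), .ofNat (nat_lit 1552727837186312972544), .ofNat (nat_lit 0)],
  [],
  [],
  []],
  [[],
  [],
  [],
  [],
  [.ofNat (nat_lit 0), .negSucc (nat_lit 1030879109198666096639), .ofNat (nat_lit 0)],
  [.ofNat (nat_lit 0), .ofNat (nat_lit 2747141390487527046144), .ofNat (nat_lit 0)],
  [],
  [],
  []],
  [[],
  [],
  [],
  [],
  [],
  [.ofNat (nat_lit 0), .negSucc (nat_lit 1346196558449150509247), .ofNat (nat_lit 0)],
  [.ofNat (nat_lit 0), .ofNat (nat_lit 2464155267590560215744), .ofNat (nat_lit 0)],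
  [],
  []],
  [[],
  [],
  [],
  [],
  [],
  [],
  [.ofNat (nat_lit 0), .ofNat (nat_lit 443438160876611027712), .ofNat (nat_lit 0)],
  [.ofNat (nat_lit 0), .negSucc (nat_lit 762995010549450116735), .ofNat (nat_lit 0)],
  []],
  [[],
  [],
  [],
  [],
  [],
  [],
  [.ofNat (nat_lit 0), .ofNat (nat_lit 716908413839738270976), .ofNat (nat_lit 0)],
  [.ofNat (nat_lit 0), .negSucc (nat_lit 1957886353180844633087), .ofNat (nat_lit 0)],
  []],
  [[],
  [],
  [],
  [],
  [],
  [],
  [],
  [.ofNat (nat_lit 0), .ofNat (nat_lit 5730534987844176288), .ofNat (nat_lit 0)],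
  [.ofNat (nat_lit 0), .ofNat (nat_lit 226934891089109586432), .ofNat (nat_lit 0)]],
  [[],
  [],
  [],
  [],
  [],
  [],
  [],
  [.ofNat (nat_lit 0), .negSucc (nat_lit 147988771668451855871), .ofNat (nat_lit 0)],
  [.ofNat (nat_lit 0), .ofNat (nat_lit 269604028471054298112), .ofNat (nat_lit 0)]]],
  [],
  [],
  [],
  [],
  [],
  [],
  []],
  [[],
  [],
  [],
  [],
  [],
  [[[.ofNat (nat_lit 0), .negSucc (nat_lit 112874216382935617535), .ofNat (nat_lit 22896183438142221312)],
  [.ofNat (nat_lit 0), .ofNat (nat_lit 247573470612156521472), .ofNat (nat_lit 0)],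
  [],
  [],
  [],
  [],
  [],
  [],
  []],
  [[.ofNat (nat_lit 110314215748226746368), .ofNat (nat_lit 75144796916987006208), .ofNat (nat_lit 0)],
  [.negSucc (nat_lit 239159575073746879487), .negSucc (nat_lit 54353818014198922367), .ofNat (nat_lit 0)],
  [],
  [],
  [],
  [],
  [],
  [],
  []],
  [[],
  [.ofNat (nat_lit 0), .ofNat (nat_lit 406034269590879988992), .ofNat (nat_lit 0)],
  [.ofNat (nat_lit 0), .negSucc (nat_lit 1325112909573661694207), .ofNat (nat_lit 0)],
  [],
  [],
  [],
  [],
  [],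
  []],
  [[],
  [],
  [.ofNat (nat_lit 0), .negSucc (nat_lit 319509514747825154495), .ofNat (nat_lit 0)],
  [.ofNat (nat_lit 0), .ofNat (nat_lit 328531222642307151168), .ofNat (nat_lit 0)],
  [],
  [],
  [],
  [],
  []],
  [[],
  [],
  [],
  [.ofNat (nat_lit 0), .ofNat (nat_lit 985114028394686423232), .ofNat (nat_lit 0)],
  [.ofNat (nat_lit 0), .negSucc (nat_lit 1552727837186312972543), .ofNat (nat_lit 0)],
  [],
  [],
  [],
  []],
  [[],
  [],
  [],
  [],
  [.ofNat (nat_lit 0), .negSucc (nat_lit 414712335364693736255), .ofNat (nat_lit 0)],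
  [.ofNat (nat_lit 0), .ofNat (nat_lit 1520388767645167442688), .ofNat (nat_lit 0)],
  [],
  [],
  []],
  [[],
  [],
  [],
  [],
  [.ofNat (nat_lit 0), .ofNat (nat_lit 952333377815571822720), .ofNat (nat_lit 0)],
  [.ofNat (nat_lit 0), .negSucc (nat_lit 1995026416584950643839), .ofNat (nat_lit 0)],
  [],
  [],
  []],
  [[],
  [],
  [],
  [],
  [],
  [.ofNat (nat_lit 0), .negSucc (nat_lit 756708646147426281599), .ofNat (nat_lit 0)],
  [.ofNat (nat_lit 0), .ofNat (nat_lit 1393125046002282616128), .ofNat (nat_lit 0)],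
  [],
  []],
  [[],
  [],
  [],
  [],
  [],
  [],
  [.ofNat (nat_lit 0), .ofNat (nat_lit 204369074357001883488), .ofNat (nat_lit 0)],
  [.ofNat (nat_lit 0), .negSucc (nat_lit 653078146239574250111), .ofNat (nat_lit 0)],
  []],
  [[],
  [],
  [],
  [],
  [],
  [],
  [.ofNat (nat_lit 0), .ofNat (nat_lit 238263043748952043008), .ofNat (nat_lit 0)],
  [.ofNat (nat_lit 0), .negSucc (nat_lit 868891030461921073535), .ofNat (nat_lit 0)],
  []],
  [[],
  [],
  [],
  [],
  [],
  [],
  [],
  [.ofNat (nat_lit 0), .negSucc (nat_lit 179813540540699140031), .ofNat (nat_lit 0)],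
  [.ofNat (nat_lit 0), .ofNat (nat_lit 436081790983034494368), .ofNat (nat_lit 0)]],
  [[],
  [],
  [],
  [],
  [],
  [],
  [],
  [.ofNat (nat_lit 0), .ofNat (nat_lit 32196045117749190912), .ofNat (nat_lit 0)],
  []]],
  [[[.ofNat (nat_lit 0), .ofNat (nat_lit 25215086933362225152), .negSucc (nat_lit 14974644193314683903)],
  [.ofNat (nat_lit 0), .negSucc (nat_lit 75106848572851617791), .ofNat (nat_lit 0)],
  [],
  [],
  [],
  [],
  [],
  [],
  []],
  [[.negSucc (nat_lit 123336107249649592319), .ofNat (nat_lit 798653514269376645120), .ofNat (nat_lit 0)],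
  [.ofNat (nat_lit 308852602694528090112), .negSucc (nat_lit 1699547358187548499967), .ofNat (nat_lit 0)],
  [],
  [],
  [],
  [],
  [],
  [],
  []],
  [[],
  [.ofNat (nat_lit 0), .negSucc (nat_lit 7284374937980222975), .ofNat (nat_lit 0)],
  [.ofNat (nat_lit 0), .ofNat (nat_lit 62598789832061509632), .ofNat (nat_lit 0)],
  [],
  [],
  [],
  [],
  [],
  []],
  [[],
  [],
  [.ofNat (nat_lit 0), .negSucc (nat_lit 1589759447989665420287), .ofNat (nat_lit 0)],
  [.ofNat (nat_lit 0), .ofNat (nat_lit 3426987453778923457536), .ofNat (nat_lit 0)],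
  [],
  [],
  [],
  [],
  []],
  [[],
  [],
  [],
  [.ofNat (nat_lit 0), .ofNat (nat_lit 1030879109198666096640), .ofNat (nat_lit 0)],
  [.ofNat (nat_lit 0), .negSucc (nat_lit 2747141390487527046143), .ofNat (nat_lit 0)],
  [],
  [],
  [],
  []],
  [[],
  [],
  [],
  [],
  [.ofNat (nat_lit 0), .ofNat (nat_lit 952333377815571822720), .ofNat (nat_lit 0)],
  [.ofNat (nat_lit 0), .negSucc (nat_lit 1995026416584950643839), .ofNat (nat_lit 0)],
  [],
  [],
  []],
  [[],
  [],
  [],
  [],
  [.ofNat (nat_lit 0), .negSucc (nat_lit 207286198023460939775), .ofNat (nat_lit 0)],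
  [.ofNat (nat_lit 0), .ofNat (nat_lit 328105972604373225984), .ofNat (nat_lit 0)],
  [],
  [],
  []],
  [[],
  [],
  [],
  [],
  [],
  [.ofNat (nat_lit 0), .negSucc (nat_lit 939828601816050387455), .ofNat (nat_lit 0)],
  [.ofNat (nat_lit 0), .ofNat (nat_lit 2265906482444984707584), .ofNat (nat_lit 0)],
  [],
  []],
  [[],
  [],
  [],
  [],
  [],
  [],
  [.ofNat (nat_lit 0), .negSucc (nat_lit 243660802502883104639), .ofNat (nat_lit 0)],
  [.ofNat (nat_lit 0), .ofNat (nat_lit 420696738598649766912), .ofNat (nat_lit 0)],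
  []],
  [[],
  [],
  [],
  [],
  [],
  [],
  [.ofNat (nat_lit 0), .ofNat (nat_lit 378551277528132132864), .ofNat (nat_lit 0)],
  [.ofNat (nat_lit 0), .negSucc (nat_lit 838100333689184475647), .ofNat (nat_lit 0)],
  []],
  [[],
  [],
  [],
  [],
  [],
  [],
  [],
  [.ofNat (nat_lit 0), .ofNat (nat_lit 41454014006399141376), .ofNat (nat_lit 0)],
  [.ofNat (nat_lit 0), .negSucc (nat_lit 126702993105812188799), .ofNat (nat_lit 0)]],
  [[],
  [],
  [],
  [],
  [],
  [],
  [],
  [.ofNat (nat_lit 0), .ofNat (nat_lit 6563861322292832256), .ofNat (nat_lit 0)],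
  []]],
  [],
  [],
  [],
  [],
  []],
  [[],
  [],
  [],
  [],
  [],
  [],
  [],
  [[[.ofNat (nat_lit 0), .ofNat (nat_lit 275065040715061303296), .negSucc (nat_lit 18093952814627976191)],
  [.ofNat (nat_lit 0), .negSucc (nat_lit 632532012284040450047), .ofNat (nat_lit 0)],
  [],
  [],
  [],
  [],
  [],
  [],
  []],
  [[.negSucc (nat_lit 193970829193720879103), .negSucc (nat_lit 184981304692305870335), .ofNat (nat_lit 0)],
  [.ofNat (nat_lit 432388608486366818304), .ofNat (nat_lit 569475648288635314176), .ofNat (nat_lit 0)],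
  [],
  [],
  [],
  [],
  [],
  [],
  []],
  [[],
  [.ofNat (nat_lit 0), .ofNat (nat_lit 771074091886820129280), .ofNat (nat_lit 0)],
  [.ofNat (nat_lit 0), .negSucc (nat_lit 1525223959448464930175), .ofNat (nat_lit 0)],
  [],
  [],
  [],
  [],
  [],
  []],
  [[],
  [],
  [.ofNat (nat_lit 0), .negSucc (nat_lit 1201181791808712729599), .ofNat (nat_lit 0)],
  [.ofNat (nat_lit 0), .ofNat (nat_lit 2426785134197119569792), .ofNat (nat_lit 0)],
  [],
  [],
  [],
  [],
  []],
  [[],
  [],
  [],
  [.ofNat (nat_lit 0), .negSucc (nat_lit 1346196558449150509247), .ofNat (nat_lit 0)],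
  [.ofNat (nat_lit 0), .ofNat (nat_lit 2464155267590560215744), .ofNat (nat_lit 0)],
  [],
  [],
  [],
  []],
  [[],
  [],
  [],
  [],
  [.ofNat (nat_lit 0), .ofNat (nat_lit 756708646147426281600), .ofNat (nat_lit 0)],
  [.ofNat (nat_lit 0), .negSucc (nat_lit 1393125046002282616127), .ofNat (nat_lit 0)],
  [],
  [],
  []],
  [[],
  [],
  [],
  [],
  [.ofNat (nat_lit 0), .ofNat (nat_lit 939828601816050387456), .ofNat (nat_lit 0)],
  [.ofNat (nat_lit 0), .negSucc (nat_lit 2265906482444984707583), .ofNat (nat_lit 0)],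
  [],
  [],
  []],
  [[],
  [],
  [],
  [],
  [],
  [.ofNat (nat_lit 0), .negSucc (nat_lit 1159682348359104251039), .ofNat (nat_lit 0)],
  [.ofNat (nat_lit 0), .ofNat (nat_lit 3119664799314501508224), .ofNat (nat_lit 0)],
  [],
  []],
  [[],
  [],
  [],
  [],
  [],
  [],
  [.ofNat (nat_lit 0), .ofNat (nat_lit 82790351564718879072), .ofNat (nat_lit 0)],
  [.ofNat (nat_lit 0), .negSucc (nat_lit 461997503547308245151), .ofNat (nat_lit 0)],
  []],
  [[],
  [],
  [],
  [],
  [],
  [],
  [.ofNat (nat_lit 0), .ofNat (nat_lit 81128280620529328896), .ofNat (nat_lit 0)],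
  [.ofNat (nat_lit 0), .negSucc (nat_lit 423181257379659092735), .ofNat (nat_lit 0)],
  []],
  [[],
  [],
  [],
  [],
  [],
  [],
  [],
  [.ofNat (nat_lit 0), .ofNat (nat_lit 15087613699982535120), .ofNat (nat_lit 0)],
  [.ofNat (nat_lit 0), .ofNat (nat_lit 69425762400192314592), .ofNat (nat_lit 0)]],
  [[],
  [],
  [],
  [],
  [],
  [],
  [],
  [.ofNat (nat_lit 0), .negSucc (nat_lit 31474472218116719615), .ofNat (nat_lit 0)],
  []]],
  [],
  [],
  [],
  []],
  [[],
  [],
  [],
  [],
  [],
  [],
  [],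
  [],
  [[[.ofNat (nat_lit 0), .ofNat (nat_lit 4321882954032721920), .negSucc (nat_lit 13120497926237159423)],
  [.ofNat (nat_lit 0), .negSucc (nat_lit 10679813956917955583), .ofNat (nat_lit 0)],
  [],
  [],
  [],
  [],
  [],
  [],
  []],
  [[.negSucc (nat_lit 17409245692111994879), .negSucc (nat_lit 13579693438948437887), .ofNat (nat_lit 0)],
  [.ofNat (nat_lit 42340009864157199360), .negSucc (nat_lit 36471374353204663679), .ofNat (nat_lit 0)],
  [],
  [],
  [],
  [],
  [],
  [],
  []],
  [[],
  [.ofNat (nat_lit 0), .negSucc (nat_lit 191355217590948276095), .ofNat (nat_lit 0)],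
  [.ofNat (nat_lit 0), .ofNat (nat_lit 636555228277359521664), .ofNat (nat_lit 0)],
  [],
  [],
  [],
  [],
  [],
  []],
  [[],
  [],
  [.ofNat (nat_lit 0), .ofNat (nat_lit 267647507541099773568), .ofNat (nat_lit 0)],
  [.ofNat (nat_lit 0), .negSucc (nat_lit 440662043906139336767), .ofNat (nat_lit 0)],
  [],
  [],
  [],
  [],
  []],
  [[],
  [],
  [],
  [.ofNat (nat_lit 0), .negSucc (nat_lit 443438160876611027711), .ofNat (nat_lit 0)],
  [.ofNat (nat_lit 0), .ofNat (nat_lit 762995010549450116736), .ofNat (nat_lit 0)],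
  [],
  [],
  [],
  []],
  [[],
  [],
  [],
  [],
  [.ofNat (nat_lit 0), .ofNat (nat_lit 204369074357001883488), .ofNat (nat_lit 0)],
  [.ofNat (nat_lit 0), .negSucc (nat_lit 653078146239574250111), .ofNat (nat_lit 0)],
  [],
  [],
  []],
  [[],
  [],
  [],
  [],
  [.ofNat (nat_lit 0), .negSucc (nat_lit 243660802502883104639), .ofNat (nat_lit 0)],
  [.ofNat (nat_lit 0), .ofNat (nat_lit 420696738598649766912), .ofNat (nat_lit 0)],
  [],
  [],
  []],
  [[],
  [],
  [],
  [],
  [],
  [.ofNat (nat_lit 0), .negSucc (nat_lit 82790351564718879071), .ofNat (nat_lit 0)],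
  [.ofNat (nat_lit 0), .ofNat (nat_lit 461997503547308245152), .ofNat (nat_lit 0)],
  [],
  []],
  [[],
  [],
  [],
  [],
  [],
  [],
  [.ofNat (nat_lit 0), .ofNat (nat_lit 54134630715254185512), .ofNat (nat_lit 0)],
  [.ofNat (nat_lit 0), .negSucc (nat_lit 123749377410696962111), .ofNat (nat_lit 0)],
  []],
  [[],
  [],
  [],
  [],
  [],
  [],
  [.ofNat (nat_lit 0), .negSucc (nat_lit 494197635909615551), .ofNat (nat_lit 0)],
  [.ofNat (nat_lit 0), .negSucc (nat_lit 41803368473686334399), .ofNat (nat_lit 0)],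
  []],
  [[],
  [],
  [],
  [],
  [],
  [],
  [],
  [.ofNat (nat_lit 0), .ofNat (nat_lit 8337022287895159344), .ofNat (nat_lit 0)],
  [.ofNat (nat_lit 0), .ofNat (nat_lit 36717241489972553664), .ofNat (nat_lit 0)]],
  [[],
  [],
  [],
  [],
  [],
  [],
  [],
  [.ofNat (nat_lit 0), .negSucc (nat_lit 15527468261296636415), .ofNat (nat_lit 0)],
  [.ofNat (nat_lit 0), .ofNat (nat_lit 6033475862181532800), .ofNat (nat_lit 0)]]],
  [[[.ofNat (nat_lit 0), .negSucc (nat_lit 166697461845603090431), .ofNat (nat_lit 29190419983516271616)],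
  [.ofNat (nat_lit 0), .ofNat (nat_lit 393610890215517198336), .ofNat (nat_lit 0)],
  [],
  [],
  [],
  [],
  [],
  [],
  []],
  [[.ofNat (nat_lit 165551578503259871232), .negSucc (nat_lit 412071731865460947455), .ofNat (nat_lit 0)],
  [.negSucc (nat_lit 389140887437466126335), .ofNat (nat_lit 697836691428600614400), .ofNat (nat_lit 0)],
  [],
  [],
  [],
  [],
  [],
  [],
  []],
  [[],
  [.ofNat (nat_lit 0), .ofNat (nat_lit 271781321999729144832), .ofNat (nat_lit 0)],
  [.ofNat (nat_lit 0), .negSucc (nat_lit 756383776766527140863), .ofNat (nat_lit 0)],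
  [],
  [],
  [],
  [],
  [],
  []],
  [[],
  [],
  [.ofNat (nat_lit 0), .ofNat (nat_lit 357249690254215459584), .ofNat (nat_lit 0)],
  [.ofNat (nat_lit 0), .negSucc (nat_lit 449687989293679913471), .ofNat (nat_lit 0)],
  [],
  [],
  [],
  [],
  []],
  [[],
  [],
  [],
  [.ofNat (nat_lit 0), .negSucc (nat_lit 716908413839738270975), .ofNat (nat_lit 0)],
  [.ofNat (nat_lit 0), .ofNat (nat_lit 1957886353180844633088), .ofNat (nat_lit 0)],
  [],
  [],
  [],
  []],
  [[],
  [],
  [],
  [],
  [.ofNat (nat_lit 0), .ofNat (nat_lit 238263043748952043008), .ofNat (nat_lit 0)],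
  [.ofNat (nat_lit 0), .negSucc (nat_lit 868891030461921073535), .ofNat (nat_lit 0)],
  [],
  [],
  []],
  [[],
  [],
  [],
  [],
  [.ofNat (nat_lit 0), .ofNat (nat_lit 378551277528132132864), .ofNat (nat_lit 0)],
  [.ofNat (nat_lit 0), .negSucc (nat_lit 838100333689184475647), .ofNat (nat_lit 0)],
  [],
  [],
  []],
  [[],
  [],
  [],
  [],
  [],
  [.ofNat (nat_lit 0), .negSucc (nat_lit 81128280620529328895), .ofNat (nat_lit 0)],
  [.ofNat (nat_lit 0), .ofNat (nat_lit 423181257379659092736), .ofNat (nat_lit 0)],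
  [],
  []],
  [[],
  [],
  [],
  [],
  [],
  [],
  [.ofNat (nat_lit 0), .negSucc (nat_lit 494197635909615551), .ofNat (nat_lit 0)],
  [.ofNat (nat_lit 0), .negSucc (nat_lit 41803368473686334399), .ofNat (nat_lit 0)],
  []],
  [[],
  [],
  [],
  [],
  [],
  [],
  [.ofNat (nat_lit 0), .ofNat (nat_lit 46985111310135098880), .ofNat (nat_lit 0)],
  [.ofNat (nat_lit 0), .ofNat (nat_lit 167213473894745337600), .ofNat (nat_lit 0)],
  []],
  [[],
  [],
  [],
  [],
  [],
  [],
  [],
  [.ofNat (nat_lit 0), .ofNat (nat_lit 40329279223487183808), .ofNat (nat_lit 0)],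
  [.ofNat (nat_lit 0), .negSucc (nat_lit 12066951724363065599), .ofNat (nat_lit 0)]],
  [[],
  [],
  [],
  [],
  [],
  [],
  [],
  [.ofNat (nat_lit 0), .ofNat (nat_lit 55628075886225772032), .ofNat (nat_lit 0)],
  [.ofNat (nat_lit 0), .negSucc (nat_lit 24133903448726131199), .ofNat (nat_lit 0)]]],
  [],
  []],
  [[],
  [],
  [],
  [],
  [],
  [],
  [],
  [],
  [],
  [],
  [[[],
  [],
  [],
  [],
  [],
  [],
  [],
  [],
  []],
  [[.ofNat (nat_lit 0), .ofNat (nat_lit 134497976811570717696), .ofNat (nat_lit 0)],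
  [.ofNat (nat_lit 0), .negSucc (nat_lit 245470125022328166911), .ofNat (nat_lit 0)],
  [],
  [],
  [],
  [],
  [],
  [],
  []],
  [[],
  [.ofNat (nat_lit 0), .negSucc (nat_lit 178716383318995664255), .ofNat (nat_lit 0)],
  [.ofNat (nat_lit 0), .ofNat (nat_lit 277703049600769258368), .ofNat (nat_lit 0)],
  [],
  [],
  [],
  [],
  [],
  []],
  [[],
  [],
  [.ofNat (nat_lit 0), .ofNat (nat_lit 274279107126606206400), .ofNat (nat_lit 0)],
  [.ofNat (nat_lit 0), .negSucc (nat_lit 745460588860256799935), .ofNat (nat_lit 0)],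
  [],
  [],
  [],
  [],
  []],
  [[],
  [],
  [],
  [.ofNat (nat_lit 0), .ofNat (nat_lit 5730534987844176288), .ofNat (nat_lit 0)],
  [.ofNat (nat_lit 0), .ofNat (nat_lit 226934891089109586432), .ofNat (nat_lit 0)],
  [],
  [],
  [],
  []],
  [[],
  [],
  [],
  [],
  [.ofNat (nat_lit 0), .ofNat (nat_lit 179813540540699140032), .ofNat (nat_lit 0)],
  [.ofNat (nat_lit 0), .negSucc (nat_lit 436081790983034494367), .ofNat (nat_lit 0)],
  [],
  [],
  []],
  [[],
  [],
  [],
  [],
  [.ofNat (nat_lit 0), .negSucc (nat_lit 41454014006399141375), .ofNat (nat_lit 0)],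
  [.ofNat (nat_lit 0), .ofNat (nat_lit 126702993105812188800), .ofNat (nat_lit 0)],
  [],
  [],
  []],
  [[],
  [],
  [],
  [],
  [],
  [.ofNat (nat_lit 0), .ofNat (nat_lit 15087613699982535120), .ofNat (nat_lit 0)],
  [.ofNat (nat_lit 0), .ofNat (nat_lit 69425762400192314592), .ofNat (nat_lit 0)],
  [],
  []],
  [[],
  [],
  [],
  [],
  [],
  [],
  [.ofNat (nat_lit 0), .negSucc (nat_lit 8337022287895159343), .ofNat (nat_lit 0)],
  [.ofNat (nat_lit 0), .negSucc (nat_lit 36717241489972553663), .ofNat (nat_lit 0)],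
  []],
  [[],
  [],
  [],
  [],
  [],
  [],
  [.ofNat (nat_lit 0), .negSucc (nat_lit 40329279223487183807), .ofNat (nat_lit 0)],
  [.ofNat (nat_lit 0), .ofNat (nat_lit 12066951724363065600), .ofNat (nat_lit 0)],
  []],
  [[],
  [],
  [],
  [],
  [],
  [],
  [],
  [.ofNat (nat_lit 0), .ofNat (nat_lit 2415268408402814904), .ofNat (nat_lit 0)],
  []],
  [[],
  [],
  [],
  [],
  [],
  [],
  [],
  [.ofNat (nat_lit 0), .ofNat (nat_lit 9920406798338359680), .ofNat (nat_lit 0)],
  []]],
  [[[],
  [],
  [],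
  [],
  [],
  [],
  [],
  [],
  []],
  [[.ofNat (nat_lit 0), .ofNat (nat_lit 2089321571193099264), .ofNat (nat_lit 0)],
  [.ofNat (nat_lit 0), .ofNat (nat_lit 48267806897452262400), .ofNat (nat_lit 0)],
  [],
  [],
  [],
  [],
  [],
  [],
  []],
  [[],
  [.ofNat (nat_lit 0), .ofNat (nat_lit 24311049387390217728), .ofNat (nat_lit 0)],
  [],
  [],
  [],
  [],
  [],
  [],
  []],
  [[],
  [],
  [.ofNat (nat_lit 0), .negSucc (nat_lit 16107316967033828351), .ofNat (nat_lit 0)],
  [],
  [],
  [],
  [],
  [],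
  []],
  [[],
  [],
  [],
  [.ofNat (nat_lit 0), .negSucc (nat_lit 147988771668451855871), .ofNat (nat_lit 0)],
  [.ofNat (nat_lit 0), .ofNat (nat_lit 269604028471054298112), .ofNat (nat_lit 0)],
  [],
  [],
  [],
  []],
  [[],
  [],
  [],
  [],
  [.ofNat (nat_lit 0), .negSucc (nat_lit 32196045117749190911), .ofNat (nat_lit 0)],
  [],
  [],
  [],
  []],
  [[],
  [],
  [],
  [],
  [.ofNat (nat_lit 0), .negSucc (nat_lit 6563861322292832255), .ofNat (nat_lit 0)],
  [],
  [],
  [],
  []],
  [[],
  [],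
  [],
  [],
  [],
  [.ofNat (nat_lit 0), .negSucc (nat_lit 31474472218116719615), .ofNat (nat_lit 0)],
  [],
  [],
  []],
  [[],
  [],
  [],
  [],
  [],
  [],
  [.ofNat (nat_lit 0), .ofNat (nat_lit 15527468261296636416), .ofNat (nat_lit 0)],
  [.ofNat (nat_lit 0), .negSucc (nat_lit 6033475862181532799), .ofNat (nat_lit 0)],
  []],
  [[],
  [],
  [],
  [],
  [],
  [],
  [.ofNat (nat_lit 0), .negSucc (nat_lit 55628075886225772031), .ofNat (nat_lit 0)],
  [.ofNat (nat_lit 0), .ofNat (nat_lit 24133903448726131200), .ofNat (nat_lit 0)],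
  []],
  [[],
  [],
  [],
  [],
  [],
  [],
  [],
  [.ofNat (nat_lit 0), .ofNat (nat_lit 9920406798338359680), .ofNat (nat_lit 0)],
  []],
  [[],
  [],
  [],
  [],
  [],
  [],
  [],
  [.ofNat (nat_lit 0), .negSucc (nat_lit 16162781225674609151), .ofNat (nat_lit 0)],
  []]]]],
  [[[[[.ofNat (nat_lit 0), .ofNat (nat_lit 0), .ofNat (nat_lit 164553396692640768)],
  [.ofNat (nat_lit 0), .ofNat (nat_lit 0), .negSucc (nat_lit 348034133844550655)],
  [],
  [],
  [],
  [],
  [],
  [],
  []],
  [[.ofNat (nat_lit 0), .ofNat (nat_lit 1846760444053843968), .ofNat (nat_lit 0)],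
  [.ofNat (nat_lit 0), .negSucc (nat_lit 3623853380540101631), .ofNat (nat_lit 0)],
  [],
  [],
  [],
  [],
  [],
  [],
  []],
  [[],
  [.ofNat (nat_lit 0), .negSucc (nat_lit 4510642734310017023), .ofNat (nat_lit 0)],
  [.ofNat (nat_lit 0), .ofNat (nat_lit 13221759327278303232), .ofNat (nat_lit 0)],
  [],
  [],
  [],
  [],
  [],
  []],
  [[],
  [],
  [.ofNat (nat_lit 0), .negSucc (nat_lit 24053502777282026495), .ofNat (nat_lit 0)],
  [.ofNat (nat_lit 0), .ofNat (nat_lit 60976977168074121216), .ofNat (nat_lit 0)],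
  [],
  [],
  [],
  [],
  []],
  [[],
  [],
  [],
  [.ofNat (nat_lit 0), .negSucc (nat_lit 29275657301954875391), .ofNat (nat_lit 0)],
  [.ofNat (nat_lit 0), .ofNat (nat_lit 74807188299813371904), .ofNat (nat_lit 0)],
  [],
  [],
  [],
  []],
  [[],
  [],
  [],
  [],
  [.ofNat (nat_lit 0), .ofNat (nat_lit 1280000317354435584), .ofNat (nat_lit 0)],
  [.ofNat (nat_lit 0), .negSucc (nat_lit 4206947769204820991), .ofNat (nat_lit 0)],
  [],
  [],
  []],
  [[],
  [],
  [],
  [],
  [.ofNat (nat_lit 0), .ofNat (nat_lit 49060510158143683584), .ofNat (nat_lit 0)],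
  [.ofNat (nat_lit 0), .negSucc (nat_lit 116872877060838236159), .ofNat (nat_lit 0)],
  [],
  [],
  []],
  [[],
  [],
  [],
  [],
  [],
  [.ofNat (nat_lit 0), .ofNat (nat_lit 40547105760670212096), .ofNat (nat_lit 0)],
  [.ofNat (nat_lit 0), .negSucc (nat_lit 100071701898836815871), .ofNat (nat_lit 0)],
  [],
  []],
  [[],
  [],
  [],
  [],
  [],
  [],
  [.ofNat (nat_lit 0), .ofNat (nat_lit 6543681369039636480), .ofNat (nat_lit 0)],
  [.ofNat (nat_lit 0), .negSucc (nat_lit 15830097953619621887), .ofNat (nat_lit 0)],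
  []],
  [[],
  [],
  [],
  [],
  [],
  [],
  [.ofNat (nat_lit 0), .ofNat (nat_lit 572941671171609600), .ofNat (nat_lit 0)],
  [.ofNat (nat_lit 0), .negSucc (nat_lit 2235001389025535999), .ofNat (nat_lit 0)],
  []],
  [[],
  [],
  [],
  [],
  [],
  [],
  [],
  [],
  []],
  [[],
  [],
  [],
  [],
  [],
  [],
  [],
  [],
  []]],
  [],
  [],
  [],
  [],
  [],
  [],
  [],
  [],
  [],
  [],
  []],
  [[],
  [],
  [],
  [],
  [],
  [],
  [],
  [],
  [],
  [],
  [],
  []],
  [[],
  [[[.ofNat (nat_lit 0), .negSucc (nat_lit 214250928631252991), .ofNat (nat_lit 827328414186501120)],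
  [.ofNat (nat_lit 0), .ofNat (nat_lit 735927094219843584), .ofNat (nat_lit 0)],
  [],
  [],
  [],
  [],
  [],
  [],
  []],
  [[.ofNat (nat_lit 214250928631252992), .negSucc (nat_lit 85737767917163784191), .ofNat (nat_lit 0)],
  [.negSucc (nat_lit 735927094219843583), .ofNat (nat_lit 210620754164425333248), .ofNat (nat_lit 0)],
  [],
  [],
  [],
  [],
  [],
  [],
  []],
  [[],
  [.ofNat (nat_lit 0), .negSucc (nat_lit 2899976702202888191), .ofNat (nat_lit 0)],
  [.ofNat (nat_lit 0), .ofNat (nat_lit 2899319597194576896), .ofNat (nat_lit 0)],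
  [],
  [],
  [],
  [],
  [],
  []],
  [[],
  [],
  [.ofNat (nat_lit 0), .ofNat (nat_lit 387008141531405541120), .ofNat (nat_lit 0)],
  [.ofNat (nat_lit 0), .negSucc (nat_lit 973744902789988681727), .ofNat (nat_lit 0)],
  [],
  [],
  [],
  [],
  []],
  [[],
  [],
  [],
  [.ofNat (nat_lit 0), .negSucc (nat_lit 35140061110112939519), .ofNat (nat_lit 0)],
  [.ofNat (nat_lit 0), .ofNat (nat_lit 44335919990828924928), .ofNat (nat_lit 0)],
  [],
  [],
  [],
  []],
  [[],
  [],
  [],
  [],
  [.ofNat (nat_lit 0), .negSucc (nat_lit 305009832491436159359), .ofNat (nat_lit 0)],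
  [.ofNat (nat_lit 0), .ofNat (nat_lit 779447526488957657088), .ofNat (nat_lit 0)],
  [],
  [],
  []],
  [[],
  [],
  [],
  [],
  [.ofNat (nat_lit 0), .negSucc (nat_lit 1011188112924454336511), .ofNat (nat_lit 0)],
  [.ofNat (nat_lit 0), .ofNat (nat_lit 2436963706983995541504), .ofNat (nat_lit 0)],
  [],
  [],
  []],
  [[],
  [],
  [],
  [],
  [],
  [.ofNat (nat_lit 0), .negSucc (nat_lit 428101751655612066815), .ofNat (nat_lit 0)],
  [.ofNat (nat_lit 0), .ofNat (nat_lit 1078296309692822237184), .ofNat (nat_lit 0)],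
  [],
  []],
  [[],
  [],
  [],
  [],
  [],
  [],
  [.ofNat (nat_lit 0), .ofNat (nat_lit 52232907922291285632), .ofNat (nat_lit 0)],
  [.ofNat (nat_lit 0), .negSucc (nat_lit 136235076035026961663), .ofNat (nat_lit 0)],
  []],
  [[],
  [],
  [],
  [],
  [],
  [],
  [.ofNat (nat_lit 0), .ofNat (nat_lit 472528198184338109952), .ofNat (nat_lit 0)],
  [.ofNat (nat_lit 0), .negSucc (nat_lit 1146102888754916158463), .ofNat (nat_lit 0)],
  []],
  [[],
  [],
  [],
  [],
  [],
  [],
  [],
  [.ofNat (nat_lit 0), .ofNat (nat_lit 189238965880411722240), .ofNat (nat_lit 0)],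
  [.ofNat (nat_lit 0), .negSucc (nat_lit 466710257286117540863), .ofNat (nat_lit 0)]],
  [[],
  [],
  [],
  [],
  [],
  [],
  [],
  [.ofNat (nat_lit 0), .ofNat (nat_lit 4010591698201267200), .ofNat (nat_lit 0)],
  [.ofNat (nat_lit 0), .negSucc (nat_lit 15645009723178751999), .ofNat (nat_lit 0)]]],
  [],
  [],
  [],
  [],
  [],
  [],
  [],
  [],
  [],
  []],
  [[],
  [],
  [[[.ofNat (nat_lit 0), .negSucc (nat_lit 32083197301260647423), .ofNat (nat_lit 2461496397745434624)],
  [.ofNat (nat_lit 0), .ofNat (nat_lit 78199337902022479872), .ofNat (nat_lit 0)],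
  [],
  [],
  [],
  [],
  [],
  [],
  []],
  [[.ofNat (nat_lit 32083197301260647424), .ofNat (nat_lit 438480304457453568), .ofNat (nat_lit 0)],
  [.negSucc (nat_lit 78199337902022479871), .negSucc (nat_lit 2899319597194576895), .ofNat (nat_lit 0)],
  [],
  [],
  [],
  [],
  [],
  [],
  []],
  [[],
  [.ofNat (nat_lit 0), .negSucc (nat_lit 770801883742446575615), .ofNat (nat_lit 0)],
  [.ofNat (nat_lit 0), .ofNat (nat_lit 1879837402544707507200), .ofNat (nat_lit 0)],
  [],
  [],
  [],
  [],
  [],
  []],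
  [[],
  [],
  [.ofNat (nat_lit 0), .negSucc (nat_lit 143263602674350290431), .ofNat (nat_lit 0)],
  [.ofNat (nat_lit 0), .ofNat (nat_lit 360437620041257665536), .ofNat (nat_lit 0)],
  [],
  [],
  [],
  [],
  []],
  [[],
  [],
  [],
  [.ofNat (nat_lit 0), .ofNat (nat_lit 2316785289825332033280), .ofNat (nat_lit 0)],
  [.ofNat (nat_lit 0), .negSucc (nat_lit 5657296604345811753983), .ofNat (nat_lit 0)],
  [],
  [],
  [],
  []],
  [[],
  [],
  [],
  [],
  [.ofNat (nat_lit 0), .ofNat (nat_lit 432554074494053610240), .ofNat (nat_lit 0)],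
  [.ofNat (nat_lit 0), .negSucc (nat_lit 1032110527447136005631), .ofNat (nat_lit 0)],
  [],
  [],
  []],
  [[],
  [],
  [],
  [],
  [.ofNat (nat_lit 0), .ofNat (nat_lit 147306498043505651712), .ofNat (nat_lit 0)],
  [.ofNat (nat_lit 0), .negSucc (nat_lit 380779101104867407871), .ofNat (nat_lit 0)],
  [],
  [],
  []],
  [[],
  [],
  [],
  [],
  [],
  [.ofNat (nat_lit 0), .negSucc (nat_lit 1308194949283032182399), .ofNat (nat_lit 0)],
  [.ofNat (nat_lit 0), .ofNat (nat_lit 3246481793888610112512), .ofNat (nat_lit 0)],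
  [],
  []],
  [[],
  [],
  [],
  [],
  [],
  [],
  [.ofNat (nat_lit 0), .negSucc (nat_lit 218771264220298637183), .ofNat (nat_lit 0)],
  [.ofNat (nat_lit 0), .ofNat (nat_lit 512981529174770132736), .ofNat (nat_lit 0)],
  []],
  [[],
  [],
  [],
  [],
  [],
  [],
  [.ofNat (nat_lit 0), .ofNat (nat_lit 322199161265933024256), .ofNat (nat_lit 0)],
  [.ofNat (nat_lit 0), .negSucc (nat_lit 753136716144785725439), .ofNat (nat_lit 0)],
  []],
  [[],
  [],
  [],
  [],
  [],
  [],
  [],
  [.ofNat (nat_lit 0), .ofNat (nat_lit 291378308254744959360), .ofNat (nat_lit 0)],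
  [.ofNat (nat_lit 0), .negSucc (nat_lit 729399779160136471295), .ofNat (nat_lit 0)]],
  [[],
  [],
  [],
  [],
  [],
  [],
  [],
  [],
  []]],
  [],
  [],
  [],
  [],
  [],
  [],
  [],
  [],
  []],
  [[],
  [],
  [],
  [[[.ofNat (nat_lit 0), .negSucc (nat_lit 24308529523582768127), .ofNat (nat_lit 5562258138403255296)],
  [.ofNat (nat_lit 0), .ofNat (nat_lit 50800239686906394624), .ofNat (nat_lit 0)],
  [],
  [],
  [],
  [],
  [],
  [],
  []],
  [[.ofNat (nat_lit 24308529523582768128), .ofNat (nat_lit 381445883393002285824), .ofNat (nat_lit 0)],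
  [.negSucc (nat_lit 50800239686906394623), .negSucc (nat_lit 973744902789988681727), .ofNat (nat_lit 0)],
  [],
  [],
  [],
  [],
  [],
  [],
  []],
  [[],
  [.ofNat (nat_lit 0), .ofNat (nat_lit 143263602674350290432), .ofNat (nat_lit 0)],
  [.ofNat (nat_lit 0), .negSucc (nat_lit 360437620041257665535), .ofNat (nat_lit 0)],
  [],
  [],
  [],
  [],
  [],
  []],
  [[],
  [],
  [.ofNat (nat_lit 0), .negSucc (nat_lit 1265953043722738878719), .ofNat (nat_lit 0)],
  [.ofNat (nat_lit 0), .ofNat (nat_lit 3220145496707980981248), .ofNat (nat_lit 0)],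
  [],
  [],
  [],
  [],
  []],
  [[],
  [],
  [],
  [.ofNat (nat_lit 0), .ofNat (nat_lit 1491688711275946318080), .ofNat (nat_lit 0)],
  [.ofNat (nat_lit 0), .negSucc (nat_lit 3569124213477023380991), .ofNat (nat_lit 0)],
  [],
  [],
  [],
  []],
  [[],
  [],
  [],
  [],
  [.ofNat (nat_lit 0), .ofNat (nat_lit 899357647542936260544), .ofNat (nat_lit 0)],
  [.ofNat (nat_lit 0), .negSucc (nat_lit 2339426904955409193983), .ofNat (nat_lit 0)],
  [],
  [],
  []],
  [[],
  [],
  [],
  [],
  [.ofNat (nat_lit 0), .ofNat (nat_lit 2144847299986369658880), .ofNat (nat_lit 0)],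
  [.ofNat (nat_lit 0), .negSucc (nat_lit 5230606860025424796671), .ofNat (nat_lit 0)],
  [],
  [],
  []],
  [[],
  [],
  [],
  [],
  [],
  [.ofNat (nat_lit 0), .negSucc (nat_lit 1905811742376691528319), .ofNat (nat_lit 0)],
  [.ofNat (nat_lit 0), .ofNat (nat_lit 4651564486480678715904), .ofNat (nat_lit 0)],
  [],
  []],
  [[],
  [],
  [],
  [],
  [],
  [],
  [.ofNat (nat_lit 0), .negSucc (nat_lit 342006029063534652479), .ofNat (nat_lit 0)],
  [.ofNat (nat_lit 0), .ofNat (nat_lit 853290830625594846336), .ofNat (nat_lit 0)],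
  []],
  [[],
  [],
  [],
  [],
  [],
  [],
  [.ofNat (nat_lit 0), .negSucc (nat_lit 557306646608926655999), .ofNat (nat_lit 0)],
  [.ofNat (nat_lit 0), .ofNat (nat_lit 1416523588157993647104), .ofNat (nat_lit 0)],
  []],
  [[],
  [],
  [],
  [],
  [],
  [],
  [],
  [.ofNat (nat_lit 0), .ofNat (nat_lit 566964911697822429120), .ofNat (nat_lit 0)],
  [.ofNat (nat_lit 0), .negSucc (nat_lit 1397197332535256606591), .ofNat (nat_lit 0)]],
  [[],
  [],
  [],
  [],
  [],
  [],
  [],
  [],
  []]],
  [],
  [],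
  [],
  [],
  [],
  [],
  [],
  []],
  [[],
  [],
  [],
  [],
  [[[.ofNat (nat_lit 0), .ofNat (nat_lit 160935374114382919680), .negSucc (nat_lit 611956123659537407)],
  [.ofNat (nat_lit 0), .negSucc (nat_lit 391962660954162776063), .ofNat (nat_lit 0)],
  [],
  [],
  [],
  [],
  [],
  [],
  []],
  [[.negSucc (nat_lit 160935374114382919679), .ofNat (nat_lit 35752017233772476928), .ofNat (nat_lit 0)],
  [.ofNat (nat_lit 391962660954162776064), .negSucc (nat_lit 44335919990828924927), .ofNat (nat_lit 0)],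
  [],
  [],
  [],
  [],
  [],
  [],
  []],
  [[],
  [.ofNat (nat_lit 0), .ofNat (nat_lit 2316785289825332033280), .ofNat (nat_lit 0)],
  [.ofNat (nat_lit 0), .negSucc (nat_lit 5657296604345811753983), .ofNat (nat_lit 0)],
  [],
  [],
  [],
  [],
  [],
  []],
  [[],
  [],
  [.ofNat (nat_lit 0), .negSucc (nat_lit 1491688711275946318079), .ofNat (nat_lit 0)],
  [.ofNat (nat_lit 0), .ofNat (nat_lit 3569124213477023380992), .ofNat (nat_lit 0)],
  [],
  [],
  [],
  [],
  []],
  [[],
  [],
  [],
  [.ofNat (nat_lit 0), .negSucc (nat_lit 6057204519390292772351), .ofNat (nat_lit 0)],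
  [.ofNat (nat_lit 0), .ofNat (nat_lit 14849698705282635217920), .ofNat (nat_lit 0)],
  [],
  [],
  [],
  []],
  [[],
  [],
  [],
  [],
  [.ofNat (nat_lit 0), .ofNat (nat_lit 2074634776878310985472), .ofNat (nat_lit 0)],
  [.ofNat (nat_lit 0), .negSucc (nat_lit 5195520944164203187967), .ofNat (nat_lit 0)],
  [],
  [],
  []],
  [[],
  [],
  [],
  [],
  [.ofNat (nat_lit 0), .ofNat (nat_lit 1374028306039757177856), .ofNat (nat_lit 0)],
  [.ofNat (nat_lit 0), .negSucc (nat_lit 3291121828206290285567), .ofNat (nat_lit 0)],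
  [],
  [],
  []],
  [[],
  [],
  [],
  [],
  [],
  [.ofNat (nat_lit 0), .ofNat (nat_lit 1522771951323186216000), .ofNat (nat_lit 0)],
  [.ofNat (nat_lit 0), .negSucc (nat_lit 3778083614437324455167), .ofNat (nat_lit 0)],
  [],
  []],
  [[],
  [],
  [],
  [],
  [],
  [],
  [.ofNat (nat_lit 0), .negSucc (nat_lit 816850285763035731839), .ofNat (nat_lit 0)],
  [.ofNat (nat_lit 0), .ofNat (nat_lit 2055969669308045144832), .ofNat (nat_lit 0)],
  []],
  [[],
  [],
  [],
  [],
  [],
  [],
  [.ofNat (nat_lit 0), .negSucc (nat_lit 1210634779608397393919), .ofNat (nat_lit 0)],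
  [.ofNat (nat_lit 0), .ofNat (nat_lit 2956691209355721363456), .ofNat (nat_lit 0)],
  []],
  [[],
  [],
  [],
  [],
  [],
  [],
  [],
  [.ofNat (nat_lit 0), .ofNat (nat_lit 321801052480511063040), .ofNat (nat_lit 0)],
  [.ofNat (nat_lit 0), .negSucc (nat_lit 814139515228765307903), .ofNat (nat_lit 0)]],
  [[],
  [],
  [],
  [],
  [],
  [],
  [],
  [.ofNat (nat_lit 0), .ofNat (nat_lit 187233670031311088640), .ofNat (nat_lit 0)],
  [.ofNat (nat_lit 0), .negSucc (nat_lit 458887752424528164863), .ofNat (nat_lit 0)]]],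
  [],
  [],
  [],
  [],
  [],
  [],
  []],
  [[],
  [],
  [],
  [],
  [],
  [[[.ofNat (nat_lit 0), .ofNat (nat_lit 55945154268737077248), .negSucc (nat_lit 26160076501537591295)],
  [.ofNat (nat_lit 0), .negSucc (nat_lit 117956323096255871999), .ofNat (nat_lit 0)],
  [],
  [],
  [],
  [],
  [],
  [],
  []],
  [[.negSucc (nat_lit 55945154268737077247), .negSucc (nat_lit 278849755989898568063), .ofNat (nat_lit 0)],
  [.ofNat (nat_lit 117956323096255872000), .ofNat (nat_lit 779447526488957657088), .ofNat (nat_lit 0)],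
  [],
  [],
  [],
  [],
  [],
  [],
  []],
  [[],
  [.ofNat (nat_lit 0), .negSucc (nat_lit 432554074494053610239), .ofNat (nat_lit 0)],
  [.ofNat (nat_lit 0), .ofNat (nat_lit 1032110527447136005632), .ofNat (nat_lit 0)],
  [],
  [],
  [],
  [],
  [],
  []],
  [[],
  [],
  [.ofNat (nat_lit 0), .ofNat (nat_lit 899357647542936260544), .ofNat (nat_lit 0)],
  [.ofNat (nat_lit 0), .negSucc (nat_lit 2339426904955409193983), .ofNat (nat_lit 0)],
  [],
  [],
  [],
  [],
  []],
  [[],
  [],
  [],
  [.ofNat (nat_lit 0), .negSucc (nat_lit 2074634776878310985471), .ofNat (nat_lit 0)],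
  [.ofNat (nat_lit 0), .ofNat (nat_lit 5195520944164203187968), .ofNat (nat_lit 0)],
  [],
  [],
  [],
  []],
  [[],
  [],
  [],
  [],
  [.ofNat (nat_lit 0), .ofNat (nat_lit 696599526410039662848), .ofNat (nat_lit 0)],
  [.ofNat (nat_lit 0), .negSucc (nat_lit 1613142698978595335039), .ofNat (nat_lit 0)],
  [],
  [],
  []],
  [[],
  [],
  [],
  [],
  [.ofNat (nat_lit 0), .negSucc (nat_lit 1076219327006714915711), .ofNat (nat_lit 0)],
  [.ofNat (nat_lit 0), .ofNat (nat_lit 2615705559473513536512), .ofNat (nat_lit 0)],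
  [],
  [],
  []],
  [[],
  [],
  [],
  [],
  [],
  [.ofNat (nat_lit 0), .ofNat (nat_lit 1576173319102724719680), .ofNat (nat_lit 0)],
  [.ofNat (nat_lit 0), .negSucc (nat_lit 3989477777274394517375), .ofNat (nat_lit 0)],
  [],
  []],
  [[],
  [],
  [],
  [],
  [],
  [],
  [.ofNat (nat_lit 0), .negSucc (nat_lit 534530040800140998143), .ofNat (nat_lit 0)],
  [.ofNat (nat_lit 0), .ofNat (nat_lit 1326101886257857684992), .ofNat (nat_lit 0)],
  []],
  [[],
  [],
  [],
  [],
  [],
  [],
  [.ofNat (nat_lit 0), .negSucc (nat_lit 623022992697213742463), .ofNat (nat_lit 0)],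
  [.ofNat (nat_lit 0), .ofNat (nat_lit 1528726436337237062400), .ofNat (nat_lit 0)],
  []],
  [[],
  [],
  [],
  [],
  [],
  [],
  [],
  [.ofNat (nat_lit 0), .ofNat (nat_lit 278218554245022051360), .ofNat (nat_lit 0)],
  [.ofNat (nat_lit 0), .negSucc (nat_lit 678064591005956191295), .ofNat (nat_lit 0)]],
  [[],
  [],
  [],
  [],
  [],
  [],
  [],
  [],
  []]],
  [[[.ofNat (nat_lit 0), .negSucc (nat_lit 82623412651530461183), .ofNat (nat_lit 25037168195287507968)],
  [.ofNat (nat_lit 0), .ofNat (nat_lit 200212563718963943424), .ofNat (nat_lit 0)],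
  [],
  [],
  [],
  [],
  [],
  [],
  []],
  [[.ofNat (nat_lit 82623412651530461184), .negSucc (nat_lit 1036225281119741844479), .ofNat (nat_lit 0)],
  [.negSucc (nat_lit 200212563718963943423), .ofNat (nat_lit 2436963706983995541504), .ofNat (nat_lit 0)],
  [],
  [],
  [],
  [],
  [],
  [],
  []],
  [[],
  [.ofNat (nat_lit 0), .negSucc (nat_lit 147306498043505651711), .ofNat (nat_lit 0)],
  [.ofNat (nat_lit 0), .ofNat (nat_lit 380779101104867407872), .ofNat (nat_lit 0)],
  [],
  [],
  [],
  [],
  [],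
  []],
  [[],
  [],
  [.ofNat (nat_lit 0), .ofNat (nat_lit 2144847299986369658880), .ofNat (nat_lit 0)],
  [.ofNat (nat_lit 0), .negSucc (nat_lit 5230606860025424796671), .ofNat (nat_lit 0)],
  [],
  [],
  [],
  [],
  []],
  [[],
  [],
  [],
  [.ofNat (nat_lit 0), .negSucc (nat_lit 1374028306039757177855), .ofNat (nat_lit 0)],
  [.ofNat (nat_lit 0), .ofNat (nat_lit 3291121828206290285568), .ofNat (nat_lit 0)],
  [],
  [],
  [],
  []],
  [[],
  [],
  [],
  [],
  [.ofNat (nat_lit 0), .negSucc (nat_lit 1076219327006714915711), .ofNat (nat_lit 0)],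
  [.ofNat (nat_lit 0), .ofNat (nat_lit 2615705559473513536512), .ofNat (nat_lit 0)],
  [],
  [],
  []],
  [[],
  [],
  [],
  [],
  [.ofNat (nat_lit 0), .ofNat (nat_lit 183313837804352859648), .ofNat (nat_lit 0)],
  [.ofNat (nat_lit 0), .negSucc (nat_lit 444814349377120137215), .ofNat (nat_lit 0)],
  [],
  [],
  []],
  [[],
  [],
  [],
  [],
  [],
  [.ofNat (nat_lit 0), .ofNat (nat_lit 1211359836875014563840), .ofNat (nat_lit 0)],
  [.ofNat (nat_lit 0), .negSucc (nat_lit 2931041503814992823807), .ofNat (nat_lit 0)],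
  [],
  []],
  [[],
  [],
  [],
  [],
  [],
  [],
  [.ofNat (nat_lit 0), .ofNat (nat_lit 108365348748400068096), .ofNat (nat_lit 0)],
  [.ofNat (nat_lit 0), .negSucc (nat_lit 238377655821968557055), .ofNat (nat_lit 0)],
  []],
  [[],
  [],
  [],
  [],
  [],
  [],
  [.ofNat (nat_lit 0), .negSucc (nat_lit 503646749712122448383), .ofNat (nat_lit 0)],
  [.ofNat (nat_lit 0), .ofNat (nat_lit 1227298293443502388224), .ofNat (nat_lit 0)],
  []],
  [[],
  [],
  [],
  [],
  [],
  [],
  [],
  [.ofNat (nat_lit 0), .ofNat (nat_lit 10527803207778326400), .ofNat (nat_lit 0)],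
  [.ofNat (nat_lit 0), .negSucc (nat_lit 41068150523344223999), .ofNat (nat_lit 0)]],
  [[],
  [],
  [],
  [],
  [],
  [],
  [],
  [],
  []]],
  [],
  [],
  [],
  [],
  []],
  [[],
  [],
  [],
  [],
  [],
  [],
  [],
  [[[.ofNat (nat_lit 0), .negSucc (nat_lit 279469667960908443647), .ofNat (nat_lit 3909418183409965056)],
  [.ofNat (nat_lit 0), .ofNat (nat_lit 659903611966406995968), .ofNat (nat_lit 0)],
  [],
  [],
  [],
  [],
  [],
  [],
  []],
  [[.ofNat (nat_lit 279469667960908443648), .ofNat (nat_lit 424192333472202101760), .ofNat (nat_lit 0)],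
  [.negSucc (nat_lit 659903611966406995967), .negSucc (nat_lit 1078296309692822237183), .ofNat (nat_lit 0)],
  [],
  [],
  [],
  [],
  [],
  [],
  []],
  [[],
  [.ofNat (nat_lit 0), .negSucc (nat_lit 1308194949283032182399), .ofNat (nat_lit 0)],
  [.ofNat (nat_lit 0), .ofNat (nat_lit 3246481793888610112512), .ofNat (nat_lit 0)],
  [],
  [],
  [],
  [],
  [],
  []],
  [[],
  [],
  [.ofNat (nat_lit 0), .ofNat (nat_lit 1905811742376691528320), .ofNat (nat_lit 0)],
  [.ofNat (nat_lit 0), .negSucc (nat_lit 4651564486480678715903), .ofNat (nat_lit 0)],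
  [],
  [],
  [],
  [],
  []],
  [[],
  [],
  [],
  [.ofNat (nat_lit 0), .ofNat (nat_lit 1522771951323186216000), .ofNat (nat_lit 0)],
  [.ofNat (nat_lit 0), .negSucc (nat_lit 3778083614437324455167), .ofNat (nat_lit 0)],
  [],
  [],
  [],
  []],
  [[],
  [],
  [],
  [],
  [.ofNat (nat_lit 0), .negSucc (nat_lit 1576173319102724719679), .ofNat (nat_lit 0)],
  [.ofNat (nat_lit 0), .ofNat (nat_lit 3989477777274394517376), .ofNat (nat_lit 0)],
  [],
  [],
  []],
  [[],
  [],
  [],
  [],
  [.ofNat (nat_lit 0), .negSucc (nat_lit 1211359836875014563839), .ofNat (nat_lit 0)],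
  [.ofNat (nat_lit 0), .ofNat (nat_lit 2931041503814992823808), .ofNat (nat_lit 0)],
  [],
  [],
  []],
  [[],
  [],
  [],
  [],
  [],
  [.ofNat (nat_lit 0), .ofNat (nat_lit 2497230900757734481152), .ofNat (nat_lit 0)],
  [.ofNat (nat_lit 0), .negSucc (nat_lit 6184222133424790136831), .ofNat (nat_lit 0)],
  [],
  []],
  [[],
  [],
  [],
  [],
  [],
  [],
  [.ofNat (nat_lit 0), .negSucc (nat_lit 383556115995529705631), .ofNat (nat_lit 0)],
  [.ofNat (nat_lit 0), .ofNat (nat_lit 950717891211505121088), .ofNat (nat_lit 0)],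
  []],
  [[],
  [],
  [],
  [],
  [],
  [],
  [.ofNat (nat_lit 0), .negSucc (nat_lit 461115299227479282431), .ofNat (nat_lit 0)],
  [.ofNat (nat_lit 0), .ofNat (nat_lit 1158584452623762494976), .ofNat (nat_lit 0)],
  []],
  [[],
  [],
  [],
  [],
  [],
  [],
  [],
  [.ofNat (nat_lit 0), .ofNat (nat_lit 72844577063686239840), .ofNat (nat_lit 0)],
  [.ofNat (nat_lit 0), .negSucc (nat_lit 182349944790034117823), .ofNat (nat_lit 0)]],
  [[],
  [],
  [],
  [],
  [],
  [],
  [],
  [],
  []]],
  [],
  [],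
  [],
  []],
  [[],
  [],
  [],
  [],
  [],
  [],
  [],
  [],
  [[[.ofNat (nat_lit 0), .ofNat (nat_lit 31812767433897090048), .ofNat (nat_lit 17342370357274948608)],
  [.ofNat (nat_lit 0), .negSucc (nat_lit 76760792163153976319), .ofNat (nat_lit 0)],
  [],
  [],
  [],
  [],
  [],
  [],
  []],
  [[.negSucc (nat_lit 31812767433897090047), .ofNat (nat_lit 34890537565016337024), .ofNat (nat_lit 0)],
  [.ofNat (nat_lit 76760792163153976320), .negSucc (nat_lit 136235076035026961663), .ofNat (nat_lit 0)],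
  [],
  [],
  [],
  [],
  [],
  [],
  []],
  [[],
  [.ofNat (nat_lit 0), .ofNat (nat_lit 218771264220298637184), .ofNat (nat_lit 0)],
  [.ofNat (nat_lit 0), .negSucc (nat_lit 512981529174770132735), .ofNat (nat_lit 0)],
  [],
  [],
  [],
  [],
  [],
  []],
  [[],
  [],
  [.ofNat (nat_lit 0), .negSucc (nat_lit 342006029063534652479), .ofNat (nat_lit 0)],
  [.ofNat (nat_lit 0), .ofNat (nat_lit 853290830625594846336), .ofNat (nat_lit 0)],
  [],
  [],
  [],
  [],
  []],
  [[],
  [],
  [],
  [.ofNat (nat_lit 0), .ofNat (nat_lit 816850285763035731840), .ofNat (nat_lit 0)],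
  [.ofNat (nat_lit 0), .negSucc (nat_lit 2055969669308045144831), .ofNat (nat_lit 0)],
  [],
  [],
  [],
  []],
  [[],
  [],
  [],
  [],
  [.ofNat (nat_lit 0), .negSucc (nat_lit 534530040800140998143), .ofNat (nat_lit 0)],
  [.ofNat (nat_lit 0), .ofNat (nat_lit 1326101886257857684992), .ofNat (nat_lit 0)],
  [],
  [],
  []],
  [[],
  [],
  [],
  [],
  [.ofNat (nat_lit 0), .ofNat (nat_lit 108365348748400068096), .ofNat (nat_lit 0)],
  [.ofNat (nat_lit 0), .negSucc (nat_lit 238377655821968557055), .ofNat (nat_lit 0)],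
  [],
  [],
  []],
  [[],
  [],
  [],
  [],
  [],
  [.ofNat (nat_lit 0), .ofNat (nat_lit 383556115995529705632), .ofNat (nat_lit 0)],
  [.ofNat (nat_lit 0), .negSucc (nat_lit 950717891211505121087), .ofNat (nat_lit 0)],
  [],
  []],
  [[],
  [],
  [],
  [],
  [],
  [],
  [.ofNat (nat_lit 0), .negSucc (nat_lit 94067267436847981439), .ofNat (nat_lit 0)],
  [.ofNat (nat_lit 0), .ofNat (nat_lit 231806997173701160064), .ofNat (nat_lit 0)],
  []],
  [[],
  [],
  [],
  [],
  [],
  [],
  [.ofNat (nat_lit 0), .ofNat (nat_lit 3473458881477883200), .ofNat (nat_lit 0)],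
  [.ofNat (nat_lit 0), .negSucc (nat_lit 13549695920967311999), .ofNat (nat_lit 0)],
  []],
  [[],
  [],
  [],
  [],
  [],
  [],
  [],
  [.ofNat (nat_lit 0), .ofNat (nat_lit 23153546772776306880), .ofNat (nat_lit 0)],
  [.ofNat (nat_lit 0), .negSucc (nat_lit 56383155945367348607), .ofNat (nat_lit 0)]],
  [[],
  [],
  [],
  [],
  [],
  [],
  [],
  [.ofNat (nat_lit 0), .negSucc (nat_lit 501323962275158399), .ofNat (nat_lit 0)],
  [.ofNat (nat_lit 0), .ofNat (nat_lit 1955626215397344000), .ofNat (nat_lit 0)]]],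
  [[[.ofNat (nat_lit 0), .ofNat (nat_lit 145250000918275064832), .negSucc (nat_lit 28619662681103026175)],
  [.ofNat (nat_lit 0), .negSucc (nat_lit 347472218920067260415), .ofNat (nat_lit 0)],
  [],
  [],
  [],
  [],
  [],
  [],
  []],
  [[.negSucc (nat_lit 145250000918275064831), .ofNat (nat_lit 501147860865441136128), .ofNat (nat_lit 0)],
  [.ofNat (nat_lit 347472218920067260416), .negSucc (nat_lit 1146102888754916158463), .ofNat (nat_lit 0)],
  [],
  [],
  [],
  [],
  [],
  [],
  []],
  [[],
  [.ofNat (nat_lit 0), .negSucc (nat_lit 322199161265933024255), .ofNat (nat_lit 0)],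
  [.ofNat (nat_lit 0), .ofNat (nat_lit 753136716144785725440), .ofNat (nat_lit 0)],
  [],
  [],
  [],
  [],
  [],
  []],
  [[],
  [],
  [.ofNat (nat_lit 0), .negSucc (nat_lit 557306646608926655999), .ofNat (nat_lit 0)],
  [.ofNat (nat_lit 0), .ofNat (nat_lit 1416523588157993647104), .ofNat (nat_lit 0)],
  [],
  [],
  [],
  [],
  []],
  [[],
  [],
  [],
  [.ofNat (nat_lit 0), .ofNat (nat_lit 1210634779608397393920), .ofNat (nat_lit 0)],
  [.ofNat (nat_lit 0), .negSucc (nat_lit 2956691209355721363455), .ofNat (nat_lit 0)],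
  [],
  [],
  [],
  []],
  [[],
  [],
  [],
  [],
  [.ofNat (nat_lit 0), .negSucc (nat_lit 623022992697213742463), .ofNat (nat_lit 0)],
  [.ofNat (nat_lit 0), .ofNat (nat_lit 1528726436337237062400), .ofNat (nat_lit 0)],
  [],
  [],
  []],
  [[],
  [],
  [],
  [],
  [.ofNat (nat_lit 0), .negSucc (nat_lit 503646749712122448383), .ofNat (nat_lit 0)],
  [.ofNat (nat_lit 0), .ofNat (nat_lit 1227298293443502388224), .ofNat (nat_lit 0)],
  [],
  [],
  []],
  [[],
  [],
  [],
  [],
  [],
  [.ofNat (nat_lit 0), .ofNat (nat_lit 461115299227479282432), .ofNat (nat_lit 0)],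
  [.ofNat (nat_lit 0), .negSucc (nat_lit 1158584452623762494975), .ofNat (nat_lit 0)],
  [],
  []],
  [[],
  [],
  [],
  [],
  [],
  [],
  [.ofNat (nat_lit 0), .ofNat (nat_lit 3473458881477883200), .ofNat (nat_lit 0)],
  [.ofNat (nat_lit 0), .negSucc (nat_lit 13549695920967311999), .ofNat (nat_lit 0)],
  []],
  [[],
  [],
  [],
  [],
  [],
  [],
  [.ofNat (nat_lit 0), .negSucc (nat_lit 13893835525911532799), .ofNat (nat_lit 0)],
  [.ofNat (nat_lit 0), .ofNat (nat_lit 54198783683869248000), .ofNat (nat_lit 0)],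
  []],
  [[],
  [],
  [],
  [],
  [],
  [],
  [],
  [.ofNat (nat_lit 0), .ofNat (nat_lit 1002647924550316800), .ofNat (nat_lit 0)],
  [.ofNat (nat_lit 0), .negSucc (nat_lit 3911252430794687999), .ofNat (nat_lit 0)]],
  [[],
  [],
  [],
  [],
  [],
  [],
  [],
  [.ofNat (nat_lit 0), .ofNat (nat_lit 2005295849100633600), .ofNat (nat_lit 0)],
  [.ofNat (nat_lit 0), .negSucc (nat_lit 7822504861589375999), .ofNat (nat_lit 0)]]],
  [],
  []],
  [[],
  [],
  [],
  [],
  [],
  [],
  [],
  [],
  [],
  [],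
  [[[],
  [],
  [],
  [],
  [],
  [],
  [],
  [],
  []],
  [[.ofNat (nat_lit 0), .negSucc (nat_lit 189238965880411722239), .ofNat (nat_lit 0)],
  [.ofNat (nat_lit 0), .ofNat (nat_lit 466710257286117540864), .ofNat (nat_lit 0)],
  [],
  [],
  [],
  [],
  [],
  [],
  []],
  [[],
  [.ofNat (nat_lit 0), .ofNat (nat_lit 291378308254744959360), .ofNat (nat_lit 0)],
  [.ofNat (nat_lit 0), .negSucc (nat_lit 729399779160136471295), .ofNat (nat_lit 0)],
  [],
  [],
  [],
  [],
  [],
  []],
  [[],
  [],
  [.ofNat (nat_lit 0), .negSucc (nat_lit 566964911697822429119), .ofNat (nat_lit 0)],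
  [.ofNat (nat_lit 0), .ofNat (nat_lit 1397197332535256606592), .ofNat (nat_lit 0)],
  [],
  [],
  [],
  [],
  []],
  [[],
  [],
  [],
  [.ofNat (nat_lit 0), .ofNat (nat_lit 321801052480511063040), .ofNat (nat_lit 0)],
  [.ofNat (nat_lit 0), .negSucc (nat_lit 814139515228765307903), .ofNat (nat_lit 0)],
  [],
  [],
  [],
  []],
  [[],
  [],
  [],
  [],
  [.ofNat (nat_lit 0), .negSucc (nat_lit 278218554245022051359), .ofNat (nat_lit 0)],
  [.ofNat (nat_lit 0), .ofNat (nat_lit 678064591005956191296), .ofNat (nat_lit 0)],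
  [],
  [],
  []],
  [[],
  [],
  [],
  [],
  [.ofNat (nat_lit 0), .negSucc (nat_lit 10527803207778326399), .ofNat (nat_lit 0)],
  [.ofNat (nat_lit 0), .ofNat (nat_lit 41068150523344224000), .ofNat (nat_lit 0)],
  [],
  [],
  []],
  [[],
  [],
  [],
  [],
  [],
  [.ofNat (nat_lit 0), .ofNat (nat_lit 72844577063686239840), .ofNat (nat_lit 0)],
  [.ofNat (nat_lit 0), .negSucc (nat_lit 182349944790034117823), .ofNat (nat_lit 0)],
  [],
  []],
  [[],
  [],
  [],
  [],
  [],
  [],
  [.ofNat (nat_lit 0), .negSucc (nat_lit 23153546772776306879), .ofNat (nat_lit 0)],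
  [.ofNat (nat_lit 0), .ofNat (nat_lit 56383155945367348608), .ofNat (nat_lit 0)],
  []],
  [[],
  [],
  [],
  [],
  [],
  [],
  [.ofNat (nat_lit 0), .negSucc (nat_lit 1002647924550316799), .ofNat (nat_lit 0)],
  [.ofNat (nat_lit 0), .ofNat (nat_lit 3911252430794688000), .ofNat (nat_lit 0)],
  []],
  [[],
  [],
  [],
  [],
  [],
  [],
  [],
  [],
  []],
  [[],
  [],
  [],
  [],
  [],
  [],
  [],
  [],
  []]],
  [[[],
  [],
  [],
  [],
  [],
  [],
  [],
  [],
  []],
  [[.ofNat (nat_lit 0), .negSucc (nat_lit 4010591698201267199), .ofNat (nat_lit 0)],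
  [.ofNat (nat_lit 0), .ofNat (nat_lit 15645009723178752000), .ofNat (nat_lit 0)],
  [],
  [],
  [],
  [],
  [],
  [],
  []],
  [[],
  [],
  [],
  [],
  [],
  [],
  [],
  [],
  []],
  [[],
  [],
  [],
  [],
  [],
  [],
  [],
  [],
  []],
  [[],
  [],
  [],
  [.ofNat (nat_lit 0), .ofNat (nat_lit 187233670031311088640), .ofNat (nat_lit 0)],
  [.ofNat (nat_lit 0), .negSucc (nat_lit 458887752424528164863), .ofNat (nat_lit 0)],
  [],
  [],
  [],
  []],
  [[],
  [],
  [],
  [],
  [],
  [],
  [],
  [],
  []],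
  [[],
  [],
  [],
  [],
  [],
  [],
  [],
  [],
  []],
  [[],
  [],
  [],
  [],
  [],
  [],
  [],
  [],
  []],
  [[],
  [],
  [],
  [],
  [],
  [],
  [.ofNat (nat_lit 0), .ofNat (nat_lit 501323962275158400), .ofNat (nat_lit 0)],
  [.ofNat (nat_lit 0), .negSucc (nat_lit 1955626215397343999), .ofNat (nat_lit 0)],
  []],
  [[],
  [],
  [],
  [],
  [],
  [],
  [.ofNat (nat_lit 0), .negSucc (nat_lit 2005295849100633599), .ofNat (nat_lit 0)],
  [.ofNat (nat_lit 0), .ofNat (nat_lit 7822504861589376000), .ofNat (nat_lit 0)],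
  []],
  [[],
  [],
  [],
  [],
  [],
  [],
  [],
  [],
  []],
  [[],
  [],
  [],
  [],
  [],
  [],
  [],
  [],
  []]]]]]

noncomputable def BP3_E : L5 := [[[[[],
  []],
  [[],
  []],
  [[],
  []]],
  [[[.ofNat (nat_lit 1175845524172216416), .negSucc (nat_lit 745704611854877663), .ofNat (nat_lit 0)],
  []],
  [[.ofNat (nat_lit 0), .ofNat (nat_lit 345567343639208544), .ofNat (nat_lit 0)],
  []],
  [[],
  []]],
  [[[.negSucc (nat_lit 11169803163029431391), .ofNat (nat_lit 9045922709627696448), .ofNat (nat_lit 0)],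
  []],
  [[.ofNat (nat_lit 0), .negSucc (nat_lit 3636869604029867231), .ofNat (nat_lit 0)],
  []],
  [[],
  []]],
  [[[.ofNat (nat_lit 45036213445201915008), .negSucc (nat_lit 44106944958213839135), .ofNat (nat_lit 0)],
  []],
  [[.ofNat (nat_lit 0), .ofNat (nat_lit 16223510342750881248), .ofNat (nat_lit 0)],
  []],
  [[],
  []]],
  [[[.negSucc (nat_lit 99516179386768725215), .ofNat (nat_lit 114373568791868063328), .ofNat (nat_lit 0)],
  []],
  [[.ofNat (nat_lit 0), .negSucc (nat_lit 38890388313294680447), .ofNat (nat_lit 0)],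
  []],
  [[],
  []]],
  [[[.ofNat (nat_lit 131177900586854617056), .negSucc (nat_lit 174820743616253869439), .ofNat (nat_lit 0)],
  []],
  [[.ofNat (nat_lit 0), .ofNat (nat_lit 53014015598856304320), .ofNat (nat_lit 0)],
  []],
  [[],
  []]],
  [[[.negSucc (nat_lit 105272356251543776639), .ofNat (nat_lit 162272731304275461792), .ofNat (nat_lit 0)],
  []],
  [[.ofNat (nat_lit 0), .negSucc (nat_lit 39564671451084536543), .ofNat (nat_lit 0)],
  []],
  [[],
  []]],
  [[[.ofNat (nat_lit 50022947761042817952), .negSucc (nat_lit 88956017768486282399), .ofNat (nat_lit 0)],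
  []],
  [[.ofNat (nat_lit 0), .ofNat (nat_lit 12923370037124556192), .ofNat (nat_lit 0)],
  []],
  [[],
  []]],
  [[[.negSucc (nat_lit 12794954904412349759), .ofNat (nat_lit 25794819806549521536), .ofNat (nat_lit 0)],
  []],
  [[.ofNat (nat_lit 0), .ofNat (nat_lit 595639872642796992), .ofNat (nat_lit 0)],
  []],
  [[],
  []]],
  [[[.ofNat (nat_lit 1340386388482716576), .negSucc (nat_lit 2857631657511874463), .ofNat (nat_lit 0)],
  []],
  [[.ofNat (nat_lit 0), .negSucc (nat_lit 1010173826604663071), .ofNat (nat_lit 0)],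
  []],
  [[],
  []]]],
  [[[[],
  []],
  [[],
  []],
  [[],
  []]],
  [[[.negSucc (nat_lit 230844665274826751), .ofNat (nat_lit 0), .ofNat (nat_lit 0)],
  []],
  [[.ofNat (nat_lit 0), .negSucc (nat_lit 34667211160761407), .ofNat (nat_lit 0)],
  [.ofNat (nat_lit 0), .ofNat (nat_lit 155832151427054784), .ofNat (nat_lit 0)]],
  [[.ofNat (nat_lit 0), .ofNat (nat_lit 139272287298701760), .ofNat (nat_lit 0)],
  [.ofNat (nat_lit 0), .negSucc (nat_lit 398632717122734879), .ofNat (nat_lit 0)]]],
  [[[.ofNat (nat_lit 3500211481379059392), .negSucc (nat_lit 1497076611926294591), .ofNat (nat_lit 0)],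
  []],
  [[.ofNat (nat_lit 0), .ofNat (nat_lit 542885324769834048), .ofNat (nat_lit 0)],
  [.ofNat (nat_lit 0), .negSucc (nat_lit 311664302854109567), .ofNat (nat_lit 0)]],
  [[.ofNat (nat_lit 0), .negSucc (nat_lit 278544574597403519), .ofNat (nat_lit 0)],
  [.ofNat (nat_lit 0), .ofNat (nat_lit 797265434245469760), .ofNat (nat_lit 0)]]],
  [[[.negSucc (nat_lit 17915622395799720095), .ofNat (nat_lit 12934304316893388096), .ofNat (nat_lit 0)],
  []],
  [[.ofNat (nat_lit 0), .ofNat (nat_lit 684446192217407808), .ofNat (nat_lit 0)],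
  [.ofNat (nat_lit 0), .ofNat (nat_lit 155832151427054784), .ofNat (nat_lit 0)]],
  [[.ofNat (nat_lit 0), .ofNat (nat_lit 139272287298701760), .ofNat (nat_lit 0)],
  [.ofNat (nat_lit 0), .negSucc (nat_lit 398632717122734879), .ofNat (nat_lit 0)]]],
  [[[.ofNat (nat_lit 42122181401722519200), .negSucc (nat_lit 43334343254624070815), .ofNat (nat_lit 0)],
  []],
  [[.ofNat (nat_lit 0), .negSucc (nat_lit 4516803669282308063), .ofNat (nat_lit 0)],
  []],
  [[],
  []]],
  [[[.negSucc (nat_lit 48883006632932131391), .ofNat (nat_lit 76329899509926534912), .ofNat (nat_lit 0)],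
  []],
  [[.ofNat (nat_lit 0), .ofNat (nat_lit 5668035755634559584), .ofNat (nat_lit 0)],
  []],
  [[],
  []]],
  [[[.ofNat (nat_lit 23784462765645310656), .negSucc (nat_lit 76479839697940569503), .ofNat (nat_lit 0)],
  []],
  [[.ofNat (nat_lit 0), .negSucc (nat_lit 8848789128473038847), .ofNat (nat_lit 0)],
  []],
  [[],
  []]],
  [[[.ofNat (nat_lit 2344185270573498720), .ofNat (nat_lit 41358339867319206624), .ofNat (nat_lit 0)],
  []],
  [[.ofNat (nat_lit 0), .ofNat (nat_lit 15865859277579812832), .ofNat (nat_lit 0)],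
  []],
  [[],
  []]],
  [[[.negSucc (nat_lit 6281627987623480991), .negSucc (nat_lit 9051332025278756735), .ofNat (nat_lit 0)],
  []],
  [[.ofNat (nat_lit 0), .negSucc (nat_lit 12903012583274401055), .ofNat (nat_lit 0)],
  []],
  [[],
  []]],
  [[[.ofNat (nat_lit 1560060762309771264), .negSucc (nat_lit 259952104369437983), .ofNat (nat_lit 0)],
  []],
  [[.ofNat (nat_lit 0), .ofNat (nat_lit 3542046041988895104), .ofNat (nat_lit 0)],
  []],
  [[],
  []]]],
  [[[[],
  []],
  [[],
  []],
  [[],
  []]],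
  [[[.ofNat (nat_lit 0), .negSucc (nat_lit 24591678227563103), .ofNat (nat_lit 0)],
  []],
  [[.ofNat (nat_lit 0), .ofNat (nat_lit 188468638652036448), .ofNat (nat_lit 0)],
  [.ofNat (nat_lit 0), .negSucc (nat_lit 112164216806782079), .ofNat (nat_lit 0)]],
  [[.ofNat (nat_lit 0), .ofNat (nat_lit 140957585447188032), .ofNat (nat_lit 0)],
  [.ofNat (nat_lit 0), .negSucc (nat_lit 413179978977446975), .ofNat (nat_lit 0)]]],
  [[[],
  []],
  [[],
  []],
  [[],
  []]],
  [[[.ofNat (nat_lit 1208929165839901440), .ofNat (nat_lit 632648671644516480), .ofNat (nat_lit 0)],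
  []],
  [[.ofNat (nat_lit 0), .negSucc (nat_lit 3411566744296993631), .ofNat (nat_lit 0)],
  [.ofNat (nat_lit 0), .ofNat (nat_lit 336492650420346240), .ofNat (nat_lit 0)]],
  [[.ofNat (nat_lit 0), .negSucc (nat_lit 422872756341564095), .ofNat (nat_lit 0)],
  [.ofNat (nat_lit 0), .ofNat (nat_lit 1239539936932340928), .ofNat (nat_lit 0)]]],
  [[[.negSucc (nat_lit 7172808434863624223), .negSucc (nat_lit 74051390668245407), .ofNat (nat_lit 0)],
  []],
  [[.ofNat (nat_lit 0), .ofNat (nat_lit 4734821119624946208), .ofNat (nat_lit 0)],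
  [.ofNat (nat_lit 0), .negSucc (nat_lit 224328433613564159), .ofNat (nat_lit 0)]],
  [[.ofNat (nat_lit 0), .ofNat (nat_lit 281915170894376064), .ofNat (nat_lit 0)],
  [.ofNat (nat_lit 0), .negSucc (nat_lit 826359957954893951), .ofNat (nat_lit 0)]]],
  [[[.ofNat (nat_lit 16017715504540831968), .negSucc (nat_lit 8038288086802297343), .ofNat (nat_lit 0)],
  []],
  [[.ofNat (nat_lit 0), .ofNat (nat_lit 5102665910770704192), .ofNat (nat_lit 0)],
  []],
  [[],
  []]],
  [[[.negSucc (nat_lit 17112355271611073855), .ofNat (nat_lit 21616378121611008864), .ofNat (nat_lit 0)],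
  []],
  [[.ofNat (nat_lit 0), .negSucc (nat_lit 13467759143302242719), .ofNat (nat_lit 0)],
  []],
  [[],
  []]],
  [[[.ofNat (nat_lit 8874598065734565504), .negSucc (nat_lit 24002144136517525919), .ofNat (nat_lit 0)],
  []],
  [[.ofNat (nat_lit 0), .ofNat (nat_lit 8837030659356603072), .ofNat (nat_lit 0)],
  []],
  [[],
  []]],
  [[[.negSucc (nat_lit 1872525155520524831), .ofNat (nat_lit 12079404604705847616), .ofNat (nat_lit 0)],
  []],
  [[.ofNat (nat_lit 0), .negSucc (nat_lit 2393901773448355583), .ofNat (nat_lit 0)],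
  []],
  [[],
  []]],
  [[[.ofNat (nat_lit 56446125879924000), .negSucc (nat_lit 2189356105745741183), .ofNat (nat_lit 0)],
  []],
  [[.ofNat (nat_lit 0), .ofNat (nat_lit 410241332643302016), .ofNat (nat_lit 0)],
  []],
  [[],
  []]]],
  [[[[],
  []],
  [[],
  []],
  [[],
  []]],
  [[[.negSucc (nat_lit 48331547740103903), .negSucc (nat_lit 26868492445905503), .ofNat (nat_lit 0)],
  [.ofNat (nat_lit 109189308738718368), .ofNat (nat_lit 0), .ofNat (nat_lit 0)]],
  [[.ofNat (nat_lit 0), .ofNat (nat_lit 194994477210414816), .ofNat (nat_lit 0)],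
  [.ofNat (nat_lit 0), .negSucc (nat_lit 586342501377660287), .ofNat (nat_lit 0)]],
  [[.ofNat (nat_lit 0), .negSucc (nat_lit 751671961790063327), .ofNat (nat_lit 0)],
  [.ofNat (nat_lit 0), .ofNat (nat_lit 1905530536502316288), .ofNat (nat_lit 0)]]],
  [[[],
  []],
  [[],
  []],
  [[],
  []]],
  [[[],
  []],
  [[],
  []],
  [[],
  []]],
  [[[.ofNat (nat_lit 3535883887508732448), .negSucc (nat_lit 745597797463097567), .ofNat (nat_lit 0)],
  [.negSucc (nat_lit 436757234954873471), .ofNat (nat_lit 0), .ofNat (nat_lit 0)]],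
  [[.ofNat (nat_lit 0), .negSucc (nat_lit 233791451791703135), .ofNat (nat_lit 0)],
  [.ofNat (nat_lit 0), .ofNat (nat_lit 2345370005510641152), .ofNat (nat_lit 0)]],
  [[.ofNat (nat_lit 0), .ofNat (nat_lit 3006687847160253312), .ofNat (nat_lit 0)],
  [.ofNat (nat_lit 0), .negSucc (nat_lit 7622122146009265151), .ofNat (nat_lit 0)]]],
  [[[.negSucc (nat_lit 16697074997754542591), .ofNat (nat_lit 4131036872466876288), .ofNat (nat_lit 0)],
  [.ofNat (nat_lit 327567926216155104), .ofNat (nat_lit 0), .ofNat (nat_lit 0)]],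
  [[.ofNat (nat_lit 0), .ofNat (nat_lit 2100530132768903616), .ofNat (nat_lit 0)],
  [.ofNat (nat_lit 0), .negSucc (nat_lit 1759027504132980863), .ofNat (nat_lit 0)]],
  [[.ofNat (nat_lit 0), .negSucc (nat_lit 2255015885370189983), .ofNat (nat_lit 0)],
  [.ofNat (nat_lit 0), .ofNat (nat_lit 5716591609506948864), .ofNat (nat_lit 0)]]],
  [[[.ofNat (nat_lit 31559452543416271968), .negSucc (nat_lit 8576599568422348799), .ofNat (nat_lit 0)],
  []],
  [[.ofNat (nat_lit 0), .negSucc (nat_lit 477779390733845663), .ofNat (nat_lit 0)],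
  []],
  [[],
  []]],
  [[[.negSucc (nat_lit 28602539616044345471), .ofNat (nat_lit 10677784481265648672), .ofNat (nat_lit 0)],
  []],
  [[.ofNat (nat_lit 0), .negSucc (nat_lit 8246335318997212799), .ofNat (nat_lit 0)],
  []],
  [[],
  []]],
  [[[.ofNat (nat_lit 12022254537235214400), .negSucc (nat_lit 8206980820249024223), .ofNat (nat_lit 0)],
  []],
  [[.ofNat (nat_lit 0), .ofNat (nat_lit 9132889720395545280), .ofNat (nat_lit 0)],
  []],
  [[],
  []]],
  [[[.negSucc (nat_lit 1769644806621226847), .ofNat (nat_lit 2747225324847851136), .ofNat (nat_lit 0)],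
  []],
  [[.ofNat (nat_lit 0), .negSucc (nat_lit 2470508168852102111), .ofNat (nat_lit 0)],
  []],
  [[],
  []]]],
  [[[[],
  []],
  [[],
  []],
  [[],
  []]],
  [[[.ofNat (nat_lit 79023561053297472), .negSucc (nat_lit 16610374777952159), .ofNat (nat_lit 0)],
  [.negSucc (nat_lit 181588135149624671), .ofNat (nat_lit 0), .ofNat (nat_lit 0)]],
  [[.ofNat (nat_lit 0), .negSucc (nat_lit 443249120833738559), .ofNat (nat_lit 0)],
  [.ofNat (nat_lit 0), .ofNat (nat_lit 1626226147203939936), .ofNat (nat_lit 0)]],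
  [[.ofNat (nat_lit 0), .ofNat (nat_lit 914864290686089856), .ofNat (nat_lit 0)],
  [.ofNat (nat_lit 0), .negSucc (nat_lit 2337724634369167871), .ofNat (nat_lit 0)]]],
  [[[],
  []],
  [[],
  []],
  [[],
  []]],
  [[[],
  []],
  [[],
  []],
  [[],
  []]],
  [[[],
  []],
  [[],
  []],
  [[],
  []]],
  [[[.ofNat (nat_lit 2344611179146111200), .ofNat (nat_lit 931271958846256032), .ofNat (nat_lit 0)],
  [.ofNat (nat_lit 907940675748123360), .ofNat (nat_lit 0), .ofNat (nat_lit 0)]],
  [[.ofNat (nat_lit 0), .ofNat (nat_lit 1801209637945200096), .ofNat (nat_lit 0)],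
  [.ofNat (nat_lit 0), .negSucc (nat_lit 8131130736019699679), .ofNat (nat_lit 0)]],
  [[.ofNat (nat_lit 0), .negSucc (nat_lit 4574321453430449279), .ofNat (nat_lit 0)],
  [.ofNat (nat_lit 0), .ofNat (nat_lit 11688623171845839360), .ofNat (nat_lit 0)]]],
  [[[.negSucc (nat_lit 9618108450957342431), .negSucc (nat_lit 5411622571270297631), .ofNat (nat_lit 0)],
  [.negSucc (nat_lit 726352540598498687), .ofNat (nat_lit 0), .ofNat (nat_lit 0)]],
  [[.ofNat (nat_lit 0), .negSucc (nat_lit 6651635473431854783), .ofNat (nat_lit 0)],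
  [.ofNat (nat_lit 0), .ofNat (nat_lit 6504904588815759744), .ofNat (nat_lit 0)]],
  [[.ofNat (nat_lit 0), .ofNat (nat_lit 3659457162744359424), .ofNat (nat_lit 0)],
  [.ofNat (nat_lit 0), .negSucc (nat_lit 9350898537476671487), .ofNat (nat_lit 0)]]],
  [[[.ofNat (nat_lit 13076099724599863488), .ofNat (nat_lit 8851545992778341184), .ofNat (nat_lit 0)],
  []],
  [[.ofNat (nat_lit 0), .ofNat (nat_lit 10597273556429230848), .ofNat (nat_lit 0)],
  []],
  [[],
  []]],
  [[[.negSucc (nat_lit 7308507301338524255), .negSucc (nat_lit 5060429108907196319), .ofNat (nat_lit 0)],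
  []],
  [[.ofNat (nat_lit 0), .negSucc (nat_lit 4898486277673789247), .ofNat (nat_lit 0)],
  []],
  [[],
  []]],
  [[[.ofNat (nat_lit 1426881287496594528), .ofNat (nat_lit 705844103330848896), .ofNat (nat_lit 0)],
  []],
  [[.ofNat (nat_lit 0), .negSucc (nat_lit 405112322435048351), .ofNat (nat_lit 0)],
  []],
  [[],
  []]]],
  [[[[],
  []],
  [[],
  []],
  [[],
  []]],
  [[[.ofNat (nat_lit 44664653184071328), .ofNat (nat_lit 1908509547793536), .ofNat (nat_lit 0)],
  [.negSucc (nat_lit 108832473920609567), .ofNat (nat_lit 0), .ofNat (nat_lit 0)]],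
  [[.ofNat (nat_lit 0), .ofNat (nat_lit 24705547516306656), .ofNat (nat_lit 0)],
  [.ofNat (nat_lit 0), .negSucc (nat_lit 706250922222144671), .ofNat (nat_lit 0)]],
  [[.ofNat (nat_lit 0), .ofNat (nat_lit 40000009917326112), .ofNat (nat_lit 0)],
  [.ofNat (nat_lit 0), .negSucc (nat_lit 131467117787650655), .ofNat (nat_lit 0)]]],
  [[[],
  []],
  [[],
  []],
  [[],
  []]],
  [[[],
  []],
  [[],
  []],
  [[],
  []]],
  [[[],
  []],
  [[],
  []],
  [[],
  []]],
  [[[],
  []],
  [[],
  []],
  [[],
  []]],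
  [[[.ofNat (nat_lit 410927941450136160), .ofNat (nat_lit 89188648551671040), .ofNat (nat_lit 0)],
  [.ofNat (nat_lit 652994843523657408), .ofNat (nat_lit 0), .ofNat (nat_lit 0)]],
  [[.ofNat (nat_lit 0), .negSucc (nat_lit 1325389683021538175), .ofNat (nat_lit 0)],
  [.ofNat (nat_lit 0), .ofNat (nat_lit 4237505533332868032), .ofNat (nat_lit 0)]],
  [[.ofNat (nat_lit 0), .negSucc (nat_lit 240000059503956671), .ofNat (nat_lit 0)],
  [.ofNat (nat_lit 0), .ofNat (nat_lit 788802706725903936), .ofNat (nat_lit 0)]]],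
  [[[.negSucc (nat_lit 1923664556331241631), .negSucc (nat_lit 1039415475101246207), .ofNat (nat_lit 0)],
  [.negSucc (nat_lit 544162369603047839), .ofNat (nat_lit 0), .ofNat (nat_lit 0)]],
  [[.ofNat (nat_lit 0), .ofNat (nat_lit 3155386963261032576), .ofNat (nat_lit 0)],
  [.ofNat (nat_lit 0), .negSucc (nat_lit 3531254611110723359), .ofNat (nat_lit 0)]],
  [[.ofNat (nat_lit 0), .ofNat (nat_lit 200000049586630560), .ofNat (nat_lit 0)],
  [.ofNat (nat_lit 0), .negSucc (nat_lit 657335588938253279), .ofNat (nat_lit 0)]]],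
  [[[.ofNat (nat_lit 2257228062839504160), .ofNat (nat_lit 1795996928165131008), .ofNat (nat_lit 0)],
  []],
  [[.ofNat (nat_lit 0), .negSucc (nat_lit 2532249257587903871), .ofNat (nat_lit 0)],
  []],
  [[],
  []]],
  [[[.negSucc (nat_lit 789156101142470015), .negSucc (nat_lit 847678611163349375), .ofNat (nat_lit 0)],
  []],
  [[.ofNat (nat_lit 0), .ofNat (nat_lit 677546429832102816), .ofNat (nat_lit 0)],
  []],
  [[],
  []]]],
  [[[[],
  []],
  [[],
  []],
  [[],
  []]],
  [[[.ofNat (nat_lit 13631542761386016), .ofNat (nat_lit 10426555381142592), .ofNat (nat_lit 0)],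
  [.negSucc (nat_lit 33347096497970783), .ofNat (nat_lit 0), .ofNat (nat_lit 0)]],
  [[.ofNat (nat_lit 0), .negSucc (nat_lit 1270776180295044863), .ofNat (nat_lit 0)],
  [.ofNat (nat_lit 0), .ofNat (nat_lit 2639214198650318112), .ofNat (nat_lit 0)]],
  [[.ofNat (nat_lit 0), .ofNat (nat_lit 1533140942441990112), .ofNat (nat_lit 0)],
  [.ofNat (nat_lit 0), .negSucc (nat_lit 3652277408151194879), .ofNat (nat_lit 0)]]],
  [[[],
  []],
  [[],
  []],
  [[],
  []]],
  [[[],
  []],
  [[],
  []],
  [[],
  []]],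
  [[[],
  []],
  [[],
  []],
  [[],
  []]],
  [[[],
  []],
  [[],
  []],
  [[],
  []]],
  [[[.ofNat (nat_lit 113655679102365408), .ofNat (nat_lit 1572195522786099552), .ofNat (nat_lit 0)],
  [.ofNat (nat_lit 200082578987824704), .ofNat (nat_lit 0), .ofNat (nat_lit 0)]],
  [[.ofNat (nat_lit 0), .ofNat (nat_lit 8168636774081852640), .ofNat (nat_lit 0)],
  [.ofNat (nat_lit 0), .negSucc (nat_lit 15835285191901908671), .ofNat (nat_lit 0)]],
  [[.ofNat (nat_lit 0), .negSucc (nat_lit 9198845654651940671), .ofNat (nat_lit 0)],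
  [.ofNat (nat_lit 0), .ofNat (nat_lit 21913664448907169280), .ofNat (nat_lit 0)]]],
  [[[.negSucc (nat_lit 408636953238324383), .negSucc (nat_lit 4203827663722815167), .ofNat (nat_lit 0)],
  [.negSucc (nat_lit 166735482489853919), .ofNat (nat_lit 0), .ofNat (nat_lit 0)]],
  [[.ofNat (nat_lit 0), .negSucc (nat_lit 5922399699386502623), .ofNat (nat_lit 0)],
  [.ofNat (nat_lit 0), .ofNat (nat_lit 13196070993251590560), .ofNat (nat_lit 0)]],
  [[.ofNat (nat_lit 0), .ofNat (nat_lit 7665704712209950560), .ofNat (nat_lit 0)],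
  [.ofNat (nat_lit 0), .negSucc (nat_lit 18261387040755974399), .ofNat (nat_lit 0)]]],
  [[[.ofNat (nat_lit 367254527078464416), .ofNat (nat_lit 3607656316038190944), .ofNat (nat_lit 0)],
  []],
  [[.ofNat (nat_lit 0), .negSucc (nat_lit 2494901481112193759), .ofNat (nat_lit 0)],
  []],
  [[],
  []]],
  [[[.negSucc (nat_lit 85904795703891455), .negSucc (nat_lit 986450730482617919), .ofNat (nat_lit 0)],
  []],
  [[.ofNat (nat_lit 0), .ofNat (nat_lit 1519440586711888608), .ofNat (nat_lit 0)],
  []],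
  [[],
  []]]],
  [[[[],
  []],
  [[],
  []],
  [[],
  []]],
  [[[.negSucc (nat_lit 85483021509212255), .ofNat (nat_lit 23168879973553536), .ofNat (nat_lit 0)],
  [.ofNat (nat_lit 189944955115735680), .ofNat (nat_lit 0), .ofNat (nat_lit 0)]],
  [[.ofNat (nat_lit 0), .ofNat (nat_lit 930154200304023360), .ofNat (nat_lit 0)],
  [.ofNat (nat_lit 0), .negSucc (nat_lit 1377342102311243999), .ofNat (nat_lit 0)]],
  [[.ofNat (nat_lit 0), .negSucc (nat_lit 1267097055020944127), .ofNat (nat_lit 0)],
  [.ofNat (nat_lit 0), .ofNat (nat_lit 3127240684338650496), .ofNat (nat_lit 0)]]],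
  [[[],
  []],
  [[],
  []],
  [[],
  []]],
  [[[],
  []],
  [[],
  []],
  [[],
  []]],
  [[[],
  []],
  [[],
  []],
  [[],
  []]],
  [[[],
  []],
  [[],
  []],
  [[],
  []]],
  [[[],
  []],
  [[],
  []],
  [[],
  []]],
  [[[.ofNat (nat_lit 1004195502262606752), .ofNat (nat_lit 629755692863657184), .ofNat (nat_lit 0)],
  [.negSucc (nat_lit 1329614685810149759), .ofNat (nat_lit 0), .ofNat (nat_lit 0)]],
  [[.ofNat (nat_lit 0), .negSucc (nat_lit 6007725746908356383), .ofNat (nat_lit 0)],
  [.ofNat (nat_lit 0), .ofNat (nat_lit 9641394716178708000), .ofNat (nat_lit 0)]],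
  [[.ofNat (nat_lit 0), .ofNat (nat_lit 8869679385146608896), .ofNat (nat_lit 0)],
  [.ofNat (nat_lit 0), .negSucc (nat_lit 21890684790370553471), .ofNat (nat_lit 0)]]],
  [[[.negSucc (nat_lit 1324526832451515455), .negSucc (nat_lit 1444862425515742655), .ofNat (nat_lit 0)],
  [.ofNat (nat_lit 1139669730694414080), .ofNat (nat_lit 0), .ofNat (nat_lit 0)]],
  [[.ofNat (nat_lit 0), .ofNat (nat_lit 4574217891384525888), .ofNat (nat_lit 0)],
  [.ofNat (nat_lit 0), .negSucc (nat_lit 8264052613867463999), .ofNat (nat_lit 0)]],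
  [[.ofNat (nat_lit 0), .negSucc (nat_lit 7602582330125664767), .ofNat (nat_lit 0)],
  [.ofNat (nat_lit 0), .ofNat (nat_lit 18763444106031902976), .ofNat (nat_lit 0)]]],
  [[[.ofNat (nat_lit 405814351698120960), .ofNat (nat_lit 791937852678531936), .ofNat (nat_lit 0)],
  []],
  [[.ofNat (nat_lit 0), .ofNat (nat_lit 503353655219807136), .ofNat (nat_lit 0)],
  []],
  [[],
  []]]],
  [[[[],
  []],
  [[],
  []],
  [[],
  []]],
  [[[.negSucc (nat_lit 661535523750527), .negSucc (nat_lit 202425304780799), .ofNat (nat_lit 0)],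
  [.ofNat (nat_lit 1754531403734304), .ofNat (nat_lit 0), .ofNat (nat_lit 0)]],
  [[.ofNat (nat_lit 0), .negSucc (nat_lit 155600059082921855), .ofNat (nat_lit 0)],
  [.ofNat (nat_lit 0), .ofNat (nat_lit 354767673402351072), .ofNat (nat_lit 0)]],
  [[.ofNat (nat_lit 0), .ofNat (nat_lit 204490042782488640), .ofNat (nat_lit 0)],
  [.ofNat (nat_lit 0), .negSucc (nat_lit 494690561050613183), .ofNat (nat_lit 0)]]],
  [[[],
  []],
  [[],
  []],
  [[],
  []]],
  [[[],
  []],
  [[],
  []],
  [[],
  []]],
  [[[],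
  []],
  [[],
  []],
  [[],
  []]],
  [[[],
  []],
  [[],
  []],
  [[],
  []]],
  [[[],
  []],
  [[],
  []],
  [[],
  []]],
  [[[],
  []],
  [[],
  []],
  [[],
  []]],
  [[[.ofNat (nat_lit 5292284190004224), .ofNat (nat_lit 1619402438246400), .ofNat (nat_lit 0)],
  [.negSucc (nat_lit 14036251229874431), .ofNat (nat_lit 0), .ofNat (nat_lit 0)]],
  [[.ofNat (nat_lit 0), .ofNat (nat_lit 1244800472663374848), .ofNat (nat_lit 0)],
  [.ofNat (nat_lit 0), .negSucc (nat_lit 2838141387218808575), .ofNat (nat_lit 0)]],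
  [[.ofNat (nat_lit 0), .negSucc (nat_lit 1635920342259909119), .ofNat (nat_lit 0)],
  [.ofNat (nat_lit 0), .ofNat (nat_lit 3957524488404905472), .ofNat (nat_lit 0)]]],
  [[[.negSucc (nat_lit 4630748666253695), .negSucc (nat_lit 1416977133465599), .ofNat (nat_lit 0)],
  [.ofNat (nat_lit 12281719826140128), .ofNat (nat_lit 0), .ofNat (nat_lit 0)]],
  [[.ofNat (nat_lit 0), .negSucc (nat_lit 1089200413580452991), .ofNat (nat_lit 0)],
  [.ofNat (nat_lit 0), .ofNat (nat_lit 2483373713816457504), .ofNat (nat_lit 0)]],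
  [[.ofNat (nat_lit 0), .ofNat (nat_lit 1431430299477420480), .ofNat (nat_lit 0)],
  [.ofNat (nat_lit 0), .negSucc (nat_lit 3462833927354292287), .ofNat (nat_lit 0)]]]],
  [[[[],
  []],
  [[],
  []],
  [[],
  []]],
  [[[.ofNat (nat_lit 20519617251330720), .negSucc (nat_lit 19816260618386303), .ofNat (nat_lit 0)],
  [.negSucc (nat_lit 63006695208115775), .ofNat (nat_lit 0), .ofNat (nat_lit 0)]],
  [[.ofNat (nat_lit 0), .negSucc (nat_lit 9327328442826335), .ofNat (nat_lit 0)],
  [.ofNat (nat_lit 0), .negSucc (nat_lit 215481280792197599), .ofNat (nat_lit 0)]],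
  [[.ofNat (nat_lit 0), .ofNat (nat_lit 17904427224112800), .ofNat (nat_lit 0)],
  [.ofNat (nat_lit 0), .negSucc (nat_lit 69843793407047999), .ofNat (nat_lit 0)]]],
  [[[],
  []],
  [[],
  []],
  [[],
  []]],
  [[[],
  []],
  [[],
  []],
  [[],
  []]],
  [[[],
  []],
  [[],
  []],
  [[],
  []]],
  [[[],
  []],
  [[],
  []],
  [[],
  []]],
  [[[],
  []],
  [[],
  []],
  [[],
  []]],
  [[[],
  []],
  [[],
  []],
  [[],
  []]],
  [[[.negSucc (nat_lit 164156938010645759), .ofNat (nat_lit 158530084947090432), .ofNat (nat_lit 0)],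
  [.ofNat (nat_lit 504053561664926208), .ofNat (nat_lit 0), .ofNat (nat_lit 0)]],
  [[.ofNat (nat_lit 0), .ofNat (nat_lit 74618627542610688), .ofNat (nat_lit 0)],
  [.ofNat (nat_lit 0), .ofNat (nat_lit 1723850246337580800), .ofNat (nat_lit 0)]],
  [[.ofNat (nat_lit 0), .negSucc (nat_lit 143235417792902399), .ofNat (nat_lit 0)],
  [.ofNat (nat_lit 0), .ofNat (nat_lit 558750347256384000), .ofNat (nat_lit 0)]]],
  [[[.ofNat (nat_lit 143637320759315040), .negSucc (nat_lit 138713824328704127), .ofNat (nat_lit 0)],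
  [.negSucc (nat_lit 441046866456810431), .ofNat (nat_lit 0), .ofNat (nat_lit 0)]],
  [[.ofNat (nat_lit 0), .negSucc (nat_lit 65291299099784351), .ofNat (nat_lit 0)],
  [.ofNat (nat_lit 0), .negSucc (nat_lit 1508368965545383199), .ofNat (nat_lit 0)]],
  [[.ofNat (nat_lit 0), .ofNat (nat_lit 125330990568789600), .ofNat (nat_lit 0)],
  [.ofNat (nat_lit 0), .negSucc (nat_lit 488906553849335999), .ofNat (nat_lit 0)]]]],
  [[[[],
  []],
  [[],
  []],
  [[],
  []]],
  [[[],
  []],
  [[],
  []],
  [[],
  []]],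
  [[[],
  []],
  [[],
  []],
  [[],
  []]],
  [[[],
  []],
  [[],
  []],
  [[],
  []]],
  [[[],
  []],
  [[],
  []],
  [[],
  []]],
  [[[],
  []],
  [[],
  []],
  [[],
  []]],
  [[[],
  []],
  [[],
  []],
  [[],
  []]],
  [[[],
  []],
  [[],
  []],
  [[],
  []]],
  [[[],
  []],
  [[],
  []],
  [[],
  []]],
  [[[],
  []],
  [[],
  []],
  [[],
  []]]],
  [[[[],
  []],
  [[],
  []],
  [[],
  []]],
  [[[],
  []],
  [[],
  []],
  [[],
  []]],
  [[[],
  []],
  [[],
  []],
  [[],
  []]],
  [[[],
  []],
  [[],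
  []],
  [[],
  []]],
  [[[],
  []],
  [[],
  []],
  [[],
  []]],
  [[[],
  []],
  [[],
  []],
  [[],
  []]],
  [[[],
  []],
  [[],
  []],
  [[],
  []]],
  [[[],
  []],
  [[],
  []],
  [[],
  []]],
  [[[],
  []],
  [[],
  []],
  [[],
  []]],
  [[[],
  []],
  [[],
  []],
  [[],
  []]]]]

noncomputable def BP3_tn : List (List ℕ) := [[nat_lit 16384, nat_lit 0, nat_lit 0],
  [nat_lit 32768, nat_lit 16384, nat_lit 0],
  [nat_lit 16384, nat_lit 16384, nat_lit 16384]]

noncomputable def BP3_zn : List (List ℕ) := [[nat_lit 18014398509481984, nat_lit 2251799813685248, nat_lit 281474976710656, nat_lit 35184372088832, nat_lit 4398046511104, nat_lit 549755813888, nat_lit 68719476736, nat_lit 8589934592, nat_lit 1073741824, nat_lit 134217728],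
  [nat_lit 162129586585337856, nat_lit 28147497671065600, nat_lit 4503599627370496, nat_lit 686095255732224, nat_lit 101155069755392, nat_lit 14568529068032, nat_lit 2061584302080, nat_lit 287762808832, nat_lit 39728447488, nat_lit 5435817984],
  [nat_lit 648518346341351424, nat_lit 144115188075855872, nat_lit 29343766322085888, nat_lit 5515150324924416, nat_lit 974167302209536, nat_lit 164102110445568, nat_lit 26645977104384, nat_lit 4202625499136, nat_lit 647466319872, nat_lit 97844723712],
  [nat_lit 1513209474796486656, nat_lit 409827566090715136, nat_lit 102949472731922432, nat_lit 23859402322739200, nat_lit 5110530045902848, nat_lit 1022683252785152, nat_lit 193496866619392, nat_lit 34972844949504, nat_lit 6088116142080, nat_lit 1027369598976],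
  [nat_lit 2269814212194729984, nat_lit 725079540006649856, nat_lit 218213475694936064, nat_lit 61326360550834176, nat_lit 15976178829492224, nat_lit 3849012251721728, nat_lit 862888994537472, nat_lit 181730266841088, nat_lit 36300392497152, nat_lit 6934744793088],
  [nat_lit 2269814212194729984, nat_lit 835417730877227008, nat_lit 294070981918457856, nat_lit 98177592267374592, nat_lit 30792098013773824, nat_lit 8986600591589376, nat_lit 2425505471004672, nat_lit 606832976461824, nat_lit 141777004658688, nat_lit 31206351568896],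
  [nat_lit 1513209474796486656, nat_lit 630503947831869440, nat_lit 254664485178966016, nat_lit 99070395709128704, nat_lit 36816597100265472, nat_lit 12936029178691584, nat_lit 4246461009100800, nat_lit 1288321477115904, nat_lit 360606729240576, nat_lit 93619054706688],
  [nat_lit 648518346341351424, nat_lit 301741175033823232, nat_lit 137711632355688448, nat_lit 61392331248500736, nat_lit 26584541892182016, nat_lit 11096374426730496, nat_lit 4417102207254528, nat_lit 1652450616410112, nat_lit 570630428688384, nat_lit 180551034077184],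
  [nat_lit 162129586585337856, nat_lit 83316593106354176, nat_lit 42432352739131392, nat_lit 21374506043965440, nat_lit 10620457690595328, nat_lit 5184987598946304, nat_lit 2472731857649664, nat_lit 1141260857376768, nat_lit 501530650214400, nat_lit 203119913336832],
  [nat_lit 18014398509481984, nat_lit 10133099161583616, nat_lit 5699868278390784, nat_lit 3206175906594816, nat_lit 1803473947459584, nat_lit 1014454095446016, nat_lit 570630428688384, nat_lit 320979616137216, nat_lit 180551034077184, nat_lit 101559956668416],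
  [nat_lit 18014398509481984, nat_lit 10133099161583616, nat_lit 5699868278390784, nat_lit 3206175906594816, nat_lit 1803473947459584, nat_lit 1014454095446016, nat_lit 570630428688384, nat_lit 320979616137216, nat_lit 180551034077184, nat_lit 101559956668416],
  [nat_lit 162129586585337856, nat_lit 99079191802150912, nat_lit 60165276271902720, nat_lit 36336660274741248, nat_lit 21842073363677184, nat_lit 13075186119081984, nat_lit 7798615858741248, nat_lit 4636372233093120, nat_lit 2748387963174912, nat_lit 1624959306694656],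
  [nat_lit 648518346341351424, nat_lit 427841964600197120, nat_lit 279575020617859072, nat_lit 181089565094707200, nat_lit 116357467276836864, nat_lit 74217962587815936, nat_lit 47024174215987200, nat_lit 29613341622140928, nat_lit 18545488932372480, nat_lit 11555266180939776],
  [nat_lit 1513209474796486656, nat_lit 1071856711314178048, nat_lit 751186344096563200, nat_lit 521027774077468672, nat_lit 357810220736446464, nat_lit 243407753853272064, nat_lit 164110649914294272, nat_lit 109723073170636800, nat_lit 72787081348251648, nat_lit 47932956009824256],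
  [nat_lit 2269814212194729984, nat_lit 1718123257841844224, nat_lit 1287114699753652224, nat_lit 954160588630523904, nat_lit 699932884445691904, nat_lit 508114714383876096, nat_lit 365111630779908096, nat_lit 259762869057355776, nat_lit 183052605667147776, nat_lit 127821216026198016],
  [nat_lit 2269814212194729984, nat_lit 1828461448712421376, nat_lit 1459518122988929024, nat_lit 1153933055304400896, nat_lit 903315047793557504, nat_lit 699932884445691904, nat_lit 536715331104669696, nat_lit 407251135468929024, nat_lit 305789027091480576, nat_lit 227237717379907584],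
  [nat_lit 1513209474796486656, nat_lit 1292533093055332352, nat_lit 1095993190567116800, nat_lit 922081237378531328, nat_lit 769288703536267264, nat_lit 636107059087015936, nat_lit 521027774077468672, nat_lit 422542318554316800, nat_lit 339142162564251648, nat_lit 269318776153964544],
  [nat_lit 648518346341351424, nat_lit 585467951558164480, nat_lit 525865625239683072, nat_lit 469711367385907200, nat_lit 417005177996836864, nat_lit 367747057072472064, nat_lit 321937004612812800, nat_lit 279575020617859072, nat_lit 240661105087610880, nat_lit 205195258022068224],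
  [nat_lit 162129586585337856, nat_lit 154248287237439488, nat_lit 146366987889541120, nat_lit 138485688541642752, nat_lit 130604389193744384, nat_lit 122723089845846016, nat_lit 114841790497947648, nat_lit 106960491150049280, nat_lit 99079191802150912, nat_lit 91197892454252544],
  [nat_lit 18014398509481984, nat_lit 18014398509481984, nat_lit 18014398509481984, nat_lit 18014398509481984, nat_lit 18014398509481984, nat_lit 18014398509481984, nat_lit 18014398509481984, nat_lit 18014398509481984, nat_lit 18014398509481984, nat_lit 18014398509481984],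
  [nat_lit 18014398509481984, nat_lit 18014398509481984, nat_lit 18014398509481984, nat_lit 18014398509481984, nat_lit 18014398509481984, nat_lit 18014398509481984, nat_lit 18014398509481984, nat_lit 18014398509481984, nat_lit 18014398509481984, nat_lit 18014398509481984],
  [nat_lit 162129586585337856, nat_lit 170010885933236224, nat_lit 177892185281134592, nat_lit 185773484629032960, nat_lit 193654783976931328, nat_lit 201536083324829696, nat_lit 209417382672728064, nat_lit 217298682020626432, nat_lit 225179981368524800, nat_lit 233061280716423168],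
  [nat_lit 648518346341351424, nat_lit 711568741124538368, nat_lit 778067204372430848, nat_lit 848013736085028864, nat_lit 921408336262332416, nat_lit 998251004904341504, nat_lit 1078541742011056128, nat_lit 1162280547582476288, nat_lit 1249467421618601984, nat_lit 1340102364119433216],
  [nat_lit 1513209474796486656, nat_lit 1733885856537640960, nat_lit 1978698717531734016, nat_lit 2249156587732074496, nat_lit 2546767997091971072, nat_lit 2873041475564732416, nat_lit 3229485553103667200, nat_lit 3617608759662084096, nat_lit 4038919625193291776, nat_lit 4494926679650598912],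
  [nat_lit 2269814212194729984, nat_lit 2711166975677038592, nat_lit 3224929176918163456, nat_lit 3820151995637956608, nat_lit 4506546593410842624, nat_lit 5294484113665818624, nat_lit 6194995681686454272, nat_lit 7219772404610891776, nat_lit 8381165371431845888, nat_lit 9692185652996603904],
  [nat_lit 2269814212194729984, nat_lit 2821505166547615744, nat_lit 3493878517165195264, nat_lit 4309562213347098624, nat_lit 5294484113665818624, nat_lit 6478160728028086272, nat_lit 7893985959736246272, nat_lit 9579519847549632512, nat_lit 11576777307745943552, nat_lit 13932516876182618112],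
  [nat_lit 1513209474796486656, nat_lit 1954562238278795264, nat_lit 2516597398025797632, nat_lit 3229485553103667200, nat_lit 4129997121124302848, nat_lit 5262657306490830848, nat_lit 6681027393294958592, nat_lit 8449112362866180096, nat_lit 10642894835972833280, nat_lit 13351995339675009024],
  [nat_lit 648518346341351424, nat_lit 869194728082505728, nat_lit 1162280547582476288, nat_lit 1550403754140893184, nat_lit 2062792115603111936, nat_lit 2737005670728466432, nat_lit 3621048155514077184, nat_lit 4775912670509400064, nat_lit 6278616856156700672, nat_lit 8225782843192639488],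
  [nat_lit 162129586585337856, nat_lit 225179981368524800, nat_lit 312366855404650496, nat_lit 432741388413566976, nat_lit 598654669387988992, nat_lit 826912664838995968, nat_lit 1140310160997089280, nat_lit 1569654214039175168, nat_lit 2156411821739737088, nat_lit 2956140709272354816],
  [nat_lit 18014398509481984, nat_lit 25895697857380352, nat_lit 37225065669984256, nat_lit 53511031900602368, nat_lit 76922108357115904, nat_lit 110575530763354112, nat_lit 158952325472321536, nat_lit 228493967866462208, nat_lit 328460078808039424, nat_lit 472161363286556672]]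

noncomputable def BP3_sn : List (List ℕ) := [[nat_lit 4096, nat_lit 0, nat_lit 0],
  [nat_lit 8192, nat_lit 2560, nat_lit 0],
  [nat_lit 4096, nat_lit 2560, nat_lit 1600]]

noncomputable def BP3_en : List (List ℕ) := [[nat_lit 18446744073709551616, nat_lit 7493989779944505344, nat_lit 3044433348102455296, nat_lit 1236801047666622464, nat_lit 502450425614565376, nat_lit 204120485405917184, nat_lit 82923947196153856, nat_lit 33687853548437504, nat_lit 13685690504052736],
  [nat_lit 147573952589676412928, nat_lit 60528378991859466240, nat_lit 24823841146066173952, nat_lit 10179824007717584896, nat_lit 4174203535874850816, nat_lit 1711471762249613312, nat_lit 701664168582840320, nat_lit 287642441836658688, nat_lit 117907487419531264],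
  [nat_lit 516508834063867445248, nat_lit 213866939104570114048, nat_lit 88540768674103951360, nat_lit 36650293767541096448, nat_lit 15168651310565163008, nat_lit 6277006879612731392, nat_lit 2597138772244037632, nat_lit 1074423258142474240, nat_lit 444420529504387072],
  [nat_lit 1033017668127734890496, nat_lit 431769103475264192512, nat_lit 180432215470971551744, nat_lit 75386880062461575168, nat_lit 31491772238109081600, nat_lit 13152810540491341824, nat_lit 5492381019661139968, nat_lit 2293104743951630336, nat_lit 957213448163295232],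
  [nat_lit 1291272085159668613120, nat_lit 544755410926735196160, nat_lit 229773652988442705920, nat_lit 96897760732643328000, nat_lit 40854703086854209536, nat_lit 17222062942715904000, nat_lit 7258436662282158080, nat_lit 3058551846202245120, nat_lit 1288556564835205120],
  [nat_lit 1033017668127734890496, nat_lit 439839554007512121344, nat_lit 187241658107555741696, nat_lit 79695136055994875904, nat_lit 33914216256425164800, nat_lit 14429520011955535872, nat_lit 6138208380012986368, nat_lit 2610661347926474752, nat_lit 1110141040473407488],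
  [nat_lit 516508834063867445248, nat_lit 221937389636818042880, nat_lit 95350211310688141312, nat_lit 40959112711027818496, nat_lit 17592045306927644672, nat_lit 7554718006169829376, nat_lit 3243810815224053760, nat_lit 1392602962013978624, nat_lit 597768252562604032],
  [nat_lit 147573952589676412928, nat_lit 63987143505680007168, nat_lit 27742173704602255360, nat_lit 12026862804892909568, nat_lit 5213479518634770432, nat_lit 2259777870056390656, nat_lit 979413072185655296, nat_lit 424450830221967360, nat_lit 183928693096185856],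
  [nat_lit 18446744073709551616, nat_lit 8070450532247928832, nat_lit 3530822107858468864, nat_lit 1544734672188080128, nat_lit 675821419082285056, nat_lit 295671870848499712, nat_lit 129356443496218624, nat_lit 56593444029595648, nat_lit 24759631762948096]]

noncomputable def BP3_en1 : List (List ℕ) := [[nat_lit 256, nat_lit 104],
  [nat_lit 256, nat_lit 112]]


end Crest.Agent.R163.Ck
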