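import Crest.Agent.R163.B9m1b_288D

/-! Row 163: Bellman certificate, data (generated). -/

set_option autoImplicit false
set_option Elab.async false
set_option maxRecDepth 100000

namespace Crest.Agent.R163.Ck

noncomputable def BP4 : Bell := ⟨false, 9, 3, 3, 2, 9, 32, fs3_9, lams3_9, TT3_9,
  [[[[.ofNat (nat_lit 190558946370582810), .negSucc (nat_lit 380899568318470064), .negSucc (nat_lit 1624548133914723539), .ofNat (nat_lit 451185091534925352), .ofNat (nat_lit 5968430698656678696), .ofNat (nat_lit 4324985339287180014), .negSucc (nat_lit 296781384290742314), .negSucc (nat_lit 4987513264666657553), .negSucc (nat_lit 5655089193055968491), .negSucc (nat_lit 23473652271319560779), .ofNat (nat_lit 121053195754187526), .ofNat (nat_lit 2199615728727571506), .ofNat (nat_lit 8873224095429284490), .ofNat (nat_lit 17402493129024292290), .ofNat (nat_lit 39371153749752414222), .negSucc (nat_lit 32251747913691065), .negSucc (nat_lit 535628956013707049), .negSucc (nat_lit 3551111964865591721), .negSucc (nat_lit 6509818325752209863),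 .negSucc (nat_lit 2989254749987103587), .negSucc (nat_lit 50958604382891982965), .negSucc (nat_lit 18356253543420659315), .ofNat (nat_lit 5624509562840250), .ofNat (nat_lit 69539730029191188), .ofNat (nat_lit 766156428121789926), .ofNat (nat_lit 1285764747049216962), .ofNat (nat_lit 1901848395965016042), .ofNat (nat_lit 15856406158311791082), .ofNat (nat_lit 12979689575281330986), .ofNat (nat_lit 27817754461091712810), .negSucc (nat_lit 593393897075519), .negSucc (nat_lit 4104273213642899), .negSucc (nat_lit 84842343363192593), .negSucc (nat_lit 125488438215920753), .negSucc (nat_lit 290518352263561907), .negSucc (nat_lit 2401365920724211679), .negSucc (nat_lit 208850381316427061), .negSucc (nat_lit 5606491260088894487), .negSucc (nat_lit 6118967916780365051), .negSucc (nat_lit 9484498178719015865), .ofNat (nat_lit 28729610922890), .ofNat (nat_lit 59547570741072), .ofNat (nat_lit 3781471720165704), .ofNat (nat_lit 4591971580176972), .ofNat (nat_lit 17222865711217716), .ofNat (nat_lit 142682791959481104), .ofNat (nat_lit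 32810789279396880), .ofNat (nat_lit 442805823290104308), .ofNat (nat_lit 505471085091566604), .ofNat (nat_lit 309322352294234460), .ofNat (nat_lit 2105622219542357592), .ofNat (nat_lit 527244317393004688)],
  [.negSucc (nat_lit 339693913705107347), .ofNat (nat_lit 737893858048075710), .ofNat (nat_lit 2945291086724196672), .negSucc (nat_lit 825640291481741666), .negSucc (nat_lit 11444434078947247565), .negSucc (nat_lit 8699204492034289217), .ofNat (nat_lit 497870056426562127), .ofNat (nat_lit 9501737515487098164), .ofNat (nat_lit 11556894257514236286), .ofNat (nat_lit 49233571323297532020), .negSucc (nat_lit 178384225827408164), .negSucc (nat_lit 3986770923188885591), .negSucc (nat_lit 18472553912342256821), .negSucc (nat_lit 36708245699204993867), .negSucc (nat_lit 85758040419967589651), .ofNat (nat_lit 39704562505100439), .ofNat (nat_lit 859761464334519384), .ofNat (nat_lit 7399257641249222034), .ofNat (nat_lit 13574187121883350194), .ofNat (nat_lit 6409287224610247728), .ofNat (nat_lit 112083174591953019660), .ofNat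 (nat_lit 41234789829755161026), .negSucc (nat_lit 5569618928638391), .negSucc (nat_lit 79920494024898185), .negSucc (nat_lit 1580141200906754063), .negSucc (nat_lit 2599235390927265173), .negSucc (nat_lit 4128716281557831389), .negSucc (nat_lit 34923242828547467495), .negSucc (nat_lit 28826499934491869141), .negSucc (nat_lit 63109274460115867757), .ofNat (nat_lit 475158836344344), .negSucc (nat_lit 284966332590899), .ofNat (nat_lit 171259973955607836), .ofNat (nat_lit 236668022978569572), .ofNat (nat_lit 634237603077090804), .ofNat (nat_lit 5277372013670234040), .ofNat (nat_lit 462058315954536948), .ofNat (nat_lit 12470559988301990292), .ofNat (nat_lit 13928460955671480336), .ofNat (nat_lit 21740450873528074764), .negSucc (nat_lit 19754584007247), .ofNat (nat_lit 373819272344052), .negSucc (nat_lit 7356642803795657), .negSucc (nat_lit 7248860144952137), .negSucc (nat_lit 37670523446061113), .negSucc (nat_lit 312133860939320129), .negSucc (nat_lit 73440355223027471), .negSucc (nat_lit 984749421415690787), .negSucc (nat_lit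 1151519288866598951), .negSucc (nat_lit 687579258199799609), .negSucc (nat_lit 4842100410376875323), .negSucc (nat_lit 1225665750501763597)]],
  [[.negSucc (nat_lit 8951667843669479), .ofNat (nat_lit 48474411913012680), .ofNat (nat_lit 55306556257448376), .negSucc (nat_lit 85238194999046921), .negSucc (nat_lit 289064317349161007), .negSucc (nat_lit 148541446745083439), .ofNat (nat_lit 82950694306693407), .ofNat (nat_lit 283300773037354494), .ofNat (nat_lit 306446167547565588), .ofNat (nat_lit 812404768270670208), .negSucc (nat_lit 49170357435934106), .negSucc (nat_lit 154262063541284369), .negSucc (nat_lit 499027044293115371), .negSucc (nat_lit 595584673384015151), .negSucc (nat_lit 1281185626895455445), .ofNat (nat_lit 18222264070128702), .ofNat (nat_lit 51161863730831010), .ofNat (nat_lit 208157556663007650), .ofNat (nat_lit 234595550712978090), .ofNat (nat_lit 164171292936592572), .ofNat (nat_lit 1564191039779848926), .ofNat (nat_lit 537434178131025936), .negSucc (nat_lit 4124554531765568), .negSucc (nat_lit 10384554098934035),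 .negSucc (nat_lit 47685629483119979), .negSucc (nat_lit 53447219539274789), .negSucc (nat_lit 101478558357728189), .negSucc (nat_lit 469969041959472491), .negSucc (nat_lit 377743209320422619), .negSucc (nat_lit 727080274110644513), .ofNat (nat_lit 521004725366817), .ofNat (nat_lit 1199991767369952), .ofNat (nat_lit 5702671593201750), .ofNat (nat_lit 6815395160059578), .ofNat (nat_lit 15192493669278552), .ofNat (nat_lit 69489172786730436), .ofNat (nat_lit 10064776494712224), .ofNat (nat_lit 159737624152462824), .ofNat (nat_lit 147675967177447224), .ofNat (nat_lit 207243113706532338), .negSucc (nat_lit 28087502272139), .negSucc (nat_lit 60959213240741), .negSucc (nat_lit 279229852162007), .negSucc (nat_lit 391417037751689), .negSucc (nat_lit 888165776716127), .negSucc (nat_lit 3980605898781629), .negSucc (nat_lit 1432721247291161), .negSucc (nat_lit 12253675498477199), .negSucc (nat_lit 11800724587033409), .negSucc (nat_lit 9116561325041279), .negSucc (nat_lit 40340071424841821), .negSucc (nat_lit 6948675338582633)],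
  []],
  [[],
  []]],
  [[[.ofNat (nat_lit 17925904903669983), .negSucc (nat_lit 36363114162489860), .negSucc (nat_lit 85664550328931357), .ofNat (nat_lit 74740666839335343), .ofNat (nat_lit 275130847550665692), .negSucc (nat_lit 101440796760352709), .negSucc (nat_lit 77903472226905764), .negSucc (nat_lit 185189755278292811), .negSucc (nat_lit 214611720718172453), .ofNat (nat_lit 412279556948884782), .ofNat (nat_lit 32923282392923850), .ofNat (nat_lit 120395065007217924), .ofNat (nat_lit 179141314532131836), .negSucc (nat_lit 210206840962145687), .negSucc (nat_lit 687343511762236619), .negSucc (nat_lit 2748875540312600), .negSucc (nat_lit 72911218690409291), .negSucc (nat_lit 485767144184201), .ofNat (nat_lit 75617040218800626), .negSucc (nat_lit 45872575970895503), .ofNat (nat_lit 816757045502400936), .ofNat (nat_lit 316754644247805798), .negSucc (nat_lit 1972699443708119), .ofNat (nat_lit 26776984378443498), .negSucc (nat_lit 13633001910133091), .negSucc (nat_lit 26356212659333681), .ofNat (nat_lit 12597792386417874),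 .negSucc (nat_lit 212837995300955507), .negSucc (nat_lit 272261398576141997), .negSucc (nat_lit 450576055252477241), .ofNat (nat_lit 578770896985209), .negSucc (nat_lit 4953911086590515), .ofNat (nat_lit 2242133331949008), .ofNat (nat_lit 6456894416716086), .ofNat (nat_lit 3460296863597652), .ofNat (nat_lit 21941205669686988), .negSucc (nat_lit 2973920616185633), .ofNat (nat_lit 124213056028602876), .ofNat (nat_lit 96806798573074812), .ofNat (nat_lit 156547829323424844), .negSucc (nat_lit 47346772962123), .ofNat (nat_lit 358916383828314), .negSucc (nat_lit 41669883857375), .negSucc (nat_lit 668124155648969), .negSucc (nat_lit 755928892595039), .negSucc (nat_lit 449968590224549), .ofNat (nat_lit 185587580860974), .negSucc (nat_lit 7010038520471879), .negSucc (nat_lit 8234868434170877), .negSucc (nat_lit 8815050505752191), .negSucc (nat_lit 39243231339594677), .negSucc (nat_lit 4578883423600393)],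
  [.negSucc (nat_lit 32207801502158), .negSucc (nat_lit 65826844071043067), .ofNat (nat_lit 65826844071043068), .ofNat (nat_lit 9386298980083944), .ofNat (nat_lit 4754525095269702), .negSucc (nat_lit 14140824075353645), .ofNat (nat_lit 57130800324351012), .negSucc (nat_lit 227466640165121891), .ofNat (nat_lit 169279278708488724), .ofNat (nat_lit 1056561132282156), .negSucc (nat_lit 26234065961326439), .ofNat (nat_lit 88586369846439480), .negSucc (nat_lit 52468131922652879), .negSucc (nat_lit 39536687849840639), .ofNat (nat_lit 29652515887380480), .negSucc (nat_lit 4859063796795695), .ofNat (nat_lit 38785912893783936), .negSucc (nat_lit 96718349620092527), .negSucc (nat_lit 24325257896891711), .ofNat (nat_lit 53159970410094528), .ofNat (nat_lit 87176636245822464), .negSucc (nat_lit 53219848235920991), .ofNat (nat_lit 5504490463535712), .negSucc (nat_lit 31806788382695303), .ofNat (nat_lit 40107973057959888), .ofNat (nat_lit 35138457503961984), .negSucc (nat_lit 18090011203817039), .negSucc (nat_lit 73697482089112679), .ofNat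 (nat_lit 33410919536305920), .ofNat (nat_lit 9432441113861520), .negSucc (nat_lit 1255613042188943), .ofNat (nat_lit 7248096757925136), .negSucc (nat_lit 4323482200905983), .negSucc (nat_lit 11256029923279535), .negSucc (nat_lit 5405873101053983), .ofNat (nat_lit 16987244292320112), .ofNat (nat_lit 6533679165810192), .negSucc (nat_lit 11256029923279535), .ofNat (nat_lit 8184023923957632), .negSucc (nat_lit 5456015949305087), .ofNat (nat_lit 94308622623096), .negSucc (nat_lit 565851735738575), .negSucc (nat_lit 37277035084547), .ofNat (nat_lit 1168980506561700), .ofNat (nat_lit 1206257541646248), .negSucc (nat_lit 1206257541646247), .negSucc (nat_lit 603128770823123), .negSucc (nat_lit 3357833379346907), .ofNat (nat_lit 0), .ofNat (nat_lit 1377352304261892), .ofNat (nat_lit 5770348462639404), .negSucc (nat_lit 3846898975092935)]],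
  [[.ofNat (nat_lit 4026876341106753), .negSucc (nat_lit 3626641952732339), .ofNat (nat_lit 3626641952732340), .negSucc (nat_lit 4443682752912635), .ofNat (nat_lit 15144369235104078), .negSucc (nat_lit 10700686482191441), .ofNat (nat_lit 5506391232909252), .negSucc (nat_lit 18660149546058323), .ofNat (nat_lit 9788342927570388), .ofNat (nat_lit 3365415385578684), .negSucc (nat_lit 2245162410326555), .ofNat (nat_lit 7937372473345512), .negSucc (nat_lit 4490324820653111), .negSucc (nat_lit 4807540969463375), .ofNat (nat_lit 3605655727097532), .negSucc (nat_lit 420962224865255), .ofNat (nat_lit 3444986056576176), .negSucc (nat_lit 6306792243051707), .negSucc (nat_lit 4603704666850331), .ofNat (nat_lit 2363555703956148), .ofNat (nat_lit 12884260163239224), .negSucc (nat_lit 7361342789004251), .ofNat (nat_lit 597545731244772), .negSucc (nat_lit 3576681401496623), .ofNat (nat_lit 3843767866137678), .ofNat (nat_lit 5067860186701854), .negSucc (nat_lit 1453584941158589), .negSucc (nat_lit 10368434894156729), .ofNat (nat_lit 4355383737662370),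 .ofNat (nat_lit 1534143715065270), .negSucc (nat_lit 161058334628927), .ofNat (nat_lit 949467112312128), .negSucc (nat_lit 801990956143679), .negSucc (nat_lit 1334645460431231), .negSucc (nat_lit 69663112863167), .ofNat (nat_lit 1969938992977920), .ofNat (nat_lit 422244856042944), .negSucc (nat_lit 1334645460431231), .ofNat (nat_lit 1081057089495744), .negSucc (nat_lit 720704726330495), .ofNat (nat_lit 14017056585728), .negSucc (nat_lit 84102339514367), .ofNat (nat_lit 55860994160664), .ofNat (nat_lit 112343684868072), .ofNat (nat_lit 56482690707408), .negSucc (nat_lit 56482690707407), .negSucc (nat_lit 28241345353703), .negSucc (nat_lit 560475031246871), .ofNat (nat_lit 0), .ofNat (nat_lit 266116842946584), .ofNat (nat_lit 673440412661688), .negSucc (nat_lit 448960275107791)],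
  []],
  [[],
  []]],
  [[[.ofNat (nat_lit 2071367554776093), .negSucc (nat_lit 17072808003217691), .ofNat (nat_lit 17072808003217692), .negSucc (nat_lit 555334525272527), .ofNat (nat_lit 10202407577426430), .negSucc (nat_lit 9647073052153901), .ofNat (nat_lit 20143947167464932), .negSucc (nat_lit 78308586985987187), .ofNat (nat_lit 55897438134649716), .ofNat (nat_lit 2267201683872540), .negSucc (nat_lit 8511800289732467), .ofNat (nat_lit 28017841494031776), .negSucc (nat_lit 17023600579464935), .negSucc (nat_lit 9929762499337487), .ofNat (nat_lit 7447321874503116), .negSucc (nat_lit 2056853967648119), .ofNat (nat_lit 15272921383106544), .negSucc (nat_lit 32863417057010699), .negSucc (nat_lit 12648380343800219), .ofNat (nat_lit 16715552064334452), .ofNat (nat_lit 37023950996471736), .negSucc (nat_lit 21443773075453691), .ofNat (nat_lit 2034091035746964), .negSucc (nat_lit 11710204061294807), .ofNat (nat_lit 13978992121439886), .ofNat (nat_lit 13566320495642718), .negSucc (nat_lit 5842627978452029), .negSucc (nat_lit 27424060438682609),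 .ofNat (nat_lit 11069661625317090), .ofNat (nat_lit 4327827200282790), .negSucc (nat_lit 458511308786447), .ofNat (nat_lit 2646993350775312), .negSucc (nat_lit 1709364529955519), .negSucc (nat_lit 3981272279451119), .negSucc (nat_lit 1583640339056351), .ofNat (nat_lit 5817234121255728), .ofNat (nat_lit 2125619946539280), .negSucc (nat_lit 3981272279451119), .ofNat (nat_lit 3372639954390720), .negSucc (nat_lit 2248426636260479), .ofNat (nat_lit 34459133998632), .negSucc (nat_lit 206754803991791), .ofNat (nat_lit 24344920453140), .ofNat (nat_lit 389164687530444), .ofNat (nat_lit 364819767077304), .negSucc (nat_lit 364819767077303), .negSucc (nat_lit 182409883538651), .negSucc (nat_lit 1264873744403891), .ofNat (nat_lit 0), .ofNat (nat_lit 541231930432620), .ofNat (nat_lit 1994513278558500), .negSucc (nat_lit 1329675519038999)],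
  [.ofNat (nat_lit 2390022107398836), .ofNat (nat_lit 31806510077021040), .negSucc (nat_lit 31806510077021039), .ofNat (nat_lit 6550109052344424), .negSucc (nat_lit 35553582195543791), .ofNat (nat_lit 29003473143199368), .negSucc (nat_lit 44022481627545359), .ofNat (nat_lit 168189130466727264), .negSucc (nat_lit 116265852795727727), .negSucc (nat_lit 7900796043454175), .ofNat (nat_lit 15942017053244052), .negSucc (nat_lit 48668423056424783), .ofNat (nat_lit 31884034106488104), .ofNat (nat_lit 3369487586770512), .negSucc (nat_lit 2527115690077883), .ofNat (nat_lit 5291154719031096), .negSucc (nat_lit 36222765367503023), .ofNat (nat_lit 70170659444387268), .ofNat (nat_lit 31575846607661412), .negSucc (nat_lit 34763211742598891), .negSucc (nat_lit 81055041428588615), .ofNat (nat_lit 45003357767610756), .negSucc (nat_lit 4251075026128235), .ofNat (nat_lit 24104941513339392), .negSucc (nat_lit 28245318662660273), .negSucc (nat_lit 27111754868683121), .ofNat (nat_lit 11241018558147330), .ofNat (nat_lit 52757852312967030), .negSucc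 (nat_lit 18481307254488269), .negSucc (nat_lit 10014356572493849), .ofNat (nat_lit 895491943533984), .negSucc (nat_lit 5135180860035743), .ofNat (nat_lit 3228932192785152), .ofNat (nat_lit 7643559408513504), .ofNat (nat_lit 3214449711179328), .negSucc (nat_lit 10758150096123743), .negSucc (nat_lit 4232447675698847), .ofNat (nat_lit 7643559408513504), .negSucc (nat_lit 7500642098001407), .ofNat (nat_lit 5000428065334272), .negSucc (nat_lit 63945111063343), .ofNat (nat_lit 383670666380064), .negSucc (nat_lit 35730922787447), .negSucc (nat_lit 731610409972679), .negSucc (nat_lit 695879487185231), .ofNat (nat_lit 695879487185232), .ofNat (nat_lit 347939743592616), .ofNat (nat_lit 2337754921067832), .ofNat (nat_lit 0), .negSucc (nat_lit 994907588737607), .negSucc (nat_lit 3729513895438295), .ofNat (nat_lit 2486342596958864)]],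
  [[.negSucc (nat_lit 5315387911473149), .ofNat (nat_lit 320511560468328), .negSucc (nat_lit 320511560468327), .ofNat (nat_lit 2092055025978414), .negSucc (nat_lit 6436420858169405), .ofNat (nat_lit 4344365832190992), .negSucc (nat_lit 2888997600774275), .ofNat (nat_lit 10125674656837236), .negSucc (nat_lit 5806361309803091), .negSucc (nat_lit 1430315746259867), .ofNat (nat_lit 1766879758908900), .negSucc (nat_lit 7025229530528759), .ofNat (nat_lit 3533759517817800), .ofNat (nat_lit 6898361015208240), .negSucc (nat_lit 5173770761406179), .ofNat (nat_lit 50751786244896), .negSucc (nat_lit 1235569387525631), .ofNat (nat_lit 4011939872035704), .ofNat (nat_lit 1404630271919016), .negSucc (nat_lit 1896063600698711), .negSucc (nat_lit 6533495224063055), .ofNat (nat_lit 4197806282087784), .negSucc (nat_lit 375368651285255), .ofNat (nat_lit 2326659995443752), .negSucc (nat_lit 2729515377685283), .negSucc (nat_lit 3347702917986851), .ofNat (nat_lit 1228040772544260), .ofNat (nat_lit 7396053569144100), .negSucc (nat_lit 3849364906292699),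 .negSucc (nat_lit 648802483882019), .ofNat (nat_lit 114700392645072), .negSucc (nat_lit 681835886788367), .ofNat (nat_lit 539252180327712), .ofNat (nat_lit 1021988033128848), .ofNat (nat_lit 179250926845632), .negSucc (nat_lit 1651360573153295), .negSucc (nat_lit 387134867402255), .ofNat (nat_lit 1021988033128848), .negSucc (nat_lit 470544716196575), .ofNat (nat_lit 313696477464384), .negSucc (nat_lit 10532464790847), .ofNat (nat_lit 63194788745088), .negSucc (nat_lit 27178534807535), .negSucc (nat_lit 99211042682639), .negSucc (nat_lit 72032507875103), .ofNat (nat_lit 72032507875104), .ofNat (nat_lit 36016253937552), .ofNat (nat_lit 406347267278064), .ofNat (nat_lit 0), .negSucc (nat_lit 185165506670255), .negSucc (nat_lit 550412283028271), .ofNat (nat_lit 366941522018848)],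
  []],
  [[],
  []]]],
  [[.ofNat (nat_lit 281716220217618), .negSucc (nat_lit 2354864689454795)],
  [.ofNat (nat_lit 1218152753936748), .ofNat (nat_lit 0)],
  [.ofNat (nat_lit 0), .ofNat (nat_lit 0)]],
  [[[[.negSucc (nat_lit 24424306233253678079), .negSucc (nat_lit 9486175023501806591), .negSucc (nat_lit 17608431368178091007), .ofNat (nat_lit 307861560858622934016), .negSucc (nat_lit 160735840830747187199), .negSucc (nat_lit 373343620388940306431), .ofNat (nat_lit 23986090251934654464), .ofNat (nat_lit 334424846084400958464), .ofNat (nat_lit 19929603744440709120), .negSucc (nat_lit 80274628355988989951), .ofNat (nat_lit 0), .ofNat (nat_lit 0)],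
  [.ofNat (nat_lit 49379881023913577472), .ofNat (nat_lit 73046621564620148736), .negSucc (nat_lit 13211738543648867327), .negSucc (nat_lit 810338697073863309311), .ofNat (nat_lit 461204820407824229376), .ofNat (nat_lit 949003732191972731904), .negSucc (nat_lit 72738418485984482303), .negSucc (nat_lit 891907627985716737023), .negSucc (nat_lit 41112067983532701695), .ofNat (nat_lit 220357698900409681920), .ofNat (nat_lit 0), .ofNat (nat_lit 0)]],
  [[.ofNat (nat_lit 352266527061135360), .negSucc (nat_lit 6258715056926530559), .negSucc (nat_lit 240366899861342207), .ofNat (nat_lit 19054174923979960320), .negSucc (nat_lit 7387390303368053759), .negSucc (nat_lit 13865849174015004671), .negSucc (nat_lit 2471384508923575295), .ofNat (nat_lit 16152190084261831680), .negSucc (nat_lit 3354715129005453311), .ofNat (nat_lit 860463932684544000), .ofNat (nat_lit 0), .ofNat (nat_lit 0)],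
  []]],
  [[[.ofNat (nat_lit 21990951061247102976), .ofNat (nat_lit 136656485116536960000), .negSucc (nat_lit 142664766671821906943), .negSucc (nat_lit 972239428543638057983), .ofNat (nat_lit 940190627504327639040), .ofNat (nat_lit 1242518413658380821504), .negSucc (nat_lit 452382325891374643199), .negSucc (nat_lit 1442518882224233287679), .negSucc (nat_lit 187618079508614719487), .ofNat (nat_lit 818256489414730159104), .ofNat (nat_lit 0), .ofNat (nat_lit 0)],
  [.negSucc (nat_lit 42269579091613264895), .negSucc (nat_lit 401590287544018655231), .ofNat (nat_lit 373560128243436690432), .ofNat (nat_lit 2400545885289887591424), .negSucc (nat_lit 2272244620087877649407), .negSucc (nat_lit 2971452813186927974399), .ofNat (nat_lit 1016880690040607499264), .ofNat (nat_lit 3487352644442759344128), .ofNat (nat_lit 405950353438108981248), .negSucc (nat_lit 1894210988520630039551), .ofNat (nat_lit 0), .ofNat (nat_lit 0)]],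
  [[.negSucc (nat_lit 959496886730732543), .ofNat (nat_lit 4653756953845871616), .ofNat (nat_lit 21463572621193675776), .negSucc (nat_lit 20850345030271269887), .negSucc (nat_lit 40396594895263116287), .ofNat (nat_lit 150136484476243968), .ofNat (nat_lit 42470701252876818432), .ofNat (nat_lit 17624712689782502400), .ofNat (nat_lit 16961189504473525248), .negSucc (nat_lit 47641619950794805247), .ofNat (nat_lit 0), .ofNat (nat_lit 0)],
  []]],
  [[[.negSucc (nat_lit 1858706302886452223), .negSucc (nat_lit 113714214381574548479), .ofNat (nat_lit 202584391680299535360), .ofNat (nat_lit 610843008127069532160), .negSucc (nat_lit 895629712159363857407), .negSucc (nat_lit 831528799956085837823), .ofNat (nat_lit 509058398723111470080), .ofNat (nat_lit 1123307590645981209600), .ofNat (nat_lit 189592959011036147712), .negSucc (nat_lit 803725845367723941887), .ofNat (nat_lit 0), .ofNat (nat_lit 0)],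
  [.ofNat (nat_lit 346164769864793088), .ofNat (nat_lit 297256283937044619264), .negSucc (nat_lit 476815305468724909055), .negSucc (nat_lit 1464953797721513392127), .ofNat (nat_lit 2055288757954472478720), .ofNat (nat_lit 1940148068750229998592), .negSucc (nat_lit 1129655468587397925887), .negSucc (nat_lit 2587673985830161588223), .negSucc (nat_lit 426670220474147837951), .ofNat (nat_lit 1812349381560473567232), .ofNat (nat_lit 0), .ofNat (nat_lit 0)]],
  [[.negSucc (nat_lit 741430464278298623), .negSucc (nat_lit 48893103961261055), .negSucc (nat_lit 14072194928468312063), .negSucc (nat_lit 4520275313406124031), .ofNat (nat_lit 65099762509281804288), .ofNat (nat_lit 19198959768148414464), .negSucc (nat_lit 44160051552144804863), .negSucc (nat_lit 66051166565326113791), .negSucc (nat_lit 7935142727043698687), .ofNat (nat_lit 58004277866613808128), .ofNat (nat_lit 0), .ofNat (nat_lit 0)],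
  []]]]⟩

noncomputable def BP4_A : L6 := [[[[[[.negSucc (nat_lit 2376571834683224063), .ofNat (nat_lit 28547827606546993152), .negSucc (nat_lit 352266527061135359)],
  [.negSucc (nat_lit 32980788738210815), .negSucc (nat_lit 49379881023913577471), .ofNat (nat_lit 0)],
  [],
  [],
  [],
  [],
  [],
  [],
  []],
  [[.negSucc (nat_lit 24424306233253678079), .ofNat (nat_lit 352266527061135360), .ofNat (nat_lit 0)],
  [.ofNat (nat_lit 49379881023913577472), .ofNat (nat_lit 0), .ofNat (nat_lit 0)],
  [],
  [],
  [],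
  [],
  [],
  [],
  []],
  [[.ofNat (nat_lit 7272189477024095232), .ofNat (nat_lit 2954088716691990528), .ofNat (nat_lit 0)],
  [.negSucc (nat_lit 4502878185894331391), .ofNat (nat_lit 2954088716691990528), .ofNat (nat_lit 0)],
  [.negSucc (nat_lit 11775067662918426623), .ofNat (nat_lit 0), .ofNat (nat_lit 0)],
  [],
  [],
  [],
  [],
  [],
  []],
  [[.ofNat (nat_lit 33708309824757353472), .negSucc (nat_lit 3116341324952322047), .ofNat (nat_lit 0)],
  [.negSucc (nat_lit 58650265750431237119), .ofNat (nat_lit 0), .ofNat (nat_lit 0)],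
  [.negSucc (nat_lit 33708309824757353471), .ofNat (nat_lit 3116341324952322048), .ofNat (nat_lit 0)],
  [.ofNat (nat_lit 58650265750431237120), .ofNat (nat_lit 0), .ofNat (nat_lit 0)],
  [],
  [],
  [],
  [],
  []],
  [[.negSucc (nat_lit 31116774243175455743), .negSucc (nat_lit 3247250552295432191), .ofNat (nat_lit 0)],
  [.ofNat (nat_lit 56854769060396381184), .ofNat (nat_lit 0), .ofNat (nat_lit 0)],
  [],
  [.negSucc (nat_lit 31116774243175455743), .negSucc (nat_lit 3247250552295432191), .ofNat (nat_lit 0)],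
  [.ofNat (nat_lit 56854769060396381184), .ofNat (nat_lit 0), .ofNat (nat_lit 0)],
  [],
  [],
  [],
  []],
  [[.negSucc (nat_lit 19663455995406038015), .ofNat (nat_lit 5786984887017136128), .ofNat (nat_lit 0)],
  [.ofNat (nat_lit 33325964029359479808), .ofNat (nat_lit 0), .ofNat (nat_lit 0)],
  [],
  [],
  [.ofNat (nat_lit 19663455995406038016), .negSucc (nat_lit 5786984887017136127), .ofNat (nat_lit 0)],
  [.negSucc (nat_lit 33325964029359479807), .ofNat (nat_lit 0), .ofNat (nat_lit 0)],
  [],
  [],
  []],
  [[.ofNat (nat_lit 5214279165640694784), .ofNat (nat_lit 3306797453449995264), .ofNat (nat_lit 0)],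
  [.negSucc (nat_lit 8842556181005899775), .ofNat (nat_lit 0), .ofNat (nat_lit 0)],
  [],
  [],
  [.negSucc (nat_lit 5214279165640694783), .negSucc (nat_lit 3306797453449995263), .ofNat (nat_lit 0)],
  [.ofNat (nat_lit 8842556181005899776), .ofNat (nat_lit 0), .ofNat (nat_lit 0)],
  [],
  [],
  []],
  [[.ofNat (nat_lit 36191147464677030912), .negSucc (nat_lit 7083557905148282879), .ofNat (nat_lit 0)],
  [.negSucc (nat_lit 68637366473748793343), .ofNat (nat_lit 0), .ofNat (nat_lit 0)],
  [],
  [],
  [],
  [.ofNat (nat_lit 36191147464677030912), .negSucc (nat_lit 7083557905148282879), .ofNat (nat_lit 0)],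
  [.negSucc (nat_lit 68637366473748793343), .ofNat (nat_lit 0), .ofNat (nat_lit 0)],
  [],
  []],
  [[.negSucc (nat_lit 55487591258231807), .ofNat (nat_lit 90065974031806464), .ofNat (nat_lit 0)],
  [.ofNat (nat_lit 68249701080050688), .ofNat (nat_lit 0), .ofNat (nat_lit 0)],
  [],
  [],
  [],
  [],
  [.ofNat (nat_lit 55487591258231808), .negSucc (nat_lit 90065974031806463), .ofNat (nat_lit 0)],
  [.negSucc (nat_lit 68249701080050687), .ofNat (nat_lit 0), .ofNat (nat_lit 0)],
  []],
  [[.negSucc (nat_lit 16999110193333404671), .ofNat (nat_lit 2234348643964437504), .ofNat (nat_lit 0)],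
  [.ofNat (nat_lit 35004199788820758528), .ofNat (nat_lit 0), .ofNat (nat_lit 0)],
  [],
  [],
  [],
  [],
  [.ofNat (nat_lit 16999110193333404672), .negSucc (nat_lit 2234348643964437503), .ofNat (nat_lit 0)],
  [.negSucc (nat_lit 35004199788820758527), .ofNat (nat_lit 0), .ofNat (nat_lit 0)],
  []],
  [[],
  [],
  [],
  [],
  [],
  [],
  [],
  [],
  []],
  [[],
  [],
  [],
  [],
  [],
  [],
  [],
  [],
  []]],
  [],
  [],
  [],
  [],
  [],
  [],
  [],
  [],
  [],
  [],
  []],
  [[],
  [],
  [],
  [],
  [],
  [],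
  [],
  [],
  [],
  [],
  [],
  []],
  [[],
  [[[.ofNat (nat_lit 28608592793283016704), .ofNat (nat_lit 6700914003803369472), .ofNat (nat_lit 6258715056926530560)],
  [.negSucc (nat_lit 50555016246561076223), .negSucc (nat_lit 73046621564620148735), .ofNat (nat_lit 0)],
  [],
  [],
  [],
  [],
  [],
  [],
  []],
  [[.negSucc (nat_lit 136410824121379195391), .negSucc (nat_lit 4513090750561119743), .ofNat (nat_lit 0)],
  [.ofNat (nat_lit 281062429717384571904), .ofNat (nat_lit 0), .ofNat (nat_lit 0)],
  [],
  [],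
  [],
  [],
  [],
  [],
  []],
  [[],
  [.negSucc (nat_lit 18837455393539150847), .negSucc (nat_lit 34316633659066988543), .ofNat (nat_lit 0)],
  [.ofNat (nat_lit 28143216228615856128), .ofNat (nat_lit 0), .ofNat (nat_lit 0)],
  [],
  [],
  [],
  [],
  [],
  []],
  [[],
  [],
  [.ofNat (nat_lit 291937277000198142720), .negSucc (nat_lit 31334746316724603647), .ofNat (nat_lit 0)],
  [.negSucc (nat_lit 430268242276485748223), .ofNat (nat_lit 0), .ofNat (nat_lit 0)],
  [],
  [],
  [],
  [],
  []],
  [[],
  [],
  [],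
  [.ofNat (nat_lit 138965931668040049152), .ofNat (nat_lit 80004130986978067968), .ofNat (nat_lit 0)],
  [.negSucc (nat_lit 267634692817339507199), .ofNat (nat_lit 0), .ofNat (nat_lit 0)],
  [],
  [],
  [],
  []],
  [[],
  [],
  [],
  [],
  [.negSucc (nat_lit 184400929542104631935), .ofNat (nat_lit 52737355976027900544), .ofNat (nat_lit 0)],
  [.ofNat (nat_lit 183419057247709462272), .ofNat (nat_lit 0), .ofNat (nat_lit 0)],
  [],
  [],
  []],
  [[],
  [],
  [],
  [],
  [.negSucc (nat_lit 72023727993465692159), .ofNat (nat_lit 49306750705410269184), .ofNat (nat_lit 0)],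
  [.ofNat (nat_lit 124300800899746891776), .ofNat (nat_lit 0), .ofNat (nat_lit 0)],
  [],
  [],
  []],
  [[],
  [],
  [],
  [],
  [],
  [.negSucc (nat_lit 240216622855055138303), .negSucc (nat_lit 22108446257538788351), .ofNat (nat_lit 0)],
  [.ofNat (nat_lit 420374378232811676160), .ofNat (nat_lit 0), .ofNat (nat_lit 0)],
  [],
  []],
  [[],
  [],
  [],
  [],
  [],
  [],
  [.negSucc (nat_lit 79531483199637232511), .negSucc (nat_lit 20715243446272228991), .ofNat (nat_lit 0)],
  [.ofNat (nat_lit 238040591142969372672), .ofNat (nat_lit 0), .ofNat (nat_lit 0)],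
  []],
  [[],
  [],
  [],
  [],
  [],
  [],
  [.ofNat (nat_lit 76345992160771230720), .negSucc (nat_lit 51112691706520235519), .ofNat (nat_lit 0)],
  [.negSucc (nat_lit 125194097154707956223), .ofNat (nat_lit 0), .ofNat (nat_lit 0)],
  []],
  [[],
  [],
  [],
  [],
  [],
  [],
  [],
  [.negSucc (nat_lit 66008053572486865919), .negSucc (nat_lit 11935801489277873663), .ofNat (nat_lit 0)],
  [.ofNat (nat_lit 190706386956567957504), .ofNat (nat_lit 0), .ofNat (nat_lit 0)]],
  [[],
  [],
  [],
  [],
  [],
  [],
  [],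
  [.ofNat (nat_lit 118993771353333832704), .negSucc (nat_lit 15640440507751062527), .ofNat (nat_lit 0)],
  [.negSucc (nat_lit 245029398521745309695), .ofNat (nat_lit 0), .ofNat (nat_lit 0)]]],
  [],
  [],
  [],
  [],
  [],
  [],
  [],
  [],
  [],
  []],
  [[],
  [],
  [[[.negSucc (nat_lit 4500661821526121471), .ofNat (nat_lit 9854514319804803072), .ofNat (nat_lit 240366899861342208)],
  [.negSucc (nat_lit 2434316848778087423), .ofNat (nat_lit 13211738543648867328), .ofNat (nat_lit 0)],
  [],
  [],
  [],
  [],
  [],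
  [],
  []],
  [[.ofNat (nat_lit 1229024025361059840), .ofNat (nat_lit 34076266759205646336), .ofNat (nat_lit 0)],
  [.negSucc (nat_lit 41354954772264723455), .ofNat (nat_lit 0), .ofNat (nat_lit 0)],
  [],
  [],
  [],
  [],
  [],
  [],
  []],
  [[],
  [.negSucc (nat_lit 134430440782228084223), .ofNat (nat_lit 34338567043630656000), .ofNat (nat_lit 0)],
  [.ofNat (nat_lit 246596287594689538560), .ofNat (nat_lit 0), .ofNat (nat_lit 0)],
  [],
  [],
  [],
  [],
  [],
  []],
  [[],
  [],
  [.ofNat (nat_lit 30807149044734540288), .negSucc (nat_lit 96659513050137933311), .ofNat (nat_lit 0)],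
  [.ofNat (nat_lit 37770705333055597824), .ofNat (nat_lit 0), .ofNat (nat_lit 0)],
  [],
  [],
  [],
  [],
  []],
  [[],
  [],
  [],
  [.ofNat (nat_lit 565993021042444780800), .negSucc (nat_lit 108870870824178045695), .ofNat (nat_lit 0)],
  [.negSucc (nat_lit 999508772283325394687), .ofNat (nat_lit 0), .ofNat (nat_lit 0)],
  [],
  [],
  [],
  []],
  [[],
  [],
  [],
  [],
  [.ofNat (nat_lit 47355194807832024576), .ofNat (nat_lit 109550975806240978176), .ofNat (nat_lit 0)],
  [.negSucc (nat_lit 318053500905940519679), .ofNat (nat_lit 0), .ofNat (nat_lit 0)],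
  [],
  [],
  []],
  [[],
  [],
  [],
  [],
  [.ofNat (nat_lit 173568580398894601728), .negSucc (nat_lit 43365465086211666431), .ofNat (nat_lit 0)],
  [.negSucc (nat_lit 223753738010230665215), .ofNat (nat_lit 0), .ofNat (nat_lit 0)],
  [],
  [],
  []],
  [[],
  [],
  [],
  [],
  [],
  [.negSucc (nat_lit 465686708577064765055), .ofNat (nat_lit 94249108700734951296), .ofNat (nat_lit 0)],
  [.ofNat (nat_lit 753142410013629086208), .ofNat (nat_lit 0), .ofNat (nat_lit 0)],
  [],
  []],
  [[],
  [],
  [],
  [],
  [],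
  [],
  [.negSucc (nat_lit 140359195517796643967), .negSucc (nat_lit 42981104468454585983), .ofNat (nat_lit 0)],
  [.ofNat (nat_lit 429017688809176891392), .ofNat (nat_lit 0), .ofNat (nat_lit 0)],
  []],
  [[],
  [],
  [],
  [],
  [],
  [],
  [.negSucc (nat_lit 171925660298276605439), .ofNat (nat_lit 32663837940103494144), .ofNat (nat_lit 0)],
  [.ofNat (nat_lit 131038171833929918976), .ofNat (nat_lit 0), .ofNat (nat_lit 0)],
  []],
  [[],
  [],
  [],
  [],
  [],
  [],
  [],
  [.negSucc (nat_lit 114326468737178359679), .negSucc (nat_lit 30507152911383636863), .ofNat (nat_lit 0)],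
  [.ofNat (nat_lit 341266819484609579520), .ofNat (nat_lit 0), .ofNat (nat_lit 0)]],
  [[],
  [],
  [],
  [],
  [],
  [],
  [],
  [.ofNat (nat_lit 143944141351874568192), .ofNat (nat_lit 8925886431112214016), .ofNat (nat_lit 0)],
  [.negSucc (nat_lit 423857481919751849471), .ofNat (nat_lit 0), .ofNat (nat_lit 0)]]],
  [],
  [],
  [],
  [],
  [],
  [],
  [],
  [],
  []],
  [[],
  [],
  [],
  [[[.negSucc (nat_lit 53952137941601276927), .negSucc (nat_lit 300284996070249068543), .negSucc (nat_lit 19054174923979960319)],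
  [.ofNat (nat_lit 98113443748284026880), .ofNat (nat_lit 810338697073863309312), .ofNat (nat_lit 0)],
  [],
  [],
  [],
  [],
  [],
  [],
  []],
  [[.ofNat (nat_lit 599798837858821076736), .negSucc (nat_lit 12280571392744643327), .ofNat (nat_lit 0)],
  [.negSucc (nat_lit 1240606939350349057535), .ofNat (nat_lit 0), .ofNat (nat_lit 0)],
  [],
  [],
  [],
  [],
  [],
  [],
  []],
  [[],
  [.negSucc (nat_lit 30807149044734540287), .ofNat (nat_lit 96659513050137933312), .ofNat (nat_lit 0)],
  [.negSucc (nat_lit 37770705333055597823), .ofNat (nat_lit 0), .ofNat (nat_lit 0)],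
  [],
  [],
  [],
  [],
  [],
  []],
  [[],
  [],
  [.negSucc (nat_lit 1005742775729295614591), .ofNat (nat_lit 80551564556211190656), .ofNat (nat_lit 0)],
  [.ofNat (nat_lit 1588489308007253550720), .ofNat (nat_lit 0), .ofNat (nat_lit 0)],
  [],
  [],
  [],
  [],
  []],
  [[],
  [],
  [],
  [.ofNat (nat_lit 231004334223470666880), .negSucc (nat_lit 265300796332038830975), .ofNat (nat_lit 0)],
  [.negSucc (nat_lit 497688589144790239103), .ofNat (nat_lit 0), .ofNat (nat_lit 0)],
  [],
  [],
  [],
  []],
  [[],
  [],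
  [],
  [],
  [.ofNat (nat_lit 1250143375408895739456), .negSucc (nat_lit 49325989800488728319), .ofNat (nat_lit 0)],
  [.negSucc (nat_lit 2301717118508773291583), .ofNat (nat_lit 0), .ofNat (nat_lit 0)],
  [],
  [],
  []],
  [[],
  [],
  [],
  [],
  [.ofNat (nat_lit 270018696201024930048), .negSucc (nat_lit 86556253543950210047), .ofNat (nat_lit 0)],
  [.negSucc (nat_lit 493210463711795875583), .ofNat (nat_lit 0), .ofNat (nat_lit 0)],
  [],
  [],
  []],
  [[],
  [],
  [],
  [],
  [],
  [.negSucc (nat_lit 156153255557304964607), .ofNat (nat_lit 197979588574078604544), .ofNat (nat_lit 0)],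
  [.ofNat (nat_lit 567761661699645878784), .ofNat (nat_lit 0), .ofNat (nat_lit 0)],
  [],
  []],
  [[],
  [],
  [],
  [],
  [],
  [],
  [.negSucc (nat_lit 359952974766268481951), .negSucc (nat_lit 5086758536648301311), .ofNat (nat_lit 0)],
  [.ofNat (nat_lit 799024521912595665696), .ofNat (nat_lit 0), .ofNat (nat_lit 0)],
  []],
  [[],
  [],
  [],
  [],
  [],
  [],
  [.negSucc (nat_lit 1284708873844689083135), .ofNat (nat_lit 112288825191668133888), .ofNat (nat_lit 0)],
  [.ofNat (nat_lit 2891092058044093605888), .ofNat (nat_lit 0), .ofNat (nat_lit 0)],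
  []],
  [[],
  [],
  [],
  [],
  [],
  [],
  [],
  [.negSucc (nat_lit 268755814625856546239), .negSucc (nat_lit 32929255966169339711), .ofNat (nat_lit 0)],
  [.ofNat (nat_lit 623866510869904068480), .ofNat (nat_lit 0), .ofNat (nat_lit 0)]],
  [[],
  [],
  [],
  [],
  [],
  [],
  [],
  [.negSucc (nat_lit 492104726315436211199), .ofNat (nat_lit 28093413090478602240), .ofNat (nat_lit 0)],
  [.ofNat (nat_lit 1120322952738854682624), .ofNat (nat_lit 0), .ofNat (nat_lit 0)]]],
  [],
  [],
  [],
  [],
  [],
  [],
  [],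
  []],
  [[],
  [],
  [],
  [],
  [[[.ofNat (nat_lit 32492278588438738944), .ofNat (nat_lit 155970642155665213440), .ofNat (nat_lit 7387390303368053760)],
  [.negSucc (nat_lit 49929852105842595839), .negSucc (nat_lit 461204820407824229375), .ofNat (nat_lit 0)],
  [],
  [],
  [],
  [],
  [],
  [],
  []],
  [[.negSucc (nat_lit 299701772498787236351), .negSucc (nat_lit 87391521290346121727), .ofNat (nat_lit 0)],
  [.ofNat (nat_lit 728839513225163736576), .ofNat (nat_lit 0), .ofNat (nat_lit 0)],
  [],
  [],
  [],
  [],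
  [],
  [],
  []],
  [[],
  [.ofNat (nat_lit 565993021042444780800), .negSucc (nat_lit 108870870824178045695), .ofNat (nat_lit 0)],
  [.negSucc (nat_lit 999508772283325394687), .ofNat (nat_lit 0), .ofNat (nat_lit 0)],
  [],
  [],
  [],
  [],
  [],
  []],
  [[],
  [],
  [.negSucc (nat_lit 231004334223470666879), .ofNat (nat_lit 265300796332038830976), .ofNat (nat_lit 0)],
  [.ofNat (nat_lit 497688589144790239104), .ofNat (nat_lit 0), .ofNat (nat_lit 0)],
  [],
  [],
  [],
  [],
  []],
  [[],
  [],
  [],
  [.negSucc (nat_lit 1834817241954819568895), .ofNat (nat_lit 204673652931184565760), .ofNat (nat_lit 0)],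
  [.ofNat (nat_lit 3709756543438621429632), .ofNat (nat_lit 0), .ofNat (nat_lit 0)],
  [],
  [],
  [],
  []],
  [[],
  [],
  [],
  [],
  [.ofNat (nat_lit 887654977478556800832), .negSucc (nat_lit 253307109448771482815), .ofNat (nat_lit 0)],
  [.negSucc (nat_lit 1802282226818056629695), .ofNat (nat_lit 0), .ofNat (nat_lit 0)],
  [],
  [],
  []],
  [[],
  [],
  [],
  [],
  [.negSucc (nat_lit 605869738657092154367), .ofNat (nat_lit 153428179357502396928), .ofNat (nat_lit 0)],
  [.ofNat (nat_lit 877220783154733817088), .ofNat (nat_lit 0), .ofNat (nat_lit 0)],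
  [],
  [],
  []],
  [[],
  [],
  [],
  [],
  [],
  [.ofNat (nat_lit 2171429934082180887744), .negSucc (nat_lit 21879915295500520703), .ofNat (nat_lit 0)],
  [.negSucc (nat_lit 4839412201823781251711), .ofNat (nat_lit 0), .ofNat (nat_lit 0)],
  [],
  []],
  [[],
  [],
  [],
  [],
  [],
  [],
  [.negSucc (nat_lit 221416376341312018367), .ofNat (nat_lit 40711700245894301376), .ofNat (nat_lit 0)],
  [.ofNat (nat_lit 399459176098940656512), .ofNat (nat_lit 0), .ofNat (nat_lit 0)],
  []],
  [[],
  [],
  [],
  [],
  [],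
  [],
  [.ofNat (nat_lit 788120986278333641472), .negSucc (nat_lit 155226146282741456639), .ofNat (nat_lit 0)],
  [.negSucc (nat_lit 1283699562992712350207), .ofNat (nat_lit 0), .ofNat (nat_lit 0)],
  []],
  [[],
  [],
  [],
  [],
  [],
  [],
  [],
  [.ofNat (nat_lit 22147347628040336640), .negSucc (nat_lit 66755518688691131039), .ofNat (nat_lit 0)],
  [.negSucc (nat_lit 79512789262421443679), .ofNat (nat_lit 0), .ofNat (nat_lit 0)]],
  [[],
  [],
  [],
  [],
  [],
  [],
  [],
  [.negSucc (nat_lit 667645713294919944191), .negSucc (nat_lit 47019831696087063551), .ofNat (nat_lit 0)],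
  [.ofNat (nat_lit 1865677339561576882176), .ofNat (nat_lit 0), .ofNat (nat_lit 0)]]],
  [],
  [],
  [],
  [],
  [],
  [],
  []],
  [[],
  [],
  [],
  [],
  [],
  [[[.ofNat (nat_lit 25273310467321073664), .ofNat (nat_lit 370855826765903913984), .ofNat (nat_lit 13865849174015004672)],
  [.negSucc (nat_lit 38089413219371977727), .negSucc (nat_lit 949003732191972731903), .ofNat (nat_lit 0)],
  [],
  [],
  [],
  [],
  [],
  [],
  []],
  [[.negSucc (nat_lit 557744549931044938367), .ofNat (nat_lit 38871506802012895872), .ofNat (nat_lit 0)],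
  [.ofNat (nat_lit 1132422789439682194176), .ofNat (nat_lit 0), .ofNat (nat_lit 0)],
  [],
  [],
  [],
  [],
  [],
  [],
  []],
  [[],
  [.negSucc (nat_lit 47355194807832024575), .negSucc (nat_lit 109550975806240978175), .ofNat (nat_lit 0)],
  [.ofNat (nat_lit 318053500905940519680), .ofNat (nat_lit 0), .ofNat (nat_lit 0)],
  [],
  [],
  [],
  [],
  [],
  []],
  [[],
  [],
  [.ofNat (nat_lit 1250143375408895739456), .negSucc (nat_lit 49325989800488728319), .ofNat (nat_lit 0)],
  [.negSucc (nat_lit 2301717118508773291583), .ofNat (nat_lit 0), .ofNat (nat_lit 0)],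
  [],
  [],
  [],
  [],
  []],
  [[],
  [],
  [],
  [.negSucc (nat_lit 887654977478556800831), .ofNat (nat_lit 253307109448771482816), .ofNat (nat_lit 0)],
  [.ofNat (nat_lit 1802282226818056629696), .ofNat (nat_lit 0), .ofNat (nat_lit 0)],
  [],
  [],
  [],
  []],
  [[],
  [],
  [],
  [],
  [.negSucc (nat_lit 3073645186639063702847), .negSucc (nat_lit 59959442622659619743), .ofNat (nat_lit 0)],
  [.ofNat (nat_lit 6820314458409298690272), .ofNat (nat_lit 0), .ofNat (nat_lit 0)],
  [],
  [],
  []],
  [[],
  [],
  [],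
  [],
  [.ofNat (nat_lit 87194955574544334336), .ofNat (nat_lit 26349159674124664704), .ofNat (nat_lit 0)],
  [.negSucc (nat_lit 338433958185081943679), .ofNat (nat_lit 0), .ofNat (nat_lit 0)],
  [],
  [],
  []],
  [[],
  [],
  [],
  [],
  [],
  [.ofNat (nat_lit 582028645813338366144), .negSucc (nat_lit 84432656087616652415), .ofNat (nat_lit 0)],
  [.negSucc (nat_lit 1505925700640462455199), .ofNat (nat_lit 0), .ofNat (nat_lit 0)],
  [],
  []],
  [[],
  [],
  [],
  [],
  [],
  [],
  [.ofNat (nat_lit 2032688797884851485392), .ofNat (nat_lit 18653422397107702752), .ofNat (nat_lit 0)],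
  [.negSucc (nat_lit 4715607001006845921167), .ofNat (nat_lit 0), .ofNat (nat_lit 0)],
  []],
  [[],
  [],
  [],
  [],
  [],
  [],
  [.ofNat (nat_lit 2144839429149022500480), .negSucc (nat_lit 86308659056024887679), .ofNat (nat_lit 0)],
  [.negSucc (nat_lit 5091683724485791349759), .ofNat (nat_lit 0), .ofNat (nat_lit 0)],
  []],
  [[],
  [],
  [],
  [],
  [],
  [],
  [],
  [.ofNat (nat_lit 1784737511114717454624), .negSucc (nat_lit 82011292065001541087), .ofNat (nat_lit 0)],
  [.negSucc (nat_lit 4075196249000092858847), .ofNat (nat_lit 0), .ofNat (nat_lit 0)]],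
  [[],
  [],
  [],
  [],
  [],
  [],
  [],
  [.ofNat (nat_lit 169788928731724410624), .negSucc (nat_lit 14971616333075290751), .ofNat (nat_lit 0)],
  [.negSucc (nat_lit 467725278365334277631), .ofNat (nat_lit 0), .ofNat (nat_lit 0)]]],
  [[[.ofNat (nat_lit 1810484783614144512), .negSucc (nat_lit 26551838469986159615), .ofNat (nat_lit 2471384508923575296)],
  [.negSucc (nat_lit 7486515076995551231), .ofNat (nat_lit 72738418485984482304), .ofNat (nat_lit 0)],
  [],
  [],
  [],
  [],
  [],
  [],
  []],
  [[.negSucc (nat_lit 48037637741531037695), .ofNat (nat_lit 46835366196486693888), .ofNat (nat_lit 0)],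
  [.ofNat (nat_lit 51562382413762409472), .ofNat (nat_lit 0), .ofNat (nat_lit 0)],
  [],
  [],
  [],
  [],
  [],
  [],
  []],
  [[],
  [.negSucc (nat_lit 173568580398894601727), .ofNat (nat_lit 43365465086211666432), .ofNat (nat_lit 0)],
  [.ofNat (nat_lit 223753738010230665216), .ofNat (nat_lit 0), .ofNat (nat_lit 0)],
  [],
  [],
  [],
  [],
  [],
  []],
  [[],
  [],
  [.ofNat (nat_lit 270018696201024930048), .negSucc (nat_lit 86556253543950210047), .ofNat (nat_lit 0)],
  [.negSucc (nat_lit 493210463711795875583), .ofNat (nat_lit 0), .ofNat (nat_lit 0)],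
  [],
  [],
  [],
  [],
  []],
  [[],
  [],
  [],
  [.ofNat (nat_lit 605869738657092154368), .negSucc (nat_lit 153428179357502396927), .ofNat (nat_lit 0)],
  [.negSucc (nat_lit 877220783154733817087), .ofNat (nat_lit 0), .ofNat (nat_lit 0)],
  [],
  [],
  [],
  []],
  [[],
  [],
  [],
  [],
  [.ofNat (nat_lit 87194955574544334336), .ofNat (nat_lit 26349159674124664704), .ofNat (nat_lit 0)],
  [.negSucc (nat_lit 338433958185081943679), .ofNat (nat_lit 0), .ofNat (nat_lit 0)],
  [],
  [],
  []],
  [[],
  [],
  [],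
  [],
  [.negSucc (nat_lit 1089991628656149791231), .negSucc (nat_lit 102921634987496183807), .ofNat (nat_lit 0)],
  [.ofNat (nat_lit 2858223477613089102336), .ofNat (nat_lit 0), .ofNat (nat_lit 0)],
  [],
  [],
  []],
  [[],
  [],
  [],
  [],
  [],
  [.negSucc (nat_lit 548109955548744367103), .ofNat (nat_lit 157119963473219869440), .ofNat (nat_lit 0)],
  [.ofNat (nat_lit 819742841783714738304), .ofNat (nat_lit 0), .ofNat (nat_lit 0)],
  [],
  []],
  [[],
  [],
  [],
  [],
  [],
  [],
  [.negSucc (nat_lit 659789310874741759295), .ofNat (nat_lit 11444676572930767488), .ofNat (nat_lit 0)],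
  [.ofNat (nat_lit 1580403351057860038464), .ofNat (nat_lit 0), .ofNat (nat_lit 0)],
  []],
  [[],
  [],
  [],
  [],
  [],
  [],
  [.ofNat (nat_lit 2283736542830854539264), .ofNat (nat_lit 80784106690914740736), .ofNat (nat_lit 0)],
  [.negSucc (nat_lit 5700035547876512512511), .ofNat (nat_lit 0), .ofNat (nat_lit 0)],
  []],
  [[],
  [],
  [],
  [],
  [],
  [],
  [],
  [.negSucc (nat_lit 340319142293055175295), .negSucc (nat_lit 27892823405222141567), .ofNat (nat_lit 0)],
  [.ofNat (nat_lit 825032804333737491072), .ofNat (nat_lit 0), .ofNat (nat_lit 0)]],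
  [[],
  [],
  [],
  [],
  [],
  [],
  [],
  [.ofNat (nat_lit 1638148700972749206528), .negSucc (nat_lit 13230064332771899903), .ofNat (nat_lit 0)],
  [.negSucc (nat_lit 3822298582064763257855), .ofNat (nat_lit 0), .ofNat (nat_lit 0)]]],
  [],
  [],
  [],
  [],
  []],
  [[],
  [],
  [],
  [],
  [],
  [],
  [],
  [[[.negSucc (nat_lit 30642231722488860671), .negSucc (nat_lit 329152724853886467071), .negSucc (nat_lit 16152190084261831679)],
  [.ofNat (nat_lit 43495951477727941632), .ofNat (nat_lit 891907627985716737024), .ofNat (nat_lit 0)],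
  [],
  [],
  [],
  [],
  [],
  [],
  []],
  [[.ofNat (nat_lit 574641468939456096768), .ofNat (nat_lit 38260636341800620032), .ofNat (nat_lit 0)],
  [.negSucc (nat_lit 1312282006218528413183), .ofNat (nat_lit 0), .ofNat (nat_lit 0)],
  [],
  [],
  [],
  [],
  [],
  [],
  []],
  [[],
  [.negSucc (nat_lit 465686708577064765055), .ofNat (nat_lit 94249108700734951296), .ofNat (nat_lit 0)],
  [.ofNat (nat_lit 753142410013629086208), .ofNat (nat_lit 0), .ofNat (nat_lit 0)],
  [],
  [],
  [],
  [],
  [],
  []],
  [[],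
  [],
  [.ofNat (nat_lit 156153255557304964608), .negSucc (nat_lit 197979588574078604543), .ofNat (nat_lit 0)],
  [.negSucc (nat_lit 567761661699645878783), .ofNat (nat_lit 0), .ofNat (nat_lit 0)],
  [],
  [],
  [],
  [],
  []],
  [[],
  [],
  [],
  [.ofNat (nat_lit 2171429934082180887744), .negSucc (nat_lit 21879915295500520703), .ofNat (nat_lit 0)],
  [.negSucc (nat_lit 4839412201823781251711), .ofNat (nat_lit 0), .ofNat (nat_lit 0)],
  [],
  [],
  [],
  []],
  [[],
  [],
  [],
  [],
  [.negSucc (nat_lit 582028645813338366143), .ofNat (nat_lit 84432656087616652416), .ofNat (nat_lit 0)],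
  [.ofNat (nat_lit 1505925700640462455200), .ofNat (nat_lit 0), .ofNat (nat_lit 0)],
  [],
  [],
  []],
  [[],
  [],
  [],
  [],
  [.ofNat (nat_lit 548109955548744367104), .negSucc (nat_lit 157119963473219869439), .ofNat (nat_lit 0)],
  [.negSucc (nat_lit 819742841783714738303), .ofNat (nat_lit 0), .ofNat (nat_lit 0)],
  [],
  [],
  []],
  [[],
  [],
  [],
  [],
  [],
  [.negSucc (nat_lit 3636977490285698738303), .ofNat (nat_lit 88026335311577545440), .ofNat (nat_lit 0)],
  [.ofNat (nat_lit 8774895093538832163072), .ofNat (nat_lit 0), .ofNat (nat_lit 0)],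
  [],
  []],
  [[],
  [],
  [],
  [],
  [],
  [],
  [.negSucc (nat_lit 175071770884005146783), .ofNat (nat_lit 88789146696422601552), .ofNat (nat_lit 0)],
  [.ofNat (nat_lit 342335368466531837280), .ofNat (nat_lit 0), .ofNat (nat_lit 0)],
  []],
  [[],
  [],
  [],
  [],
  [],
  [],
  [.negSucc (nat_lit 1988217898935253242623), .ofNat (nat_lit 280670319465739151616), .ofNat (nat_lit 0)],
  [.ofNat (nat_lit 4273519254254875298304), .ofNat (nat_lit 0), .ofNat (nat_lit 0)],
  []],
  [[],
  [],
  [],
  [],
  [],
  [],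
  [],
  [.negSucc (nat_lit 82507601355780468095), .negSucc (nat_lit 50554405466054676575), .ofNat (nat_lit 0)],
  [.ofNat (nat_lit 289085020876476966960), .ofNat (nat_lit 0), .ofNat (nat_lit 0)]],
  [[],
  [],
  [],
  [],
  [],
  [],
  [],
  [.ofNat (nat_lit 658704228322292098560), .ofNat (nat_lit 18896923030094198784), .ofNat (nat_lit 0)],
  [.negSucc (nat_lit 1725214812447216144383), .ofNat (nat_lit 0), .ofNat (nat_lit 0)]]],
  [],
  [],
  [],
  []],
  [[],
  [],
  [],
  [],
  [],
  [],
  [],
  [],
  [[[.ofNat (nat_lit 414583646268957696), .negSucc (nat_lit 20271243766503140351), .ofNat (nat_lit 3354715129005453312)],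
  [.negSucc (nat_lit 462942599690483711), .ofNat (nat_lit 41112067983532701696), .ofNat (nat_lit 0)],
  [],
  [],
  [],
  [],
  [],
  [],
  []],
  [[.negSucc (nat_lit 59601879455196523391), .negSucc (nat_lit 24069958575277682303), .ofNat (nat_lit 0)],
  [.ofNat (nat_lit 196928523159436670976), .ofNat (nat_lit 0), .ofNat (nat_lit 0)],
  [],
  [],
  [],
  [],
  [],
  [],
  []],
  [[],
  [.ofNat (nat_lit 140359195517796643968), .ofNat (nat_lit 42981104468454585984), .ofNat (nat_lit 0)],
  [.negSucc (nat_lit 429017688809176891391), .ofNat (nat_lit 0), .ofNat (nat_lit 0)],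
  [],
  [],
  [],
  [],
  [],
  []],
  [[],
  [],
  [.negSucc (nat_lit 359952974766268481951), .negSucc (nat_lit 5086758536648301311), .ofNat (nat_lit 0)],
  [.ofNat (nat_lit 799024521912595665696), .ofNat (nat_lit 0), .ofNat (nat_lit 0)],
  [],
  [],
  [],
  [],
  []],
  [[],
  [],
  [],
  [.ofNat (nat_lit 221416376341312018368), .negSucc (nat_lit 40711700245894301375), .ofNat (nat_lit 0)],
  [.negSucc (nat_lit 399459176098940656511), .ofNat (nat_lit 0), .ofNat (nat_lit 0)],
  [],
  [],
  [],
  []],
  [[],
  [],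
  [],
  [],
  [.ofNat (nat_lit 2032688797884851485392), .ofNat (nat_lit 18653422397107702752), .ofNat (nat_lit 0)],
  [.negSucc (nat_lit 4715607001006845921167), .ofNat (nat_lit 0), .ofNat (nat_lit 0)],
  [],
  [],
  []],
  [[],
  [],
  [],
  [],
  [.negSucc (nat_lit 659789310874741759295), .ofNat (nat_lit 11444676572930767488), .ofNat (nat_lit 0)],
  [.ofNat (nat_lit 1580403351057860038464), .ofNat (nat_lit 0), .ofNat (nat_lit 0)],
  [],
  [],
  []],
  [[],
  [],
  [],
  [],
  [],
  [.ofNat (nat_lit 175071770884005146784), .negSucc (nat_lit 88789146696422601551), .ofNat (nat_lit 0)],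
  [.negSucc (nat_lit 342335368466531837279), .ofNat (nat_lit 0), .ofNat (nat_lit 0)],
  [],
  []],
  [[],
  [],
  [],
  [],
  [],
  [],
  [.negSucc (nat_lit 1797117410572459288271), .ofNat (nat_lit 59411751571951218360), .ofNat (nat_lit 0)],
  [.ofNat (nat_lit 3888837514705078942704), .ofNat (nat_lit 0), .ofNat (nat_lit 0)],
  []],
  [[],
  [],
  [],
  [],
  [],
  [],
  [.negSucc (nat_lit 92094440003004972095), .ofNat (nat_lit 23362414734300418368), .ofNat (nat_lit 0)],
  [.ofNat (nat_lit 337753194420964092480), .ofNat (nat_lit 0), .ofNat (nat_lit 0)],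
  []],
  [[],
  [],
  [],
  [],
  [],
  [],
  [],
  [.negSucc (nat_lit 1488598920889527722255), .ofNat (nat_lit 24332964362951491656), .ofNat (nat_lit 0)],
  [.ofNat (nat_lit 3347869885145099677296), .ofNat (nat_lit 0), .ofNat (nat_lit 0)]],
  [[],
  [],
  [],
  [],
  [],
  [],
  [],
  [.ofNat (nat_lit 645179954862403882368), .negSucc (nat_lit 15689863547955266687), .ofNat (nat_lit 0)],
  [.negSucc (nat_lit 1452384151863539468543), .ofNat (nat_lit 0), .ofNat (nat_lit 0)]]],
  [[[.ofNat (nat_lit 7860105819137166336), .ofNat (nat_lit 79276246077664272384), .negSucc (nat_lit 860463932684543999)],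
  [.negSucc (nat_lit 10388562764598604799), .negSucc (nat_lit 220357698900409681919), .ofNat (nat_lit 0)],
  [],
  [],
  [],
  [],
  [],
  [],
  []],
  [[.negSucc (nat_lit 3928636195217759231), .negSucc (nat_lit 50252227773835691519), .ofNat (nat_lit 0)],
  [.ofNat (nat_lit 95163601745701725696), .ofNat (nat_lit 0), .ofNat (nat_lit 0)],
  [],
  [],
  [],
  [],
  [],
  [],
  []],
  [[],
  [.ofNat (nat_lit 171925660298276605440), .negSucc (nat_lit 32663837940103494143), .ofNat (nat_lit 0)],
  [.negSucc (nat_lit 131038171833929918975), .ofNat (nat_lit 0), .ofNat (nat_lit 0)],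
  [],
  [],
  [],
  [],
  [],
  []],
  [[],
  [],
  [.negSucc (nat_lit 1284708873844689083135), .ofNat (nat_lit 112288825191668133888), .ofNat (nat_lit 0)],
  [.ofNat (nat_lit 2891092058044093605888), .ofNat (nat_lit 0), .ofNat (nat_lit 0)],
  [],
  [],
  [],
  [],
  []],
  [[],
  [],
  [],
  [.negSucc (nat_lit 788120986278333641471), .ofNat (nat_lit 155226146282741456640), .ofNat (nat_lit 0)],
  [.ofNat (nat_lit 1283699562992712350208), .ofNat (nat_lit 0), .ofNat (nat_lit 0)],
  [],
  [],
  [],
  []],
  [[],
  [],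
  [],
  [],
  [.ofNat (nat_lit 2144839429149022500480), .negSucc (nat_lit 86308659056024887679), .ofNat (nat_lit 0)],
  [.negSucc (nat_lit 5091683724485791349759), .ofNat (nat_lit 0), .ofNat (nat_lit 0)],
  [],
  [],
  []],
  [[],
  [],
  [],
  [],
  [.ofNat (nat_lit 2283736542830854539264), .ofNat (nat_lit 80784106690914740736), .ofNat (nat_lit 0)],
  [.negSucc (nat_lit 5700035547876512512511), .ofNat (nat_lit 0), .ofNat (nat_lit 0)],
  [],
  [],
  []],
  [[],
  [],
  [],
  [],
  [],
  [.ofNat (nat_lit 1988217898935253242624), .negSucc (nat_lit 280670319465739151615), .ofNat (nat_lit 0)],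
  [.negSucc (nat_lit 4273519254254875298303), .ofNat (nat_lit 0), .ofNat (nat_lit 0)],
  [],
  []],
  [[],
  [],
  [],
  [],
  [],
  [],
  [.negSucc (nat_lit 92094440003004972095), .ofNat (nat_lit 23362414734300418368), .ofNat (nat_lit 0)],
  [.ofNat (nat_lit 337753194420964092480), .ofNat (nat_lit 0), .ofNat (nat_lit 0)],
  []],
  [[],
  [],
  [],
  [],
  [],
  [],
  [.negSucc (nat_lit 4694171613090835249151), .ofNat (nat_lit 29962892509751722752), .ofNat (nat_lit 0)],
  [.ofNat (nat_lit 11047558112106505949952), .ofNat (nat_lit 0), .ofNat (nat_lit 0)],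
  []],
  [[],
  [],
  [],
  [],
  [],
  [],
  [],
  [.negSucc (nat_lit 138443053753686370175), .negSucc (nat_lit 7300327401577643903), .ofNat (nat_lit 0)],
  [.ofNat (nat_lit 434161920091236785856), .ofNat (nat_lit 0), .ofNat (nat_lit 0)]],
  [[],
  [],
  [],
  [],
  [],
  [],
  [],
  [.negSucc (nat_lit 3368912956653099796991), .ofNat (nat_lit 33901910276375646720), .ofNat (nat_lit 0)],
  [.ofNat (nat_lit 7922154337167721485312), .ofNat (nat_lit 0), .ofNat (nat_lit 0)]]],
  [],
  []],
  [[],
  [],
  [],
  [],
  [],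
  [],
  [],
  [],
  [],
  [],
  [[[],
  [],
  [],
  [],
  [],
  [],
  [],
  [],
  []],
  [[.ofNat (nat_lit 66008053572486865920), .ofNat (nat_lit 11935801489277873664), .ofNat (nat_lit 0)],
  [.negSucc (nat_lit 190706386956567957503), .ofNat (nat_lit 0), .ofNat (nat_lit 0)],
  [],
  [],
  [],
  [],
  [],
  [],
  []],
  [[],
  [.negSucc (nat_lit 114326468737178359679), .negSucc (nat_lit 30507152911383636863), .ofNat (nat_lit 0)],
  [.ofNat (nat_lit 341266819484609579520), .ofNat (nat_lit 0), .ofNat (nat_lit 0)],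
  [],
  [],
  [],
  [],
  [],
  []],
  [[],
  [],
  [.ofNat (nat_lit 268755814625856546240), .ofNat (nat_lit 32929255966169339712), .ofNat (nat_lit 0)],
  [.negSucc (nat_lit 623866510869904068479), .ofNat (nat_lit 0), .ofNat (nat_lit 0)],
  [],
  [],
  [],
  [],
  []],
  [[],
  [],
  [],
  [.ofNat (nat_lit 22147347628040336640), .negSucc (nat_lit 66755518688691131039), .ofNat (nat_lit 0)],
  [.negSucc (nat_lit 79512789262421443679), .ofNat (nat_lit 0), .ofNat (nat_lit 0)],
  [],
  [],
  [],
  []],
  [[],
  [],
  [],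
  [],
  [.negSucc (nat_lit 1784737511114717454623), .ofNat (nat_lit 82011292065001541088), .ofNat (nat_lit 0)],
  [.ofNat (nat_lit 4075196249000092858848), .ofNat (nat_lit 0), .ofNat (nat_lit 0)],
  [],
  [],
  []],
  [[],
  [],
  [],
  [],
  [.ofNat (nat_lit 340319142293055175296), .ofNat (nat_lit 27892823405222141568), .ofNat (nat_lit 0)],
  [.negSucc (nat_lit 825032804333737491071), .ofNat (nat_lit 0), .ofNat (nat_lit 0)],
  [],
  [],
  []],
  [[],
  [],
  [],
  [],
  [],
  [.negSucc (nat_lit 82507601355780468095), .negSucc (nat_lit 50554405466054676575), .ofNat (nat_lit 0)],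
  [.ofNat (nat_lit 289085020876476966960), .ofNat (nat_lit 0), .ofNat (nat_lit 0)],
  [],
  []],
  [[],
  [],
  [],
  [],
  [],
  [],
  [.ofNat (nat_lit 1488598920889527722256), .negSucc (nat_lit 24332964362951491655), .ofNat (nat_lit 0)],
  [.negSucc (nat_lit 3347869885145099677295), .ofNat (nat_lit 0), .ofNat (nat_lit 0)],
  []],
  [[],
  [],
  [],
  [],
  [],
  [],
  [.ofNat (nat_lit 138443053753686370176), .ofNat (nat_lit 7300327401577643904), .ofNat (nat_lit 0)],
  [.negSucc (nat_lit 434161920091236785855), .ofNat (nat_lit 0), .ofNat (nat_lit 0)],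
  []],
  [[],
  [],
  [],
  [],
  [],
  [],
  [],
  [.ofNat (nat_lit 1279540973764975622544), .negSucc (nat_lit 44747980214154735743), .ofNat (nat_lit 0)],
  [.negSucc (nat_lit 2794935515949533832191), .ofNat (nat_lit 0), .ofNat (nat_lit 0)]],
  [[],
  [],
  [],
  [],
  [],
  [],
  [],
  [.negSucc (nat_lit 562834035997749066239), .ofNat (nat_lit 16265989545113373696), .ofNat (nat_lit 0)],
  [.ofNat (nat_lit 1260419670990008823744), .ofNat (nat_lit 0), .ofNat (nat_lit 0)]]],
  [[[],
  [],
  [],
  [],
  [],
  [],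
  [],
  [],
  []],
  [[.negSucc (nat_lit 118993771353333832703), .ofNat (nat_lit 15640440507751062528), .ofNat (nat_lit 0)],
  [.ofNat (nat_lit 245029398521745309696), .ofNat (nat_lit 0), .ofNat (nat_lit 0)],
  [],
  [],
  [],
  [],
  [],
  [],
  []],
  [[],
  [.ofNat (nat_lit 143944141351874568192), .ofNat (nat_lit 8925886431112214016), .ofNat (nat_lit 0)],
  [.negSucc (nat_lit 423857481919751849471), .ofNat (nat_lit 0), .ofNat (nat_lit 0)],
  [],
  [],
  [],
  [],
  [],
  []],
  [[],
  [],
  [.ofNat (nat_lit 492104726315436211200), .negSucc (nat_lit 28093413090478602239), .ofNat (nat_lit 0)],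
  [.negSucc (nat_lit 1120322952738854682623), .ofNat (nat_lit 0), .ofNat (nat_lit 0)],
  [],
  [],
  [],
  [],
  []],
  [[],
  [],
  [],
  [.negSucc (nat_lit 667645713294919944191), .negSucc (nat_lit 47019831696087063551), .ofNat (nat_lit 0)],
  [.ofNat (nat_lit 1865677339561576882176), .ofNat (nat_lit 0), .ofNat (nat_lit 0)],
  [],
  [],
  [],
  []],
  [[],
  [],
  [],
  [],
  [.negSucc (nat_lit 169788928731724410623), .ofNat (nat_lit 14971616333075290752), .ofNat (nat_lit 0)],
  [.ofNat (nat_lit 467725278365334277632), .ofNat (nat_lit 0), .ofNat (nat_lit 0)],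
  [],
  [],
  []],
  [[],
  [],
  [],
  [],
  [.negSucc (nat_lit 1638148700972749206527), .ofNat (nat_lit 13230064332771899904), .ofNat (nat_lit 0)],
  [.ofNat (nat_lit 3822298582064763257856), .ofNat (nat_lit 0), .ofNat (nat_lit 0)],
  [],
  [],
  []],
  [[],
  [],
  [],
  [],
  [],
  [.ofNat (nat_lit 658704228322292098560), .ofNat (nat_lit 18896923030094198784), .ofNat (nat_lit 0)],
  [.negSucc (nat_lit 1725214812447216144383), .ofNat (nat_lit 0), .ofNat (nat_lit 0)],
  [],
  []],
  [[],
  [],
  [],
  [],
  [],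
  [],
  [.negSucc (nat_lit 645179954862403882367), .ofNat (nat_lit 15689863547955266688), .ofNat (nat_lit 0)],
  [.ofNat (nat_lit 1452384151863539468544), .ofNat (nat_lit 0), .ofNat (nat_lit 0)],
  []],
  [[],
  [],
  [],
  [],
  [],
  [],
  [.ofNat (nat_lit 3368912956653099796992), .negSucc (nat_lit 33901910276375646719), .ofNat (nat_lit 0)],
  [.negSucc (nat_lit 7922154337167721485311), .ofNat (nat_lit 0), .ofNat (nat_lit 0)],
  []],
  [[],
  [],
  [],
  [],
  [],
  [],
  [],
  [.negSucc (nat_lit 562834035997749066239), .ofNat (nat_lit 16265989545113373696), .ofNat (nat_lit 0)],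
  [.ofNat (nat_lit 1260419670990008823744), .ofNat (nat_lit 0), .ofNat (nat_lit 0)]],
  [[],
  [],
  [],
  [],
  [],
  [],
  [],
  [.ofNat (nat_lit 2094921710102205434880), .negSucc (nat_lit 44810698087522225151), .ofNat (nat_lit 0)],
  [.negSucc (nat_lit 4776504477301528565759), .ofNat (nat_lit 0), .ofNat (nat_lit 0)]]]]],
  [[[[[.ofNat (nat_lit 4242160752181438464), .negSucc (nat_lit 32876865503944114175), .ofNat (nat_lit 959496886730732544)],
  [.ofNat (nat_lit 4894765275952816128), .ofNat (nat_lit 42269579091613264896), .ofNat (nat_lit 0)],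
  [],
  [],
  [],
  [],
  [],
  [],
  []],
  [[.negSucc (nat_lit 6617641732035913727), .ofNat (nat_lit 1825764132967704576), .ofNat (nat_lit 0)],
  [.ofNat (nat_lit 8285437154947811328), .ofNat (nat_lit 0), .ofNat (nat_lit 0)],
  [],
  [],
  [],
  [],
  [],
  [],
  []],
  [[],
  [.negSucc (nat_lit 4500661821526121471), .negSucc (nat_lit 7753917048373287935), .ofNat (nat_lit 0)],
  [.negSucc (nat_lit 2434316848778087423), .ofNat (nat_lit 0), .ofNat (nat_lit 0)],
  [],
  [],
  [],
  [],
  [],
  []],
  [[],
  [],
  [.ofNat (nat_lit 53952137941601276928), .negSucc (nat_lit 7576564788373865471), .ofNat (nat_lit 0)],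
  [.negSucc (nat_lit 98113443748284026879), .ofNat (nat_lit 0), .ofNat (nat_lit 0)],
  [],
  [],
  [],
  [],
  []],
  [[],
  [],
  [],
  [.ofNat (nat_lit 32492278588438738944), .negSucc (nat_lit 4765198675081973759), .ofNat (nat_lit 0)],
  [.negSucc (nat_lit 49929852105842595839), .ofNat (nat_lit 0), .ofNat (nat_lit 0)],
  [],
  [],
  [],
  []],
  [[],
  [],
  [],
  [],
  [.negSucc (nat_lit 25273310467321073663), .ofNat (nat_lit 2487793623036392448), .ofNat (nat_lit 0)],
  [.ofNat (nat_lit 38089413219371977728), .ofNat (nat_lit 0), .ofNat (nat_lit 0)],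
  [],
  [],
  []],
  [[],
  [],
  [],
  [],
  [.negSucc (nat_lit 1810484783614144511), .ofNat (nat_lit 2565748218051505152), .ofNat (nat_lit 0)],
  [.ofNat (nat_lit 7486515076995551232), .ofNat (nat_lit 0), .ofNat (nat_lit 0)],
  [],
  [],
  []],
  [[],
  [],
  [],
  [],
  [],
  [.negSucc (nat_lit 30642231722488860671), .ofNat (nat_lit 5272121230514491392), .ofNat (nat_lit 0)],
  [.ofNat (nat_lit 43495951477727941632), .ofNat (nat_lit 0), .ofNat (nat_lit 0)],
  [],
  []],
  [[],
  [],
  [],
  [],
  [],
  [],
  [.negSucc (nat_lit 414583646268957695), .ofNat (nat_lit 341640022062431232), .ofNat (nat_lit 0)],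
  [.ofNat (nat_lit 462942599690483712), .ofNat (nat_lit 0), .ofNat (nat_lit 0)],
  []],
  [[],
  [],
  [],
  [],
  [],
  [],
  [.negSucc (nat_lit 7860105819137166335), .ofNat (nat_lit 998382278324717568), .ofNat (nat_lit 0)],
  [.ofNat (nat_lit 10388562764598604800), .ofNat (nat_lit 0), .ofNat (nat_lit 0)],
  []],
  [[],
  [],
  [],
  [],
  [],
  [],
  [],
  [],
  []],
  [[],
  [],
  [],
  [],
  [],
  [],
  [],
  [],
  []]],
  [],
  [],
  [],
  [],
  [],
  [],
  [],
  [],
  [],
  [],
  []],
  [[],
  [],
  [],
  [],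
  [],
  [],
  [],
  [],
  [],
  [],
  [],
  []],
  [[],
  [[[.negSucc (nat_lit 26223833092942374911), .negSucc (nat_lit 136164179359657608191), .negSucc (nat_lit 4653756953845871615)],
  [.ofNat (nat_lit 48854799478304317440), .ofNat (nat_lit 401590287544018655232), .ofNat (nat_lit 0)],
  [],
  [],
  [],
  [],
  [],
  [],
  []],
  [[.ofNat (nat_lit 375632717770607998464), .negSucc (nat_lit 3783381564378945023), .ofNat (nat_lit 0)],
  [.negSucc (nat_lit 812018620114101038591), .ofNat (nat_lit 0), .ofNat (nat_lit 0)],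
  [],
  [],
  [],
  [],
  [],
  [],
  []],
  [[],
  [.negSucc (nat_lit 100946044741354804223), .ofNat (nat_lit 37292476617985867776), .ofNat (nat_lit 0)],
  [.ofNat (nat_lit 250592333362661062656), .ofNat (nat_lit 0), .ofNat (nat_lit 0)],
  [],
  [],
  [],
  [],
  [],
  []],
  [[],
  [],
  [.negSucc (nat_lit 611148812651840862719), .ofNat (nat_lit 75429651729370791168), .ofNat (nat_lit 0)],
  [.ofNat (nat_lit 1048030790252612341248), .ofNat (nat_lit 0), .ofNat (nat_lit 0)],
  [],
  [],
  [],
  [],
  []],
  [[],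
  [],
  [],
  [.ofNat (nat_lit 88772804730160630272), .negSucc (nat_lit 11410466790420002303), .ofNat (nat_lit 0)],
  [.negSucc (nat_lit 289963697806600998911), .ofNat (nat_lit 0), .ofNat (nat_lit 0)],
  [],
  [],
  [],
  []],
  [[],
  [],
  [],
  [],
  [.ofNat (nat_lit 536404578417356343552), .negSucc (nat_lit 77267452917221006975), .ofNat (nat_lit 0)],
  [.negSucc (nat_lit 901988281143470433023), .ofNat (nat_lit 0), .ofNat (nat_lit 0)],
  [],
  [],
  []],
  [[],
  [],
  [],
  [],
  [.ofNat (nat_lit 224674572263962401792), .negSucc (nat_lit 71646826944885414911), .ofNat (nat_lit 0)],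
  [.negSucc (nat_lit 413281001137025184767), .ofNat (nat_lit 0), .ofNat (nat_lit 0)],
  [],
  [],
  []],
  [[],
  [],
  [],
  [],
  [],
  [.ofNat (nat_lit 171963114931034348544), .negSucc (nat_lit 52466591829155876351), .ofNat (nat_lit 0)],
  [.negSucc (nat_lit 250967070284049354239), .ofNat (nat_lit 0), .ofNat (nat_lit 0)],
  [],
  []],
  [[],
  [],
  [],
  [],
  [],
  [],
  [.negSucc (nat_lit 125257409749804132223), .ofNat (nat_lit 18014925159181893888), .ofNat (nat_lit 0)],
  [.ofNat (nat_lit 198160062766139493504), .ofNat (nat_lit 0), .ofNat (nat_lit 0)],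
  []],
  [[],
  [],
  [],
  [],
  [],
  [],
  [.negSucc (nat_lit 175141330993357138943), .ofNat (nat_lit 38805088947218316288), .ofNat (nat_lit 0)],
  [.ofNat (nat_lit 267431630000069481984), .ofNat (nat_lit 0), .ofNat (nat_lit 0)],
  []],
  [[],
  [],
  [],
  [],
  [],
  [],
  [],
  [.negSucc (nat_lit 81514068695544310271), .ofNat (nat_lit 20048934540157608960), .ofNat (nat_lit 0)],
  [.ofNat (nat_lit 122042301819618894336), .ofNat (nat_lit 0), .ofNat (nat_lit 0)]],
  [[],
  [],
  [],
  [],
  [],
  [],
  [],
  [.negSucc (nat_lit 55020740733960164351), .ofNat (nat_lit 6988675948273022976), .ofNat (nat_lit 0)],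
  [.ofNat (nat_lit 72719939352190233600), .ofNat (nat_lit 0), .ofNat (nat_lit 0)]]],
  [],
  [],
  [],
  [],
  [],
  [],
  [],
  [],
  [],
  []],
  [[],
  [],
  [[[.negSucc (nat_lit 10447265359284664319), .ofNat (nat_lit 149255661630587378688), .negSucc (nat_lit 21463572621193675775)],
  [.ofNat (nat_lit 36406868168236843008), .negSucc (nat_lit 373560128243436690431), .ofNat (nat_lit 0)],
  [],
  [],
  [],
  [],
  [],
  [],
  []],
  [[.negSucc (nat_lit 41718721930467102719), .negSucc (nat_lit 15828903996792191999), .ofNat (nat_lit 0)],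
  [.ofNat (nat_lit 122967794880775627776), .ofNat (nat_lit 0), .ofNat (nat_lit 0)],
  [],
  [],
  [],
  [],
  [],
  [],
  []],
  [[],
  [.ofNat (nat_lit 376263731748014936064), .negSucc (nat_lit 85795685042138343935), .ofNat (nat_lit 0)],
  [.negSucc (nat_lit 731732477280451646975), .ofNat (nat_lit 0), .ofNat (nat_lit 0)],
  [],
  [],
  [],
  [],
  [],
  []],
  [[],
  [],
  [.negSucc (nat_lit 494188865867928003839), .ofNat (nat_lit 40006053702930613248), .ofNat (nat_lit 0)],
  [.ofNat (nat_lit 1008680421771553992192), .ofNat (nat_lit 0), .ofNat (nat_lit 0)],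
  [],
  [],
  [],
  [],
  []],
  [[],
  [],
  [],
  [.negSucc (nat_lit 1036806936233381404415), .ofNat (nat_lit 234513205730964940032), .ofNat (nat_lit 0)],
  [.ofNat (nat_lit 1881219865703342031360), .ofNat (nat_lit 0), .ofNat (nat_lit 0)],
  [],
  [],
  [],
  []],
  [[],
  [],
  [],
  [],
  [.ofNat (nat_lit 649521686208829625856), .negSucc (nat_lit 40177267239908316671), .ofNat (nat_lit 0)],
  [.negSucc (nat_lit 1178555659157247849215), .ofNat (nat_lit 0), .ofNat (nat_lit 0)],
  [],
  [],
  []],
  [[],
  [],
  [],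
  [],
  [.negSucc (nat_lit 280119935705361960959), .ofNat (nat_lit 44027193016045126656), .ofNat (nat_lit 0)],
  [.ofNat (nat_lit 464995888966510046208), .ofNat (nat_lit 0), .ofNat (nat_lit 0)],
  [],
  [],
  []],
  [[],
  [],
  [],
  [],
  [],
  [.ofNat (nat_lit 783308020299342969600), .negSucc (nat_lit 166240794904426548863), .ofNat (nat_lit 0)],
  [.negSucc (nat_lit 1285272897043789605887), .ofNat (nat_lit 0), .ofNat (nat_lit 0)],
  [],
  []],
  [[],
  [],
  [],
  [],
  [],
  [],
  [.negSucc (nat_lit 247696955158330523519), .ofNat (nat_lit 19188413358435230976), .ofNat (nat_lit 0)],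
  [.ofNat (nat_lit 404935539173323367040), .ofNat (nat_lit 0), .ofNat (nat_lit 0)],
  []],
  [[],
  [],
  [],
  [],
  [],
  [],
  [.ofNat (nat_lit 177915847915033422336), .negSucc (nat_lit 7828234788526442495), .ofNat (nat_lit 0)],
  [.negSucc (nat_lit 199102533945521826815), .ofNat (nat_lit 0), .ofNat (nat_lit 0)],
  []],
  [[],
  [],
  [],
  [],
  [],
  [],
  [],
  [.negSucc (nat_lit 202520829865642293887), .ofNat (nat_lit 43177169213248331520), .ofNat (nat_lit 0)],
  [.ofNat (nat_lit 319413339014785029504), .ofNat (nat_lit 0), .ofNat (nat_lit 0)]],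
  [[],
  [],
  [],
  [],
  [],
  [],
  [],
  [.ofNat (nat_lit 19738653244988585472), .ofNat (nat_lit 0), .ofNat (nat_lit 0)],
  []]],
  [],
  [],
  [],
  [],
  [],
  [],
  [],
  [],
  []],
  [[],
  [],
  [],
  [[[.ofNat (nat_lit 67005665070937638912), .ofNat (nat_lit 963902776575053528064), .ofNat (nat_lit 20850345030271269888)],
  [.negSucc (nat_lit 143039979462737553407), .negSucc (nat_lit 2400545885289887591423), .ofNat (nat_lit 0)],
  [],
  [],
  [],
  [],
  [],
  [],
  []],
  [[.negSucc (nat_lit 1583388241195478920703), .ofNat (nat_lit 54579306699099521280), .ofNat (nat_lit 0)],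
  [.ofNat (nat_lit 3448576675542499932672), .ofNat (nat_lit 0), .ofNat (nat_lit 0)],
  [],
  [],
  [],
  [],
  [],
  [],
  []],
  [[],
  [.ofNat (nat_lit 494188865867928003840), .negSucc (nat_lit 40006053702930613247), .ofNat (nat_lit 0)],
  [.negSucc (nat_lit 1008680421771553992191), .ofNat (nat_lit 0), .ofNat (nat_lit 0)],
  [],
  [],
  [],
  [],
  [],
  []],
  [[],
  [],
  [.ofNat (nat_lit 1627472147962395149568), .negSucc (nat_lit 249007641100587304703), .ofNat (nat_lit 0)],
  [.negSucc (nat_lit 2673814977608218168319), .ofNat (nat_lit 0), .ofNat (nat_lit 0)],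
  [],
  [],
  [],
  [],
  []],
  [[],
  [],
  [],
  [.negSucc (nat_lit 1346802830225687534975), .ofNat (nat_lit 194405776234116903936), .ofNat (nat_lit 0)],
  [.ofNat (nat_lit 2714674637989822489344), .ofNat (nat_lit 0), .ofNat (nat_lit 0)],
  [],
  [],
  [],
  []],
  [[],
  [],
  [],
  [],
  [.negSucc (nat_lit 1148397977891462548031), .ofNat (nat_lit 206947114613855726400), .ofNat (nat_lit 0)],
  [.ofNat (nat_lit 1714869034424034717312), .ofNat (nat_lit 0), .ofNat (nat_lit 0)],
  [],
  [],
  []],
  [[],
  [],
  [],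
  [],
  [.negSucc (nat_lit 436831638676197214463), .ofNat (nat_lit 163258910246971335168), .ofNat (nat_lit 0)],
  [.ofNat (nat_lit 720808464787216316928), .ofNat (nat_lit 0), .ofNat (nat_lit 0)],
  [],
  [],
  []],
  [[],
  [],
  [],
  [],
  [],
  [.ofNat (nat_lit 941001087816762408576), .negSucc (nat_lit 213813761102666160767), .ofNat (nat_lit 0)],
  [.negSucc (nat_lit 1873420870385394625535), .ofNat (nat_lit 0), .ofNat (nat_lit 0)],
  [],
  []],
  [[],
  [],
  [],
  [],
  [],
  [],
  [.ofNat (nat_lit 138862734926199201504), .negSucc (nat_lit 37381111925339442815), .ofNat (nat_lit 0)],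
  [.negSucc (nat_lit 155035052103105486143), .ofNat (nat_lit 0), .ofNat (nat_lit 0)],
  []],
  [[],
  [],
  [],
  [],
  [],
  [],
  [.ofNat (nat_lit 429201408742307735040), .negSucc (nat_lit 93626858395275955199), .ofNat (nat_lit 0)],
  [.negSucc (nat_lit 625214083893220993535), .ofNat (nat_lit 0), .ofNat (nat_lit 0)],
  []],
  [[],
  [],
  [],
  [],
  [],
  [],
  [],
  [.negSucc (nat_lit 171600141827275415999), .ofNat (nat_lit 58836426880171635072), .ofNat (nat_lit 0)],
  [.ofNat (nat_lit 352491916830321014208), .ofNat (nat_lit 0), .ofNat (nat_lit 0)]],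
  [[],
  [],
  [],
  [],
  [],
  [],
  [],
  [.ofNat (nat_lit 25250769001853503488), .ofNat (nat_lit 0), .ofNat (nat_lit 0)],
  []]],
  [],
  [],
  [],
  [],
  [],
  [],
  [],
  []],
  [[],
  [],
  [],
  [],
  [[[.negSucc (nat_lit 30396877280594399231), .negSucc (nat_lit 930537411213184376831), .ofNat (nat_lit 40396594895263116288)],
  [.ofNat (nat_lit 46405478568784932864), .ofNat (nat_lit 2272244620087877649408), .ofNat (nat_lit 0)],
  [],
  [],
  [],
  [],
  [],
  [],
  []],
  [[.ofNat (nat_lit 851417822774167008768), .negSucc (nat_lit 28986128104843113983), .ofNat (nat_lit 0)],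
  [.negSucc (nat_lit 1982280922281276650495), .ofNat (nat_lit 0), .ofNat (nat_lit 0)],
  [],
  [],
  [],
  [],
  [],
  [],
  []],
  [[],
  [.negSucc (nat_lit 1036806936233381404415), .ofNat (nat_lit 234513205730964940032), .ofNat (nat_lit 0)],
  [.ofNat (nat_lit 1881219865703342031360), .ofNat (nat_lit 0), .ofNat (nat_lit 0)],
  [],
  [],
  [],
  [],
  [],
  []],
  [[],
  [],
  [.ofNat (nat_lit 1346802830225687534976), .negSucc (nat_lit 194405776234116903935), .ofNat (nat_lit 0)],
  [.negSucc (nat_lit 2714674637989822489343), .ofNat (nat_lit 0), .ofNat (nat_lit 0)],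
  [],
  [],
  [],
  [],
  []],
  [[],
  [],
  [],
  [.ofNat (nat_lit 1501857812638589124096), .negSucc (nat_lit 525790304902106270207), .ofNat (nat_lit 0)],
  [.negSucc (nat_lit 2304089308186123295231), .ofNat (nat_lit 0), .ofNat (nat_lit 0)],
  [],
  [],
  [],
  []],
  [[],
  [],
  [],
  [],
  [.negSucc (nat_lit 1985383407396568690943), .ofNat (nat_lit 367817622664191126912), .ofNat (nat_lit 0)],
  [.ofNat (nat_lit 3551741771179863770496), .ofNat (nat_lit 0), .ofNat (nat_lit 0)],
  [],
  [],
  []],
  [[],
  [],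
  [],
  [],
  [.ofNat (nat_lit 279964540005432376320), .ofNat (nat_lit 35878212507983804928), .ofNat (nat_lit 0)],
  [.negSucc (nat_lit 325896569218929931775), .ofNat (nat_lit 0), .ofNat (nat_lit 0)],
  [],
  [],
  []],
  [[],
  [],
  [],
  [],
  [],
  [.negSucc (nat_lit 122531965602846939071), .ofNat (nat_lit 104293284787241049024), .ofNat (nat_lit 0)],
  [.negSucc (nat_lit 322791959809364876927), .ofNat (nat_lit 0), .ofNat (nat_lit 0)],
  [],
  []],
  [[],
  [],
  [],
  [],
  [],
  [],
  [.ofNat (nat_lit 536825839762684892160), .negSucc (nat_lit 123730666969537195775), .ofNat (nat_lit 0)],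
  [.negSucc (nat_lit 846375227007166712447), .ofNat (nat_lit 0), .ofNat (nat_lit 0)],
  []],
  [[],
  [],
  [],
  [],
  [],
  [],
  [.negSucc (nat_lit 70779533314025558015), .negSucc (nat_lit 81734262469344718847), .ofNat (nat_lit 0)],
  [.negSucc (nat_lit 179903382942597571583), .ofNat (nat_lit 0), .ofNat (nat_lit 0)],
  []],
  [[],
  [],
  [],
  [],
  [],
  [],
  [],
  [.negSucc (nat_lit 204373528735500194975), .ofNat (nat_lit 57476676693478758912), .ofNat (nat_lit 0)],
  [.ofNat (nat_lit 457383524399058410496), .ofNat (nat_lit 0), .ofNat (nat_lit 0)]],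
  [[],
  [],
  [],
  [],
  [],
  [],
  [],
  [.negSucc (nat_lit 91451422885413040127), .ofNat (nat_lit 16554596566021097472), .ofNat (nat_lit 0)],
  [.ofNat (nat_lit 85682332143523777536), .ofNat (nat_lit 0), .ofNat (nat_lit 0)]]],
  [],
  [],
  [],
  [],
  [],
  [],
  []],
  [[],
  [],
  [],
  [],
  [],
  [[[.negSucc (nat_lit 26482789800863207423), .negSucc (nat_lit 1239736304308204882943), .negSucc (nat_lit 150136484476243967)],
  [.ofNat (nat_lit 58267755261139728384), .ofNat (nat_lit 2971452813186927974400), .ofNat (nat_lit 0)],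
  [],
  [],
  [],
  [],
  [],
  [],
  []],
  [[.ofNat (nat_lit 1778922992075737165056), .negSucc (nat_lit 77117316432744763007), .ofNat (nat_lit 0)],
  [.negSucc (nat_lit 3873441094330398407423), .ofNat (nat_lit 0), .ofNat (nat_lit 0)],
  [],
  [],
  [],
  [],
  [],
  [],
  []],
  [[],
  [.negSucc (nat_lit 649521686208829625855), .ofNat (nat_lit 40177267239908316672), .ofNat (nat_lit 0)],
  [.ofNat (nat_lit 1178555659157247849216), .ofNat (nat_lit 0), .ofNat (nat_lit 0)],
  [],
  [],
  [],
  [],
  [],
  []],
  [[],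
  [],
  [.negSucc (nat_lit 1148397977891462548031), .ofNat (nat_lit 206947114613855726400), .ofNat (nat_lit 0)],
  [.ofNat (nat_lit 1714869034424034717312), .ofNat (nat_lit 0), .ofNat (nat_lit 0)],
  [],
  [],
  [],
  [],
  []],
  [[],
  [],
  [],
  [.ofNat (nat_lit 1985383407396568690944), .negSucc (nat_lit 367817622664191126911), .ofNat (nat_lit 0)],
  [.negSucc (nat_lit 3551741771179863770495), .ofNat (nat_lit 0), .ofNat (nat_lit 0)],
  [],
  [],
  [],
  []],
  [[],
  [],
  [],
  [],
  [.ofNat (nat_lit 258760916079515897760), .ofNat (nat_lit 232300291443207552), .ofNat (nat_lit 0)],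
  [.ofNat (nat_lit 16856596649435751936), .ofNat (nat_lit 0), .ofNat (nat_lit 0)],
  [],
  [],
  []],
  [[],
  [],
  [],
  [],
  [.negSucc (nat_lit 67154111251863590015), .negSucc (nat_lit 42634946273283702143), .ofNat (nat_lit 0)],
  [.ofNat (nat_lit 282529696212574797312), .ofNat (nat_lit 0), .ofNat (nat_lit 0)],
  [],
  [],
  []],
  [[],
  [],
  [],
  [],
  [],
  [.negSucc (nat_lit 902197433091988711295), .ofNat (nat_lit 247734802184358830976), .ofNat (nat_lit 0)],
  [.ofNat (nat_lit 1613611858791763220544), .ofNat (nat_lit 0), .ofNat (nat_lit 0)],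
  [],
  []],
  [[],
  [],
  [],
  [],
  [],
  [],
  [.ofNat (nat_lit 142556208406168907664), .negSucc (nat_lit 61862962695306941951), .ofNat (nat_lit 0)],
  [.negSucc (nat_lit 372107582005524395903), .ofNat (nat_lit 0), .ofNat (nat_lit 0)],
  []],
  [[],
  [],
  [],
  [],
  [],
  [],
  [.ofNat (nat_lit 93268265335659848448), .negSucc (nat_lit 58445556037369157375), .ofNat (nat_lit 0)],
  [.negSucc (nat_lit 331380916066187024255), .ofNat (nat_lit 0), .ofNat (nat_lit 0)],
  []],
  [[],
  [],
  [],
  [],
  [],
  [],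
  [],
  [.negSucc (nat_lit 87854460039012410783), .ofNat (nat_lit 20245576257977474880), .ofNat (nat_lit 0)],
  [.ofNat (nat_lit 80801038015410825504), .ofNat (nat_lit 0), .ofNat (nat_lit 0)]],
  [[],
  [],
  [],
  [],
  [],
  [],
  [],
  [.ofNat (nat_lit 8449407217509211008), .ofNat (nat_lit 0), .ofNat (nat_lit 0)],
  []]],
  [[[.negSucc (nat_lit 9949929125154600959), .ofNat (nat_lit 454305973758025771008), .negSucc (nat_lit 42470701252876818431)],
  [.ofNat (nat_lit 24118859444072638464), .negSucc (nat_lit 1016880690040607499263), .ofNat (nat_lit 0)],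
  [],
  [],
  [],
  [],
  [],
  [],
  []],
  [[.negSucc (nat_lit 227707753627412241407), .negSucc (nat_lit 29176125692008596479), .ofNat (nat_lit 0)],
  [.ofNat (nat_lit 603599688903582314496), .ofNat (nat_lit 0), .ofNat (nat_lit 0)],
  [],
  [],
  [],
  [],
  [],
  [],
  []],
  [[],
  [.ofNat (nat_lit 280119935705361960960), .negSucc (nat_lit 44027193016045126655), .ofNat (nat_lit 0)],
  [.negSucc (nat_lit 464995888966510046207), .ofNat (nat_lit 0), .ofNat (nat_lit 0)],
  [],
  [],
  [],
  [],
  [],
  []],
  [[],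
  [],
  [.negSucc (nat_lit 436831638676197214463), .ofNat (nat_lit 163258910246971335168), .ofNat (nat_lit 0)],
  [.ofNat (nat_lit 720808464787216316928), .ofNat (nat_lit 0), .ofNat (nat_lit 0)],
  [],
  [],
  [],
  [],
  []],
  [[],
  [],
  [],
  [.negSucc (nat_lit 279964540005432376319), .negSucc (nat_lit 35878212507983804927), .ofNat (nat_lit 0)],
  [.ofNat (nat_lit 325896569218929931776), .ofNat (nat_lit 0), .ofNat (nat_lit 0)],
  [],
  [],
  [],
  []],
  [[],
  [],
  [],
  [],
  [.negSucc (nat_lit 67154111251863590015), .negSucc (nat_lit 42634946273283702143), .ofNat (nat_lit 0)],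
  [.ofNat (nat_lit 282529696212574797312), .ofNat (nat_lit 0), .ofNat (nat_lit 0)],
  [],
  [],
  []],
  [[],
  [],
  [],
  [],
  [.negSucc (nat_lit 53550085178375336447), .ofNat (nat_lit 8573697585861096960), .ofNat (nat_lit 0)],
  [.negSucc (nat_lit 23356550412087515135), .ofNat (nat_lit 0), .ofNat (nat_lit 0)],
  [],
  [],
  []],
  [[],
  [],
  [],
  [],
  [],
  [.ofNat (nat_lit 233173375496271424512), .ofNat (nat_lit 44871570733306804992), .ofNat (nat_lit 0)],
  [.negSucc (nat_lit 303156081584962276607), .ofNat (nat_lit 0), .ofNat (nat_lit 0)],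
  [],
  []],
  [[],
  [],
  [],
  [],
  [],
  [],
  [.ofNat (nat_lit 145616314197052914624), .negSucc (nat_lit 22802627046979243007), .ofNat (nat_lit 0)],
  [.negSucc (nat_lit 306801322157924186111), .ofNat (nat_lit 0), .ofNat (nat_lit 0)],
  []],
  [[],
  [],
  [],
  [],
  [],
  [],
  [.ofNat (nat_lit 85253770473922828800), .negSucc (nat_lit 31091320906860930047), .ofNat (nat_lit 0)],
  [.negSucc (nat_lit 45393650031632343551), .ofNat (nat_lit 0), .ofNat (nat_lit 0)],
  []],
  [[],
  [],
  [],
  [],
  [],
  [],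
  [],
  [.negSucc (nat_lit 103829454040154636159), .ofNat (nat_lit 18345274364216685312), .ofNat (nat_lit 0)],
  [.ofNat (nat_lit 190889840799499363200), .ofNat (nat_lit 0), .ofNat (nat_lit 0)]],
  [[],
  [],
  [],
  [],
  [],
  [],
  [],
  [.negSucc (nat_lit 13013177964091863551), .ofNat (nat_lit 0), .ofNat (nat_lit 0)],
  []]],
  [],
  [],
  [],
  [],
  []],
  [[],
  [],
  [],
  [],
  [],
  [],
  [],
  [[[.ofNat (nat_lit 31760204805434124288), .ofNat (nat_lit 1435185577544240130048), .negSucc (nat_lit 17624712689782502399)],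
  [.negSucc (nat_lit 63102385822896525311), .negSucc (nat_lit 3487352644442759344127), .ofNat (nat_lit 0)],
  [],
  [],
  [],
  [],
  [],
  [],
  []],
  [[.negSucc (nat_lit 1614481997155267636223), .ofNat (nat_lit 70091304518938378752), .ofNat (nat_lit 0)],
  [.ofNat (nat_lit 3738319714726808698368), .ofNat (nat_lit 0), .ofNat (nat_lit 0)],
  [],
  [],
  [],
  [],
  [],
  [],
  []],
  [[],
  [.ofNat (nat_lit 783308020299342969600), .negSucc (nat_lit 166240794904426548863), .ofNat (nat_lit 0)],
  [.negSucc (nat_lit 1285272897043789605887), .ofNat (nat_lit 0), .ofNat (nat_lit 0)],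
  [],
  [],
  [],
  [],
  [],
  []],
  [[],
  [],
  [.negSucc (nat_lit 941001087816762408575), .ofNat (nat_lit 213813761102666160768), .ofNat (nat_lit 0)],
  [.ofNat (nat_lit 1873420870385394625536), .ofNat (nat_lit 0), .ofNat (nat_lit 0)],
  [],
  [],
  [],
  [],
  []],
  [[],
  [],
  [],
  [.negSucc (nat_lit 122531965602846939071), .ofNat (nat_lit 104293284787241049024), .ofNat (nat_lit 0)],
  [.negSucc (nat_lit 322791959809364876927), .ofNat (nat_lit 0), .ofNat (nat_lit 0)],
  [],
  [],
  [],
  []],
  [[],
  [],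
  [],
  [],
  [.ofNat (nat_lit 902197433091988711296), .negSucc (nat_lit 247734802184358830975), .ofNat (nat_lit 0)],
  [.negSucc (nat_lit 1613611858791763220543), .ofNat (nat_lit 0), .ofNat (nat_lit 0)],
  [],
  [],
  []],
  [[],
  [],
  [],
  [],
  [.negSucc (nat_lit 233173375496271424511), .negSucc (nat_lit 44871570733306804991), .ofNat (nat_lit 0)],
  [.ofNat (nat_lit 303156081584962276608), .ofNat (nat_lit 0), .ofNat (nat_lit 0)],
  [],
  [],
  []],
  [[],
  [],
  [],
  [],
  [],
  [.negSucc (nat_lit 799402408123120858367), .ofNat (nat_lit 280286244826064428032), .ofNat (nat_lit 0)],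
  [.ofNat (nat_lit 1675574929132323866496), .ofNat (nat_lit 0), .ofNat (nat_lit 0)],
  [],
  []],
  [[],
  [],
  [],
  [],
  [],
  [],
  [.ofNat (nat_lit 126476908182395491824), .negSucc (nat_lit 45075661662381180479), .ofNat (nat_lit 0)],
  [.negSucc (nat_lit 287019682510109087519), .ofNat (nat_lit 0), .ofNat (nat_lit 0)],
  []],
  [[],
  [],
  [],
  [],
  [],
  [],
  [.ofNat (nat_lit 406336079026133928576), .negSucc (nat_lit 70537974734953188863), .ofNat (nat_lit 0)],
  [.negSucc (nat_lit 508338823596386234111), .ofNat (nat_lit 0), .ofNat (nat_lit 0)],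
  []],
  [[],
  [],
  [],
  [],
  [],
  [],
  [],
  [.negSucc (nat_lit 40141892658733484831), .ofNat (nat_lit 10794292303312082880), .ofNat (nat_lit 0)],
  [.ofNat (nat_lit 79853334753696257376), .ofNat (nat_lit 0), .ofNat (nat_lit 0)]],
  [[],
  [],
  [],
  [],
  [],
  [],
  [],
  [.ofNat (nat_lit 3697439752246205952), .ofNat (nat_lit 0), .ofNat (nat_lit 0)],
  []]],
  [],
  [],
  [],
  []],
  [[],
  [],
  [],
  [],
  [],
  [],
  [],
  [],
  [[[.negSucc (nat_lit 675699931889897471), .ofNat (nat_lit 188000012029739120640), .negSucc (nat_lit 16961189504473525247)],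
  [.ofNat (nat_lit 1169942206900617216), .negSucc (nat_lit 405950353438108981247), .ofNat (nat_lit 0)],
  [],
  [],
  [],
  [],
  [],
  [],
  []],
  [[.negSucc (nat_lit 312875489258418851711), .ofNat (nat_lit 34976114663655419136), .ofNat (nat_lit 0)],
  [.ofNat (nat_lit 604110416204248474752), .ofNat (nat_lit 0), .ofNat (nat_lit 0)],
  [],
  [],
  [],
  [],
  [],
  [],
  []],
  [[],
  [.ofNat (nat_lit 247696955158330523520), .negSucc (nat_lit 19188413358435230975), .ofNat (nat_lit 0)],
  [.negSucc (nat_lit 404935539173323367039), .ofNat (nat_lit 0), .ofNat (nat_lit 0)],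
  [],
  [],
  [],
  [],
  [],
  []],
  [[],
  [],
  [.ofNat (nat_lit 138862734926199201504), .negSucc (nat_lit 37381111925339442815), .ofNat (nat_lit 0)],
  [.negSucc (nat_lit 155035052103105486143), .ofNat (nat_lit 0), .ofNat (nat_lit 0)],
  [],
  [],
  [],
  [],
  []],
  [[],
  [],
  [],
  [.negSucc (nat_lit 536825839762684892159), .ofNat (nat_lit 123730666969537195776), .ofNat (nat_lit 0)],
  [.ofNat (nat_lit 846375227007166712448), .ofNat (nat_lit 0), .ofNat (nat_lit 0)],
  [],
  [],
  [],
  []],
  [[],
  [],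
  [],
  [],
  [.ofNat (nat_lit 142556208406168907664), .negSucc (nat_lit 61862962695306941951), .ofNat (nat_lit 0)],
  [.negSucc (nat_lit 372107582005524395903), .ofNat (nat_lit 0), .ofNat (nat_lit 0)],
  [],
  [],
  []],
  [[],
  [],
  [],
  [],
  [.ofNat (nat_lit 145616314197052914624), .negSucc (nat_lit 22802627046979243007), .ofNat (nat_lit 0)],
  [.negSucc (nat_lit 306801322157924186111), .ofNat (nat_lit 0), .ofNat (nat_lit 0)],
  [],
  [],
  []],
  [[],
  [],
  [],
  [],
  [],
  [.negSucc (nat_lit 126476908182395491823), .ofNat (nat_lit 45075661662381180480), .ofNat (nat_lit 0)],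
  [.ofNat (nat_lit 287019682510109087520), .ofNat (nat_lit 0), .ofNat (nat_lit 0)],
  [],
  []],
  [[],
  [],
  [],
  [],
  [],
  [],
  [.ofNat (nat_lit 84379581455862093624), .negSucc (nat_lit 9753519199118723135), .ofNat (nat_lit 0)],
  [.negSucc (nat_lit 58395076306179140735), .ofNat (nat_lit 0), .ofNat (nat_lit 0)],
  []],
  [[],
  [],
  [],
  [],
  [],
  [],
  [.negSucc (nat_lit 41821985489403669695), .ofNat (nat_lit 6052692562343600256), .ofNat (nat_lit 0)],
  [.ofNat (nat_lit 62980661760379041600), .ofNat (nat_lit 0), .ofNat (nat_lit 0)],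
  []],
  [[],
  [],
  [],
  [],
  [],
  [],
  [],
  [.ofNat (nat_lit 33316971078108490056), .ofNat (nat_lit 1632532323985573248), .ofNat (nat_lit 0)],
  [.ofNat (nat_lit 6165295308428582592), .ofNat (nat_lit 0), .ofNat (nat_lit 0)]],
  [[],
  [],
  [],
  [],
  [],
  [],
  [],
  [.negSucc (nat_lit 14264920496585895551), .negSucc (nat_lit 873584493534127871), .ofNat (nat_lit 0)],
  [.negSucc (nat_lit 9089992419023779199), .ofNat (nat_lit 0), .ofNat (nat_lit 0)]]],
  [[[.negSucc (nat_lit 6916901966255388671), .negSucc (nat_lit 816493140688101110783), .ofNat (nat_lit 47641619950794805248)],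
  [.ofNat (nat_lit 13003434395308707840), .ofNat (nat_lit 1894210988520630039552), .ofNat (nat_lit 0)],
  [],
  [],
  [],
  [],
  [],
  [],
  []],
  [[.ofNat (nat_lit 643115158421373020160), .negSucc (nat_lit 8836531003576488959), .ofNat (nat_lit 0)],
  [.negSucc (nat_lit 1626779358520560557567), .ofNat (nat_lit 0), .ofNat (nat_lit 0)],
  [],
  [],
  [],
  [],
  [],
  [],
  []],
  [[],
  [.negSucc (nat_lit 177915847915033422335), .ofNat (nat_lit 7828234788526442496), .ofNat (nat_lit 0)],
  [.ofNat (nat_lit 199102533945521826816), .ofNat (nat_lit 0), .ofNat (nat_lit 0)],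
  [],
  [],
  [],
  [],
  [],
  []],
  [[],
  [],
  [.ofNat (nat_lit 429201408742307735040), .negSucc (nat_lit 93626858395275955199), .ofNat (nat_lit 0)],
  [.negSucc (nat_lit 625214083893220993535), .ofNat (nat_lit 0), .ofNat (nat_lit 0)],
  [],
  [],
  [],
  [],
  []],
  [[],
  [],
  [],
  [.ofNat (nat_lit 70779533314025558016), .ofNat (nat_lit 81734262469344718848), .ofNat (nat_lit 0)],
  [.ofNat (nat_lit 179903382942597571584), .ofNat (nat_lit 0), .ofNat (nat_lit 0)],
  [],
  [],
  [],
  []],
  [[],
  [],
  [],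
  [],
  [.ofNat (nat_lit 93268265335659848448), .negSucc (nat_lit 58445556037369157375), .ofNat (nat_lit 0)],
  [.negSucc (nat_lit 331380916066187024255), .ofNat (nat_lit 0), .ofNat (nat_lit 0)],
  [],
  [],
  []],
  [[],
  [],
  [],
  [],
  [.ofNat (nat_lit 85253770473922828800), .negSucc (nat_lit 31091320906860930047), .ofNat (nat_lit 0)],
  [.negSucc (nat_lit 45393650031632343551), .ofNat (nat_lit 0), .ofNat (nat_lit 0)],
  [],
  [],
  []],
  [[],
  [],
  [],
  [],
  [],
  [.negSucc (nat_lit 406336079026133928575), .ofNat (nat_lit 70537974734953188864), .ofNat (nat_lit 0)],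
  [.ofNat (nat_lit 508338823596386234112), .ofNat (nat_lit 0), .ofNat (nat_lit 0)],
  [],
  []],
  [[],
  [],
  [],
  [],
  [],
  [],
  [.negSucc (nat_lit 41821985489403669695), .ofNat (nat_lit 6052692562343600256), .ofNat (nat_lit 0)],
  [.ofNat (nat_lit 62980661760379041600), .ofNat (nat_lit 0), .ofNat (nat_lit 0)],
  []],
  [[],
  [],
  [],
  [],
  [],
  [],
  [.ofNat (nat_lit 179514364752256580352), .negSucc (nat_lit 24210770249374401023), .ofNat (nat_lit 0)],
  [.negSucc (nat_lit 251922647041516166399), .ofNat (nat_lit 0), .ofNat (nat_lit 0)],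
  []],
  [[],
  [],
  [],
  [],
  [],
  [],
  [],
  [.ofNat (nat_lit 711210476420615808), .ofNat (nat_lit 1747168987068255744), .ofNat (nat_lit 0)],
  [.ofNat (nat_lit 18179984838047558400), .ofNat (nat_lit 0), .ofNat (nat_lit 0)]],
  [[],
  [],
  [],
  [],
  [],
  [],
  [],
  [.ofNat (nat_lit 32237341930421521920), .ofNat (nat_lit 3494337974136511488), .ofNat (nat_lit 0)],
  [.ofNat (nat_lit 36359969676095116800), .ofNat (nat_lit 0), .ofNat (nat_lit 0)]]],
  [],
  []],
  [[],
  [],
  [],
  [],
  [],
  [],
  [],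
  [],
  [],
  [],
  [[[],
  [],
  [],
  [],
  [],
  [],
  [],
  [],
  []],
  [[.ofNat (nat_lit 81514068695544310272), .negSucc (nat_lit 20048934540157608959), .ofNat (nat_lit 0)],
  [.negSucc (nat_lit 122042301819618894335), .ofNat (nat_lit 0), .ofNat (nat_lit 0)],
  [],
  [],
  [],
  [],
  [],
  [],
  []],
  [[],
  [.negSucc (nat_lit 202520829865642293887), .ofNat (nat_lit 43177169213248331520), .ofNat (nat_lit 0)],
  [.ofNat (nat_lit 319413339014785029504), .ofNat (nat_lit 0), .ofNat (nat_lit 0)],
  [],
  [],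
  [],
  [],
  [],
  []],
  [[],
  [],
  [.ofNat (nat_lit 171600141827275416000), .negSucc (nat_lit 58836426880171635071), .ofNat (nat_lit 0)],
  [.negSucc (nat_lit 352491916830321014207), .ofNat (nat_lit 0), .ofNat (nat_lit 0)],
  [],
  [],
  [],
  [],
  []],
  [[],
  [],
  [],
  [.negSucc (nat_lit 204373528735500194975), .ofNat (nat_lit 57476676693478758912), .ofNat (nat_lit 0)],
  [.ofNat (nat_lit 457383524399058410496), .ofNat (nat_lit 0), .ofNat (nat_lit 0)],
  [],
  [],
  [],
  []],
  [[],
  [],
  [],
  [],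
  [.ofNat (nat_lit 87854460039012410784), .negSucc (nat_lit 20245576257977474879), .ofNat (nat_lit 0)],
  [.negSucc (nat_lit 80801038015410825503), .ofNat (nat_lit 0), .ofNat (nat_lit 0)],
  [],
  [],
  []],
  [[],
  [],
  [],
  [],
  [.ofNat (nat_lit 103829454040154636160), .negSucc (nat_lit 18345274364216685311), .ofNat (nat_lit 0)],
  [.negSucc (nat_lit 190889840799499363199), .ofNat (nat_lit 0), .ofNat (nat_lit 0)],
  [],
  [],
  []],
  [[],
  [],
  [],
  [],
  [],
  [.negSucc (nat_lit 40141892658733484831), .ofNat (nat_lit 10794292303312082880), .ofNat (nat_lit 0)],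
  [.ofNat (nat_lit 79853334753696257376), .ofNat (nat_lit 0), .ofNat (nat_lit 0)],
  [],
  []],
  [[],
  [],
  [],
  [],
  [],
  [],
  [.negSucc (nat_lit 33316971078108490055), .negSucc (nat_lit 1632532323985573247), .ofNat (nat_lit 0)],
  [.negSucc (nat_lit 6165295308428582591), .ofNat (nat_lit 0), .ofNat (nat_lit 0)],
  []],
  [[],
  [],
  [],
  [],
  [],
  [],
  [.negSucc (nat_lit 711210476420615807), .negSucc (nat_lit 1747168987068255743), .ofNat (nat_lit 0)],
  [.negSucc (nat_lit 18179984838047558399), .ofNat (nat_lit 0), .ofNat (nat_lit 0)],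
  []],
  [[],
  [],
  [],
  [],
  [],
  [],
  [],
  [.negSucc (nat_lit 22588587888936257663), .ofNat (nat_lit 0), .ofNat (nat_lit 0)],
  []],
  [[],
  [],
  [],
  [],
  [],
  [],
  [],
  [.ofNat (nat_lit 14146400868516338688), .ofNat (nat_lit 0), .ofNat (nat_lit 0)],
  []]],
  [[[],
  [],
  [],
  [],
  [],
  [],
  [],
  [],
  []],
  [[.ofNat (nat_lit 55020740733960164352), .negSucc (nat_lit 6988675948273022975), .ofNat (nat_lit 0)],
  [.negSucc (nat_lit 72719939352190233599), .ofNat (nat_lit 0), .ofNat (nat_lit 0)],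
  [],
  [],
  [],
  [],
  [],
  [],
  []],
  [[],
  [.ofNat (nat_lit 19738653244988585472), .ofNat (nat_lit 0), .ofNat (nat_lit 0)],
  [],
  [],
  [],
  [],
  [],
  [],
  []],
  [[],
  [],
  [.negSucc (nat_lit 25250769001853503487), .ofNat (nat_lit 0), .ofNat (nat_lit 0)],
  [],
  [],
  [],
  [],
  [],
  []],
  [[],
  [],
  [],
  [.negSucc (nat_lit 91451422885413040127), .ofNat (nat_lit 16554596566021097472), .ofNat (nat_lit 0)],
  [.ofNat (nat_lit 85682332143523777536), .ofNat (nat_lit 0), .ofNat (nat_lit 0)],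
  [],
  [],
  [],
  []],
  [[],
  [],
  [],
  [],
  [.negSucc (nat_lit 8449407217509211007), .ofNat (nat_lit 0), .ofNat (nat_lit 0)],
  [],
  [],
  [],
  []],
  [[],
  [],
  [],
  [],
  [.ofNat (nat_lit 13013177964091863552), .ofNat (nat_lit 0), .ofNat (nat_lit 0)],
  [],
  [],
  [],
  []],
  [[],
  [],
  [],
  [],
  [],
  [.ofNat (nat_lit 3697439752246205952), .ofNat (nat_lit 0), .ofNat (nat_lit 0)],
  [],
  [],
  []],
  [[],
  [],
  [],
  [],
  [],
  [],
  [.ofNat (nat_lit 14264920496585895552), .ofNat (nat_lit 873584493534127872), .ofNat (nat_lit 0)],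
  [.ofNat (nat_lit 9089992419023779200), .ofNat (nat_lit 0), .ofNat (nat_lit 0)],
  []],
  [[],
  [],
  [],
  [],
  [],
  [],
  [.negSucc (nat_lit 32237341930421521919), .negSucc (nat_lit 3494337974136511487), .ofNat (nat_lit 0)],
  [.negSucc (nat_lit 36359969676095116799), .ofNat (nat_lit 0), .ofNat (nat_lit 0)],
  []],
  [[],
  [],
  [],
  [],
  [],
  [],
  [],
  [.ofNat (nat_lit 14146400868516338688), .ofNat (nat_lit 0), .ofNat (nat_lit 0)],
  []],
  [[],
  [],
  [],
  [],
  [],
  [],
  [],
  [.negSucc (nat_lit 35481910555744662527), .ofNat (nat_lit 0), .ofNat (nat_lit 0)],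
  []]]]],
  [[[[[.ofNat (nat_lit 865432228508522496), .ofNat (nat_lit 5600871562980142080), .ofNat (nat_lit 741430464278298624)],
  [.negSucc (nat_lit 7234144326005133311), .negSucc (nat_lit 346164769864793087), .ofNat (nat_lit 0)],
  [],
  [],
  [],
  [],
  [],
  [],
  []],
  [[.ofNat (nat_lit 11253210243584735232), .negSucc (nat_lit 987583342717974527), .ofNat (nat_lit 0)],
  [.negSucc (nat_lit 24081234969287365631), .ofNat (nat_lit 0), .ofNat (nat_lit 0)],
  [],
  [],
  [],
  [],
  [],
  [],
  []],
  [[],
  [.negSucc (nat_lit 5223632679642332159), .ofNat (nat_lit 3295447479382735872), .ofNat (nat_lit 0)],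
  [.ofNat (nat_lit 18203434084118421504), .ofNat (nat_lit 0), .ofNat (nat_lit 0)],
  [],
  [],
  [],
  [],
  [],
  []],
  [[],
  [],
  [.negSucc (nat_lit 33502832535468819455), .ofNat (nat_lit 4168325984292264960), .ofNat (nat_lit 0)],
  [.ofNat (nat_lit 71519989731368776704), .ofNat (nat_lit 0), .ofNat (nat_lit 0)],
  [],
  [],
  [],
  [],
  []],
  [[],
  [],
  [],
  [.negSucc (nat_lit 15198438640297199615), .ofNat (nat_lit 4826608145571631104), .ofNat (nat_lit 0)],
  [.ofNat (nat_lit 23202739284392466432), .ofNat (nat_lit 0), .ofNat (nat_lit 0)],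
  [],
  [],
  [],
  []],
  [[],
  [],
  [],
  [],
  [.ofNat (nat_lit 13241394900431603712), .negSucc (nat_lit 1391054675087969279), .ofNat (nat_lit 0)],
  [.negSucc (nat_lit 29133877630569864191), .ofNat (nat_lit 0), .ofNat (nat_lit 0)],
  [],
  [],
  []],
  [[],
  [],
  [],
  [],
  [.ofNat (nat_lit 4974964562577300480), .negSucc (nat_lit 961823933325563903), .ofNat (nat_lit 0)],
  [.negSucc (nat_lit 12059429722036319231), .ofNat (nat_lit 0), .ofNat (nat_lit 0)],
  [],
  [],
  []],
  [[],
  [],
  [],
  [],
  [],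
  [.ofNat (nat_lit 15880102402717062144), .negSucc (nat_lit 3666652339996578815), .ofNat (nat_lit 0)],
  [.negSucc (nat_lit 31551192911448262655), .ofNat (nat_lit 0), .ofNat (nat_lit 0)],
  [],
  []],
  [[],
  [],
  [],
  [],
  [],
  [],
  [.ofNat (nat_lit 337849965944948736), .negSucc (nat_lit 190966260562200575), .ofNat (nat_lit 0)],
  [.negSucc (nat_lit 584971103450308607), .ofNat (nat_lit 0), .ofNat (nat_lit 0)],
  []],
  [[],
  [],
  [],
  [],
  [],
  [],
  [.ofNat (nat_lit 3458450983127694336), .negSucc (nat_lit 881674363314524159), .ofNat (nat_lit 0)],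
  [.negSucc (nat_lit 6501717197654353919), .ofNat (nat_lit 0), .ofNat (nat_lit 0)],
  []],
  [[],
  [],
  [],
  [],
  [],
  [],
  [],
  [],
  []],
  [[],
  [],
  [],
  [],
  [],
  [],
  [],
  [],
  []]],
  [],
  [],
  [],
  [],
  [],
  [],
  [],
  [],
  [],
  [],
  []],
  [[],
  [],
  [],
  [],
  [],
  [],
  [],
  [],
  [],
  [],
  [],
  []],
  [[],
  [[[.ofNat (nat_lit 0), .ofNat (nat_lit 113714214381574548480), .ofNat (nat_lit 48893103961261056)],
  [.ofNat (nat_lit 0), .negSucc (nat_lit 297256283937044619263), .ofNat (nat_lit 0)],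
  [],
  [],
  [],
  [],
  [],
  [],
  []],
  [[.negSucc (nat_lit 238610604757758423551), .ofNat (nat_lit 6861144834279429120), .ofNat (nat_lit 0)],
  [.ofNat (nat_lit 540939640479740540928), .ofNat (nat_lit 0), .ofNat (nat_lit 0)],
  [],
  [],
  [],
  [],
  [],
  [],
  []],
  [[],
  [.ofNat (nat_lit 102000390166084663296), .negSucc (nat_lit 7499366671470418943), .ofNat (nat_lit 0)],
  [.negSucc (nat_lit 272306703779412664319), .ofNat (nat_lit 0), .ofNat (nat_lit 0)],
  [],
  [],
  [],
  [],
  [],
  []],
  [[],
  [],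
  [.ofNat (nat_lit 347732737333878336768), .negSucc (nat_lit 55373377517298984959), .ofNat (nat_lit 0)],
  [.negSucc (nat_lit 687329859055362769151), .ofNat (nat_lit 0), .ofNat (nat_lit 0)],
  [],
  [],
  [],
  [],
  []],
  [[],
  [],
  [],
  [.negSucc (nat_lit 131762328775505597951), .negSucc (nat_lit 23477625257811194879), .ofNat (nat_lit 0)],
  [.ofNat (nat_lit 404216638646810024448), .ofNat (nat_lit 0), .ofNat (nat_lit 0)],
  [],
  [],
  [],
  []],
  [[],
  [],
  [],
  [],
  [.negSucc (nat_lit 308766934699821042047), .ofNat (nat_lit 55964490173663632128), .ofNat (nat_lit 0)],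
  [.ofNat (nat_lit 621919409389977244032), .ofNat (nat_lit 0), .ofNat (nat_lit 0)],
  [],
  [],
  []],
  [[],
  [],
  [],
  [],
  [.negSucc (nat_lit 174729475728822693887), .ofNat (nat_lit 42228680398954629120), .ofNat (nat_lit 0)],
  [.ofNat (nat_lit 354395154230327227392), .ofNat (nat_lit 0), .ofNat (nat_lit 0)],
  [],
  [],
  []],
  [[],
  [],
  [],
  [],
  [],
  [.negSucc (nat_lit 83321321121954911231), .ofNat (nat_lit 49717755061866455040), .ofNat (nat_lit 0)],
  [.ofNat (nat_lit 98682839453456091648), .ofNat (nat_lit 0), .ofNat (nat_lit 0)],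
  [],
  []],
  [[],
  [],
  [],
  [],
  [],
  [],
  [.ofNat (nat_lit 68594218849346461056), .negSucc (nat_lit 13672493977469432831), .ofNat (nat_lit 0)],
  [.negSucc (nat_lit 137595377879872157951), .ofNat (nat_lit 0), .ofNat (nat_lit 0)],
  []],
  [[],
  [],
  [],
  [],
  [],
  [],
  [.ofNat (nat_lit 105829179745976234496), .negSucc (nat_lit 22398806178753103871), .ofNat (nat_lit 0)],
  [.negSucc (nat_lit 219322243594847480831), .ofNat (nat_lit 0), .ofNat (nat_lit 0)],
  []],
  [[],
  [],
  [],
  [],
  [],
  [],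
  [],
  [.ofNat (nat_lit 45773534369299355136), .negSucc (nat_lit 14604636110544119807), .ofNat (nat_lit 0)],
  [.negSucc (nat_lit 84647221471979357183), .ofNat (nat_lit 0), .ofNat (nat_lit 0)]],
  [[],
  [],
  [],
  [],
  [],
  [],
  [],
  [.ofNat (nat_lit 24209156881893860352), .negSucc (nat_lit 6171720543201669119), .ofNat (nat_lit 0)],
  [.negSucc (nat_lit 45512020383580477439), .ofNat (nat_lit 0), .ofNat (nat_lit 0)]]],
  [],
  [],
  [],
  [],
  [],
  [],
  [],
  [],
  [],
  []],
  [[],
  [],
  [[[.ofNat (nat_lit 0), .negSucc (nat_lit 202584391680299535359), .ofNat (nat_lit 14072194928468312064)],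
  [.ofNat (nat_lit 0), .ofNat (nat_lit 476815305468724909056), .ofNat (nat_lit 0)],
  [],
  [],
  [],
  [],
  [],
  [],
  []],
  [[.ofNat (nat_lit 100584001514214872064), .negSucc (nat_lit 6572828256997893119), .ofNat (nat_lit 0)],
  [.negSucc (nat_lit 204508601689312244735), .ofNat (nat_lit 0), .ofNat (nat_lit 0)],
  [],
  [],
  [],
  [],
  [],
  [],
  []],
  [[],
  [.negSucc (nat_lit 268498303042618722815), .ofNat (nat_lit 55088306548638764544), .ofNat (nat_lit 0)],
  [.ofNat (nat_lit 540547369675830531072), .ofNat (nat_lit 0), .ofNat (nat_lit 0)],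
  [],
  [],
  [],
  [],
  [],
  []],
  [[],
  [],
  [.ofNat (nat_lit 359344018355683636224), .ofNat (nat_lit 5662064266128907776), .ofNat (nat_lit 0)],
  [.negSucc (nat_lit 885275374075653855743), .ofNat (nat_lit 0), .ofNat (nat_lit 0)],
  [],
  [],
  [],
  [],
  []],
  [[],
  [],
  [],
  [.ofNat (nat_lit 696612125874551811840), .negSucc (nat_lit 162334712255669678591), .ofNat (nat_lit 0)],
  [.negSucc (nat_lit 1361810874189949532927), .ofNat (nat_lit 0), .ofNat (nat_lit 0)],
  [],
  [],
  [],
  []],
  [[],
  [],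
  [],
  [],
  [.negSucc (nat_lit 395846138970380484863), .ofNat (nat_lit 14987176238114496000), .ofNat (nat_lit 0)],
  [.ofNat (nat_lit 900696208387872600576), .ofNat (nat_lit 0), .ofNat (nat_lit 0)],
  [],
  [],
  []],
  [[],
  [],
  [],
  [],
  [.ofNat (nat_lit 162328219615419420672), .negSucc (nat_lit 32374508943275606015), .ofNat (nat_lit 0)],
  [.negSucc (nat_lit 328233387217953733631), .ofNat (nat_lit 0), .ofNat (nat_lit 0)],
  [],
  [],
  []],
  [[],
  [],
  [],
  [],
  [],
  [.negSucc (nat_lit 457258435168447518335), .ofNat (nat_lit 125593522354116820224), .ofNat (nat_lit 0)],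
  [.ofNat (nat_lit 855648924340167349632), .ofNat (nat_lit 0), .ofNat (nat_lit 0)],
  [],
  []],
  [[],
  [],
  [],
  [],
  [],
  [],
  [.ofNat (nat_lit 132392455470861068160), .negSucc (nat_lit 16437000118721310719), .ofNat (nat_lit 0)],
  [.negSucc (nat_lit 277625705983343117567), .ofNat (nat_lit 0), .ofNat (nat_lit 0)],
  []],
  [[],
  [],
  [],
  [],
  [],
  [],
  [.negSucc (nat_lit 54944080369324692479), .ofNat (nat_lit 14619972140178905088), .ofNat (nat_lit 0)],
  [.ofNat (nat_lit 93910578770551412736), .ofNat (nat_lit 0), .ofNat (nat_lit 0)],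
  []],
  [[],
  [],
  [],
  [],
  [],
  [],
  [],
  [.ofNat (nat_lit 114052470707500020864), .negSucc (nat_lit 33478930184319309311), .ofNat (nat_lit 0)],
  [.negSucc (nat_lit 212305870427182430975), .ofNat (nat_lit 0), .ofNat (nat_lit 0)]],
  [[],
  [],
  [],
  [],
  [],
  [],
  [],
  [],
  []]],
  [],
  [],
  [],
  [],
  [],
  [],
  [],
  [],
  []],
  [[],
  [],
  [],
  [[[.ofNat (nat_lit 0), .negSucc (nat_lit 610843008127069532159), .ofNat (nat_lit 4520275313406124032)],
  [.ofNat (nat_lit 0), .ofNat (nat_lit 1464953797721513392128), .ofNat (nat_lit 0)],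
  [],
  [],
  [],
  [],
  [],
  [],
  []],
  [[.ofNat (nat_lit 958575745460947868928), .negSucc (nat_lit 59893652830705108991), .ofNat (nat_lit 0)],
  [.negSucc (nat_lit 2152283656776876161279), .ofNat (nat_lit 0), .ofNat (nat_lit 0)],
  [],
  [],
  [],
  [],
  [],
  [],
  []],
  [[],
  [.negSucc (nat_lit 359344018355683636223), .negSucc (nat_lit 5662064266128907775), .ofNat (nat_lit 0)],
  [.ofNat (nat_lit 885275374075653855744), .ofNat (nat_lit 0), .ofNat (nat_lit 0)],
  [],
  [],
  [],
  [],
  [],
  []],
  [[],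
  [],
  [.negSucc (nat_lit 894770660606695388927), .ofNat (nat_lit 205810880724561288960), .ofNat (nat_lit 0)],
  [.ofNat (nat_lit 1675326219133441810176), .ofNat (nat_lit 0), .ofNat (nat_lit 0)],
  [],
  [],
  [],
  [],
  []],
  [[],
  [],
  [],
  [.ofNat (nat_lit 999963406059100063488), .negSucc (nat_lit 86724046878420335615), .ofNat (nat_lit 0)],
  [.negSucc (nat_lit 2235896722499962042367), .ofNat (nat_lit 0), .ofNat (nat_lit 0)],
  [],
  [],
  [],
  []],
  [[],
  [],
  [],
  [],
  [.ofNat (nat_lit 573212911812569569728), .negSucc (nat_lit 182357615224937561471), .ofNat (nat_lit 0)],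
  [.negSucc (nat_lit 1002052321167436579007), .ofNat (nat_lit 0), .ofNat (nat_lit 0)],
  [],
  [],
  []],
  [[],
  [],
  [],
  [],
  [.ofNat (nat_lit 292915020752305265664), .negSucc (nat_lit 116123991376976354303), .ofNat (nat_lit 0)],
  [.negSucc (nat_lit 503782918495665956351), .ofNat (nat_lit 0), .ofNat (nat_lit 0)],
  [],
  [],
  []],
  [[],
  [],
  [],
  [],
  [],
  [.negSucc (nat_lit 693229254081401204351), .ofNat (nat_lit 139254106454945503488), .ofNat (nat_lit 0)],
  [.ofNat (nat_lit 1410701342026447027584), .ofNat (nat_lit 0), .ofNat (nat_lit 0)],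
  [],
  []],
  [[],
  [],
  [],
  [],
  [],
  [],
  [.negSucc (nat_lit 57360540463934187455), .ofNat (nat_lit 31183338426622359552), .ofNat (nat_lit 0)],
  [.ofNat (nat_lit 82869507141631134336), .ofNat (nat_lit 0), .ofNat (nat_lit 0)],
  []],
  [[],
  [],
  [],
  [],
  [],
  [],
  [.negSucc (nat_lit 218008346789244151295), .ofNat (nat_lit 78915935637328555008), .ofNat (nat_lit 0)],
  [.ofNat (nat_lit 375955588037005784064), .ofNat (nat_lit 0), .ofNat (nat_lit 0)],
  []],
  [[],
  [],
  [],
  [],
  [],
  [],
  [],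
  [.ofNat (nat_lit 132781386192542966592), .negSucc (nat_lit 42656710729782046463), .ofNat (nat_lit 0)],
  [.negSucc (nat_lit 245408160594016732031), .ofNat (nat_lit 0), .ofNat (nat_lit 0)]],
  [[],
  [],
  [],
  [],
  [],
  [],
  [],
  [],
  []]],
  [],
  [],
  [],
  [],
  [],
  [],
  [],
  []],
  [[],
  [],
  [],
  [],
  [[[.ofNat (nat_lit 0), .ofNat (nat_lit 895629712159363857408), .negSucc (nat_lit 65099762509281804287)],
  [.ofNat (nat_lit 0), .negSucc (nat_lit 2055288757954472478719), .ofNat (nat_lit 0)],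
  [],
  [],
  [],
  [],
  [],
  [],
  []],
  [[.negSucc (nat_lit 763867383383858259455), .ofNat (nat_lit 88577387767092999168), .ofNat (nat_lit 0)],
  [.ofNat (nat_lit 1651072119307662454272), .ofNat (nat_lit 0), .ofNat (nat_lit 0)],
  [],
  [],
  [],
  [],
  [],
  [],
  []],
  [[],
  [.ofNat (nat_lit 696612125874551811840), .negSucc (nat_lit 162334712255669678591), .ofNat (nat_lit 0)],
  [.negSucc (nat_lit 1361810874189949532927), .ofNat (nat_lit 0), .ofNat (nat_lit 0)],
  [],
  [],
  [],
  [],
  [],
  []],
  [[],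
  [],
  [.negSucc (nat_lit 999963406059100063487), .ofNat (nat_lit 86724046878420335616), .ofNat (nat_lit 0)],
  [.ofNat (nat_lit 2235896722499962042368), .ofNat (nat_lit 0), .ofNat (nat_lit 0)],
  [],
  [],
  [],
  [],
  []],
  [[],
  [],
  [],
  [.negSucc (nat_lit 910539511754825161727), .ofNat (nat_lit 404747113808739483648), .ofNat (nat_lit 0)],
  [.ofNat (nat_lit 1480264276198987063296), .ofNat (nat_lit 0), .ofNat (nat_lit 0)],
  [],
  [],
  [],
  []],
  [[],
  [],
  [],
  [],
  [.ofNat (nat_lit 1242664748920946347776), .negSucc (nat_lit 275360442554019082751), .ofNat (nat_lit 0)],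
  [.negSucc (nat_lit 2434903538738390384255), .ofNat (nat_lit 0), .ofNat (nat_lit 0)],
  [],
  [],
  []],
  [[],
  [],
  [],
  [],
  [.negSucc (nat_lit 72923781959466273791), .negSucc (nat_lit 15315760283298637823), .ofNat (nat_lit 0)],
  [.ofNat (nat_lit 178111496321624222208), .ofNat (nat_lit 0), .ofNat (nat_lit 0)],
  [],
  [],
  []],
  [[],
  [],
  [],
  [],
  [],
  [.negSucc (nat_lit 90497831155201241279), .negSucc (nat_lit 96722047734919952255), .ofNat (nat_lit 0)],
  [.ofNat (nat_lit 363954827556485548992), .ofNat (nat_lit 0), .ofNat (nat_lit 0)],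
  [],
  []],
  [[],
  [],
  [],
  [],
  [],
  [],
  [.negSucc (nat_lit 299824278797299823999), .ofNat (nat_lit 100019504602469240064), .ofNat (nat_lit 0)],
  [.ofNat (nat_lit 535327970448706682112), .ofNat (nat_lit 0), .ofNat (nat_lit 0)],
  []],
  [[],
  [],
  [],
  [],
  [],
  [],
  [.negSucc (nat_lit 88868321548953338879), .ofNat (nat_lit 56896894478357517312), .ofNat (nat_lit 0)],
  [.ofNat (nat_lit 127961015907256068096), .ofNat (nat_lit 0), .ofNat (nat_lit 0)],
  []],
  [[],
  [],
  [],
  [],
  [],
  [],
  [],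
  [.ofNat (nat_lit 160627114741858329600), .negSucc (nat_lit 45719288114790140927), .ofNat (nat_lit 0)],
  [.negSucc (nat_lit 299688307508471906303), .ofNat (nat_lit 0), .ofNat (nat_lit 0)]],
  [[],
  [],
  [],
  [],
  [],
  [],
  [],
  [.ofNat (nat_lit 33668955928352424960), .negSucc (nat_lit 11518775838943285247), .ofNat (nat_lit 0)],
  [.negSucc (nat_lit 61891211280189118463), .ofNat (nat_lit 0), .ofNat (nat_lit 0)]]],
  [],
  [],
  [],
  [],
  [],
  [],
  []],
  [[],
  [],
  [],
  [],
  [],
  [[[.ofNat (nat_lit 0), .ofNat (nat_lit 831528799956085837824), .negSucc (nat_lit 19198959768148414463)],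
  [.ofNat (nat_lit 0), .negSucc (nat_lit 1940148068750229998591), .ofNat (nat_lit 0)],
  [],
  [],
  [],
  [],
  [],
  [],
  []],
  [[.negSucc (nat_lit 1140295734655906879871), .ofNat (nat_lit 75163449941812046592), .ofNat (nat_lit 0)],
  [.ofNat (nat_lit 2562067478140207242624), .ofNat (nat_lit 0), .ofNat (nat_lit 0)],
  [],
  [],
  [],
  [],
  [],
  [],
  []],
  [[],
  [.ofNat (nat_lit 395846138970380484864), .negSucc (nat_lit 14987176238114495999), .ofNat (nat_lit 0)],
  [.negSucc (nat_lit 900696208387872600575), .ofNat (nat_lit 0), .ofNat (nat_lit 0)],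
  [],
  [],
  [],
  [],
  [],
  []],
  [[],
  [],
  [.ofNat (nat_lit 573212911812569569728), .negSucc (nat_lit 182357615224937561471), .ofNat (nat_lit 0)],
  [.negSucc (nat_lit 1002052321167436579007), .ofNat (nat_lit 0), .ofNat (nat_lit 0)],
  [],
  [],
  [],
  [],
  []],
  [[],
  [],
  [],
  [.negSucc (nat_lit 1242664748920946347775), .ofNat (nat_lit 275360442554019082752), .ofNat (nat_lit 0)],
  [.ofNat (nat_lit 2434903538738390384256), .ofNat (nat_lit 0), .ofNat (nat_lit 0)],
  [],
  [],
  [],
  []],
  [[],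
  [],
  [],
  [],
  [.ofNat (nat_lit 39116103402874647168), .ofNat (nat_lit 25821856615863814272), .ofNat (nat_lit 0)],
  [.negSucc (nat_lit 156451450976095787135), .ofNat (nat_lit 0), .ofNat (nat_lit 0)],
  [],
  [],
  []],
  [[],
  [],
  [],
  [],
  [.ofNat (nat_lit 73204280232955196544), .ofNat (nat_lit 29615933735781154560), .ofNat (nat_lit 0)],
  [.negSucc (nat_lit 207360211343005415807), .ofNat (nat_lit 0), .ofNat (nat_lit 0)],
  [],
  [],
  []],
  [[],
  [],
  [],
  [],
  [],
  [.ofNat (nat_lit 566691861989040831936), .negSucc (nat_lit 205783308476917120511), .ofNat (nat_lit 0)],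
  [.negSucc (nat_lit 980189397199411410815), .ofNat (nat_lit 0), .ofNat (nat_lit 0)],
  [],
  []],
  [[],
  [],
  [],
  [],
  [],
  [],
  [.negSucc (nat_lit 137027996762815013759), .ofNat (nat_lit 47305790556175193472), .ofNat (nat_lit 0)],
  [.ofNat (nat_lit 245436636981893868288), .ofNat (nat_lit 0), .ofNat (nat_lit 0)],
  []],
  [[],
  [],
  [],
  [],
  [],
  [],
  [.negSucc (nat_lit 127853165999369600639), .ofNat (nat_lit 40827771094724932608), .ofNat (nat_lit 0)],
  [.ofNat (nat_lit 238689425755687309056), .ofNat (nat_lit 0), .ofNat (nat_lit 0)],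
  []],
  [[],
  [],
  [],
  [],
  [],
  [],
  [],
  [.ofNat (nat_lit 34616174688785791584), .negSucc (nat_lit 13227972151938832511), .ofNat (nat_lit 0)],
  [.negSucc (nat_lit 62969553543558989375), .ofNat (nat_lit 0), .ofNat (nat_lit 0)]],
  [[],
  [],
  [],
  [],
  [],
  [],
  [],
  [],
  []]],
  [[[.ofNat (nat_lit 0), .negSucc (nat_lit 509058398723111470079), .ofNat (nat_lit 44160051552144804864)],
  [.ofNat (nat_lit 0), .ofNat (nat_lit 1129655468587397925888), .ofNat (nat_lit 0)],
  [],
  [],
  [],
  [],
  [],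
  [],
  []],
  [[.ofNat (nat_lit 334328922994288776192), .negSucc (nat_lit 1931371153190175743), .ofNat (nat_lit 0)],
  [.negSucc (nat_lit 775260314357070698495), .ofNat (nat_lit 0), .ofNat (nat_lit 0)],
  [],
  [],
  [],
  [],
  [],
  [],
  []],
  [[],
  [.negSucc (nat_lit 162328219615419420671), .ofNat (nat_lit 32374508943275606016), .ofNat (nat_lit 0)],
  [.ofNat (nat_lit 328233387217953733632), .ofNat (nat_lit 0), .ofNat (nat_lit 0)],
  [],
  [],
  [],
  [],
  [],
  []],
  [[],
  [],
  [.ofNat (nat_lit 292915020752305265664), .negSucc (nat_lit 116123991376976354303), .ofNat (nat_lit 0)],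
  [.negSucc (nat_lit 503782918495665956351), .ofNat (nat_lit 0), .ofNat (nat_lit 0)],
  [],
  [],
  [],
  [],
  []],
  [[],
  [],
  [],
  [.ofNat (nat_lit 72923781959466273792), .ofNat (nat_lit 15315760283298637824), .ofNat (nat_lit 0)],
  [.negSucc (nat_lit 178111496321624222207), .ofNat (nat_lit 0), .ofNat (nat_lit 0)],
  [],
  [],
  [],
  []],
  [[],
  [],
  [],
  [],
  [.ofNat (nat_lit 73204280232955196544), .ofNat (nat_lit 29615933735781154560), .ofNat (nat_lit 0)],
  [.negSucc (nat_lit 207360211343005415807), .ofNat (nat_lit 0), .ofNat (nat_lit 0)],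
  [],
  [],
  []],
  [[],
  [],
  [],
  [],
  [.negSucc (nat_lit 3314717166689726975), .negSucc (nat_lit 5560775473436384255), .ofNat (nat_lit 0)],
  [.ofNat (nat_lit 14075837447307830784), .ofNat (nat_lit 0), .ofNat (nat_lit 0)],
  [],
  [],
  []],
  [[],
  [],
  [],
  [],
  [],
  [.negSucc (nat_lit 71876351493038283263), .negSucc (nat_lit 27203789209991671295), .ofNat (nat_lit 0)],
  [.ofNat (nat_lit 192752405811227619072), .ofNat (nat_lit 0), .ofNat (nat_lit 0)],
  [],
  []],
  [[],
  [],
  [],
  [],
  [],
  [],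
  [.negSucc (nat_lit 99092403644245539839), .ofNat (nat_lit 21753945115459094016), .ofNat (nat_lit 0)],
  [.ofNat (nat_lit 190239669813095424000), .ofNat (nat_lit 0), .ofNat (nat_lit 0)],
  []],
  [[],
  [],
  [],
  [],
  [],
  [],
  [.negSucc (nat_lit 27290630856160396799), .ofNat (nat_lit 20989329044192833536), .ofNat (nat_lit 0)],
  [.ofNat (nat_lit 35501677460276659200), .ofNat (nat_lit 0), .ofNat (nat_lit 0)],
  []],
  [[],
  [],
  [],
  [],
  [],
  [],
  [],
  [.ofNat (nat_lit 63549036814971383424), .negSucc (nat_lit 16200766425904381439), .ofNat (nat_lit 0)],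
  [.negSucc (nat_lit 119469053506898753279), .ofNat (nat_lit 0), .ofNat (nat_lit 0)]],
  [[],
  [],
  [],
  [],
  [],
  [],
  [],
  [],
  []]],
  [],
  [],
  [],
  [],
  []],
  [[],
  [],
  [],
  [],
  [],
  [],
  [],
  [[[.ofNat (nat_lit 0), .negSucc (nat_lit 1123307590645981209599), .ofNat (nat_lit 66051166565326113792)],
  [.ofNat (nat_lit 0), .ofNat (nat_lit 2587673985830161588224), .ofNat (nat_lit 0)],
  [],
  [],
  [],
  [],
  [],
  [],
  []],
  [[.ofNat (nat_lit 1206628911767936120832), .negSucc (nat_lit 115768921627192568831), .ofNat (nat_lit 0)],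
  [.negSucc (nat_lit 2686356825283617679871), .ofNat (nat_lit 0), .ofNat (nat_lit 0)],
  [],
  [],
  [],
  [],
  [],
  [],
  []],
  [[],
  [.negSucc (nat_lit 457258435168447518335), .ofNat (nat_lit 125593522354116820224), .ofNat (nat_lit 0)],
  [.ofNat (nat_lit 855648924340167349632), .ofNat (nat_lit 0), .ofNat (nat_lit 0)],
  [],
  [],
  [],
  [],
  [],
  []],
  [[],
  [],
  [.ofNat (nat_lit 693229254081401204352), .negSucc (nat_lit 139254106454945503487), .ofNat (nat_lit 0)],
  [.negSucc (nat_lit 1410701342026447027583), .ofNat (nat_lit 0), .ofNat (nat_lit 0)],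
  [],
  [],
  [],
  [],
  []],
  [[],
  [],
  [],
  [.negSucc (nat_lit 90497831155201241279), .negSucc (nat_lit 96722047734919952255), .ofNat (nat_lit 0)],
  [.ofNat (nat_lit 363954827556485548992), .ofNat (nat_lit 0), .ofNat (nat_lit 0)],
  [],
  [],
  [],
  []],
  [[],
  [],
  [],
  [],
  [.negSucc (nat_lit 566691861989040831935), .ofNat (nat_lit 205783308476917120512), .ofNat (nat_lit 0)],
  [.ofNat (nat_lit 980189397199411410816), .ofNat (nat_lit 0), .ofNat (nat_lit 0)],
  [],
  [],
  []],
  [[],
  [],
  [],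
  [],
  [.ofNat (nat_lit 71876351493038283264), .ofNat (nat_lit 27203789209991671296), .ofNat (nat_lit 0)],
  [.negSucc (nat_lit 192752405811227619071), .ofNat (nat_lit 0), .ofNat (nat_lit 0)],
  [],
  [],
  []],
  [[],
  [],
  [],
  [],
  [],
  [.ofNat (nat_lit 620773223551184198016), .negSucc (nat_lit 211739475602591388287), .ofNat (nat_lit 0)],
  [.negSucc (nat_lit 1118896849038795252479), .ofNat (nat_lit 0), .ofNat (nat_lit 0)],
  [],
  []],
  [[],
  [],
  [],
  [],
  [],
  [],
  [.negSucc (nat_lit 105551813246964798815), .ofNat (nat_lit 33942836574554526720), .ofNat (nat_lit 0)],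
  [.ofNat (nat_lit 193361923485220286016), .ofNat (nat_lit 0), .ofNat (nat_lit 0)],
  []],
  [[],
  [],
  [],
  [],
  [],
  [],
  [.negSucc (nat_lit 180464634206848855295), .ofNat (nat_lit 55957903348648882176), .ofNat (nat_lit 0)],
  [.ofNat (nat_lit 329958162120020073984), .ofNat (nat_lit 0), .ofNat (nat_lit 0)],
  []],
  [[],
  [],
  [],
  [],
  [],
  [],
  [],
  [.ofNat (nat_lit 28513117676875005216), .negSucc (nat_lit 8369732546079827327), .ofNat (nat_lit 0)],
  [.negSucc (nat_lit 53076467606795607743), .ofNat (nat_lit 0), .ofNat (nat_lit 0)]],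
  [[],
  [],
  [],
  [],
  [],
  [],
  [],
  [],
  []]],
  [],
  [],
  [],
  []],
  [[],
  [],
  [],
  [],
  [],
  [],
  [],
  [],
  [[[.ofNat (nat_lit 0), .negSucc (nat_lit 189592959011036147711), .ofNat (nat_lit 7935142727043698688)],
  [.ofNat (nat_lit 0), .ofNat (nat_lit 426670220474147837952), .ofNat (nat_lit 0)],
  [],
  [],
  [],
  [],
  [],
  [],
  []],
  [[.ofNat (nat_lit 258187177860382608768), .negSucc (nat_lit 21607636704513131519), .ofNat (nat_lit 0)],
  [.negSucc (nat_lit 564265598354019995903), .ofNat (nat_lit 0), .ofNat (nat_lit 0)],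
  [],
  [],
  [],
  [],
  [],
  [],
  []],
  [[],
  [.negSucc (nat_lit 132392455470861068159), .ofNat (nat_lit 16437000118721310720), .ofNat (nat_lit 0)],
  [.ofNat (nat_lit 277625705983343117568), .ofNat (nat_lit 0), .ofNat (nat_lit 0)],
  [],
  [],
  [],
  [],
  [],
  []],
  [[],
  [],
  [.negSucc (nat_lit 57360540463934187455), .ofNat (nat_lit 31183338426622359552), .ofNat (nat_lit 0)],
  [.ofNat (nat_lit 82869507141631134336), .ofNat (nat_lit 0), .ofNat (nat_lit 0)],
  [],
  [],
  [],
  [],
  []],
  [[],
  [],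
  [],
  [.ofNat (nat_lit 299824278797299824000), .negSucc (nat_lit 100019504602469240063), .ofNat (nat_lit 0)],
  [.negSucc (nat_lit 535327970448706682111), .ofNat (nat_lit 0), .ofNat (nat_lit 0)],
  [],
  [],
  [],
  []],
  [[],
  [],
  [],
  [],
  [.negSucc (nat_lit 137027996762815013759), .ofNat (nat_lit 47305790556175193472), .ofNat (nat_lit 0)],
  [.ofNat (nat_lit 245436636981893868288), .ofNat (nat_lit 0), .ofNat (nat_lit 0)],
  [],
  [],
  []],
  [[],
  [],
  [],
  [],
  [.negSucc (nat_lit 99092403644245539839), .ofNat (nat_lit 21753945115459094016), .ofNat (nat_lit 0)],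
  [.ofNat (nat_lit 190239669813095424000), .ofNat (nat_lit 0), .ofNat (nat_lit 0)],
  [],
  [],
  []],
  [[],
  [],
  [],
  [],
  [],
  [.ofNat (nat_lit 105551813246964798816), .negSucc (nat_lit 33942836574554526719), .ofNat (nat_lit 0)],
  [.negSucc (nat_lit 193361923485220286015), .ofNat (nat_lit 0), .ofNat (nat_lit 0)],
  [],
  []],
  [[],
  [],
  [],
  [],
  [],
  [],
  [.negSucc (nat_lit 22001038815996194687), .ofNat (nat_lit 7069964073158291328), .ofNat (nat_lit 0)],
  [.ofNat (nat_lit 40661620742610445824), .ofNat (nat_lit 0), .ofNat (nat_lit 0)],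
  []],
  [[],
  [],
  [],
  [],
  [],
  [],
  [.ofNat (nat_lit 20966859085211646912), .negSucc (nat_lit 5345150827594302719), .ofNat (nat_lit 0)],
  [.negSucc (nat_lit 39416660510779520639), .ofNat (nat_lit 0), .ofNat (nat_lit 0)],
  []],
  [[],
  [],
  [],
  [],
  [],
  [],
  [],
  [.ofNat (nat_lit 2695547185925686848), .negSucc (nat_lit 1054114445917806335), .ofNat (nat_lit 0)],
  [.negSucc (nat_lit 4891900136049859967), .ofNat (nat_lit 0), .ofNat (nat_lit 0)]],
  [[],
  [],
  [],
  [],
  [],
  [],
  [],
  [.negSucc (nat_lit 3026144610236732543), .ofNat (nat_lit 771465067900208640), .ofNat (nat_lit 0)],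
  [.ofNat (nat_lit 5689002547947559680), .ofNat (nat_lit 0), .ofNat (nat_lit 0)]]],
  [[[.ofNat (nat_lit 0), .ofNat (nat_lit 803725845367723941888), .negSucc (nat_lit 58004277866613808127)],
  [.ofNat (nat_lit 0), .negSucc (nat_lit 1812349381560473567231), .ofNat (nat_lit 0)],
  [],
  [],
  [],
  [],
  [],
  [],
  []],
  [[.negSucc (nat_lit 697896665621747707391), .ofNat (nat_lit 35605471687860704256), .ofNat (nat_lit 0)],
  [.ofNat (nat_lit 1593027137965626086400), .ofNat (nat_lit 0), .ofNat (nat_lit 0)],
  [],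
  [],
  [],
  [],
  [],
  [],
  []],
  [[],
  [.ofNat (nat_lit 54944080369324692480), .negSucc (nat_lit 14619972140178905087), .ofNat (nat_lit 0)],
  [.negSucc (nat_lit 93910578770551412735), .ofNat (nat_lit 0), .ofNat (nat_lit 0)],
  [],
  [],
  [],
  [],
  [],
  []],
  [[],
  [],
  [.negSucc (nat_lit 218008346789244151295), .ofNat (nat_lit 78915935637328555008), .ofNat (nat_lit 0)],
  [.ofNat (nat_lit 375955588037005784064), .ofNat (nat_lit 0), .ofNat (nat_lit 0)],
  [],
  [],
  [],
  [],
  []],
  [[],
  [],
  [],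
  [.ofNat (nat_lit 88868321548953338880), .negSucc (nat_lit 56896894478357517311), .ofNat (nat_lit 0)],
  [.negSucc (nat_lit 127961015907256068095), .ofNat (nat_lit 0), .ofNat (nat_lit 0)],
  [],
  [],
  [],
  []],
  [[],
  [],
  [],
  [],
  [.negSucc (nat_lit 127853165999369600639), .ofNat (nat_lit 40827771094724932608), .ofNat (nat_lit 0)],
  [.ofNat (nat_lit 238689425755687309056), .ofNat (nat_lit 0), .ofNat (nat_lit 0)],
  [],
  [],
  []],
  [[],
  [],
  [],
  [],
  [.negSucc (nat_lit 27290630856160396799), .ofNat (nat_lit 20989329044192833536), .ofNat (nat_lit 0)],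
  [.ofNat (nat_lit 35501677460276659200), .ofNat (nat_lit 0), .ofNat (nat_lit 0)],
  [],
  [],
  []],
  [[],
  [],
  [],
  [],
  [],
  [.ofNat (nat_lit 180464634206848855296), .negSucc (nat_lit 55957903348648882175), .ofNat (nat_lit 0)],
  [.negSucc (nat_lit 329958162120020073983), .ofNat (nat_lit 0), .ofNat (nat_lit 0)],
  [],
  []],
  [[],
  [],
  [],
  [],
  [],
  [],
  [.ofNat (nat_lit 20966859085211646912), .negSucc (nat_lit 5345150827594302719), .ofNat (nat_lit 0)],
  [.negSucc (nat_lit 39416660510779520639), .ofNat (nat_lit 0), .ofNat (nat_lit 0)],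
  []],
  [[],
  [],
  [],
  [],
  [],
  [],
  [.negSucc (nat_lit 83867436340846587647), .ofNat (nat_lit 21380603310377210880), .ofNat (nat_lit 0)],
  [.ofNat (nat_lit 157666642043118082560), .ofNat (nat_lit 0), .ofNat (nat_lit 0)],
  []],
  [[],
  [],
  [],
  [],
  [],
  [],
  [],
  [.ofNat (nat_lit 6052289220473465088), .negSucc (nat_lit 1542930135800417279), .ofNat (nat_lit 0)],
  [.negSucc (nat_lit 11378005095895119359), .ofNat (nat_lit 0), .ofNat (nat_lit 0)]],
  [[],
  [],
  [],
  [],
  [],
  [],
  [],
  [.ofNat (nat_lit 12104578440946930176), .negSucc (nat_lit 3085860271600834559), .ofNat (nat_lit 0)],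
  [.negSucc (nat_lit 22756010191790238719), .ofNat (nat_lit 0), .ofNat (nat_lit 0)]]],
  [],
  []],
  [[],
  [],
  [],
  [],
  [],
  [],
  [],
  [],
  [],
  [],
  [[[],
  [],
  [],
  [],
  [],
  [],
  [],
  [],
  []],
  [[.negSucc (nat_lit 45773534369299355135), .ofNat (nat_lit 14604636110544119808), .ofNat (nat_lit 0)],
  [.ofNat (nat_lit 84647221471979357184), .ofNat (nat_lit 0), .ofNat (nat_lit 0)],
  [],
  [],
  [],
  [],
  [],
  [],
  []],
  [[],
  [.ofNat (nat_lit 114052470707500020864), .negSucc (nat_lit 33478930184319309311), .ofNat (nat_lit 0)],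
  [.negSucc (nat_lit 212305870427182430975), .ofNat (nat_lit 0), .ofNat (nat_lit 0)],
  [],
  [],
  [],
  [],
  [],
  []],
  [[],
  [],
  [.negSucc (nat_lit 132781386192542966591), .ofNat (nat_lit 42656710729782046464), .ofNat (nat_lit 0)],
  [.ofNat (nat_lit 245408160594016732032), .ofNat (nat_lit 0), .ofNat (nat_lit 0)],
  [],
  [],
  [],
  [],
  []],
  [[],
  [],
  [],
  [.ofNat (nat_lit 160627114741858329600), .negSucc (nat_lit 45719288114790140927), .ofNat (nat_lit 0)],
  [.negSucc (nat_lit 299688307508471906303), .ofNat (nat_lit 0), .ofNat (nat_lit 0)],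
  [],
  [],
  [],
  []],
  [[],
  [],
  [],
  [],
  [.negSucc (nat_lit 34616174688785791583), .ofNat (nat_lit 13227972151938832512), .ofNat (nat_lit 0)],
  [.ofNat (nat_lit 62969553543558989376), .ofNat (nat_lit 0), .ofNat (nat_lit 0)],
  [],
  [],
  []],
  [[],
  [],
  [],
  [],
  [.negSucc (nat_lit 63549036814971383423), .ofNat (nat_lit 16200766425904381440), .ofNat (nat_lit 0)],
  [.ofNat (nat_lit 119469053506898753280), .ofNat (nat_lit 0), .ofNat (nat_lit 0)],
  [],
  [],
  []],
  [[],
  [],
  [],
  [],
  [],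
  [.ofNat (nat_lit 28513117676875005216), .negSucc (nat_lit 8369732546079827327), .ofNat (nat_lit 0)],
  [.negSucc (nat_lit 53076467606795607743), .ofNat (nat_lit 0), .ofNat (nat_lit 0)],
  [],
  []],
  [[],
  [],
  [],
  [],
  [],
  [],
  [.negSucc (nat_lit 2695547185925686847), .ofNat (nat_lit 1054114445917806336), .ofNat (nat_lit 0)],
  [.ofNat (nat_lit 4891900136049859968), .ofNat (nat_lit 0), .ofNat (nat_lit 0)],
  []],
  [[],
  [],
  [],
  [],
  [],
  [],
  [.negSucc (nat_lit 6052289220473465087), .ofNat (nat_lit 1542930135800417280), .ofNat (nat_lit 0)],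
  [.ofNat (nat_lit 11378005095895119360), .ofNat (nat_lit 0), .ofNat (nat_lit 0)],
  []],
  [[],
  [],
  [],
  [],
  [],
  [],
  [],
  [],
  []],
  [[],
  [],
  [],
  [],
  [],
  [],
  [],
  [],
  []]],
  [[[],
  [],
  [],
  [],
  [],
  [],
  [],
  [],
  []],
  [[.negSucc (nat_lit 24209156881893860351), .ofNat (nat_lit 6171720543201669120), .ofNat (nat_lit 0)],
  [.ofNat (nat_lit 45512020383580477440), .ofNat (nat_lit 0), .ofNat (nat_lit 0)],
  [],
  [],
  [],
  [],
  [],
  [],
  []],
  [[],
  [],
  [],
  [],
  [],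
  [],
  [],
  [],
  []],
  [[],
  [],
  [],
  [],
  [],
  [],
  [],
  [],
  []],
  [[],
  [],
  [],
  [.ofNat (nat_lit 33668955928352424960), .negSucc (nat_lit 11518775838943285247), .ofNat (nat_lit 0)],
  [.negSucc (nat_lit 61891211280189118463), .ofNat (nat_lit 0), .ofNat (nat_lit 0)],
  [],
  [],
  [],
  []],
  [[],
  [],
  [],
  [],
  [],
  [],
  [],
  [],
  []],
  [[],
  [],
  [],
  [],
  [],
  [],
  [],
  [],
  []],
  [[],
  [],
  [],
  [],
  [],
  [],
  [],
  [],
  []],
  [[],
  [],
  [],
  [],
  [],
  [],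
  [.ofNat (nat_lit 3026144610236732544), .negSucc (nat_lit 771465067900208639), .ofNat (nat_lit 0)],
  [.negSucc (nat_lit 5689002547947559679), .ofNat (nat_lit 0), .ofNat (nat_lit 0)],
  []],
  [[],
  [],
  [],
  [],
  [],
  [],
  [.negSucc (nat_lit 12104578440946930175), .ofNat (nat_lit 3085860271600834560), .ofNat (nat_lit 0)],
  [.ofNat (nat_lit 22756010191790238720), .ofNat (nat_lit 0), .ofNat (nat_lit 0)],
  []],
  [[],
  [],
  [],
  [],
  [],
  [],
  [],
  [],
  []],
  [[],
  [],
  [],
  [],
  [],
  [],
  [],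
  [],
  []]]]]]

noncomputable def BP4_E : L5 := [[[[[],
  []],
  [[],
  []],
  [[],
  []]],
  [[[.ofNat (nat_lit 6097886283858649920), .negSucc (nat_lit 286453370997423359), .ofNat (nat_lit 0)],
  [.negSucc (nat_lit 10870205238563435135), .ofNat (nat_lit 0), .ofNat (nat_lit 0)]],
  [[.ofNat (nat_lit 647896826751290208), .ofNat (nat_lit 0), .ofNat (nat_lit 0)],
  []],
  [[],
  []]],
  [[[.negSucc (nat_lit 64174326471462195359), .ofNat (nat_lit 3320990981454753792), .ofNat (nat_lit 0)],
  [.ofNat (nat_lit 117861918232712716224), .ofNat (nat_lit 0), .ofNat (nat_lit 0)]],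
  [[.negSucc (nat_lit 3904885263725479007), .ofNat (nat_lit 0), .ofNat (nat_lit 0)],
  []],
  [[],
  []]],
  [[[.ofNat (nat_lit 343827236143321089984), .negSucc (nat_lit 16731006690985323839), .ofNat (nat_lit 0)],
  [.negSucc (nat_lit 671016923598824910431), .ofNat (nat_lit 0), .ofNat (nat_lit 0)]],
  [[.ofNat (nat_lit 7949782964148746400), .ofNat (nat_lit 0), .ofNat (nat_lit 0)],
  []],
  [[],
  []]],
  [[[.negSucc (nat_lit 1101217155626653732511), .ofNat (nat_lit 47523276901193078304), .ofNat (nat_lit 0)],
  [.ofNat (nat_lit 2265282340887213715104), .ofNat (nat_lit 0), .ofNat (nat_lit 0)]],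
  [[.negSucc (nat_lit 2093612520783559967), .ofNat (nat_lit 0), .ofNat (nat_lit 0)],
  []],
  [[],
  []]],
  [[[.ofNat (nat_lit 2174961276758008001088), .negSucc (nat_lit 82535352497593742303), .ofNat (nat_lit 0)],
  [.negSucc (nat_lit 4643327845776996291167), .ofNat (nat_lit 0), .ofNat (nat_lit 0)]],
  [[.negSucc (nat_lit 18082902105347478335), .ofNat (nat_lit 0), .ofNat (nat_lit 0)],
  []],
  [[],
  []]],
  [[[.negSucc (nat_lit 2653853557467038258303), .ofNat (nat_lit 88893879872781212352), .ofNat (nat_lit 0)],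
  [.ofNat (nat_lit 5811205197961299854880), .ofNat (nat_lit 0), .ofNat (nat_lit 0)]],
  [[.ofNat (nat_lit 34787529363942584352), .ofNat (nat_lit 0), .ofNat (nat_lit 0)],
  []],
  [[],
  []]],
  [[[.ofNat (nat_lit 1941849088173212455872), .negSucc (nat_lit 57341217324843590111), .ofNat (nat_lit 0)],
  [.negSucc (nat_lit 4328083206704018931263), .ofNat (nat_lit 0), .ofNat (nat_lit 0)]],
  [[.negSucc (nat_lit 30024402764092424639), .ofNat (nat_lit 0), .ofNat (nat_lit 0)],
  []],
  [[],
  []]],
  [[[.negSucc (nat_lit 778423054674633850367), .ofNat (nat_lit 19956550759461174240), .ofNat (nat_lit 0)],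
  [.ofNat (nat_lit 1757480254068522817152), .ofNat (nat_lit 0), .ofNat (nat_lit 0)]],
  [[.ofNat (nat_lit 12938212908840362400), .ofNat (nat_lit 0), .ofNat (nat_lit 0)],
  []],
  [[],
  []]],
  [[[.ofNat (nat_lit 130932606881387839680), .negSucc (nat_lit 2800668630470139071), .ofNat (nat_lit 0)],
  [.negSucc (nat_lit 298531529831345535359), .ofNat (nat_lit 0), .ofNat (nat_lit 0)]],
  [[.negSucc (nat_lit 2217619409734041407), .ofNat (nat_lit 0), .ofNat (nat_lit 0)],
  []],
  [[],
  []]]],
  [[[[],
  []],
  [[],
  []],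
  [[],
  []]],
  [[[.negSucc (nat_lit 230844665274826751), .ofNat (nat_lit 0), .ofNat (nat_lit 0)],
  []],
  [[.negSucc (nat_lit 894018524790094271), .ofNat (nat_lit 87039406865576160), .ofNat (nat_lit 0)],
  [.ofNat (nat_lit 1579844257705033632), .ofNat (nat_lit 0), .ofNat (nat_lit 0)]],
  [[.ofNat (nat_lit 409747392077224608), .negSucc (nat_lit 7692277451239871), .ofNat (nat_lit 0)],
  [.negSucc (nat_lit 763356241848504959), .ofNat (nat_lit 0), .ofNat (nat_lit 0)]]],
  [[[.ofNat (nat_lit 13803983956444534560), .ofNat (nat_lit 666276281097231744), .ofNat (nat_lit 0)],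
  [.negSucc (nat_lit 23512053930048724031), .ofNat (nat_lit 0), .ofNat (nat_lit 0)]],
  [[.ofNat (nat_lit 207013152063226176), .negSucc (nat_lit 174078813731152319), .ofNat (nat_lit 0)],
  [.negSucc (nat_lit 3159688515410067263), .ofNat (nat_lit 0), .ofNat (nat_lit 0)]],
  [[.negSucc (nat_lit 819494784154449215), .ofNat (nat_lit 15384554902479744), .ofNat (nat_lit 0)],
  [.ofNat (nat_lit 1526712483697009920), .ofNat (nat_lit 0), .ofNat (nat_lit 0)]]],
  [[[.negSucc (nat_lit 164285527498431806879), .negSucc (nat_lit 1052877276144499391), .ofNat (nat_lit 0)],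
  [.ofNat (nat_lit 338300347635398682432), .ofNat (nat_lit 0), .ofNat (nat_lit 0)]],
  [[.ofNat (nat_lit 12044262261073123008), .ofNat (nat_lit 87039406865576160), .ofNat (nat_lit 0)],
  [.ofNat (nat_lit 1579844257705033632), .ofNat (nat_lit 0), .ofNat (nat_lit 0)]],
  [[.ofNat (nat_lit 409747392077224608), .negSucc (nat_lit 7692277451239871), .ofNat (nat_lit 0)],
  [.negSucc (nat_lit 763356241848504959), .ofNat (nat_lit 0), .ofNat (nat_lit 0)]]],
  [[[.ofNat (nat_lit 830352646535516830368), .negSucc (nat_lit 9470458464314020127), .ofNat (nat_lit 0)],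
  [.negSucc (nat_lit 1811536971941000896703), .ofNat (nat_lit 0), .ofNat (nat_lit 0)]],
  [[.negSucc (nat_lit 43635993654470431391), .ofNat (nat_lit 0), .ofNat (nat_lit 0)],
  []],
  [[],
  []]],
  [[[.negSucc (nat_lit 2193962723076336922079), .ofNat (nat_lit 40076310965290385472), .ofNat (nat_lit 0)],
  [.ofNat (nat_lit 4917335162437305452736), .ofNat (nat_lit 0), .ofNat (nat_lit 0)]],
  [[.ofNat (nat_lit 79031834959865219712), .ofNat (nat_lit 0), .ofNat (nat_lit 0)],
  []],
  [[],
  []]],
  [[[.ofNat (nat_lit 3267319305842753222016), .negSucc (nat_lit 66525383026121892767), .ofNat (nat_lit 0)],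
  [.negSucc (nat_lit 7443595760435889523775), .ofNat (nat_lit 0), .ofNat (nat_lit 0)]],
  [[.negSucc (nat_lit 87049836138895117631), .ofNat (nat_lit 0), .ofNat (nat_lit 0)],
  []],
  [[],
  []]],
  [[[.negSucc (nat_lit 2748216997333757804543), .ofNat (nat_lit 54578028865908514752), .ofNat (nat_lit 0)],
  [.ofNat (nat_lit 6333696321503952341952), .ofNat (nat_lit 0), .ofNat (nat_lit 0)]],
  [[.ofNat (nat_lit 60077113490449589760), .ofNat (nat_lit 0), .ofNat (nat_lit 0)],
  []],
  [[],
  []]],
  [[[.ofNat (nat_lit 1209495771384697192896), .negSucc (nat_lit 20879530503856418303), .ofNat (nat_lit 0)],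
  [.negSucc (nat_lit 2813478860046504466367), .ofNat (nat_lit 0), .ofNat (nat_lit 0)]],
  [[.negSucc (nat_lit 23514607563883115615), .ofNat (nat_lit 0), .ofNat (nat_lit 0)],
  []],
  [[],
  []]],
  [[[.negSucc (nat_lit 214275615145610419583), .ofNat (nat_lit 2607633158140698624), .ofNat (nat_lit 0)],
  [.ofNat (nat_lit 502791814776787133760), .ofNat (nat_lit 0), .ofNat (nat_lit 0)]],
  [[.ofNat (nat_lit 3734232018587600256), .ofNat (nat_lit 0), .ofNat (nat_lit 0)],
  []],
  [[],
  []]]],
  [[[[],
  []],
  [[],
  []],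
  [[],
  []]],
  [[[.negSucc (nat_lit 227255921157002975), .negSucc (nat_lit 92315272396624703), .ofNat (nat_lit 0)],
  [.ofNat (nat_lit 367970864466200832), .ofNat (nat_lit 0), .ofNat (nat_lit 0)]],
  [[.ofNat (nat_lit 140645681922691296), .ofNat (nat_lit 242309907761665248), .ofNat (nat_lit 0)],
  [.ofNat (nat_lit 76072401524315232), .ofNat (nat_lit 0), .ofNat (nat_lit 0)]],
  [[.ofNat (nat_lit 163238521238822880), .negSucc (nat_lit 102982733730710495), .ofNat (nat_lit 0)],
  [.negSucc (nat_lit 568857315128700671), .ofNat (nat_lit 0), .ofNat (nat_lit 0)]]],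
  [[[],
  []],
  [[],
  []],
  [[],
  []]],
  [[[.ofNat (nat_lit 57342562607800512576), .negSucc (nat_lit 2855919458225595455), .ofNat (nat_lit 0)],
  [.negSucc (nat_lit 121684087809357027263), .ofNat (nat_lit 0), .ofNat (nat_lit 0)]],
  [[.negSucc (nat_lit 5256497718283206815), .negSucc (nat_lit 726929723284995743), .ofNat (nat_lit 0)],
  [.negSucc (nat_lit 228217204572945695), .ofNat (nat_lit 0), .ofNat (nat_lit 0)]],
  [[.negSucc (nat_lit 489715563716468639), .ofNat (nat_lit 308948201192131488), .ofNat (nat_lit 0)],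
  [.ofNat (nat_lit 1706571945386102016), .ofNat (nat_lit 0), .ofNat (nat_lit 0)]]],
  [[[.negSucc (nat_lit 347418969281192456927), .ofNat (nat_lit 12469274364276333216), .ofNat (nat_lit 0)],
  [.ofNat (nat_lit 747532616839416283968), .ofNat (nat_lit 0), .ofNat (nat_lit 0)]],
  [[.ofNat (nat_lit 19919487587736097152), .ofNat (nat_lit 484619815523330496), .ofNat (nat_lit 0)],
  [.ofNat (nat_lit 152144803048630464), .ofNat (nat_lit 0), .ofNat (nat_lit 0)]],
  [[.ofNat (nat_lit 326477042477645760), .negSucc (nat_lit 205965467461420991), .ofNat (nat_lit 0)],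
  [.negSucc (nat_lit 1137714630257401343), .ofNat (nat_lit 0), .ofNat (nat_lit 0)]]],
  [[[.ofNat (nat_lit 932080327393397042016), .negSucc (nat_lit 24836521060934151551), .ofNat (nat_lit 0)],
  [.negSucc (nat_lit 2034654739438004860319), .ofNat (nat_lit 0), .ofNat (nat_lit 0)]],
  [[.negSucc (nat_lit 34397346068812393919), .ofNat (nat_lit 0), .ofNat (nat_lit 0)],
  []],
  [[],
  []]],
  [[[.negSucc (nat_lit 1388972625880383821087), .ofNat (nat_lit 30866569613647456032), .ofNat (nat_lit 0)],
  [.ofNat (nat_lit 3081292756280304503616), .ofNat (nat_lit 0), .ofNat (nat_lit 0)]],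
  [[.ofNat (nat_lit 35092460409571845504), .ofNat (nat_lit 0), .ofNat (nat_lit 0)],
  []],
  [[],
  []]],
  [[[.ofNat (nat_lit 1188642418925239627200), .negSucc (nat_lit 23001748324491683807), .ofNat (nat_lit 0)],
  [.negSucc (nat_lit 2681800779987785535263), .ofNat (nat_lit 0), .ofNat (nat_lit 0)]],
  [[.negSucc (nat_lit 22186187768449444319), .ofNat (nat_lit 0), .ofNat (nat_lit 0)],
  []],
  [[],
  []]],
  [[[.negSucc (nat_lit 543830751654500726207), .ofNat (nat_lit 8277539158922510016), .ofNat (nat_lit 0)],
  [.ofNat (nat_lit 1247839924630008138048), .ofNat (nat_lit 0), .ofNat (nat_lit 0)]],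
  [[.ofNat (nat_lit 7500761499070152576), .ofNat (nat_lit 0), .ofNat (nat_lit 0)],
  []],
  [[],
  []]],
  [[[.ofNat (nat_lit 102384293810796825408), .negSucc (nat_lit 826879020798243743), .ofNat (nat_lit 0)],
  [.negSucc (nat_lit 238893661379047703615), .ofNat (nat_lit 0), .ofNat (nat_lit 0)]],
  [[.negSucc (nat_lit 813323622755741471), .ofNat (nat_lit 0), .ofNat (nat_lit 0)],
  []],
  [[],
  []]]],
  [[[[],
  []],
  [[],
  []],
  [[],
  []]],
  [[[.negSucc (nat_lit 1053384682023667295), .ofNat (nat_lit 97385666404760064), .ofNat (nat_lit 0)],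
  [.ofNat (nat_lit 1832820804700976160), .ofNat (nat_lit 0), .ofNat (nat_lit 0)]],
  [[.ofNat (nat_lit 1686004310675039904), .negSucc (nat_lit 236767649636683295), .ofNat (nat_lit 0)],
  [.negSucc (nat_lit 3066045117133875839), .ofNat (nat_lit 0), .ofNat (nat_lit 0)]],
  [[.negSucc (nat_lit 1046963516733400607), .ofNat (nat_lit 130260187009133280), .ofNat (nat_lit 0)],
  [.ofNat (nat_lit 2234999679105274272), .ofNat (nat_lit 0), .ofNat (nat_lit 0)]]],
  [[[],
  []],
  [[],
  []],
  [[],
  []]],
  [[[],
  []],
  [[],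
  []],
  [[],
  []]],
  [[[.negSucc (nat_lit 30267328727299093631), .ofNat (nat_lit 4537122794966349792), .ofNat (nat_lit 0)],
  [.ofNat (nat_lit 73221524517126297024), .ofNat (nat_lit 0), .ofNat (nat_lit 0)]],
  [[.negSucc (nat_lit 4445493837448588127), .ofNat (nat_lit 947070598546733184), .ofNat (nat_lit 0)],
  [.ofNat (nat_lit 12264180468535503360), .ofNat (nat_lit 0), .ofNat (nat_lit 0)]],
  [[.ofNat (nat_lit 4187854066933602432), .negSucc (nat_lit 521040748036533119), .ofNat (nat_lit 0)],
  [.negSucc (nat_lit 8939998716421097087), .ofNat (nat_lit 0), .ofNat (nat_lit 0)]]],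
  [[[.ofNat (nat_lit 246016610093276313120), .negSucc (nat_lit 18533346520735508255), .ofNat (nat_lit 0)],
  [.negSucc (nat_lit 590985680299108060895), .ofNat (nat_lit 0), .ofNat (nat_lit 0)]],
  [[.ofNat (nat_lit 15700286615741856), .negSucc (nat_lit 710302948910049887), .ofNat (nat_lit 0)],
  [.negSucc (nat_lit 9198135351401627519), .ofNat (nat_lit 0), .ofNat (nat_lit 0)]],
  [[.negSucc (nat_lit 3140890550200201823), .ofNat (nat_lit 390780561027399840), .ofNat (nat_lit 0)],
  [.ofNat (nat_lit 6704999037315822816), .ofNat (nat_lit 0), .ofNat (nat_lit 0)]]],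
  [[[.negSucc (nat_lit 622684016714898276191), .ofNat (nat_lit 29853864744692353056), .ofNat (nat_lit 0)],
  [.ofNat (nat_lit 1504277887366779318432), .ofNat (nat_lit 0), .ofNat (nat_lit 0)]],
  [[.ofNat (nat_lit 6635464735405178304), .ofNat (nat_lit 0), .ofNat (nat_lit 0)],
  []],
  [[],
  []]],
  [[[.ofNat (nat_lit 692308497800830296384), .negSucc (nat_lit 22634742241573469855), .ofNat (nat_lit 0)],
  [.negSucc (nat_lit 1684150595588686693247), .ofNat (nat_lit 0), .ofNat (nat_lit 0)]],
  [[.negSucc (nat_lit 7896081702381043103), .ofNat (nat_lit 0), .ofNat (nat_lit 0)],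
  []],
  [[],
  []]],
  [[[.negSucc (nat_lit 340867664737386210143), .ofNat (nat_lit 6376577025942084096), .ofNat (nat_lit 0)],
  [.ofNat (nat_lit 838640061250228380384), .ofNat (nat_lit 0), .ofNat (nat_lit 0)]],
  [[.ofNat (nat_lit 4562402753926205280), .ofNat (nat_lit 0), .ofNat (nat_lit 0)],
  []],
  [[],
  []]],
  [[[.ofNat (nat_lit 56547286967500637760), .ofNat (nat_lit 303138530303431104), .ofNat (nat_lit 0)],
  [.negSucc (nat_lit 142836018051040217855), .ofNat (nat_lit 0), .ofNat (nat_lit 0)]],
  [[.negSucc (nat_lit 557996546792534111), .ofNat (nat_lit 0), .ofNat (nat_lit 0)],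
  []],
  [[],
  []]]],
  [[[[],
  []],
  [[],
  []],
  [[],
  []]],
  [[[.ofNat (nat_lit 972399195099232992), .ofNat (nat_lit 101476579759232256), .ofNat (nat_lit 0)],
  [.negSucc (nat_lit 1776711533137386911), .ofNat (nat_lit 0), .ofNat (nat_lit 0)]],
  [[.negSucc (nat_lit 1015383705888710591), .ofNat (nat_lit 148912458596311680), .ofNat (nat_lit 0)],
  [.ofNat (nat_lit 1560307878307581120), .ofNat (nat_lit 0), .ofNat (nat_lit 0)]],
  [[.ofNat (nat_lit 474951207509287488), .negSucc (nat_lit 150831504549113471), .ofNat (nat_lit 0)],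
  [.negSucc (nat_lit 725085602637264575), .ofNat (nat_lit 0), .ofNat (nat_lit 0)]]],
  [[[],
  []],
  [[],
  []],
  [[],
  []]],
  [[[],
  []],
  [[],
  []],
  [[],
  []]],
  [[[],
  []],
  [[],
  []],
  [[],
  []]],
  [[[.negSucc (nat_lit 80373260592594856511), .negSucc (nat_lit 315101925529474463), .ofNat (nat_lit 0)],
  [.ofNat (nat_lit 194884451907546346560), .ofNat (nat_lit 0), .ofNat (nat_lit 0)]],
  [[.ofNat (nat_lit 3522067784809369632), .negSucc (nat_lit 744562292981558399), .ofNat (nat_lit 0)],
  [.negSucc (nat_lit 7801539391537905599), .ofNat (nat_lit 0), .ofNat (nat_lit 0)]],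
  [[.negSucc (nat_lit 2374756037546437439), .ofNat (nat_lit 754157522745567360), .ofNat (nat_lit 0)],
  [.ofNat (nat_lit 3625428013186322880), .ofNat (nat_lit 0), .ofNat (nat_lit 0)]]],
  [[[.ofNat (nat_lit 302486337380110194432), .negSucc (nat_lit 2296587264545035295), .ofNat (nat_lit 0)],
  [.negSucc (nat_lit 748614417315587059391), .ofNat (nat_lit 0), .ofNat (nat_lit 0)]],
  [[.negSucc (nat_lit 1925339665412380031), .ofNat (nat_lit 595649834385246720), .ofNat (nat_lit 0)],
  [.ofNat (nat_lit 6241231513230324480), .ofNat (nat_lit 0), .ofNat (nat_lit 0)]],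
  [[.ofNat (nat_lit 1899804830037149952), .negSucc (nat_lit 603326018196453887), .ofNat (nat_lit 0)],
  [.negSucc (nat_lit 2900342410549058303), .ofNat (nat_lit 0), .ofNat (nat_lit 0)]]],
  [[[.negSucc (nat_lit 419921758423348216991), .ofNat (nat_lit 3024547752648529440), .ofNat (nat_lit 0)],
  [.ofNat (nat_lit 1057051067747594513184), .ofNat (nat_lit 0), .ofNat (nat_lit 0)]],
  [[.negSucc (nat_lit 1159234335877503455), .ofNat (nat_lit 0), .ofNat (nat_lit 0)],
  []],
  [[],
  []]],
  [[[.ofNat (nat_lit 246098353515951412800), .ofNat (nat_lit 1289261352382086816), .ofNat (nat_lit 0)],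
  [.negSucc (nat_lit 633582998913514139135), .ofNat (nat_lit 0), .ofNat (nat_lit 0)]],
  [[.ofNat (nat_lit 2129286175864353216), .ofNat (nat_lit 0), .ofNat (nat_lit 0)],
  []],
  [[],
  []]],
  [[[.negSucc (nat_lit 49262071075217766719), .negSucc (nat_lit 1803596494715338751), .ofNat (nat_lit 0)],
  [.ofNat (nat_lit 132038608107097725696), .ofNat (nat_lit 0), .ofNat (nat_lit 0)]],
  [[.negSucc (nat_lit 1551396253495128767), .ofNat (nat_lit 0), .ofNat (nat_lit 0)],
  []],
  [[],
  []]]],
  [[[[],
  []],
  [[],
  []],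
  [[],
  []]],
  [[[.ofNat (nat_lit 614482999856438688), .negSucc (nat_lit 180843277719285503), .ofNat (nat_lit 0)],
  [.negSucc (nat_lit 1041436375917483743), .ofNat (nat_lit 0), .ofNat (nat_lit 0)]],
  [[.negSucc (nat_lit 789790952103783551), .ofNat (nat_lit 77743550719887264), .ofNat (nat_lit 0)],
  [.ofNat (nat_lit 1190294163105374304), .ofNat (nat_lit 0), .ofNat (nat_lit 0)]],
  [[.ofNat (nat_lit 413793590638487616), .negSucc (nat_lit 43470458596499039), .ofNat (nat_lit 0)],
  [.negSucc (nat_lit 910433675955308255), .ofNat (nat_lit 0), .ofNat (nat_lit 0)]]],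
  [[[],
  []],
  [[],
  []],
  [[],
  []]],
  [[[],
  []],
  [[],
  []],
  [[],
  []]],
  [[[],
  []],
  [[],
  []],
  [[],
  []]],
  [[[],
  []],
  [[],
  []],
  [[],
  []]],
  [[[.negSucc (nat_lit 3266343168917875775), .ofNat (nat_lit 1053681412890292992), .ofNat (nat_lit 0)],
  [.ofNat (nat_lit 7546250783327608800), .ofNat (nat_lit 0), .ofNat (nat_lit 0)]],
  [[.ofNat (nat_lit 4060809951713834112), .negSucc (nat_lit 466461304319323583), .ofNat (nat_lit 0)],
  [.negSucc (nat_lit 7141764978632245823), .ofNat (nat_lit 0), .ofNat (nat_lit 0)]],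
  [[.negSucc (nat_lit 2482761543830925695), .ofNat (nat_lit 260822751578994240), .ofNat (nat_lit 0)],
  [.ofNat (nat_lit 5462602055731849536), .ofNat (nat_lit 0), .ofNat (nat_lit 0)]]],
  [[[.ofNat (nat_lit 18086118879433631616), .negSucc (nat_lit 1552149745240099103), .ofNat (nat_lit 0)],
  [.negSucc (nat_lit 45657796401534367871), .ofNat (nat_lit 0), .ofNat (nat_lit 0)]],
  [[.negSucc (nat_lit 2739121172951434847), .ofNat (nat_lit 388717753599436320), .ofNat (nat_lit 0)],
  [.ofNat (nat_lit 5951470815526871520), .ofNat (nat_lit 0), .ofNat (nat_lit 0)]],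
  [[.ofNat (nat_lit 2068967953192438080), .negSucc (nat_lit 217352292982495199), .ofNat (nat_lit 0)],
  [.negSucc (nat_lit 4552168379776541279), .ofNat (nat_lit 0), .ofNat (nat_lit 0)]]],
  [[[.negSucc (nat_lit 31289072250965145407), .ofNat (nat_lit 1390001473563603264), .ofNat (nat_lit 0)],
  [.ofNat (nat_lit 77008331460425779296), .ofNat (nat_lit 0), .ofNat (nat_lit 0)]],
  [[.negSucc (nat_lit 385859892408364223), .ofNat (nat_lit 0), .ofNat (nat_lit 0)],
  []],
  [[],
  []]],
  [[[.ofNat (nat_lit 15854813540592950880), .negSucc (nat_lit 710689863494511647), .ofNat (nat_lit 0)],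
  [.negSucc (nat_lit 37855349466301536479), .ofNat (nat_lit 0), .ofNat (nat_lit 0)]],
  [[.negSucc (nat_lit 146037934250251487), .ofNat (nat_lit 0), .ofNat (nat_lit 0)],
  []],
  [[],
  []]]],
  [[[[],
  []],
  [[],
  []],
  [[],
  []]],
  [[[.negSucc (nat_lit 162946223926271711), .negSucc (nat_lit 103337420420312351), .ofNat (nat_lit 0)],
  [.ofNat (nat_lit 276329880656434368), .ofNat (nat_lit 0), .ofNat (nat_lit 0)]],
  [[.negSucc (nat_lit 56577649487942015), .ofNat (nat_lit 80179631814109536), .ofNat (nat_lit 0)],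
  [.ofNat (nat_lit 233953596156110976), .ofNat (nat_lit 0), .ofNat (nat_lit 0)]],
  [[.ofNat (nat_lit 155467642580540640), .negSucc (nat_lit 30056997916423871), .ofNat (nat_lit 0)],
  [.negSucc (nat_lit 376857178813634975), .ofNat (nat_lit 0), .ofNat (nat_lit 0)]]],
  [[[],
  []],
  [[],
  []],
  [[],
  []]],
  [[[],
  []],
  [[],
  []],
  [[],
  []]],
  [[[],
  []],
  [[],
  []],
  [[],
  []]],
  [[[],
  []],
  [[],
  []],
  [[],
  []]],
  [[[.negSucc (nat_lit 11676982886016734879), .ofNat (nat_lit 1365377784444208224), .ofNat (nat_lit 0)],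
  [.ofNat (nat_lit 34779900479535323136), .ofNat (nat_lit 0), .ofNat (nat_lit 0)]],
  [[.negSucc (nat_lit 893753500112172863), .negSucc (nat_lit 481077790884657215), .ofNat (nat_lit 0)],
  [.negSucc (nat_lit 1403721576936665855), .ofNat (nat_lit 0), .ofNat (nat_lit 0)]],
  [[.negSucc (nat_lit 932805855483243839), .ofNat (nat_lit 180341987498543232), .ofNat (nat_lit 0)],
  [.ofNat (nat_lit 2261143072881809856), .ofNat (nat_lit 0), .ofNat (nat_lit 0)]]],
  [[[.ofNat (nat_lit 33491098174009532256), .negSucc (nat_lit 1449525724001716607), .ofNat (nat_lit 0)],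
  [.negSucc (nat_lit 97985202743650177439), .ofNat (nat_lit 0), .ofNat (nat_lit 0)]],
  [[.ofNat (nat_lit 3417216374451726432), .ofNat (nat_lit 400898159070547680), .ofNat (nat_lit 0)],
  [.ofNat (nat_lit 1169767980780554880), .ofNat (nat_lit 0), .ofNat (nat_lit 0)]],
  [[.ofNat (nat_lit 777338212902703200), .negSucc (nat_lit 150284989582119359), .ofNat (nat_lit 0)],
  [.negSucc (nat_lit 1884285894068174879), .ofNat (nat_lit 0), .ofNat (nat_lit 0)]]],
  [[[.negSucc (nat_lit 30647677898558686175), .negSucc (nat_lit 370382541966692639), .ofNat (nat_lit 0)],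
  [.ofNat (nat_lit 89420065003442910528), .ofNat (nat_lit 0), .ofNat (nat_lit 0)]],
  [[.negSucc (nat_lit 3700551052663398143), .ofNat (nat_lit 0), .ofNat (nat_lit 0)],
  []],
  [[],
  []]],
  [[[.ofNat (nat_lit 8996508834492160512), .ofNat (nat_lit 557867901944513376), .ofNat (nat_lit 0)],
  [.negSucc (nat_lit 26491092619984490591), .ofNat (nat_lit 0), .ofNat (nat_lit 0)]],
  [[.ofNat (nat_lit 1233665827811786592), .ofNat (nat_lit 0), .ofNat (nat_lit 0)],
  []],
  [[],
  []]]],
  [[[[],
  []],
  [[],
  []],
  [[],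
  []]],
  [[[.negSucc (nat_lit 1130973358271157215), .ofNat (nat_lit 221361184535883840), .ofNat (nat_lit 0)],
  [.ofNat (nat_lit 2144917702304649792), .ofNat (nat_lit 0), .ofNat (nat_lit 0)]],
  [[.ofNat (nat_lit 957569741327776896), .negSucc (nat_lit 164753788453577855), .ofNat (nat_lit 0)],
  [.negSucc (nat_lit 1359248483678998175), .ofNat (nat_lit 0), .ofNat (nat_lit 0)]],
  [[.negSucc (nat_lit 496253200084908191), .ofNat (nat_lit 114582885624893088), .ofNat (nat_lit 0)],
  [.ofNat (nat_lit 985974778482758208), .ofNat (nat_lit 0), .ofNat (nat_lit 0)]]],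
  [[[],
  []],
  [[],
  []],
  [[],
  []]],
  [[[],
  []],
  [[],
  []],
  [[],
  []]],
  [[[],
  []],
  [[],
  []],
  [[],
  []]],
  [[[],
  []],
  [[],
  []],
  [[],
  []]],
  [[[],
  []],
  [[],
  []],
  [[],
  []]],
  [[[.negSucc (nat_lit 7461459189459281087), .negSucc (nat_lit 671609132673730559), .ofNat (nat_lit 0)],
  [.ofNat (nat_lit 19995668356956660288), .ofNat (nat_lit 0), .ofNat (nat_lit 0)]],
  [[.negSucc (nat_lit 5913901657986516287), .ofNat (nat_lit 1153276519175044992), .ofNat (nat_lit 0)],
  [.ofNat (nat_lit 9514739385752987232), .ofNat (nat_lit 0), .ofNat (nat_lit 0)]],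
  [[.ofNat (nat_lit 3473772400594357344), .negSucc (nat_lit 802080199374251615), .ofNat (nat_lit 0)],
  [.negSucc (nat_lit 6901823449379307455), .ofNat (nat_lit 0), .ofNat (nat_lit 0)]]],
  [[[.ofNat (nat_lit 23970705245087819904), .negSucc (nat_lit 427671210939609599), .ofNat (nat_lit 0)],
  [.negSucc (nat_lit 57150678332350518911), .ofNat (nat_lit 0), .ofNat (nat_lit 0)]],
  [[.ofNat (nat_lit 4167245385350817408), .negSucc (nat_lit 988522730721467135), .ofNat (nat_lit 0)],
  [.negSucc (nat_lit 8155490902073989055), .ofNat (nat_lit 0), .ofNat (nat_lit 0)]],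
  [[.negSucc (nat_lit 2977519200509449151), .ofNat (nat_lit 687497313749358528), .ofNat (nat_lit 0)],
  [.ofNat (nat_lit 5915848670896549248), .ofNat (nat_lit 0), .ofNat (nat_lit 0)]]],
  [[[.negSucc (nat_lit 15378272697357381599), .ofNat (nat_lit 877919159077456320), .ofNat (nat_lit 0)],
  [.ofNat (nat_lit 35010092273089208832), .ofNat (nat_lit 0), .ofNat (nat_lit 0)]],
  [[.ofNat (nat_lit 789086531307921984), .ofNat (nat_lit 0), .ofNat (nat_lit 0)],
  []],
  [[],
  []]]],
  [[[[],
  []],
  [[],
  []],
  [[],
  []]],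
  [[[.ofNat (nat_lit 1733987226819744), .negSucc (nat_lit 2814561688493951), .ofNat (nat_lit 0)],
  [.negSucc (nat_lit 2132803158751583), .ofNat (nat_lit 0), .ofNat (nat_lit 0)]],
  [[.negSucc (nat_lit 12955738945904927), .ofNat (nat_lit 10676250689450976), .ofNat (nat_lit 0)],
  [.ofNat (nat_lit 14466956240327616), .ofNat (nat_lit 0), .ofNat (nat_lit 0)]],
  [[.ofNat (nat_lit 10557811435779648), .negSucc (nat_lit 5967695642568767), .ofNat (nat_lit 0)],
  [.negSucc (nat_lit 18280346982822143), .ofNat (nat_lit 0), .ofNat (nat_lit 0)]]],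
  [[[],
  []],
  [[],
  []],
  [[],
  []]],
  [[[],
  []],
  [[],
  []],
  [[],
  []]],
  [[[],
  []],
  [[],
  []],
  [[],
  []]],
  [[[],
  []],
  [[],
  []],
  [[],
  []]],
  [[[],
  []],
  [[],
  []],
  [[],
  []]],
  [[[],
  []],
  [[],
  []],
  [[],
  []]],
  [[[.negSucc (nat_lit 13871897814557951), .ofNat (nat_lit 22516493507951616), .ofNat (nat_lit 0)],
  [.ofNat (nat_lit 17062425270012672), .ofNat (nat_lit 0), .ofNat (nat_lit 0)]],
  [[.ofNat (nat_lit 103645911567239424), .negSucc (nat_lit 85410005515607807), .ofNat (nat_lit 0)],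
  [.negSucc (nat_lit 115735649922620927), .ofNat (nat_lit 0), .ofNat (nat_lit 0)]],
  [[.negSucc (nat_lit 84462491486237183), .ofNat (nat_lit 47741565140550144), .ofNat (nat_lit 0)],
  [.ofNat (nat_lit 146242775862577152), .ofNat (nat_lit 0), .ofNat (nat_lit 0)]]],
  [[[.ofNat (nat_lit 12137910587738208), .negSucc (nat_lit 19701931819457663), .ofNat (nat_lit 0)],
  [.negSucc (nat_lit 14929622111261087), .ofNat (nat_lit 0), .ofNat (nat_lit 0)]],
  [[.negSucc (nat_lit 90690172621334495), .ofNat (nat_lit 74733754826156832), .ofNat (nat_lit 0)],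
  [.ofNat (nat_lit 101268693682293312), .ofNat (nat_lit 0), .ofNat (nat_lit 0)]],
  [[.ofNat (nat_lit 73904680050457536), .negSucc (nat_lit 41773869497981375), .ofNat (nat_lit 0)],
  [.negSucc (nat_lit 127962428879755007), .ofNat (nat_lit 0), .ofNat (nat_lit 0)]]]],
  [[[[],
  []],
  [[],
  []],
  [[],
  []]],
  [[[.ofNat (nat_lit 531222193541668896), .negSucc (nat_lit 69823395123888671), .ofNat (nat_lit 0)],
  [.negSucc (nat_lit 1093881243400648703), .ofNat (nat_lit 0), .ofNat (nat_lit 0)]],
  [[.negSucc (nat_lit 245628306848036447), .ofNat (nat_lit 31199446197647424), .ofNat (nat_lit 0)],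
  [.ofNat (nat_lit 324642586393706400), .ofNat (nat_lit 0), .ofNat (nat_lit 0)]],
  [[.ofNat (nat_lit 108076593222740448), .negSucc (nat_lit 27552323853578879), .ofNat (nat_lit 0)],
  [.negSucc (nat_lit 203178662426698559), .ofNat (nat_lit 0), .ofNat (nat_lit 0)]]],
  [[[],
  []],
  [[],
  []],
  [[],
  []]],
  [[[],
  []],
  [[],
  []],
  [[],
  []]],
  [[[],
  []],
  [[],
  []],
  [[],
  []]],
  [[[],
  []],
  [[],
  []],
  [[],
  []]],
  [[[],
  []],
  [[],
  []],
  [[],
  []]],
  [[[],
  []],
  [[],
  []],
  [[],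
  []]],
  [[[.negSucc (nat_lit 4249777548333351167), .ofNat (nat_lit 558587160991109376), .ofNat (nat_lit 0)],
  [.ofNat (nat_lit 8751049947205189632), .ofNat (nat_lit 0), .ofNat (nat_lit 0)]],
  [[.ofNat (nat_lit 1965026454784291584), .negSucc (nat_lit 249595569581179391), .ofNat (nat_lit 0)],
  [.negSucc (nat_lit 2597140691149651199), .ofNat (nat_lit 0), .ofNat (nat_lit 0)]],
  [[.negSucc (nat_lit 864612745781923583), .ofNat (nat_lit 220418590828631040), .ofNat (nat_lit 0)],
  [.ofNat (nat_lit 1625429299413588480), .ofNat (nat_lit 0), .ofNat (nat_lit 0)]]],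
  [[[.ofNat (nat_lit 3718555354791682272), .negSucc (nat_lit 488763765867220703), .ofNat (nat_lit 0)],
  [.negSucc (nat_lit 7657168703804540927), .ofNat (nat_lit 0), .ofNat (nat_lit 0)]],
  [[.negSucc (nat_lit 1719398147936255135), .ofNat (nat_lit 218396123383531968), .ofNat (nat_lit 0)],
  [.ofNat (nat_lit 2272498104755944800), .ofNat (nat_lit 0), .ofNat (nat_lit 0)]],
  [[.ofNat (nat_lit 756536152559183136), .negSucc (nat_lit 192866266975052159), .ofNat (nat_lit 0)],
  [.negSucc (nat_lit 1422250636986889919), .ofNat (nat_lit 0), .ofNat (nat_lit 0)]]]],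
  [[[[],
  []],
  [[],
  []],
  [[],
  []]],
  [[[],
  []],
  [[],
  []],
  [[],
  []]],
  [[[],
  []],
  [[],
  []],
  [[],
  []]],
  [[[],
  []],
  [[],
  []],
  [[],
  []]],
  [[[],
  []],
  [[],
  []],
  [[],
  []]],
  [[[],
  []],
  [[],
  []],
  [[],
  []]],
  [[[],
  []],
  [[],
  []],
  [[],
  []]],
  [[[],
  []],
  [[],
  []],
  [[],
  []]],
  [[[],
  []],
  [[],
  []],
  [[],
  []]],
  [[[],
  []],
  [[],
  []],
  [[],
  []]]],
  [[[[],
  []],
  [[],
  []],
  [[],
  []]],
  [[[],
  []],
  [[],
  []],
  [[],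
  []]],
  [[[],
  []],
  [[],
  []],
  [[],
  []]],
  [[[],
  []],
  [[],
  []],
  [[],
  []]],
  [[[],
  []],
  [[],
  []],
  [[],
  []]],
  [[[],
  []],
  [[],
  []],
  [[],
  []]],
  [[[],
  []],
  [[],
  []],
  [[],
  []]],
  [[[],
  []],
  [[],
  []],
  [[],
  []]],
  [[[],
  []],
  [[],
  []],
  [[],
  []]],
  [[[],
  []],
  [[],
  []],
  [[],
  []]]]]

noncomputable def BP4_tn : List (List ℕ) := [[nat_lit 16384, nat_lit 0, nat_lit 0],
  [nat_lit 32768, nat_lit 16384, nat_lit 0],
  [nat_lit 16384, nat_lit 16384, nat_lit 16384]]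

noncomputable def BP4_zn : List (List ℕ) := [[nat_lit 18014398509481984, nat_lit 2251799813685248, nat_lit 281474976710656, nat_lit 35184372088832, nat_lit 4398046511104, nat_lit 549755813888, nat_lit 68719476736, nat_lit 8589934592, nat_lit 1073741824, nat_lit 134217728],
  [nat_lit 162129586585337856, nat_lit 28147497671065600, nat_lit 4503599627370496, nat_lit 686095255732224, nat_lit 101155069755392, nat_lit 14568529068032, nat_lit 2061584302080, nat_lit 287762808832, nat_lit 39728447488, nat_lit 5435817984],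
  [nat_lit 648518346341351424, nat_lit 144115188075855872, nat_lit 29343766322085888, nat_lit 5515150324924416, nat_lit 974167302209536, nat_lit 164102110445568, nat_lit 26645977104384, nat_lit 4202625499136, nat_lit 647466319872, nat_lit 97844723712],
  [nat_lit 1513209474796486656, nat_lit 409827566090715136, nat_lit 102949472731922432, nat_lit 23859402322739200, nat_lit 5110530045902848, nat_lit 1022683252785152, nat_lit 193496866619392, nat_lit 34972844949504, nat_lit 6088116142080, nat_lit 1027369598976],
  [nat_lit 2269814212194729984, nat_lit 725079540006649856, nat_lit 218213475694936064, nat_lit 61326360550834176, nat_lit 15976178829492224, nat_lit 3849012251721728, nat_lit 862888994537472, nat_lit 181730266841088, nat_lit 36300392497152, nat_lit 6934744793088],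
  [nat_lit 2269814212194729984, nat_lit 835417730877227008, nat_lit 294070981918457856, nat_lit 98177592267374592, nat_lit 30792098013773824, nat_lit 8986600591589376, nat_lit 2425505471004672, nat_lit 606832976461824, nat_lit 141777004658688, nat_lit 31206351568896],
  [nat_lit 1513209474796486656, nat_lit 630503947831869440, nat_lit 254664485178966016, nat_lit 99070395709128704, nat_lit 36816597100265472, nat_lit 12936029178691584, nat_lit 4246461009100800, nat_lit 1288321477115904, nat_lit 360606729240576, nat_lit 93619054706688],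
  [nat_lit 648518346341351424, nat_lit 301741175033823232, nat_lit 137711632355688448, nat_lit 61392331248500736, nat_lit 26584541892182016, nat_lit 11096374426730496, nat_lit 4417102207254528, nat_lit 1652450616410112, nat_lit 570630428688384, nat_lit 180551034077184],
  [nat_lit 162129586585337856, nat_lit 83316593106354176, nat_lit 42432352739131392, nat_lit 21374506043965440, nat_lit 10620457690595328, nat_lit 5184987598946304, nat_lit 2472731857649664, nat_lit 1141260857376768, nat_lit 501530650214400, nat_lit 203119913336832],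
  [nat_lit 18014398509481984, nat_lit 10133099161583616, nat_lit 5699868278390784, nat_lit 3206175906594816, nat_lit 1803473947459584, nat_lit 1014454095446016, nat_lit 570630428688384, nat_lit 320979616137216, nat_lit 180551034077184, nat_lit 101559956668416],
  [nat_lit 18014398509481984, nat_lit 10133099161583616, nat_lit 5699868278390784, nat_lit 3206175906594816, nat_lit 1803473947459584, nat_lit 1014454095446016, nat_lit 570630428688384, nat_lit 320979616137216, nat_lit 180551034077184, nat_lit 101559956668416],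
  [nat_lit 162129586585337856, nat_lit 99079191802150912, nat_lit 60165276271902720, nat_lit 36336660274741248, nat_lit 21842073363677184, nat_lit 13075186119081984, nat_lit 7798615858741248, nat_lit 4636372233093120, nat_lit 2748387963174912, nat_lit 1624959306694656],
  [nat_lit 648518346341351424, nat_lit 427841964600197120, nat_lit 279575020617859072, nat_lit 181089565094707200, nat_lit 116357467276836864, nat_lit 74217962587815936, nat_lit 47024174215987200, nat_lit 29613341622140928, nat_lit 18545488932372480, nat_lit 11555266180939776],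
  [nat_lit 1513209474796486656, nat_lit 1071856711314178048, nat_lit 751186344096563200, nat_lit 521027774077468672, nat_lit 357810220736446464, nat_lit 243407753853272064, nat_lit 164110649914294272, nat_lit 109723073170636800, nat_lit 72787081348251648, nat_lit 47932956009824256],
  [nat_lit 2269814212194729984, nat_lit 1718123257841844224, nat_lit 1287114699753652224, nat_lit 954160588630523904, nat_lit 699932884445691904, nat_lit 508114714383876096, nat_lit 365111630779908096, nat_lit 259762869057355776, nat_lit 183052605667147776, nat_lit 127821216026198016],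
  [nat_lit 2269814212194729984, nat_lit 1828461448712421376, nat_lit 1459518122988929024, nat_lit 1153933055304400896, nat_lit 903315047793557504, nat_lit 699932884445691904, nat_lit 536715331104669696, nat_lit 407251135468929024, nat_lit 305789027091480576, nat_lit 227237717379907584],
  [nat_lit 1513209474796486656, nat_lit 1292533093055332352, nat_lit 1095993190567116800, nat_lit 922081237378531328, nat_lit 769288703536267264, nat_lit 636107059087015936, nat_lit 521027774077468672, nat_lit 422542318554316800, nat_lit 339142162564251648, nat_lit 269318776153964544],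
  [nat_lit 648518346341351424, nat_lit 585467951558164480, nat_lit 525865625239683072, nat_lit 469711367385907200, nat_lit 417005177996836864, nat_lit 367747057072472064, nat_lit 321937004612812800, nat_lit 279575020617859072, nat_lit 240661105087610880, nat_lit 205195258022068224],
  [nat_lit 162129586585337856, nat_lit 154248287237439488, nat_lit 146366987889541120, nat_lit 138485688541642752, nat_lit 130604389193744384, nat_lit 122723089845846016, nat_lit 114841790497947648, nat_lit 106960491150049280, nat_lit 99079191802150912, nat_lit 91197892454252544],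
  [nat_lit 18014398509481984, nat_lit 18014398509481984, nat_lit 18014398509481984, nat_lit 18014398509481984, nat_lit 18014398509481984, nat_lit 18014398509481984, nat_lit 18014398509481984, nat_lit 18014398509481984, nat_lit 18014398509481984, nat_lit 18014398509481984],
  [nat_lit 18014398509481984, nat_lit 18014398509481984, nat_lit 18014398509481984, nat_lit 18014398509481984, nat_lit 18014398509481984, nat_lit 18014398509481984, nat_lit 18014398509481984, nat_lit 18014398509481984, nat_lit 18014398509481984, nat_lit 18014398509481984],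
  [nat_lit 162129586585337856, nat_lit 170010885933236224, nat_lit 177892185281134592, nat_lit 185773484629032960, nat_lit 193654783976931328, nat_lit 201536083324829696, nat_lit 209417382672728064, nat_lit 217298682020626432, nat_lit 225179981368524800, nat_lit 233061280716423168],
  [nat_lit 648518346341351424, nat_lit 711568741124538368, nat_lit 778067204372430848, nat_lit 848013736085028864, nat_lit 921408336262332416, nat_lit 998251004904341504, nat_lit 1078541742011056128, nat_lit 1162280547582476288, nat_lit 1249467421618601984, nat_lit 1340102364119433216],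
  [nat_lit 1513209474796486656, nat_lit 1733885856537640960, nat_lit 1978698717531734016, nat_lit 2249156587732074496, nat_lit 2546767997091971072, nat_lit 2873041475564732416, nat_lit 3229485553103667200, nat_lit 3617608759662084096, nat_lit 4038919625193291776, nat_lit 4494926679650598912],
  [nat_lit 2269814212194729984, nat_lit 2711166975677038592, nat_lit 3224929176918163456, nat_lit 3820151995637956608, nat_lit 4506546593410842624, nat_lit 5294484113665818624, nat_lit 6194995681686454272, nat_lit 7219772404610891776, nat_lit 8381165371431845888, nat_lit 9692185652996603904],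
  [nat_lit 2269814212194729984, nat_lit 2821505166547615744, nat_lit 3493878517165195264, nat_lit 4309562213347098624, nat_lit 5294484113665818624, nat_lit 6478160728028086272, nat_lit 7893985959736246272, nat_lit 9579519847549632512, nat_lit 11576777307745943552, nat_lit 13932516876182618112],
  [nat_lit 1513209474796486656, nat_lit 1954562238278795264, nat_lit 2516597398025797632, nat_lit 3229485553103667200, nat_lit 4129997121124302848, nat_lit 5262657306490830848, nat_lit 6681027393294958592, nat_lit 8449112362866180096, nat_lit 10642894835972833280, nat_lit 13351995339675009024],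
  [nat_lit 648518346341351424, nat_lit 869194728082505728, nat_lit 1162280547582476288, nat_lit 1550403754140893184, nat_lit 2062792115603111936, nat_lit 2737005670728466432, nat_lit 3621048155514077184, nat_lit 4775912670509400064, nat_lit 6278616856156700672, nat_lit 8225782843192639488],
  [nat_lit 162129586585337856, nat_lit 225179981368524800, nat_lit 312366855404650496, nat_lit 432741388413566976, nat_lit 598654669387988992, nat_lit 826912664838995968, nat_lit 1140310160997089280, nat_lit 1569654214039175168, nat_lit 2156411821739737088, nat_lit 2956140709272354816],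
  [nat_lit 18014398509481984, nat_lit 25895697857380352, nat_lit 37225065669984256, nat_lit 53511031900602368, nat_lit 76922108357115904, nat_lit 110575530763354112, nat_lit 158952325472321536, nat_lit 228493967866462208, nat_lit 328460078808039424, nat_lit 472161363286556672]]

noncomputable def BP4_sn : List (List ℕ) := [[nat_lit 4096, nat_lit 2560, nat_lit 1600],
  [nat_lit 8192, nat_lit 10752, nat_lit 10240],
  [nat_lit 4096, nat_lit 8192, nat_lit 16384]]

noncomputable def BP4_en : List (List ℕ) := [[nat_lit 18446744073709551616, nat_lit 7493989779944505344, nat_lit 3044433348102455296, nat_lit 1236801047666622464, nat_lit 502450425614565376, nat_lit 204120485405917184, nat_lit 82923947196153856, nat_lit 33687853548437504, nat_lit 13685690504052736],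
  [nat_lit 147573952589676412928, nat_lit 60528378991859466240, nat_lit 24823841146066173952, nat_lit 10179824007717584896, nat_lit 4174203535874850816, nat_lit 1711471762249613312, nat_lit 701664168582840320, nat_lit 287642441836658688, nat_lit 117907487419531264],
  [nat_lit 516508834063867445248, nat_lit 213866939104570114048, nat_lit 88540768674103951360, nat_lit 36650293767541096448, nat_lit 15168651310565163008, nat_lit 6277006879612731392, nat_lit 2597138772244037632, nat_lit 1074423258142474240, nat_lit 444420529504387072],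
  [nat_lit 1033017668127734890496, nat_lit 431769103475264192512, nat_lit 180432215470971551744, nat_lit 75386880062461575168, nat_lit 31491772238109081600, nat_lit 13152810540491341824, nat_lit 5492381019661139968, nat_lit 2293104743951630336, nat_lit 957213448163295232],
  [nat_lit 1291272085159668613120, nat_lit 544755410926735196160, nat_lit 229773652988442705920, nat_lit 96897760732643328000, nat_lit 40854703086854209536, nat_lit 17222062942715904000, nat_lit 7258436662282158080, nat_lit 3058551846202245120, nat_lit 1288556564835205120],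
  [nat_lit 1033017668127734890496, nat_lit 439839554007512121344, nat_lit 187241658107555741696, nat_lit 79695136055994875904, nat_lit 33914216256425164800, nat_lit 14429520011955535872, nat_lit 6138208380012986368, nat_lit 2610661347926474752, nat_lit 1110141040473407488],
  [nat_lit 516508834063867445248, nat_lit 221937389636818042880, nat_lit 95350211310688141312, nat_lit 40959112711027818496, nat_lit 17592045306927644672, nat_lit 7554718006169829376, nat_lit 3243810815224053760, nat_lit 1392602962013978624, nat_lit 597768252562604032],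
  [nat_lit 147573952589676412928, nat_lit 63987143505680007168, nat_lit 27742173704602255360, nat_lit 12026862804892909568, nat_lit 5213479518634770432, nat_lit 2259777870056390656, nat_lit 979413072185655296, nat_lit 424450830221967360, nat_lit 183928693096185856],
  [nat_lit 18446744073709551616, nat_lit 8070450532247928832, nat_lit 3530822107858468864, nat_lit 1544734672188080128, nat_lit 675821419082285056, nat_lit 295671870848499712, nat_lit 129356443496218624, nat_lit 56593444029595648, nat_lit 24759631762948096]]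

noncomputable def BP4_en1 : List (List ℕ) := [[nat_lit 256, nat_lit 104],
  [nat_lit 256, nat_lit 112]]


end Crest.Agent.R163.Ck
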