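import Crest.Agent.R163.B9m1b_288D

/-! Row 163: Bellman certificate, data (generated). -/

set_option autoImplicit false
set_option Elab.async false
set_option maxRecDepth 100000

namespace Crest.Agent.R163.Ck

noncomputable def BP5 : Bell := ⟨false, 9, 3, 3, 2, 9, 32, fs3_9, lams3_9, TT3_9,
  [[[[.ofNat (nat_lit 23054488025209848), .negSucc (nat_lit 6889397583632273), .negSucc (nat_lit 212473053840671693), .negSucc (nat_lit 3865540527635642), .ofNat (nat_lit 582851989112758272), .ofNat (nat_lit 336429783615063204), .ofNat (nat_lit 11098226377844739), .negSucc (nat_lit 474215783858488151), .negSucc (nat_lit 371266887904520777), .negSucc (nat_lit 1255800089396175713), .negSucc (nat_lit 9109437807716432), .ofNat (nat_lit 246470597161312806), .ofNat (nat_lit 494755798916144484), .ofNat (nat_lit 885255002786162826), .ofNat (nat_lit 1183182726224415186), .ofNat (nat_lit 3636943401114333), .negSucc (nat_lit 81238970524367897), .negSucc (nat_lit 196181744689254203), .negSucc (nat_lit 389109431962467017),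 .negSucc (nat_lit 128521921055068655), .negSucc (nat_lit 1205148444086306645), .negSucc (nat_lit 231729751231503173), .negSucc (nat_lit 740297878685486), .ofNat (nat_lit 16286890799099646), .ofNat (nat_lit 46877891647395114), .ofNat (nat_lit 105894355668118560), .ofNat (nat_lit 73262162793046734), .ofNat (nat_lit 357925646837422782), .ofNat (nat_lit 211782190947877188), .ofNat (nat_lit 202918795959021210), .ofNat (nat_lit 70213975075164), .negSucc (nat_lit 1794773711007509), .negSucc (nat_lit 6298841483572637), .negSucc (nat_lit 16374838161298187), .negSucc (nat_lit 10808126616826481), .negSucc (nat_lit 58964040582816635), .negSucc (nat_lit 6945554391570977), .negSucc (nat_lit 77355327388377701), .negSucc (nat_lit 29005890597065933), .negSucc (nat_lit 28750346792812757), .negSucc (nat_lit 2152484759682), .ofNat (nat_lit 82242051354228), .ofNat (nat_lit 366155026704462), .ofNat (nat_lit 1099572172740090), .ofNat (nat_lit 650396167655502), .ofNat (nat_lit 4296605649803364), .ofNat (nat_lit 1027141886274342),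 .ofNat (nat_lit 5543054771763840), .ofNat (nat_lit 1395080402022774), .ofNat (nat_lit 3509496131924556), .ofNat (nat_lit 2574659163940098), .ofNat (nat_lit 292536885336928)],
  [.ofNat (nat_lit 0), .ofNat (nat_lit 0), .ofNat (nat_lit 0), .ofNat (nat_lit 0), .ofNat (nat_lit 0), .ofNat (nat_lit 0), .ofNat (nat_lit 632212107829056), .negSucc (nat_lit 2528848431316223), .ofNat (nat_lit 1896636323487168), .ofNat (nat_lit 0), .ofNat (nat_lit 623605527640656), .negSucc (nat_lit 3592186719075071), .ofNat (nat_lit 1247211055281312), .ofNat (nat_lit 6885480544612416), .negSucc (nat_lit 5164110408459311), .negSucc (nat_lit 195634185570791), .ofNat (nat_lit 548478269746416), .negSucc (nat_lit 1011227116138019), .ofNat (nat_lit 1203348550967820), .ofNat (nat_lit 1283709875640732), .negSucc (nat_lit 4908004476648983), .ofNat (nat_lit 3079329082002828), .negSucc (nat_lit 143502552573659), .ofNat (nat_lit 993844454969520), .negSucc (nat_lit 783557585761229), .negSucc (nat_lit 2165955540009029), .ofNat (nat_lit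 209547375466590), .ofNat (nat_lit 4652940768920010), .negSucc (nat_lit 2255351533610489), .negSucc (nat_lit 507965387401709), .ofNat (nat_lit 61514039063616), .negSucc (nat_lit 372159671173247), .ofNat (nat_lit 386766005418336), .ofNat (nat_lit 495958599013152), .negSucc (nat_lit 157620770487839), .negSucc (nat_lit 768159949025375), .negSucc (nat_lit 38452244156543), .ofNat (nat_lit 495958599013152), .negSucc (nat_lit 311413822995743), .ofNat (nat_lit 207609215330496), .negSucc (nat_lit 6279532374807), .ofNat (nat_lit 37677194248848), .negSucc (nat_lit 39246367877723), .negSucc (nat_lit 36108020619971), .ofNat (nat_lit 3138347257752), .negSucc (nat_lit 3138347257751), .negSucc (nat_lit 1569173628875), .ofNat (nat_lit 265309533370812), .ofNat (nat_lit 0), .negSucc (nat_lit 133439353499843), .negSucc (nat_lit 259032838855307), .ofNat (nat_lit 172688559236872)]],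
  [[.negSucc (nat_lit 9007633786801490), .ofNat (nat_lit 25576969093574112), .ofNat (nat_lit 140595907289965020), .negSucc (nat_lit 6972566752668356), .negSucc (nat_lit 691620025142777741), .negSucc (nat_lit 313291224293191577), .negSucc (nat_lit 10616024643858143), .ofNat (nat_lit 675869852032904610), .ofNat (nat_lit 596526034684244994), .ofNat (nat_lit 1608929790158960334), .ofNat (nat_lit 10734870351862764), .negSucc (nat_lit 389184475148746163), .negSucc (nat_lit 844021664210631059), .negSucc (nat_lit 1257075165049154891), .negSucc (nat_lit 1914740652713360723), .negSucc (nat_lit 4519117090989035), .ofNat (nat_lit 144156338614319400), .ofNat (nat_lit 326794320762022098), .ofNat (nat_lit 584884324629405306), .ofNat (nat_lit 205497829512450450), .ofNat (nat_lit 1964764088862130080), .ofNat (nat_lit 582981533957692494), .ofNat (nat_lit 1022709846925197), .negSucc (nat_lit 33569224323215741), .negSucc (nat_lit 75529060538620877), .negSucc (nat_lit 173468855149504793), .negSucc (nat_lit 97628581498421933),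 .negSucc (nat_lit 523830145090280021), .negSucc (nat_lit 282982361546743703), .negSucc (nat_lit 629011101487360949), .negSucc (nat_lit 122232947702615), .ofNat (nat_lit 4418924815467630), .ofNat (nat_lit 10071563439201390), .ofNat (nat_lit 30050875111286952), .ofNat (nat_lit 11256212661749946), .ofNat (nat_lit 79181100389217708), .ofNat (nat_lit 6024319204076010), .ofNat (nat_lit 51297826642401654), .ofNat (nat_lit 86306951674209798), .ofNat (nat_lit 141583659503770206), .ofNat (nat_lit 6082035663323), .negSucc (nat_lit 247904074338497), .negSucc (nat_lit 604785077545301), .negSucc (nat_lit 2256791189784569), .negSucc (nat_lit 504744128561957), .negSucc (nat_lit 5982627330235817), .negSucc (nat_lit 437941734817175), .ofNat (nat_lit 671097427114572), .negSucc (nat_lit 2937900506079815), .ofNat (nat_lit 2336631664845492), .negSucc (nat_lit 14288433759383327), .negSucc (nat_lit 7088575150685245)],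
  []],
  [[],
  []]],
  [[[],
  []],
  [[.ofNat (nat_lit 165029419607305176), .negSucc (nat_lit 271255404263266106), .negSucc (nat_lit 1056534837256671425), .ofNat (nat_lit 146648635147555515), .ofNat (nat_lit 3539750173343671626), .ofNat (nat_lit 922444336333581030), .negSucc (nat_lit 11682658159071416), .negSucc (nat_lit 2685040227024858593), .negSucc (nat_lit 2888868599685131255), .negSucc (nat_lit 3295838029003734473), .negSucc (nat_lit 14542765068320720), .ofNat (nat_lit 1089118429242181938), .ofNat (nat_lit 4196731075624139364), .ofNat (nat_lit 1840998115781893584), .ofNat (nat_lit 3021846520103324154), .ofNat (nat_lit 6116682813021981), .negSucc (nat_lit 261539008259272685), .negSucc (nat_lit 1641302220395844377), .negSucc (nat_lit 456092956782511253), .negSucc (nat_lit 1282906998563356457), .negSucc (nat_lit 2731065641844749261), .negSucc (nat_lit 315646183126671083), .negSucc (nat_lit 1432793687050889), .ofNat (nat_lit 40850135242594506), .ofNat (nat_lit 341559083142630594), .ofNat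 (nat_lit 50510783191124610), .ofNat (nat_lit 809234002238272776), .ofNat (nat_lit 569580238967029290), .ofNat (nat_lit 410446687004563176), .negSucc (nat_lit 23139722866663043), .ofNat (nat_lit 243203232115173), .negSucc (nat_lit 4447113922084811), .negSucc (nat_lit 30372295941049511), .negSucc (nat_lit 6126054166873469), .negSucc (nat_lit 136639840595962307), .negSucc (nat_lit 48271478462213435), .negSucc (nat_lit 80783101381204913), .negSucc (nat_lit 92775571258246427), .ofNat (nat_lit 82783797129958968), .ofNat (nat_lit 160260138842085852), .negSucc (nat_lit 20112908435409), .ofNat (nat_lit 272737192671372), .ofNat (nat_lit 224784674285106), .ofNat (nat_lit 977328505453914), .ofNat (nat_lit 9804737793543042), .ofNat (nat_lit 936156717109830), .ofNat (nat_lit 12817670574727140), .ofNat (nat_lit 5751909703294116), .negSucc (nat_lit 13850655093703547), .negSucc (nat_lit 2374233263085977), .negSucc (nat_lit 58568562376915151), .negSucc (nat_lit 13819716791185813)],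
  [.ofNat (nat_lit 0), .negSucc (nat_lit 3007902819462047), .ofNat (nat_lit 3007902819462048), .negSucc (nat_lit 176754539239991), .ofNat (nat_lit 2034215027451000), .negSucc (nat_lit 1857460488211007), .negSucc (nat_lit 2114591424914735), .ofNat (nat_lit 8910413483536944), .negSucc (nat_lit 7247869842500207), .ofNat (nat_lit 452047783878000), .negSucc (nat_lit 6237392609225555), .ofNat (nat_lit 32885918560783332), .negSucc (nat_lit 12474785218451111), .negSucc (nat_lit 56694962932426655), .ofNat (nat_lit 42521222199319992), .ofNat (nat_lit 2252501113449600), .negSucc (nat_lit 8072037789409007), .ofNat (nat_lit 110931451019428248), .negSucc (nat_lit 104358778774127207), .negSucc (nat_lit 110554883234757431), .ofNat (nat_lit 230489433113408784), .negSucc (nat_lit 120687685447992983), .ofNat (nat_lit 921312245391120), .negSucc (nat_lit 6814334175810119), .negSucc (nat_lit 22208675254095419), .ofNat (nat_lit 43747123155742620), .ofNat (nat_lit 25893924235659900), .negSucc (nat_lit 63617079695433299),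 .negSucc (nat_lit 8422755974070299), .ofNat (nat_lit 30500485462615500), .negSucc (nat_lit 480733607379983), .ofNat (nat_lit 2951844517826832), .negSucc (nat_lit 11899262916902783), .ofNat (nat_lit 4696892298754512), .ofNat (nat_lit 27601393791347040), .negSucc (nat_lit 19454822943541775), .negSucc (nat_lit 17279217443678063), .ofNat (nat_lit 4696892298754512), .ofNat (nat_lit 27501042014459136), .negSucc (nat_lit 18334028009639423), .ofNat (nat_lit 53294935645672), .negSucc (nat_lit 319769613874031), .ofNat (nat_lit 2870420799250956), .negSucc (nat_lit 2230881571502891), .negSucc (nat_lit 5101302370753847), .ofNat (nat_lit 5101302370753848), .ofNat (nat_lit 2550651185376924), .negSucc (nat_lit 4789038482495147), .ofNat (nat_lit 0), .ofNat (nat_lit 3669844833936036), .negSucc (nat_lit 5413566259012547), .ofNat (nat_lit 3609044172675032)]],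
  [[.ofNat (nat_lit 716543873337042), .ofNat (nat_lit 0), .ofNat (nat_lit 0), .ofNat (nat_lit 0), .ofNat (nat_lit 0), .ofNat (nat_lit 0), .ofNat (nat_lit 0), .ofNat (nat_lit 0), .ofNat (nat_lit 0), .ofNat (nat_lit 0), .ofNat (nat_lit 0), .ofNat (nat_lit 0), .ofNat (nat_lit 0), .ofNat (nat_lit 0), .ofNat (nat_lit 0), .ofNat (nat_lit 0), .ofNat (nat_lit 0), .ofNat (nat_lit 0), .ofNat (nat_lit 0), .ofNat (nat_lit 0), .ofNat (nat_lit 0), .ofNat (nat_lit 0), .ofNat (nat_lit 0), .ofNat (nat_lit 0), .ofNat (nat_lit 0), .ofNat (nat_lit 0), .ofNat (nat_lit 0), .ofNat (nat_lit 0), .ofNat (nat_lit 0), .ofNat (nat_lit 0), .ofNat (nat_lit 0), .ofNat (nat_lit 0), .ofNat (nat_lit 0), .ofNat (nat_lit 0), .ofNat (nat_lit 0), .ofNat (nat_lit 0), .ofNat (nat_lit 0), .ofNat (nat_lit 0), .ofNat (nat_lit 0), .ofNat (nat_lit 0), .ofNat (nat_lit 0), .ofNat (nat_lit 0), .ofNat (nat_lit 0), .ofNat (nat_lit 0), .ofNat (nat_lit 0), .ofNat (nat_lit 0), .ofNat (nat_lit 0), .ofNat (nat_lit 0), .ofNat (nat_lit 0), .ofNat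 (nat_lit 0), .ofNat (nat_lit 0), .ofNat (nat_lit 0)],
  [.negSucc (nat_lit 1027387270942019), .ofNat (nat_lit 0), .ofNat (nat_lit 0), .ofNat (nat_lit 0), .ofNat (nat_lit 0), .ofNat (nat_lit 0), .ofNat (nat_lit 0), .ofNat (nat_lit 0), .ofNat (nat_lit 0), .ofNat (nat_lit 0), .ofNat (nat_lit 0), .ofNat (nat_lit 0), .ofNat (nat_lit 0), .ofNat (nat_lit 0), .ofNat (nat_lit 0), .ofNat (nat_lit 0), .ofNat (nat_lit 0), .ofNat (nat_lit 0), .ofNat (nat_lit 0), .ofNat (nat_lit 0), .ofNat (nat_lit 0), .ofNat (nat_lit 0), .ofNat (nat_lit 0), .ofNat (nat_lit 0), .ofNat (nat_lit 0), .ofNat (nat_lit 0), .ofNat (nat_lit 0), .ofNat (nat_lit 0), .ofNat (nat_lit 0), .ofNat (nat_lit 0), .ofNat (nat_lit 0), .ofNat (nat_lit 0), .ofNat (nat_lit 0), .ofNat (nat_lit 0), .ofNat (nat_lit 0), .ofNat (nat_lit 0), .ofNat (nat_lit 0), .ofNat (nat_lit 0), .ofNat (nat_lit 0), .ofNat (nat_lit 0), .ofNat (nat_lit 0), .ofNat (nat_lit 0), .ofNat (nat_lit 0), .ofNat (nat_lit 0), .ofNat (nat_lit 0), .ofNat (nat_lit 0), .ofNat (nat_lit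 0), .ofNat (nat_lit 0), .ofNat (nat_lit 0), .ofNat (nat_lit 0), .ofNat (nat_lit 0), .ofNat (nat_lit 0)]]],
  [[[],
  []],
  [[.ofNat (nat_lit 0), .negSucc (nat_lit 2787955428092759), .ofNat (nat_lit 2787955428092760), .negSucc (nat_lit 1839135314739077), .ofNat (nat_lit 6911383658263614), .negSucc (nat_lit 5072248343524535), .ofNat (nat_lit 5845257669853908), .negSucc (nat_lit 21845167644245939), .ofNat (nat_lit 14464046939222340), .ofNat (nat_lit 1535863035169692), .negSucc (nat_lit 3971093060721095), .ofNat (nat_lit 15855487810007472), .negSucc (nat_lit 7942186121442191), .negSucc (nat_lit 15768834511376735), .ofNat (nat_lit 11826625883532552), .negSucc (nat_lit 1352527072183295), .ofNat (nat_lit 10225376216717184), .ofNat (nat_lit 31701965390363520), .negSucc (nat_lit 62540940391199999), .negSucc (nat_lit 42685028318514815), .ofNat (nat_lit 133522735916869632), .negSucc (nat_lit 68871581742052223), .ofNat (nat_lit 1828697578153704), .negSucc (nat_lit 11087606658140567), .negSucc (nat_lit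 1500375734065943), .ofNat (nat_lit 29623366541681568), .ofNat (nat_lit 8815166046680760), .negSucc (nat_lit 47120435448029999), .ofNat (nat_lit 1482533736271200), .ofNat (nat_lit 17958653937449280), .negSucc (nat_lit 524144150184431), .ofNat (nat_lit 3115205674182384), .negSucc (nat_lit 6581752274470271), .negSucc (nat_lit 548651239642319), .ofNat (nat_lit 11536905782005152), .negSucc (nat_lit 4821731444831471), .negSucc (nat_lit 6468267504239759), .negSucc (nat_lit 548651239642319), .ofNat (nat_lit 14523259190469120), .negSucc (nat_lit 9682172793646079), .ofNat (nat_lit 48074923094744), .negSucc (nat_lit 288449538568463), .ofNat (nat_lit 1325477453877780), .negSucc (nat_lit 748578376740851), .negSucc (nat_lit 2074055830618631), .ofNat (nat_lit 2074055830618632), .ofNat (nat_lit 1037027915309316), .negSucc (nat_lit 3056174685288563), .ofNat (nat_lit 0), .ofNat (nat_lit 2046601300298940), .negSucc (nat_lit 1091936975948699), .ofNat (nat_lit 727957983965800)],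
  [.ofNat (nat_lit 0), .ofNat (nat_lit 9448543840232952), .negSucc (nat_lit 9448543840232951), .ofNat (nat_lit 5418867689698428), .negSucc (nat_lit 20980874989211759), .ofNat (nat_lit 15562007299513332), .negSucc (nat_lit 16059477624307487), .ofNat (nat_lit 59575493832960672), .negSucc (nat_lit 38853599544383903), .negSucc (nat_lit 4662416664269279), .ofNat (nat_lit 10666336041619812), .negSucc (nat_lit 42452676155935763), .ofNat (nat_lit 21332672083239624), .ofNat (nat_lit 41814672124305312), .negSucc (nat_lit 31361004093228983), .ofNat (nat_lit 2694048896508552), .negSucc (nat_lit 21796294465103615), .negSucc (nat_lit 65238083889467363), .ofNat (nat_lit 133808822767357164), .ofNat (nat_lit 89972330544114732), .negSucc (nat_lit 290145649878923543), .ofNat (nat_lit 150704826025514076), .negSucc (nat_lit 4171660808508539), .ofNat (nat_lit 25392140166343680), .ofNat (nat_lit 1188614904925770), .negSucc (nat_lit 65936578924308509), .negSucc (nat_lit 17875258138959929), .ofNat (nat_lit 106741104038517330),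 .negSucc (nat_lit 6604799056507169), .negSucc (nat_lit 38733562181502629), .ofNat (nat_lit 1211748586831968), .negSucc (nat_lit 7206703856853023), .ofNat (nat_lit 14621109640574304), .ofNat (nat_lit 1896856926101760), .negSucc (nat_lit 24858077517244127), .ofNat (nat_lit 9233138248511040), .ofNat (nat_lit 13744638308888160), .ofNat (nat_lit 1896856926101760), .negSucc (nat_lit 31618701788735519), .ofNat (nat_lit 21079134525823680), .negSucc (nat_lit 111607311928503), .ofNat (nat_lit 669643871571024), .negSucc (nat_lit 2887993097944499), .ofNat (nat_lit 1548705354802452), .ofNat (nat_lit 4436698452746952), .negSucc (nat_lit 4436698452746951), .negSucc (nat_lit 2218349226373475), .ofNat (nat_lit 6905856327370644), .ofNat (nat_lit 0), .negSucc (nat_lit 4562102776872059), .ofNat (nat_lit 1967540578123260), .negSucc (nat_lit 1311693718748839)]],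
  [[.negSucc (nat_lit 640689335568521), .ofNat (nat_lit 0), .ofNat (nat_lit 0), .ofNat (nat_lit 0), .ofNat (nat_lit 0), .ofNat (nat_lit 0), .ofNat (nat_lit 0), .ofNat (nat_lit 0), .ofNat (nat_lit 0), .ofNat (nat_lit 0), .ofNat (nat_lit 0), .ofNat (nat_lit 0), .ofNat (nat_lit 0), .ofNat (nat_lit 0), .ofNat (nat_lit 0), .ofNat (nat_lit 0), .ofNat (nat_lit 0), .ofNat (nat_lit 0), .ofNat (nat_lit 0), .ofNat (nat_lit 0), .ofNat (nat_lit 0), .ofNat (nat_lit 0), .ofNat (nat_lit 0), .ofNat (nat_lit 0), .ofNat (nat_lit 0), .ofNat (nat_lit 0), .ofNat (nat_lit 0), .ofNat (nat_lit 0), .ofNat (nat_lit 0), .ofNat (nat_lit 0), .ofNat (nat_lit 0), .ofNat (nat_lit 0), .ofNat (nat_lit 0), .ofNat (nat_lit 0), .ofNat (nat_lit 0), .ofNat (nat_lit 0), .ofNat (nat_lit 0), .ofNat (nat_lit 0), .ofNat (nat_lit 0), .ofNat (nat_lit 0), .ofNat (nat_lit 0), .ofNat (nat_lit 0), .ofNat (nat_lit 0), .ofNat (nat_lit 0), .ofNat (nat_lit 0), .ofNat (nat_lit 0), .ofNat (nat_lit 0), .ofNat (nat_lit 0), .ofNat (nat_lit 0), .ofNat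 (nat_lit 0), .ofNat (nat_lit 0), .ofNat (nat_lit 0)],
  [.negSucc (nat_lit 202150461125006), .ofNat (nat_lit 0), .ofNat (nat_lit 0), .ofNat (nat_lit 0), .ofNat (nat_lit 0), .ofNat (nat_lit 0), .ofNat (nat_lit 0), .ofNat (nat_lit 0), .ofNat (nat_lit 0), .ofNat (nat_lit 0), .ofNat (nat_lit 0), .ofNat (nat_lit 0), .ofNat (nat_lit 0), .ofNat (nat_lit 0), .ofNat (nat_lit 0), .ofNat (nat_lit 0), .ofNat (nat_lit 0), .ofNat (nat_lit 0), .ofNat (nat_lit 0), .ofNat (nat_lit 0), .ofNat (nat_lit 0), .ofNat (nat_lit 0), .ofNat (nat_lit 0), .ofNat (nat_lit 0), .ofNat (nat_lit 0), .ofNat (nat_lit 0), .ofNat (nat_lit 0), .ofNat (nat_lit 0), .ofNat (nat_lit 0), .ofNat (nat_lit 0), .ofNat (nat_lit 0), .ofNat (nat_lit 0), .ofNat (nat_lit 0), .ofNat (nat_lit 0), .ofNat (nat_lit 0), .ofNat (nat_lit 0), .ofNat (nat_lit 0), .ofNat (nat_lit 0), .ofNat (nat_lit 0), .ofNat (nat_lit 0), .ofNat (nat_lit 0), .ofNat (nat_lit 0), .ofNat (nat_lit 0), .ofNat (nat_lit 0), .ofNat (nat_lit 0), .ofNat (nat_lit 0), .ofNat (nat_lit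 0), .ofNat (nat_lit 0), .ofNat (nat_lit 0), .ofNat (nat_lit 0), .ofNat (nat_lit 0), .ofNat (nat_lit 0)]]]],
  [[.ofNat (nat_lit 0), .ofNat (nat_lit 0)],
  [.ofNat (nat_lit 0), .ofNat (nat_lit 0)],
  [.negSucc (nat_lit 89898052604651), .ofNat (nat_lit 1232648098572636)]],
  [[[[.ofNat (nat_lit 0), .negSucc (nat_lit 3262434988658429951), .negSucc (nat_lit 8534450102713657343), .ofNat (nat_lit 28753934142679114752), .ofNat (nat_lit 7936628135999228928), .negSucc (nat_lit 71621215574153140223), .ofNat (nat_lit 44698867700872882176), .ofNat (nat_lit 52991982193790112768), .ofNat (nat_lit 8702887891055643648), .negSucc (nat_lit 35768298046423007231), .ofNat (nat_lit 0), .ofNat (nat_lit 0)],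
  [.ofNat (nat_lit 0), .ofNat (nat_lit 4111579204388941824), .ofNat (nat_lit 5479762862855900160), .negSucc (nat_lit 52871139219512088575), .negSucc (nat_lit 31333648284824463359), .ofNat (nat_lit 171664154048311391232), .negSucc (nat_lit 90864315456456701951), .negSucc (nat_lit 140912831374628557823), .negSucc (nat_lit 17402710725521740799), .ofNat (nat_lit 85770291899374626816), .ofNat (nat_lit 0), .ofNat (nat_lit 0)]],
  [[.ofNat (nat_lit 989168064075537408), .ofNat (nat_lit 779429970012533760), .ofNat (nat_lit 1021565398785638400), .negSucc (nat_lit 3903720623445841919), .negSucc (nat_lit 1623220907043750911), .ofNat (nat_lit 6786958689822781440), .ofNat (nat_lit 3381842961601827840), .negSucc (nat_lit 8676095021772162047), .negSucc (nat_lit 371253736458547199), .ofNat (nat_lit 3220910548327093248), .ofNat (nat_lit 0), .ofNat (nat_lit 0)],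
  [.negSucc (nat_lit 1760027760756025343), .ofNat (nat_lit 0), .ofNat (nat_lit 0), .ofNat (nat_lit 0), .ofNat (nat_lit 0), .ofNat (nat_lit 0), .ofNat (nat_lit 0), .ofNat (nat_lit 0), .ofNat (nat_lit 0), .ofNat (nat_lit 0), .ofNat (nat_lit 0), .ofNat (nat_lit 0)]]],
  [[[.ofNat (nat_lit 0), .ofNat (nat_lit 1362698956083990528), .negSucc (nat_lit 2315737335153106943), .negSucc (nat_lit 71373036287167414271), .ofNat (nat_lit 5394966030552692736), .ofNat (nat_lit 216473204702418315264), .negSucc (nat_lit 85633218092715558911), .negSucc (nat_lit 220345423711219233791), .negSucc (nat_lit 11207870032403073023), .ofNat (nat_lit 101611917908065732608), .ofNat (nat_lit 0), .ofNat (nat_lit 0)],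
  [.ofNat (nat_lit 0), .ofNat (nat_lit 1697331749719689216), .ofNat (nat_lit 11350546335945216000), .ofNat (nat_lit 139943696698511953920), .negSucc (nat_lit 5550973608766169087), .negSucc (nat_lit 453263264917198654463), .ofNat (nat_lit 183843817436490246144), .ofNat (nat_lit 464783528896932427776), .ofNat (nat_lit 19712415534918718464), .negSucc (nat_lit 210767517315702245375), .ofNat (nat_lit 0), .ofNat (nat_lit 0)]],
  [[.negSucc (nat_lit 1977259737207859199), .negSucc (nat_lit 1547320242050307071), .ofNat (nat_lit 5972748048526537728), .ofNat (nat_lit 16841340089431206912), .negSucc (nat_lit 29334465633574167551), .negSucc (nat_lit 38296521865664861183), .ofNat (nat_lit 8547320765452428288), .ofNat (nat_lit 71819577242763337728), .ofNat (nat_lit 5150554183090658304), .negSucc (nat_lit 42343170778823639039), .ofNat (nat_lit 0), .ofNat (nat_lit 0)],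
  [.ofNat (nat_lit 1276030430764858368), .ofNat (nat_lit 0), .ofNat (nat_lit 0), .ofNat (nat_lit 0), .ofNat (nat_lit 0), .ofNat (nat_lit 0), .ofNat (nat_lit 0), .ofNat (nat_lit 0), .ofNat (nat_lit 0), .ofNat (nat_lit 0), .ofNat (nat_lit 0), .ofNat (nat_lit 0)]]],
  [[[.ofNat (nat_lit 0), .negSucc (nat_lit 7985198978945150975), .negSucc (nat_lit 7372987432613766143), .ofNat (nat_lit 87467448684315248640), .ofNat (nat_lit 18480759331860624384), .negSucc (nat_lit 167111058616157611007), .negSucc (nat_lit 21931770697203234815), .ofNat (nat_lit 141040981197615421440), .negSucc (nat_lit 15363915067362594815), .ofNat (nat_lit 18334517066050397184), .ofNat (nat_lit 0), .ofNat (nat_lit 0)],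
  [.ofNat (nat_lit 0), .ofNat (nat_lit 17375461520648343552), .ofNat (nat_lit 16408961438531069952), .negSucc (nat_lit 183277501335031670783), .negSucc (nat_lit 34680171621149669375), .ofNat (nat_lit 342108161976744972288), .ofNat (nat_lit 56152411644563186688), .negSucc (nat_lit 310542991152016518143), .ofNat (nat_lit 46107557236878916608), .negSucc (nat_lit 50369917404413813759), .ofNat (nat_lit 0), .ofNat (nat_lit 0)]],
  [[.ofNat (nat_lit 152858590486815744), .ofNat (nat_lit 1372926534713911296), .negSucc (nat_lit 7869847002076182527), .negSucc (nat_lit 16590842394646496255), .ofNat (nat_lit 22860418281392166912), .ofNat (nat_lit 40455305805761584128), .negSucc (nat_lit 28011907368685900799), .negSucc (nat_lit 27451474904592147455), .negSucc (nat_lit 18759525179493970943), .ofNat (nat_lit 36509459223585438720), .ofNat (nat_lit 0), .ofNat (nat_lit 0)],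
  [.ofNat (nat_lit 2730144682450105344), .ofNat (nat_lit 0), .ofNat (nat_lit 0), .ofNat (nat_lit 0), .ofNat (nat_lit 0), .ofNat (nat_lit 0), .ofNat (nat_lit 0), .ofNat (nat_lit 0), .ofNat (nat_lit 0), .ofNat (nat_lit 0), .ofNat (nat_lit 0), .ofNat (nat_lit 0)]]]]⟩

noncomputable def BP5_A : L6 := [[[[[[.ofNat (nat_lit 0), .ofNat (nat_lit 0), .negSucc (nat_lit 255427137778406399)],
  [.ofNat (nat_lit 0), .ofNat (nat_lit 0), .ofNat (nat_lit 707983195311396864)],
  [],
  [],
  [],
  [],
  [],
  [],
  []],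
  [[.ofNat (nat_lit 0), .ofNat (nat_lit 989168064075537408), .ofNat (nat_lit 0)],
  [.ofNat (nat_lit 0), .negSucc (nat_lit 1760027760756025343), .ofNat (nat_lit 0)],
  [],
  [],
  [],
  [],
  [],
  [],
  []],
  [[.ofNat (nat_lit 0), .ofNat (nat_lit 906640035552608256), .ofNat (nat_lit 0)],
  [.ofNat (nat_lit 0), .ofNat (nat_lit 906640035552608256), .ofNat (nat_lit 0)],
  [],
  [],
  [],
  [],
  [],
  [],
  []],
  [[.negSucc (nat_lit 171041239741252607), .ofNat (nat_lit 417537648281170944), .ofNat (nat_lit 0)],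
  [.ofNat (nat_lit 1092462522328608768), .ofNat (nat_lit 0), .ofNat (nat_lit 0)],
  [.ofNat (nat_lit 171041239741252608), .negSucc (nat_lit 417537648281170943), .ofNat (nat_lit 0)],
  [.negSucc (nat_lit 1092462522328608767), .ofNat (nat_lit 0), .ofNat (nat_lit 0)],
  [],
  [],
  [],
  [],
  []],
  [[.negSucc (nat_lit 1515920511118113791), .ofNat (nat_lit 200520315420088320), .ofNat (nat_lit 0)],
  [.ofNat (nat_lit 3241694357628493824), .ofNat (nat_lit 0), .ofNat (nat_lit 0)],
  [],
  [.negSucc (nat_lit 1515920511118113791), .ofNat (nat_lit 200520315420088320), .ofNat (nat_lit 0)],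
  [.ofNat (nat_lit 3241694357628493824), .ofNat (nat_lit 0), .ofNat (nat_lit 0)],
  [],
  [],
  [],
  []],
  [[.ofNat (nat_lit 10007483986529280), .ofNat (nat_lit 624872552675853312), .ofNat (nat_lit 0)],
  [.negSucc (nat_lit 621059257472016383), .ofNat (nat_lit 0), .ofNat (nat_lit 0)],
  [],
  [],
  [.negSucc (nat_lit 10007483986529279), .negSucc (nat_lit 624872552675853311), .ofNat (nat_lit 0)],
  [.ofNat (nat_lit 621059257472016384), .ofNat (nat_lit 0), .ofNat (nat_lit 0)],
  [],
  [],
  []],
  [[.negSucc (nat_lit 733740089337759743), .ofNat (nat_lit 877780602478236672), .ofNat (nat_lit 0)],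
  [.ofNat (nat_lit 1374912850698390528), .ofNat (nat_lit 0), .ofNat (nat_lit 0)],
  [],
  [],
  [.ofNat (nat_lit 733740089337759744), .negSucc (nat_lit 877780602478236671), .ofNat (nat_lit 0)],
  [.negSucc (nat_lit 1374912850698390527), .ofNat (nat_lit 0), .ofNat (nat_lit 0)],
  [],
  [],
  []],
  [[.ofNat (nat_lit 1121991846729956352), .negSucc (nat_lit 385972615911361535), .ofNat (nat_lit 0)],
  [.negSucc (nat_lit 1865503478052495359), .ofNat (nat_lit 0), .ofNat (nat_lit 0)],
  [],
  [],
  [],
  [.ofNat (nat_lit 1121991846729956352), .negSucc (nat_lit 385972615911361535), .ofNat (nat_lit 0)],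
  [.negSucc (nat_lit 1865503478052495359), .ofNat (nat_lit 0), .ofNat (nat_lit 0)],
  [],
  []],
  [[.negSucc (nat_lit 108230600986407935), .ofNat (nat_lit 38076322461391872), .ofNat (nat_lit 0)],
  [.ofNat (nat_lit 216242412706824192), .ofNat (nat_lit 0), .ofNat (nat_lit 0)],
  [],
  [],
  [],
  [],
  [.ofNat (nat_lit 108230600986407936), .negSucc (nat_lit 38076322461391871), .ofNat (nat_lit 0)],
  [.negSucc (nat_lit 216242412706824191), .ofNat (nat_lit 0), .ofNat (nat_lit 0)],
  []],
  [[.ofNat (nat_lit 101775045800825856), .negSucc (nat_lit 284472130152407039), .ofNat (nat_lit 0)],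
  [.ofNat (nat_lit 320886820961031168), .ofNat (nat_lit 0), .ofNat (nat_lit 0)],
  [],
  [],
  [],
  [],
  [.negSucc (nat_lit 101775045800825855), .ofNat (nat_lit 284472130152407040), .ofNat (nat_lit 0)],
  [.negSucc (nat_lit 320886820961031167), .ofNat (nat_lit 0), .ofNat (nat_lit 0)],
  []],
  [[],
  [],
  [],
  [],
  [],
  [],
  [],
  [],
  []],
  [[],
  [],
  [],
  [],
  [],
  [],
  [],
  [],
  []]],
  [],
  [],
  [],
  [],
  [],
  [],
  [],
  [],
  [],
  [],
  []],
  [[],
  [],
  [],
  [],
  [],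
  [],
  [],
  [],
  [],
  [],
  [],
  []],
  [[],
  [[[.ofNat (nat_lit 0), .ofNat (nat_lit 3239811067126109184), .negSucc (nat_lit 779429970012533759)],
  [.ofNat (nat_lit 0), .negSucc (nat_lit 6421648569735794687), .ofNat (nat_lit 0)],
  [],
  [],
  [],
  [],
  [],
  [],
  []],
  [[.ofNat (nat_lit 619567176480431616), .negSucc (nat_lit 3208595213237188607), .ofNat (nat_lit 0)],
  [.negSucc (nat_lit 258270884925493247), .ofNat (nat_lit 0), .ofNat (nat_lit 0)],
  [],
  [],
  [],
  [],
  [],
  [],
  []],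
  [[],
  [.negSucc (nat_lit 14134876292231921663), .negSucc (nat_lit 247688251852787711), .ofNat (nat_lit 0)],
  [.ofNat (nat_lit 17336627519828410368), .ofNat (nat_lit 0), .ofNat (nat_lit 0)],
  [],
  [],
  [],
  [],
  [],
  []],
  [[],
  [],
  [.ofNat (nat_lit 9230749158213918720), .negSucc (nat_lit 7907323823923454207), .ofNat (nat_lit 0)],
  [.negSucc (nat_lit 12584336653279759103), .ofNat (nat_lit 0), .ofNat (nat_lit 0)],
  [],
  [],
  [],
  [],
  []],
  [[],
  [],
  [],
  [.ofNat (nat_lit 18220589609833147392), .ofNat (nat_lit 10759654854359815680), .ofNat (nat_lit 0)],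
  [.negSucc (nat_lit 44159490932855652863), .ofNat (nat_lit 0), .ofNat (nat_lit 0)],
  [],
  [],
  [],
  []],
  [[],
  [],
  [],
  [],
  [.negSucc (nat_lit 19788608112369260543), .ofNat (nat_lit 11228448879251544960), .ofNat (nat_lit 0)],
  [.ofNat (nat_lit 14264841264394571136), .ofNat (nat_lit 0), .ofNat (nat_lit 0)],
  [],
  [],
  []],
  [[],
  [],
  [],
  [],
  [.negSucc (nat_lit 22270176092064457727), .ofNat (nat_lit 17503985673566198784), .ofNat (nat_lit 0)],
  [.ofNat (nat_lit 38806276356472596480), .ofNat (nat_lit 0), .ofNat (nat_lit 0)],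
  [],
  [],
  []],
  [[],
  [],
  [],
  [],
  [],
  [.negSucc (nat_lit 20686829708251611647), .negSucc (nat_lit 24147128136904381439), .ofNat (nat_lit 0)],
  [.ofNat (nat_lit 39336548581503037440), .ofNat (nat_lit 0), .ofNat (nat_lit 0)],
  [],
  []],
  [[],
  [],
  [],
  [],
  [],
  [],
  [.ofNat (nat_lit 9301295423692752768), .negSucc (nat_lit 13892031860617179647), .ofNat (nat_lit 0)],
  [.negSucc (nat_lit 4430915070680905343), .ofNat (nat_lit 0), .ofNat (nat_lit 0)],
  []],
  [[],
  [],
  [],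
  [],
  [],
  [],
  [.ofNat (nat_lit 15295759336450897920), .negSucc (nat_lit 32792325110406531071), .ofNat (nat_lit 0)],
  [.negSucc (nat_lit 14524314623084680703), .ofNat (nat_lit 0), .ofNat (nat_lit 0)],
  []],
  [[],
  [],
  [],
  [],
  [],
  [],
  [],
  [.ofNat (nat_lit 12298453875423548928), .negSucc (nat_lit 14360777044342396415), .ofNat (nat_lit 0)],
  [.negSucc (nat_lit 9424099175881904639), .ofNat (nat_lit 0), .ofNat (nat_lit 0)]],
  [[],
  [],
  [],
  [],
  [],
  [],
  [],
  [.negSucc (nat_lit 712425320605780991), .ofNat (nat_lit 1991304911066849280), .ofNat (nat_lit 0)],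
  [.negSucc (nat_lit 2246207746727218175), .ofNat (nat_lit 0), .ofNat (nat_lit 0)]]],
  [],
  [],
  [],
  [],
  [],
  [],
  [],
  [],
  [],
  []],
  [[],
  [],
  [[[.ofNat (nat_lit 0), .ofNat (nat_lit 3521589118596873216), .negSucc (nat_lit 1021565398785638399)],
  [.ofNat (nat_lit 0), .negSucc (nat_lit 6521280956910812159), .ofNat (nat_lit 0)],
  [],
  [],
  [],
  [],
  [],
  [],
  []],
  [[.ofNat (nat_lit 5600426189518264320), .ofNat (nat_lit 1269253650638426112), .ofNat (nat_lit 0)],
  [.negSucc (nat_lit 11856864656972510207), .ofNat (nat_lit 0), .ofNat (nat_lit 0)],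
  [],
  [],
  [],
  [],
  [],
  [],
  []],
  [[],
  [.negSucc (nat_lit 8642266396234324991), .ofNat (nat_lit 10104403067578183680), .ofNat (nat_lit 0)],
  [.ofNat (nat_lit 29905045428907975680), .ofNat (nat_lit 0), .ofNat (nat_lit 0)],
  [],
  [],
  [],
  [],
  [],
  []],
  [[],
  [],
  [.negSucc (nat_lit 26682320166680102399), .negSucc (nat_lit 8318754779502016511), .ofNat (nat_lit 0)],
  [.ofNat (nat_lit 65931793073478240768), .ofNat (nat_lit 0), .ofNat (nat_lit 0)],
  [],
  [],
  [],
  [],
  []],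
  [[],
  [],
  [],
  [.ofNat (nat_lit 57863770886280038400), .ofNat (nat_lit 623606518317374208), .ofNat (nat_lit 0)],
  [.negSucc (nat_lit 107391393684151564031), .ofNat (nat_lit 0), .ofNat (nat_lit 0)],
  [],
  [],
  [],
  []],
  [[],
  [],
  [],
  [],
  [.ofNat (nat_lit 6750263489250053376), .ofNat (nat_lit 49390044551544593664), .ofNat (nat_lit 0)],
  [.negSucc (nat_lit 45667283715094457087), .ofNat (nat_lit 0), .ofNat (nat_lit 0)],
  [],
  [],
  []],
  [[],
  [],
  [],
  [],
  [.negSucc (nat_lit 591630142525373951), .ofNat (nat_lit 32782856485669134336), .ofNat (nat_lit 0)],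
  [.negSucc (nat_lit 9360306017096970239), .ofNat (nat_lit 0), .ofNat (nat_lit 0)],
  [],
  [],
  []],
  [[],
  [],
  [],
  [],
  [],
  [.negSucc (nat_lit 51934416192416275199), .ofNat (nat_lit 20990855290408838784), .ofNat (nat_lit 0)],
  [.ofNat (nat_lit 73092205883183681664), .ofNat (nat_lit 0), .ofNat (nat_lit 0)],
  [],
  []],
  [[],
  [],
  [],
  [],
  [],
  [],
  [.ofNat (nat_lit 7940977044133223808), .negSucc (nat_lit 19601861500878458111), .ofNat (nat_lit 0)],
  [.ofNat (nat_lit 3870797329675679616), .ofNat (nat_lit 0), .ofNat (nat_lit 0)],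
  []],
  [[],
  [],
  [],
  [],
  [],
  [],
  [.ofNat (nat_lit 3508949880230289408), .negSucc (nat_lit 85706326284780695039), .ofNat (nat_lit 0)],
  [.negSucc (nat_lit 212992528377756671), .ofNat (nat_lit 0), .ofNat (nat_lit 0)],
  []],
  [[],
  [],
  [],
  [],
  [],
  [],
  [],
  [.ofNat (nat_lit 19272387379893886080), .negSucc (nat_lit 16886038308703665407), .ofNat (nat_lit 0)],
  [.negSucc (nat_lit 18347788288936391039), .ofNat (nat_lit 0), .ofNat (nat_lit 0)]],
  [[],
  [],
  [],
  [],
  [],
  [],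
  [],
  [.ofNat (nat_lit 733476751771124736), .negSucc (nat_lit 53481016469162663423), .ofNat (nat_lit 0)],
  []]],
  [],
  [],
  [],
  [],
  [],
  [],
  [],
  [],
  []],
  [[],
  [],
  [],
  [[[.ofNat (nat_lit 0), .negSucc (nat_lit 24269020631124968447), .ofNat (nat_lit 3903720623445841920)],
  [.ofNat (nat_lit 0), .ofNat (nat_lit 48956745713745696768), .ofNat (nat_lit 0)],
  [],
  [],
  [],
  [],
  [],
  [],
  []],
  [[.ofNat (nat_lit 37984683300893033472), .negSucc (nat_lit 11811044447369296127), .ofNat (nat_lit 0)],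
  [.negSucc (nat_lit 65455475872791847679), .ofNat (nat_lit 0), .ofNat (nat_lit 0)],
  [],
  [],
  [],
  [],
  [],
  [],
  []],
  [[],
  [.ofNat (nat_lit 26682320166680102400), .ofNat (nat_lit 8318754779502016512), .ofNat (nat_lit 0)],
  [.negSucc (nat_lit 65931793073478240767), .ofNat (nat_lit 0), .ofNat (nat_lit 0)],
  [],
  [],
  [],
  [],
  [],
  []],
  [[],
  [],
  [.negSucc (nat_lit 70157055231669475583), .negSucc (nat_lit 2802218279663129471), .ofNat (nat_lit 0)],
  [.ofNat (nat_lit 96693929329180580352), .ofNat (nat_lit 0), .ofNat (nat_lit 0)],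
  [],
  [],
  [],
  [],
  []],
  [[],
  [],
  [],
  [.ofNat (nat_lit 16791416507608592256), .negSucc (nat_lit 147831194038769572607), .ofNat (nat_lit 0)],
  [.ofNat (nat_lit 5490469744539630336), .ofNat (nat_lit 0), .ofNat (nat_lit 0)],
  [],
  [],
  [],
  []],
  [[],
  [],
  [],
  [],
  [.ofNat (nat_lit 55891612149911008128), .ofNat (nat_lit 99636257588985186624), .ofNat (nat_lit 0)],
  [.negSucc (nat_lit 98264215514349512639), .ofNat (nat_lit 0), .ofNat (nat_lit 0)],
  [],
  [],
  []],
  [[],
  [],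
  [],
  [],
  [.ofNat (nat_lit 80148104624684093184), .negSucc (nat_lit 131435251001380855295), .ofNat (nat_lit 0)],
  [.negSucc (nat_lit 103780097517166460927), .ofNat (nat_lit 0), .ofNat (nat_lit 0)],
  [],
  [],
  []],
  [[],
  [],
  [],
  [],
  [],
  [.negSucc (nat_lit 52369504786745478143), .ofNat (nat_lit 260876776382893468800), .ofNat (nat_lit 0)],
  [.ofNat (nat_lit 78089527481796528768), .ofNat (nat_lit 0), .ofNat (nat_lit 0)],
  [],
  []],
  [[],
  [],
  [],
  [],
  [],
  [],
  [.negSucc (nat_lit 344537042812740575), .negSucc (nat_lit 57739175418359480255), .ofNat (nat_lit 0)],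
  [.ofNat (nat_lit 22543830674456440896), .ofNat (nat_lit 0), .ofNat (nat_lit 0)],
  []],
  [[],
  [],
  [],
  [],
  [],
  [],
  [.negSucc (nat_lit 48719882205639300095), .ofNat (nat_lit 217851003194270630400), .ofNat (nat_lit 0)],
  [.ofNat (nat_lit 45408600984958133760), .ofNat (nat_lit 0), .ofNat (nat_lit 0)],
  []],
  [[],
  [],
  [],
  [],
  [],
  [],
  [],
  [.ofNat (nat_lit 10218586083168287808), .negSucc (nat_lit 11948272222723953407), .ofNat (nat_lit 0)],
  [.negSucc (nat_lit 27851133575134360511), .ofNat (nat_lit 0), .ofNat (nat_lit 0)]],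
  [[],
  [],
  [],
  [],
  [],
  [],
  [],
  [.ofNat (nat_lit 20673270057425596416), .negSucc (nat_lit 32563194764047395839), .ofNat (nat_lit 0)],
  []]],
  [],
  [],
  [],
  [],
  [],
  [],
  [],
  []],
  [[],
  [],
  [],
  [],
  [[[.ofNat (nat_lit 0), .negSucc (nat_lit 2135314283038295039), .ofNat (nat_lit 1623220907043750912)],
  [.ofNat (nat_lit 0), .ofNat (nat_lit 3117297552384402432), .ofNat (nat_lit 0)],
  [],
  [],
  [],
  [],
  [],
  [],
  []],
  [[.negSucc (nat_lit 10283961473833918463), .negSucc (nat_lit 12382875761403566591), .ofNat (nat_lit 0)],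
  [.ofNat (nat_lit 12825842648031189504), .ofNat (nat_lit 0), .ofNat (nat_lit 0)],
  [],
  [],
  [],
  [],
  [],
  [],
  []],
  [[],
  [.ofNat (nat_lit 57863770886280038400), .ofNat (nat_lit 623606518317374208), .ofNat (nat_lit 0)],
  [.negSucc (nat_lit 107391393684151564031), .ofNat (nat_lit 0), .ofNat (nat_lit 0)],
  [],
  [],
  [],
  [],
  [],
  []],
  [[],
  [],
  [.negSucc (nat_lit 16791416507608592255), .ofNat (nat_lit 147831194038769572608), .ofNat (nat_lit 0)],
  [.negSucc (nat_lit 5490469744539630335), .ofNat (nat_lit 0), .ofNat (nat_lit 0)],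
  [],
  [],
  [],
  [],
  []],
  [[],
  [],
  [],
  [.negSucc (nat_lit 188473998289420956671), .ofNat (nat_lit 67863852161474345856), .ofNat (nat_lit 0)],
  [.ofNat (nat_lit 351778337551317394944), .ofNat (nat_lit 0), .ofNat (nat_lit 0)],
  [],
  [],
  [],
  []],
  [[],
  [],
  [],
  [],
  [.ofNat (nat_lit 90049062784780584000), .negSucc (nat_lit 232391079668862190655), .ofNat (nat_lit 0)],
  [.negSucc (nat_lit 126967876642793638655), .ofNat (nat_lit 0), .ofNat (nat_lit 0)],
  [],
  [],
  []],
  [[],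
  [],
  [],
  [],
  [.ofNat (nat_lit 40430959733603446272), .negSucc (nat_lit 100870115637491239679), .ofNat (nat_lit 0)],
  [.negSucc (nat_lit 50900320692366566399), .ofNat (nat_lit 0), .ofNat (nat_lit 0)],
  [],
  [],
  []],
  [[],
  [],
  [],
  [],
  [],
  [.ofNat (nat_lit 84325273564048299648), .negSucc (nat_lit 223890367639266998207), .ofNat (nat_lit 0)],
  [.negSucc (nat_lit 99622143628619621183), .ofNat (nat_lit 0), .ofNat (nat_lit 0)],
  [],
  []],
  [[],
  [],
  [],
  [],
  [],
  [],
  [.negSucc (nat_lit 13351049591335986239), .negSucc (nat_lit 72105913168504468415), .ofNat (nat_lit 0)],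
  [.ofNat (nat_lit 57428440883149205376), .ofNat (nat_lit 0), .ofNat (nat_lit 0)],
  []],
  [[],
  [],
  [],
  [],
  [],
  [],
  [.negSucc (nat_lit 103233087689311702655), .ofNat (nat_lit 367449936258966645888), .ofNat (nat_lit 0)],
  [.ofNat (nat_lit 52655687910818869248), .ofNat (nat_lit 0), .ofNat (nat_lit 0)],
  []],
  [[],
  [],
  [],
  [],
  [],
  [],
  [],
  [.negSucc (nat_lit 22151737426175168831), .ofNat (nat_lit 57990305128640548896), .ofNat (nat_lit 0)],
  [.negSucc (nat_lit 23316276258523809791), .ofNat (nat_lit 0), .ofNat (nat_lit 0)]],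
  [[],
  [],
  [],
  [],
  [],
  [],
  [],
  [.ofNat (nat_lit 23763881807702184960), .ofNat (nat_lit 83878357092950154240), .ofNat (nat_lit 0)],
  [.negSucc (nat_lit 8300995302518295551), .ofNat (nat_lit 0), .ofNat (nat_lit 0)]]],
  [],
  [],
  [],
  [],
  [],
  [],
  []],
  [[],
  [],
  [],
  [],
  [],
  [[[.ofNat (nat_lit 0), .ofNat (nat_lit 61809581321184946176), .negSucc (nat_lit 6786958689822781439)],
  [.ofNat (nat_lit 0), .negSucc (nat_lit 126723986188376564735), .ofNat (nat_lit 0)],
  [],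
  [],
  [],
  [],
  [],
  [],
  []],
  [[.negSucc (nat_lit 91409823686522400767), .ofNat (nat_lit 18015407569074326400), .ofNat (nat_lit 0)],
  [.ofNat (nat_lit 185928995312705962368), .ofNat (nat_lit 0), .ofNat (nat_lit 0)],
  [],
  [],
  [],
  [],
  [],
  [],
  []],
  [[],
  [.negSucc (nat_lit 6750263489250053375), .negSucc (nat_lit 49390044551544593663), .ofNat (nat_lit 0)],
  [.ofNat (nat_lit 45667283715094457088), .ofNat (nat_lit 0), .ofNat (nat_lit 0)],
  [],
  [],
  [],
  [],
  [],
  []],
  [[],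
  [],
  [.ofNat (nat_lit 55891612149911008128), .ofNat (nat_lit 99636257588985186624), .ofNat (nat_lit 0)],
  [.negSucc (nat_lit 98264215514349512639), .ofNat (nat_lit 0), .ofNat (nat_lit 0)],
  [],
  [],
  [],
  [],
  []],
  [[],
  [],
  [],
  [.negSucc (nat_lit 90049062784780583999), .ofNat (nat_lit 232391079668862190656), .ofNat (nat_lit 0)],
  [.ofNat (nat_lit 126967876642793638656), .ofNat (nat_lit 0), .ofNat (nat_lit 0)],
  [],
  [],
  [],
  []],
  [[],
  [],
  [],
  [],
  [.ofNat (nat_lit 71657040441273409728), .negSucc (nat_lit 411206287537911422303), .ofNat (nat_lit 0)],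
  [.ofNat (nat_lit 4890256667510894208), .ofNat (nat_lit 0), .ofNat (nat_lit 0)],
  [],
  [],
  []],
  [[],
  [],
  [],
  [],
  [.negSucc (nat_lit 89849330981621216639), .ofNat (nat_lit 235623958359273633024), .ofNat (nat_lit 0)],
  [.ofNat (nat_lit 45510769332294473088), .ofNat (nat_lit 0), .ofNat (nat_lit 0)],
  [],
  [],
  []],
  [[],
  [],
  [],
  [],
  [],
  [.ofNat (nat_lit 122008642473203130528), .negSucc (nat_lit 546732989145017058239), .ofNat (nat_lit 0)],
  [.negSucc (nat_lit 118967834606182814015), .ofNat (nat_lit 0), .ofNat (nat_lit 0)],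
  [],
  []],
  [[],
  [],
  [],
  [],
  [],
  [],
  [.negSucc (nat_lit 69090260166312818687), .ofNat (nat_lit 188218756940007474576), .ofNat (nat_lit 0)],
  [.ofNat (nat_lit 30140777478446360064), .ofNat (nat_lit 0), .ofNat (nat_lit 0)],
  []],
  [[],
  [],
  [],
  [],
  [],
  [],
  [.negSucc (nat_lit 53565897185254190015), .negSucc (nat_lit 160784291337097965119), .ofNat (nat_lit 0)],
  [.ofNat (nat_lit 27982017092974531968), .ofNat (nat_lit 0), .ofNat (nat_lit 0)],
  []],
  [[],
  [],
  [],
  [],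
  [],
  [],
  [],
  [.negSucc (nat_lit 58812315083209678463), .ofNat (nat_lit 177185921025293447328), .ofNat (nat_lit 0)],
  [.negSucc (nat_lit 10977419119987706399), .ofNat (nat_lit 0), .ofNat (nat_lit 0)]],
  [[],
  [],
  [],
  [],
  [],
  [],
  [],
  [.negSucc (nat_lit 36508802596899011711), .ofNat (nat_lit 59760041273444143872), .ofNat (nat_lit 0)],
  []]],
  [[[.ofNat (nat_lit 0), .negSucc (nat_lit 1269440819325950975), .negSucc (nat_lit 3381842961601827839)],
  [.ofNat (nat_lit 0), .ofNat (nat_lit 5527010792539127808), .ofNat (nat_lit 0)],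
  [],
  [],
  [],
  [],
  [],
  [],
  []],
  [[.ofNat (nat_lit 22428691608808424448), .ofNat (nat_lit 20885828635168026624), .ofNat (nat_lit 0)],
  [.negSucc (nat_lit 52058039099984105471), .ofNat (nat_lit 0), .ofNat (nat_lit 0)],
  [],
  [],
  [],
  [],
  [],
  [],
  []],
  [[],
  [.ofNat (nat_lit 591630142525373952), .negSucc (nat_lit 32782856485669134335), .ofNat (nat_lit 0)],
  [.ofNat (nat_lit 9360306017096970240), .ofNat (nat_lit 0), .ofNat (nat_lit 0)],
  [],
  [],
  [],
  [],
  [],
  []],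
  [[],
  [],
  [.ofNat (nat_lit 80148104624684093184), .negSucc (nat_lit 131435251001380855295), .ofNat (nat_lit 0)],
  [.negSucc (nat_lit 103780097517166460927), .ofNat (nat_lit 0), .ofNat (nat_lit 0)],
  [],
  [],
  [],
  [],
  []],
  [[],
  [],
  [],
  [.negSucc (nat_lit 40430959733603446271), .ofNat (nat_lit 100870115637491239680), .ofNat (nat_lit 0)],
  [.ofNat (nat_lit 50900320692366566400), .ofNat (nat_lit 0), .ofNat (nat_lit 0)],
  [],
  [],
  [],
  []],
  [[],
  [],
  [],
  [],
  [.negSucc (nat_lit 89849330981621216639), .ofNat (nat_lit 235623958359273633024), .ofNat (nat_lit 0)],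
  [.ofNat (nat_lit 45510769332294473088), .ofNat (nat_lit 0), .ofNat (nat_lit 0)],
  [],
  [],
  []],
  [[],
  [],
  [],
  [],
  [.ofNat (nat_lit 1526113758887442432), .ofNat (nat_lit 88697630254444397568), .ofNat (nat_lit 0)],
  [.negSucc (nat_lit 7455720174599149055), .ofNat (nat_lit 0), .ofNat (nat_lit 0)],
  [],
  [],
  []],
  [[],
  [],
  [],
  [],
  [],
  [.ofNat (nat_lit 35076388008194441856), .negSucc (nat_lit 38624576384938768127), .ofNat (nat_lit 0)],
  [.negSucc (nat_lit 47118106668718236671), .ofNat (nat_lit 0), .ofNat (nat_lit 0)],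
  [],
  []],
  [[],
  [],
  [],
  [],
  [],
  [],
  [.ofNat (nat_lit 46949934038333380992), .negSucc (nat_lit 119654461352796419519), .ofNat (nat_lit 0)],
  [.ofNat (nat_lit 4605194774832929280), .ofNat (nat_lit 0), .ofNat (nat_lit 0)],
  []],
  [[],
  [],
  [],
  [],
  [],
  [],
  [.negSucc (nat_lit 25465810141962176255), .negSucc (nat_lit 90226001052744051455), .ofNat (nat_lit 0)],
  [.ofNat (nat_lit 20887856468394600960), .ofNat (nat_lit 0), .ofNat (nat_lit 0)],
  []],
  [[],
  [],
  [],
  [],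
  [],
  [],
  [],
  [.ofNat (nat_lit 13808523957494632704), .negSucc (nat_lit 19042453138030943615), .ofNat (nat_lit 0)],
  [.negSucc (nat_lit 5896295335158947711), .ofNat (nat_lit 0), .ofNat (nat_lit 0)]],
  [[],
  [],
  [],
  [],
  [],
  [],
  [],
  [.negSucc (nat_lit 599964225111258623), .negSucc (nat_lit 78125195523246041087), .ofNat (nat_lit 0)],
  []]],
  [],
  [],
  [],
  [],
  []],
  [[],
  [],
  [],
  [],
  [],
  [],
  [],
  [[[.ofNat (nat_lit 0), .negSucc (nat_lit 75840700440083263487), .ofNat (nat_lit 8676095021772162048)],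
  [.ofNat (nat_lit 0), .ofNat (nat_lit 154816697929173755904), .ofNat (nat_lit 0)],
  [],
  [],
  [],
  [],
  [],
  [],
  []],
  [[.ofNat (nat_lit 73678811902041724416), .ofNat (nat_lit 15471033115132219392), .ofNat (nat_lit 0)],
  [.negSucc (nat_lit 180249379956131595263), .ofNat (nat_lit 0), .ofNat (nat_lit 0)],
  [],
  [],
  [],
  [],
  [],
  [],
  []],
  [[],
  [.negSucc (nat_lit 51934416192416275199), .ofNat (nat_lit 20990855290408838784), .ofNat (nat_lit 0)],
  [.ofNat (nat_lit 73092205883183681664), .ofNat (nat_lit 0), .ofNat (nat_lit 0)],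
  [],
  [],
  [],
  [],
  [],
  []],
  [[],
  [],
  [.ofNat (nat_lit 52369504786745478144), .negSucc (nat_lit 260876776382893468799), .ofNat (nat_lit 0)],
  [.negSucc (nat_lit 78089527481796528767), .ofNat (nat_lit 0), .ofNat (nat_lit 0)],
  [],
  [],
  [],
  [],
  []],
  [[],
  [],
  [],
  [.ofNat (nat_lit 84325273564048299648), .negSucc (nat_lit 223890367639266998207), .ofNat (nat_lit 0)],
  [.negSucc (nat_lit 99622143628619621183), .ofNat (nat_lit 0), .ofNat (nat_lit 0)],
  [],
  [],
  [],
  []],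
  [[],
  [],
  [],
  [],
  [.negSucc (nat_lit 122008642473203130527), .ofNat (nat_lit 546732989145017058240), .ofNat (nat_lit 0)],
  [.ofNat (nat_lit 118967834606182814016), .ofNat (nat_lit 0), .ofNat (nat_lit 0)],
  [],
  [],
  []],
  [[],
  [],
  [],
  [],
  [.negSucc (nat_lit 35076388008194441855), .ofNat (nat_lit 38624576384938768128), .ofNat (nat_lit 0)],
  [.ofNat (nat_lit 47118106668718236672), .ofNat (nat_lit 0), .ofNat (nat_lit 0)],
  [],
  [],
  []],
  [[],
  [],
  [],
  [],
  [],
  [.ofNat (nat_lit 185026864177055471328), .ofNat (nat_lit 275035318155315542304), .ofNat (nat_lit 0)],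
  [.negSucc (nat_lit 136077422318610547967), .ofNat (nat_lit 0), .ofNat (nat_lit 0)],
  [],
  []],
  [[],
  [],
  [],
  [],
  [],
  [],
  [.ofNat (nat_lit 4061365295552519040), .negSucc (nat_lit 4425538155395968943), .ofNat (nat_lit 0)],
  [.ofNat (nat_lit 21000769519226318496), .ofNat (nat_lit 0), .ofNat (nat_lit 0)],
  []],
  [[],
  [],
  [],
  [],
  [],
  [],
  [.ofNat (nat_lit 131919258604116369600), .negSucc (nat_lit 258604319921537466431), .ofNat (nat_lit 0)],
  [.ofNat (nat_lit 31099066143715296000), .ofNat (nat_lit 0), .ofNat (nat_lit 0)],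
  []],
  [[],
  [],
  [],
  [],
  [],
  [],
  [],
  [.negSucc (nat_lit 22815483114594319919), .ofNat (nat_lit 32682237106885860816), .ofNat (nat_lit 0)],
  [.negSucc (nat_lit 4586947072234097759), .ofNat (nat_lit 0), .ofNat (nat_lit 0)]],
  [[],
  [],
  [],
  [],
  [],
  [],
  [],
  [.negSucc (nat_lit 15649373679134418431), .negSucc (nat_lit 30220145176970460671), .ofNat (nat_lit 0)],
  []]],
  [],
  [],
  [],
  []],
  [[],
  [],
  [],
  [],
  [],
  [],
  [],
  [],
  [[[.ofNat (nat_lit 0), .negSucc (nat_lit 2132607740490667007), .ofNat (nat_lit 371253736458547200)],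
  [.ofNat (nat_lit 0), .ofNat (nat_lit 4292982574466568192), .ofNat (nat_lit 0)],
  [],
  [],
  [],
  [],
  [],
  [],
  []],
  [[.ofNat (nat_lit 18004183314748396416), .negSucc (nat_lit 14263285597075726847), .ofNat (nat_lit 0)],
  [.negSucc (nat_lit 21833625796202646143), .ofNat (nat_lit 0), .ofNat (nat_lit 0)],
  [],
  [],
  [],
  [],
  [],
  [],
  []],
  [[],
  [.negSucc (nat_lit 7940977044133223807), .ofNat (nat_lit 19601861500878458112), .ofNat (nat_lit 0)],
  [.negSucc (nat_lit 3870797329675679615), .ofNat (nat_lit 0), .ofNat (nat_lit 0)],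
  [],
  [],
  [],
  [],
  [],
  []],
  [[],
  [],
  [.negSucc (nat_lit 344537042812740575), .negSucc (nat_lit 57739175418359480255), .ofNat (nat_lit 0)],
  [.ofNat (nat_lit 22543830674456440896), .ofNat (nat_lit 0), .ofNat (nat_lit 0)],
  [],
  [],
  [],
  [],
  []],
  [[],
  [],
  [],
  [.ofNat (nat_lit 13351049591335986240), .ofNat (nat_lit 72105913168504468416), .ofNat (nat_lit 0)],
  [.negSucc (nat_lit 57428440883149205375), .ofNat (nat_lit 0), .ofNat (nat_lit 0)],
  [],
  [],
  [],
  []],
  [[],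
  [],
  [],
  [],
  [.negSucc (nat_lit 69090260166312818687), .ofNat (nat_lit 188218756940007474576), .ofNat (nat_lit 0)],
  [.ofNat (nat_lit 30140777478446360064), .ofNat (nat_lit 0), .ofNat (nat_lit 0)],
  [],
  [],
  []],
  [[],
  [],
  [],
  [],
  [.ofNat (nat_lit 46949934038333380992), .negSucc (nat_lit 119654461352796419519), .ofNat (nat_lit 0)],
  [.ofNat (nat_lit 4605194774832929280), .ofNat (nat_lit 0), .ofNat (nat_lit 0)],
  [],
  [],
  []],
  [[],
  [],
  [],
  [],
  [],
  [.negSucc (nat_lit 4061365295552519039), .ofNat (nat_lit 4425538155395968944), .ofNat (nat_lit 0)],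
  [.negSucc (nat_lit 21000769519226318495), .ofNat (nat_lit 0), .ofNat (nat_lit 0)],
  [],
  []],
  [[],
  [],
  [],
  [],
  [],
  [],
  [.negSucc (nat_lit 30556463043067740503), .ofNat (nat_lit 22669589418479921736), .ofNat (nat_lit 0)],
  [.ofNat (nat_lit 4618312731906518016), .ofNat (nat_lit 0), .ofNat (nat_lit 0)],
  []],
  [[],
  [],
  [],
  [],
  [],
  [],
  [.ofNat (nat_lit 61068171741669166176), .negSucc (nat_lit 128174717588706405791), .ofNat (nat_lit 0)],
  [.negSucc (nat_lit 1945376352076251455), .ofNat (nat_lit 0), .ofNat (nat_lit 0)],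
  []],
  [[],
  [],
  [],
  [],
  [],
  [],
  [],
  [.negSucc (nat_lit 15276575747104231319), .negSucc (nat_lit 7302033646780357439), .ofNat (nat_lit 0)],
  [.negSucc (nat_lit 897236428644335807), .ofNat (nat_lit 0), .ofNat (nat_lit 0)]],
  [[],
  [],
  [],
  [],
  [],
  [],
  [],
  [.negSucc (nat_lit 2140282201625558783), .ofNat (nat_lit 22097675731343380992), .ofNat (nat_lit 0)],
  [.ofNat (nat_lit 280775968340902272), .ofNat (nat_lit 0), .ofNat (nat_lit 0)]]],
  [[[.ofNat (nat_lit 0), .ofNat (nat_lit 32182213952671764480), .negSucc (nat_lit 3220910548327093247)],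
  [.ofNat (nat_lit 0), .negSucc (nat_lit 65944766070795783167), .ofNat (nat_lit 0)],
  [],
  [],
  [],
  [],
  [],
  [],
  []],
  [[.negSucc (nat_lit 20472538709972109311), .negSucc (nat_lit 29571414562079437823), .ofNat (nat_lit 0)],
  [.ofNat (nat_lit 71245977276289946112), .ofNat (nat_lit 0), .ofNat (nat_lit 0)],
  [],
  [],
  [],
  [],
  [],
  [],
  []],
  [[],
  [.negSucc (nat_lit 3508949880230289407), .ofNat (nat_lit 85706326284780695040), .ofNat (nat_lit 0)],
  [.ofNat (nat_lit 212992528377756672), .ofNat (nat_lit 0), .ofNat (nat_lit 0)],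
  [],
  [],
  [],
  [],
  [],
  []],
  [[],
  [],
  [.negSucc (nat_lit 48719882205639300095), .ofNat (nat_lit 217851003194270630400), .ofNat (nat_lit 0)],
  [.ofNat (nat_lit 45408600984958133760), .ofNat (nat_lit 0), .ofNat (nat_lit 0)],
  [],
  [],
  [],
  [],
  []],
  [[],
  [],
  [],
  [.ofNat (nat_lit 103233087689311702656), .negSucc (nat_lit 367449936258966645887), .ofNat (nat_lit 0)],
  [.negSucc (nat_lit 52655687910818869247), .ofNat (nat_lit 0), .ofNat (nat_lit 0)],
  [],
  [],
  [],
  []],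
  [[],
  [],
  [],
  [],
  [.negSucc (nat_lit 53565897185254190015), .negSucc (nat_lit 160784291337097965119), .ofNat (nat_lit 0)],
  [.ofNat (nat_lit 27982017092974531968), .ofNat (nat_lit 0), .ofNat (nat_lit 0)],
  [],
  [],
  []],
  [[],
  [],
  [],
  [],
  [.negSucc (nat_lit 25465810141962176255), .negSucc (nat_lit 90226001052744051455), .ofNat (nat_lit 0)],
  [.ofNat (nat_lit 20887856468394600960), .ofNat (nat_lit 0), .ofNat (nat_lit 0)],
  [],
  [],
  []],
  [[],
  [],
  [],
  [],
  [],
  [.negSucc (nat_lit 131919258604116369599), .ofNat (nat_lit 258604319921537466432), .ofNat (nat_lit 0)],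
  [.negSucc (nat_lit 31099066143715295999), .ofNat (nat_lit 0), .ofNat (nat_lit 0)],
  [],
  []],
  [[],
  [],
  [],
  [],
  [],
  [],
  [.ofNat (nat_lit 61068171741669166176), .negSucc (nat_lit 128174717588706405791), .ofNat (nat_lit 0)],
  [.negSucc (nat_lit 1945376352076251455), .ofNat (nat_lit 0), .ofNat (nat_lit 0)],
  []],
  [[],
  [],
  [],
  [],
  [],
  [],
  [.negSucc (nat_lit 42457498133989637375), .ofNat (nat_lit 239477800264836820992), .ofNat (nat_lit 0)],
  [.ofNat (nat_lit 7781505408305005824), .ofNat (nat_lit 0), .ofNat (nat_lit 0)],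
  []],
  [[],
  [],
  [],
  [],
  [],
  [],
  [],
  [.ofNat (nat_lit 28774854607209073344), .negSucc (nat_lit 82932628726428368831), .ofNat (nat_lit 0)],
  [.negSucc (nat_lit 561551936681804543), .ofNat (nat_lit 0), .ofNat (nat_lit 0)]],
  [[],
  [],
  [],
  [],
  [],
  [],
  [],
  [.ofNat (nat_lit 30006979107190778880), .negSucc (nat_lit 5437513714571246591), .ofNat (nat_lit 0)],
  [.negSucc (nat_lit 1123103873363609087), .ofNat (nat_lit 0), .ofNat (nat_lit 0)]]],
  [],
  []],
  [[],
  [],
  [],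
  [],
  [],
  [],
  [],
  [],
  [],
  [],
  [[[],
  [],
  [],
  [],
  [],
  [],
  [],
  [],
  []],
  [[.negSucc (nat_lit 12298453875423548927), .ofNat (nat_lit 14360777044342396416), .ofNat (nat_lit 0)],
  [.ofNat (nat_lit 9424099175881904640), .ofNat (nat_lit 0), .ofNat (nat_lit 0)],
  [],
  [],
  [],
  [],
  [],
  [],
  []],
  [[],
  [.ofNat (nat_lit 19272387379893886080), .negSucc (nat_lit 16886038308703665407), .ofNat (nat_lit 0)],
  [.negSucc (nat_lit 18347788288936391039), .ofNat (nat_lit 0), .ofNat (nat_lit 0)],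
  [],
  [],
  [],
  [],
  [],
  []],
  [[],
  [],
  [.negSucc (nat_lit 10218586083168287807), .ofNat (nat_lit 11948272222723953408), .ofNat (nat_lit 0)],
  [.ofNat (nat_lit 27851133575134360512), .ofNat (nat_lit 0), .ofNat (nat_lit 0)],
  [],
  [],
  [],
  [],
  []],
  [[],
  [],
  [],
  [.negSucc (nat_lit 22151737426175168831), .ofNat (nat_lit 57990305128640548896), .ofNat (nat_lit 0)],
  [.negSucc (nat_lit 23316276258523809791), .ofNat (nat_lit 0), .ofNat (nat_lit 0)],
  [],
  [],
  [],
  []],
  [[],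
  [],
  [],
  [],
  [.ofNat (nat_lit 58812315083209678464), .negSucc (nat_lit 177185921025293447327), .ofNat (nat_lit 0)],
  [.ofNat (nat_lit 10977419119987706400), .ofNat (nat_lit 0), .ofNat (nat_lit 0)],
  [],
  [],
  []],
  [[],
  [],
  [],
  [],
  [.negSucc (nat_lit 13808523957494632703), .ofNat (nat_lit 19042453138030943616), .ofNat (nat_lit 0)],
  [.ofNat (nat_lit 5896295335158947712), .ofNat (nat_lit 0), .ofNat (nat_lit 0)],
  [],
  [],
  []],
  [[],
  [],
  [],
  [],
  [],
  [.negSucc (nat_lit 22815483114594319919), .ofNat (nat_lit 32682237106885860816), .ofNat (nat_lit 0)],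
  [.negSucc (nat_lit 4586947072234097759), .ofNat (nat_lit 0), .ofNat (nat_lit 0)],
  [],
  []],
  [[],
  [],
  [],
  [],
  [],
  [],
  [.ofNat (nat_lit 15276575747104231320), .ofNat (nat_lit 7302033646780357440), .ofNat (nat_lit 0)],
  [.ofNat (nat_lit 897236428644335808), .ofNat (nat_lit 0), .ofNat (nat_lit 0)],
  []],
  [[],
  [],
  [],
  [],
  [],
  [],
  [.negSucc (nat_lit 28774854607209073343), .ofNat (nat_lit 82932628726428368832), .ofNat (nat_lit 0)],
  [.ofNat (nat_lit 561551936681804544), .ofNat (nat_lit 0), .ofNat (nat_lit 0)],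
  []],
  [[],
  [],
  [],
  [],
  [],
  [],
  [],
  [.ofNat (nat_lit 30128295104760297384), .negSucc (nat_lit 27934686524879515079), .ofNat (nat_lit 0)],
  []],
  [[],
  [],
  [],
  [],
  [],
  [],
  [],
  [.negSucc (nat_lit 3983590196521532927), .negSucc (nat_lit 10434285268879889663), .ofNat (nat_lit 0)],
  []]],
  [[[],
  [],
  [],
  [],
  [],
  [],
  [],
  [],
  []],
  [[.ofNat (nat_lit 712425320605780992), .negSucc (nat_lit 1991304911066849279), .ofNat (nat_lit 0)],
  [.ofNat (nat_lit 2246207746727218176), .ofNat (nat_lit 0), .ofNat (nat_lit 0)],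
  [],
  [],
  [],
  [],
  [],
  [],
  []],
  [[],
  [.ofNat (nat_lit 733476751771124736), .negSucc (nat_lit 53481016469162663423), .ofNat (nat_lit 0)],
  [],
  [],
  [],
  [],
  [],
  [],
  []],
  [[],
  [],
  [.negSucc (nat_lit 20673270057425596415), .ofNat (nat_lit 32563194764047395840), .ofNat (nat_lit 0)],
  [],
  [],
  [],
  [],
  [],
  []],
  [[],
  [],
  [],
  [.ofNat (nat_lit 23763881807702184960), .ofNat (nat_lit 83878357092950154240), .ofNat (nat_lit 0)],
  [.negSucc (nat_lit 8300995302518295551), .ofNat (nat_lit 0), .ofNat (nat_lit 0)],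
  [],
  [],
  [],
  []],
  [[],
  [],
  [],
  [],
  [.ofNat (nat_lit 36508802596899011712), .negSucc (nat_lit 59760041273444143871), .ofNat (nat_lit 0)],
  [],
  [],
  [],
  []],
  [[],
  [],
  [],
  [],
  [.ofNat (nat_lit 599964225111258624), .ofNat (nat_lit 78125195523246041088), .ofNat (nat_lit 0)],
  [],
  [],
  [],
  []],
  [[],
  [],
  [],
  [],
  [],
  [.negSucc (nat_lit 15649373679134418431), .negSucc (nat_lit 30220145176970460671), .ofNat (nat_lit 0)],
  [],
  [],
  []],
  [[],
  [],
  [],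
  [],
  [],
  [],
  [.ofNat (nat_lit 2140282201625558784), .negSucc (nat_lit 22097675731343380991), .ofNat (nat_lit 0)],
  [.negSucc (nat_lit 280775968340902271), .ofNat (nat_lit 0), .ofNat (nat_lit 0)],
  []],
  [[],
  [],
  [],
  [],
  [],
  [],
  [.negSucc (nat_lit 30006979107190778879), .ofNat (nat_lit 5437513714571246592), .ofNat (nat_lit 0)],
  [.ofNat (nat_lit 1123103873363609088), .ofNat (nat_lit 0), .ofNat (nat_lit 0)],
  []],
  [[],
  [],
  [],
  [],
  [],
  [],
  [],
  [.negSucc (nat_lit 3983590196521532927), .negSucc (nat_lit 10434285268879889663), .ofNat (nat_lit 0)],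
  []],
  [[],
  [],
  [],
  [],
  [],
  [],
  [],
  [.ofNat (nat_lit 10667411366277376512), .negSucc (nat_lit 16043976613789862399), .ofNat (nat_lit 0)],
  []]]]],
  [[[[[.ofNat (nat_lit 0), .ofNat (nat_lit 0), .ofNat (nat_lit 665127977963526144)],
  [.ofNat (nat_lit 0), .ofNat (nat_lit 0), .negSucc (nat_lit 1690034575148872703)],
  [],
  [],
  [],
  [],
  [],
  [],
  []],
  [[.ofNat (nat_lit 0), .negSucc (nat_lit 1954635815675538431), .ofNat (nat_lit 0)],
  [.ofNat (nat_lit 0), .ofNat (nat_lit 3586099796111711232), .ofNat (nat_lit 0)],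
  [],
  [],
  [],
  [],
  [],
  [],
  []],
  [[],
  [.ofNat (nat_lit 0), .negSucc (nat_lit 5012860984116784127), .ofNat (nat_lit 0)],
  [.ofNat (nat_lit 0), .negSucc (nat_lit 1041518094054911999), .ofNat (nat_lit 0)],
  [],
  [],
  [],
  [],
  [],
  []],
  [[],
  [],
  [.ofNat (nat_lit 0), .negSucc (nat_lit 4484913511554146303), .ofNat (nat_lit 0)],
  [.ofNat (nat_lit 0), .ofNat (nat_lit 3914393505766391808), .ofNat (nat_lit 0)],
  [],
  [],
  [],
  [],
  []],
  [[],
  [],
  [],
  [.ofNat (nat_lit 0), .ofNat (nat_lit 5801313852960933888), .ofNat (nat_lit 0)],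
  [.ofNat (nat_lit 0), .negSucc (nat_lit 28216350732440060927), .ofNat (nat_lit 0)],
  [],
  [],
  [],
  []],
  [[],
  [],
  [],
  [],
  [.ofNat (nat_lit 0), .ofNat (nat_lit 9811634252968194048), .ofNat (nat_lit 0)],
  [.ofNat (nat_lit 0), .negSucc (nat_lit 44940167859934826495), .ofNat (nat_lit 0)],
  [],
  [],
  []],
  [[],
  [],
  [],
  [],
  [.ofNat (nat_lit 0), .negSucc (nat_lit 43429426881546931199), .ofNat (nat_lit 0)],
  [.ofNat (nat_lit 0), .ofNat (nat_lit 85337304663917574144), .ofNat (nat_lit 0)],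
  [],
  [],
  []],
  [[],
  [],
  [],
  [],
  [],
  [.ofNat (nat_lit 0), .negSucc (nat_lit 22848718246293150719), .ofNat (nat_lit 0)],
  [.ofNat (nat_lit 0), .ofNat (nat_lit 13903866554545198080), .ofNat (nat_lit 0)],
  [],
  []],
  [[],
  [],
  [],
  [],
  [],
  [],
  [.ofNat (nat_lit 0), .negSucc (nat_lit 6570280150564976639), .ofNat (nat_lit 0)],
  [.ofNat (nat_lit 0), .ofNat (nat_lit 13109728151055172608), .ofNat (nat_lit 0)],
  []],
  [[],
  [],
  [],
  [],
  [],
  [],
  [.ofNat (nat_lit 0), .ofNat (nat_lit 3586084093751242752), .ofNat (nat_lit 0)],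
  [.ofNat (nat_lit 0), .negSucc (nat_lit 19825525828578843647), .ofNat (nat_lit 0)],
  []],
  [[],
  [],
  [],
  [],
  [],
  [],
  [],
  [],
  []],
  [[],
  [],
  [],
  [],
  [],
  [],
  [],
  [],
  []]],
  [],
  [],
  [],
  [],
  [],
  [],
  [],
  [],
  [],
  [],
  []],
  [[],
  [],
  [],
  [],
  [],
  [],
  [],
  [],
  [],
  [],
  [],
  []],
  [[],
  [[[.ofNat (nat_lit 0), .negSucc (nat_lit 5644998493634469887), .ofNat (nat_lit 1547320242050307072)],
  [.ofNat (nat_lit 0), .ofNat (nat_lit 12815631588878125056), .ofNat (nat_lit 0)],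
  [],
  [],
  [],
  [],
  [],
  [],
  []],
  [[.ofNat (nat_lit 1362698956083990528), .negSucc (nat_lit 9983363883528600575), .ofNat (nat_lit 0)],
  [.ofNat (nat_lit 1697331749719689216), .ofNat (nat_lit 17627093622556876800), .ofNat (nat_lit 0)],
  [],
  [],
  [],
  [],
  [],
  [],
  []],
  [[],
  [.ofNat (nat_lit 0), .ofNat (nat_lit 56206116331942993920), .ofNat (nat_lit 0)],
  [.ofNat (nat_lit 0), .negSucc (nat_lit 123088353305314222079), .ofNat (nat_lit 0)],
  [],
  [],
  [],
  [],
  [],
  []],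
  [[],
  [],
  [.ofNat (nat_lit 0), .ofNat (nat_lit 13924975415216396544), .ofNat (nat_lit 0)],
  [.ofNat (nat_lit 0), .negSucc (nat_lit 60374322015106466303), .ofNat (nat_lit 0)],
  [],
  [],
  [],
  [],
  []],
  [[],
  [],
  [],
  [.ofNat (nat_lit 0), .ofNat (nat_lit 58895080419352025088), .ofNat (nat_lit 0)],
  [.ofNat (nat_lit 0), .ofNat (nat_lit 31496147787654208512), .ofNat (nat_lit 0)],
  [],
  [],
  [],
  []],
  [[],
  [],
  [],
  [],
  [.ofNat (nat_lit 0), .negSucc (nat_lit 161455916327025091967), .ofNat (nat_lit 0)],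
  [.ofNat (nat_lit 0), .ofNat (nat_lit 523240596390576347136), .ofNat (nat_lit 0)],
  [],
  [],
  []],
  [[],
  [],
  [],
  [],
  [.ofNat (nat_lit 0), .ofNat (nat_lit 791144120276479005696), .ofNat (nat_lit 0)],
  [.ofNat (nat_lit 0), .negSucc (nat_lit 1587319119906756553727), .ofNat (nat_lit 0)],
  [],
  [],
  []],
  [[],
  [],
  [],
  [],
  [],
  [.ofNat (nat_lit 0), .ofNat (nat_lit 111479889554994972672), .ofNat (nat_lit 0)],
  [.ofNat (nat_lit 0), .negSucc (nat_lit 244046897246136983039), .ofNat (nat_lit 0)],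
  [],
  []],
  [[],
  [],
  [],
  [],
  [],
  [],
  [.ofNat (nat_lit 0), .ofNat (nat_lit 63178319932759839744), .ofNat (nat_lit 0)],
  [.ofNat (nat_lit 0), .negSucc (nat_lit 221930880082801259903), .ofNat (nat_lit 0)],
  []],
  [[],
  [],
  [],
  [],
  [],
  [],
  [.ofNat (nat_lit 0), .negSucc (nat_lit 394320209183295211007), .ofNat (nat_lit 0)],
  [.ofNat (nat_lit 0), .ofNat (nat_lit 652571781454724046336), .ofNat (nat_lit 0)],
  []],
  [[],
  [],
  [],
  [],
  [],
  [],
  [],
  [.ofNat (nat_lit 0), .negSucc (nat_lit 106047277568641516031), .ofNat (nat_lit 0)],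
  [.ofNat (nat_lit 0), .ofNat (nat_lit 158904367029466974720), .ofNat (nat_lit 0)]],
  [[],
  [],
  [],
  [],
  [],
  [],
  [],
  [.ofNat (nat_lit 0), .ofNat (nat_lit 25102588656258699264), .ofNat (nat_lit 0)],
  [.ofNat (nat_lit 0), .negSucc (nat_lit 138778680800051905535), .ofNat (nat_lit 0)]]],
  [],
  [],
  [],
  [],
  [],
  [],
  [],
  [],
  [],
  []],
  [[],
  [],
  [[[.ofNat (nat_lit 0), .negSucc (nat_lit 4761519530908833791), .negSucc (nat_lit 5972748048526537727)],
  [.ofNat (nat_lit 0), .ofNat (nat_lit 10133869653007626240), .ofNat (nat_lit 0)],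
  [],
  [],
  [],
  [],
  [],
  [],
  []],
  [[.negSucc (nat_lit 2315737335153106943), .negSucc (nat_lit 50233368283416456191), .ofNat (nat_lit 0)],
  [.ofNat (nat_lit 11350546335945216000), .ofNat (nat_lit 123088353305314222080), .ofNat (nat_lit 0)],
  [],
  [],
  [],
  [],
  [],
  [],
  []],
  [[],
  [.ofNat (nat_lit 0), .ofNat (nat_lit 412334710729926967296), .ofNat (nat_lit 0)],
  [.ofNat (nat_lit 0), .negSucc (nat_lit 920939756293489047551), .ofNat (nat_lit 0)],
  [],
  [],
  [],
  [],
  [],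
  []],
  [[],
  [],
  [.ofNat (nat_lit 0), .ofNat (nat_lit 322250346226221085440), .ofNat (nat_lit 0)],
  [.ofNat (nat_lit 0), .negSucc (nat_lit 866425971838889392127), .ofNat (nat_lit 0)],
  [],
  [],
  [],
  [],
  []],
  [[],
  [],
  [],
  [.ofNat (nat_lit 0), .negSucc (nat_lit 1126824547030201769471), .ofNat (nat_lit 0)],
  [.ofNat (nat_lit 0), .ofNat (nat_lit 2287666271653641676800), .ofNat (nat_lit 0)],
  [],
  [],
  [],
  []],
  [[],
  [],
  [],
  [],
  [.ofNat (nat_lit 0), .negSucc (nat_lit 772399738042024091903), .ofNat (nat_lit 0)],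
  [.ofNat (nat_lit 0), .ofNat (nat_lit 1896483924908475939072), .ofNat (nat_lit 0)],
  [],
  [],
  []],
  [[],
  [],
  [],
  [],
  [.ofNat (nat_lit 0), .ofNat (nat_lit 222472757362427149824), .ofNat (nat_lit 0)],
  [.ofNat (nat_lit 0), .negSucc (nat_lit 482951676066887052287), .ofNat (nat_lit 0)],
  [],
  [],
  []],
  [[],
  [],
  [],
  [],
  [],
  [.ofNat (nat_lit 0), .ofNat (nat_lit 419948661013958194560), .ofNat (nat_lit 0)],
  [.ofNat (nat_lit 0), .negSucc (nat_lit 649746637304547085055), .ofNat (nat_lit 0)],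
  [],
  []],
  [[],
  [],
  [],
  [],
  [],
  [],
  [.ofNat (nat_lit 0), .ofNat (nat_lit 440589798259151466240), .ofNat (nat_lit 0)],
  [.ofNat (nat_lit 0), .negSucc (nat_lit 1087685384907376658303), .ofNat (nat_lit 0)],
  []],
  [[],
  [],
  [],
  [],
  [],
  [],
  [.ofNat (nat_lit 0), .negSucc (nat_lit 487437940622843168255), .ofNat (nat_lit 0)],
  [.ofNat (nat_lit 0), .ofNat (nat_lit 1185327512030201914368), .ofNat (nat_lit 0)],
  []],
  [[],
  [],
  [],
  [],
  [],
  [],
  [],
  [.ofNat (nat_lit 0), .negSucc (nat_lit 42719942062540917503), .ofNat (nat_lit 0)],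
  [.ofNat (nat_lit 0), .negSucc (nat_lit 21853475955896860799), .ofNat (nat_lit 0)]],
  [[],
  [],
  [],
  [],
  [],
  [],
  [],
  [.ofNat (nat_lit 0), .ofNat (nat_lit 25131733025219578368), .ofNat (nat_lit 0)],
  []]],
  [],
  [],
  [],
  [],
  [],
  [],
  [],
  [],
  []],
  [[],
  [],
  [],
  [[[.ofNat (nat_lit 0), .ofNat (nat_lit 89804932577667035136), .negSucc (nat_lit 16841340089431206911)],
  [.ofNat (nat_lit 0), .negSucc (nat_lit 190074147370880421887), .ofNat (nat_lit 0)],
  [],
  [],
  [],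
  [],
  [],
  [],
  []],
  [[.negSucc (nat_lit 71373036287167414271), .ofNat (nat_lit 30766315504647603456), .ofNat (nat_lit 0)],
  [.ofNat (nat_lit 139943696698511953920), .negSucc (nat_lit 60374322015106466303), .ofNat (nat_lit 0)],
  [],
  [],
  [],
  [],
  [],
  [],
  []],
  [[],
  [.ofNat (nat_lit 0), .negSucc (nat_lit 322250346226221085439), .ofNat (nat_lit 0)],
  [.ofNat (nat_lit 0), .ofNat (nat_lit 866425971838889392128), .ofNat (nat_lit 0)],
  [],
  [],
  [],
  [],
  [],
  []],
  [[],
  [],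
  [.ofNat (nat_lit 0), .negSucc (nat_lit 292245749335962652031), .ofNat (nat_lit 0)],
  [.ofNat (nat_lit 0), .ofNat (nat_lit 858755759510892045312), .ofNat (nat_lit 0)],
  [],
  [],
  [],
  [],
  []],
  [[],
  [],
  [],
  [.ofNat (nat_lit 0), .negSucc (nat_lit 651395438927055230975), .ofNat (nat_lit 0)],
  [.ofNat (nat_lit 0), .ofNat (nat_lit 804467828576030503680), .ofNat (nat_lit 0)],
  [],
  [],
  [],
  []],
  [[],
  [],
  [],
  [],
  [.ofNat (nat_lit 0), .ofNat (nat_lit 456228126486791332416), .ofNat (nat_lit 0)],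
  [.ofNat (nat_lit 0), .negSucc (nat_lit 1526183056222153820927), .ofNat (nat_lit 0)],
  [],
  [],
  []],
  [[],
  [],
  [],
  [],
  [.ofNat (nat_lit 0), .negSucc (nat_lit 1556218320650300839679), .ofNat (nat_lit 0)],
  [.ofNat (nat_lit 0), .ofNat (nat_lit 3195263713145770962432), .ofNat (nat_lit 0)],
  [],
  [],
  []],
  [[],
  [],
  [],
  [],
  [],
  [.ofNat (nat_lit 0), .ofNat (nat_lit 804809780591972584320), .ofNat (nat_lit 0)],
  [.ofNat (nat_lit 0), .negSucc (nat_lit 1421639021339222706431), .ofNat (nat_lit 0)],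
  [],
  []],
  [[],
  [],
  [],
  [],
  [],
  [],
  [.ofNat (nat_lit 0), .ofNat (nat_lit 241985580034492106208), .ofNat (nat_lit 0)],
  [.ofNat (nat_lit 0), .negSucc (nat_lit 251082008798686161983), .ofNat (nat_lit 0)],
  []],
  [[],
  [],
  [],
  [],
  [],
  [],
  [.ofNat (nat_lit 0), .ofNat (nat_lit 66061480419057742848), .ofNat (nat_lit 0)],
  [.ofNat (nat_lit 0), .ofNat (nat_lit 295971902141765414400), .ofNat (nat_lit 0)],
  []],
  [[],
  [],
  [],
  [],
  [],
  [],
  [],
  [.ofNat (nat_lit 0), .negSucc (nat_lit 183890808566414701055), .ofNat (nat_lit 0)],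
  [.ofNat (nat_lit 0), .ofNat (nat_lit 502734103738410656448), .ofNat (nat_lit 0)]],
  [[],
  [],
  [],
  [],
  [],
  [],
  [],
  [.ofNat (nat_lit 0), .ofNat (nat_lit 80533367325579561984), .ofNat (nat_lit 0)],
  []]],
  [],
  [],
  [],
  [],
  [],
  [],
  [],
  []],
  [[],
  [],
  [],
  [],
  [[[.ofNat (nat_lit 0), .negSucc (nat_lit 27273662539097978879), .ofNat (nat_lit 29334465633574167552)],
  [.ofNat (nat_lit 0), .ofNat (nat_lit 63943560868956456960), .ofNat (nat_lit 0)],
  [],
  [],
  [],
  [],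
  [],
  [],
  []],
  [[.ofNat (nat_lit 5394966030552692736), .negSucc (nat_lit 88229546052926192639), .ofNat (nat_lit 0)],
  [.negSucc (nat_lit 5550973608766169087), .negSucc (nat_lit 31496147787654208511), .ofNat (nat_lit 0)],
  [],
  [],
  [],
  [],
  [],
  [],
  []],
  [[],
  [.ofNat (nat_lit 0), .negSucc (nat_lit 1126824547030201769471), .ofNat (nat_lit 0)],
  [.ofNat (nat_lit 0), .ofNat (nat_lit 2287666271653641676800), .ofNat (nat_lit 0)],
  [],
  [],
  [],
  [],
  [],
  []],
  [[],
  [],
  [.ofNat (nat_lit 0), .ofNat (nat_lit 651395438927055230976), .ofNat (nat_lit 0)],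
  [.ofNat (nat_lit 0), .negSucc (nat_lit 804467828576030503679), .ofNat (nat_lit 0)],
  [],
  [],
  [],
  [],
  []],
  [[],
  [],
  [],
  [.ofNat (nat_lit 0), .ofNat (nat_lit 3720187591082034385536), .ofNat (nat_lit 0)],
  [.ofNat (nat_lit 0), .negSucc (nat_lit 7226010411493497083135), .ofNat (nat_lit 0)],
  [],
  [],
  [],
  []],
  [[],
  [],
  [],
  [],
  [.ofNat (nat_lit 0), .ofNat (nat_lit 224206018520379674112), .ofNat (nat_lit 0)],
  [.ofNat (nat_lit 0), .negSucc (nat_lit 1169680402445008834943), .ofNat (nat_lit 0)],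
  [],
  [],
  []],
  [[],
  [],
  [],
  [],
  [.ofNat (nat_lit 0), .negSucc (nat_lit 1624021606968266218751), .ofNat (nat_lit 0)],
  [.ofNat (nat_lit 0), .ofNat (nat_lit 3453721482546974946816), .ofNat (nat_lit 0)],
  [],
  [],
  []],
  [[],
  [],
  [],
  [],
  [],
  [.ofNat (nat_lit 0), .negSucc (nat_lit 1635877342825223608511), .ofNat (nat_lit 0)],
  [.ofNat (nat_lit 0), .ofNat (nat_lit 2348871842112686355456), .ofNat (nat_lit 0)],
  [],
  []],
  [[],
  [],
  [],
  [],
  [],
  [],
  [.ofNat (nat_lit 0), .ofNat (nat_lit 123456603747042718848), .ofNat (nat_lit 0)],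
  [.ofNat (nat_lit 0), .ofNat (nat_lit 130726190559660022656), .ofNat (nat_lit 0)],
  []],
  [[],
  [],
  [],
  [],
  [],
  [],
  [.ofNat (nat_lit 0), .ofNat (nat_lit 696395116693754014464), .ofNat (nat_lit 0)],
  [.ofNat (nat_lit 0), .negSucc (nat_lit 2009152302425467610111), .ofNat (nat_lit 0)],
  []],
  [[],
  [],
  [],
  [],
  [],
  [],
  [],
  [.ofNat (nat_lit 0), .ofNat (nat_lit 287277783882662763936), .ofNat (nat_lit 0)],
  [.ofNat (nat_lit 0), .negSucc (nat_lit 236179453927301079551), .ofNat (nat_lit 0)]],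
  [[],
  [],
  [],
  [],
  [],
  [],
  [],
  [.ofNat (nat_lit 0), .negSucc (nat_lit 182818379671897549823), .ofNat (nat_lit 0)],
  [.ofNat (nat_lit 0), .ofNat (nat_lit 228293707429492927488), .ofNat (nat_lit 0)]]],
  [],
  [],
  [],
  [],
  [],
  [],
  []],
  [[],
  [],
  [],
  [],
  [],
  [[[.ofNat (nat_lit 0), .negSucc (nat_lit 192873884376865204223), .ofNat (nat_lit 38296521865664861184)],
  [.ofNat (nat_lit 0), .ofNat (nat_lit 404101272401821486080), .ofNat (nat_lit 0)],
  [],
  [],
  [],
  [],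
  [],
  [],
  []],
  [[.ofNat (nat_lit 216473204702418315264), .negSucc (nat_lit 199752438192689953151), .ofNat (nat_lit 0)],
  [.negSucc (nat_lit 453263264917198654463), .ofNat (nat_lit 523240596390576347136), .ofNat (nat_lit 0)],
  [],
  [],
  [],
  [],
  [],
  [],
  []],
  [[],
  [.ofNat (nat_lit 0), .ofNat (nat_lit 772399738042024091904), .ofNat (nat_lit 0)],
  [.ofNat (nat_lit 0), .negSucc (nat_lit 1896483924908475939071), .ofNat (nat_lit 0)],
  [],
  [],
  [],
  [],
  [],
  []],
  [[],
  [],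
  [.ofNat (nat_lit 0), .ofNat (nat_lit 456228126486791332416), .ofNat (nat_lit 0)],
  [.ofNat (nat_lit 0), .negSucc (nat_lit 1526183056222153820927), .ofNat (nat_lit 0)],
  [],
  [],
  [],
  [],
  []],
  [[],
  [],
  [],
  [.ofNat (nat_lit 0), .negSucc (nat_lit 224206018520379674111), .ofNat (nat_lit 0)],
  [.ofNat (nat_lit 0), .ofNat (nat_lit 1169680402445008834944), .ofNat (nat_lit 0)],
  [],
  [],
  [],
  []],
  [[],
  [],
  [],
  [],
  [.ofNat (nat_lit 0), .negSucc (nat_lit 480397094729744089247), .ofNat (nat_lit 0)],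
  [.ofNat (nat_lit 0), .ofNat (nat_lit 2231022514591750250880), .ofNat (nat_lit 0)],
  [],
  [],
  []],
  [[],
  [],
  [],
  [],
  [.ofNat (nat_lit 0), .ofNat (nat_lit 1094598422881092021888), .ofNat (nat_lit 0)],
  [.ofNat (nat_lit 0), .negSucc (nat_lit 2417011949372929226495), .ofNat (nat_lit 0)],
  [],
  [],
  []],
  [[],
  [],
  [],
  [],
  [],
  [.ofNat (nat_lit 0), .negSucc (nat_lit 40720667255717038559), .ofNat (nat_lit 0)],
  [.ofNat (nat_lit 0), .negSucc (nat_lit 451714424676714611135), .ofNat (nat_lit 0)],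
  [],
  []],
  [[],
  [],
  [],
  [],
  [],
  [],
  [.ofNat (nat_lit 0), .negSucc (nat_lit 251254729941337635119), .ofNat (nat_lit 0)],
  [.ofNat (nat_lit 0), .negSucc (nat_lit 331410547335109919615), .ofNat (nat_lit 0)],
  []],
  [[],
  [],
  [],
  [],
  [],
  [],
  [.ofNat (nat_lit 0), .ofNat (nat_lit 295584824088258230016), .ofNat (nat_lit 0)],
  [.ofNat (nat_lit 0), .negSucc (nat_lit 688389587020290091391), .ofNat (nat_lit 0)],
  []],
  [[],
  [],
  [],
  [],
  [],
  [],
  [],
  [.ofNat (nat_lit 0), .negSucc (nat_lit 313652152869977600351), .ofNat (nat_lit 0)],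
  [.ofNat (nat_lit 0), .ofNat (nat_lit 433514070419273454240), .ofNat (nat_lit 0)]],
  [[],
  [],
  [],
  [],
  [],
  [],
  [],
  [.ofNat (nat_lit 0), .ofNat (nat_lit 55055628900948370176), .ofNat (nat_lit 0)],
  []]],
  [[[.ofNat (nat_lit 0), .negSucc (nat_lit 4197221599547013119), .negSucc (nat_lit 8547320765452428287)],
  [.ofNat (nat_lit 0), .ofNat (nat_lit 9272357019058950144), .ofNat (nat_lit 0)],
  [],
  [],
  [],
  [],
  [],
  [],
  []],
  [[.negSucc (nat_lit 85633218092715558911), .ofNat (nat_lit 799691441041931433984), .ofNat (nat_lit 0)],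
  [.ofNat (nat_lit 183843817436490246144), .negSucc (nat_lit 1587319119906756553727), .ofNat (nat_lit 0)],
  [],
  [],
  [],
  [],
  [],
  [],
  []],
  [[],
  [.ofNat (nat_lit 0), .negSucc (nat_lit 222472757362427149823), .ofNat (nat_lit 0)],
  [.ofNat (nat_lit 0), .ofNat (nat_lit 482951676066887052288), .ofNat (nat_lit 0)],
  [],
  [],
  [],
  [],
  [],
  []],
  [[],
  [],
  [.ofNat (nat_lit 0), .negSucc (nat_lit 1556218320650300839679), .ofNat (nat_lit 0)],
  [.ofNat (nat_lit 0), .ofNat (nat_lit 3195263713145770962432), .ofNat (nat_lit 0)],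
  [],
  [],
  [],
  [],
  []],
  [[],
  [],
  [],
  [.ofNat (nat_lit 0), .ofNat (nat_lit 1624021606968266218752), .ofNat (nat_lit 0)],
  [.ofNat (nat_lit 0), .negSucc (nat_lit 3453721482546974946815), .ofNat (nat_lit 0)],
  [],
  [],
  [],
  []],
  [[],
  [],
  [],
  [],
  [.ofNat (nat_lit 0), .ofNat (nat_lit 1094598422881092021888), .ofNat (nat_lit 0)],
  [.ofNat (nat_lit 0), .negSucc (nat_lit 2417011949372929226495), .ofNat (nat_lit 0)],
  [],
  [],
  []],
  [[],
  [],
  [],
  [],
  [.ofNat (nat_lit 0), .ofNat (nat_lit 137824637064634902528), .ofNat (nat_lit 0)],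
  [.ofNat (nat_lit 0), .ofNat (nat_lit 378413827421480156160), .ofNat (nat_lit 0)],
  [],
  [],
  []],
  [[],
  [],
  [],
  [],
  [],
  [.ofNat (nat_lit 0), .negSucc (nat_lit 1367705728575781626239), .ofNat (nat_lit 0)],
  [.ofNat (nat_lit 0), .ofNat (nat_lit 2746507395607289019648), .ofNat (nat_lit 0)],
  [],
  []],
  [[],
  [],
  [],
  [],
  [],
  [],
  [.ofNat (nat_lit 0), .negSucc (nat_lit 317198447965850766911), .ofNat (nat_lit 0)],
  [.ofNat (nat_lit 0), .ofNat (nat_lit 831941971197908705280), .ofNat (nat_lit 0)],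
  []],
  [[],
  [],
  [],
  [],
  [],
  [],
  [.ofNat (nat_lit 0), .negSucc (nat_lit 18268331180691110399), .ofNat (nat_lit 0)],
  [.ofNat (nat_lit 0), .negSucc (nat_lit 899140970790726474239), .ofNat (nat_lit 0)],
  []],
  [[],
  [],
  [],
  [],
  [],
  [],
  [],
  [.ofNat (nat_lit 0), .ofNat (nat_lit 269087157852429170304), .ofNat (nat_lit 0)],
  [.ofNat (nat_lit 0), .negSucc (nat_lit 364294037100136252031), .ofNat (nat_lit 0)]],
  [[],
  [],
  [],
  [],
  [],
  [],
  [],
  [.ofNat (nat_lit 0), .negSucc (nat_lit 259957023678500456447), .ofNat (nat_lit 0)],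
  []]],
  [],
  [],
  [],
  [],
  []],
  [[],
  [],
  [],
  [],
  [],
  [],
  [],
  [[[.ofNat (nat_lit 0), .ofNat (nat_lit 253873903600142945280), .negSucc (nat_lit 71819577242763337727)],
  [.ofNat (nat_lit 0), .negSucc (nat_lit 542148036491948230655), .ofNat (nat_lit 0)],
  [],
  [],
  [],
  [],
  [],
  [],
  []],
  [[.negSucc (nat_lit 220345423711219233791), .negSucc (nat_lit 39660312312231634943), .ofNat (nat_lit 0)],
  [.ofNat (nat_lit 464783528896932427776), .ofNat (nat_lit 244046897246136983040), .ofNat (nat_lit 0)],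
  [],
  [],
  [],
  [],
  [],
  [],
  []],
  [[],
  [.ofNat (nat_lit 0), .ofNat (nat_lit 419948661013958194560), .ofNat (nat_lit 0)],
  [.ofNat (nat_lit 0), .negSucc (nat_lit 649746637304547085055), .ofNat (nat_lit 0)],
  [],
  [],
  [],
  [],
  [],
  []],
  [[],
  [],
  [.ofNat (nat_lit 0), .negSucc (nat_lit 804809780591972584319), .ofNat (nat_lit 0)],
  [.ofNat (nat_lit 0), .ofNat (nat_lit 1421639021339222706432), .ofNat (nat_lit 0)],
  [],
  [],
  [],
  [],
  []],
  [[],
  [],
  [],
  [.ofNat (nat_lit 0), .negSucc (nat_lit 1635877342825223608511), .ofNat (nat_lit 0)],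
  [.ofNat (nat_lit 0), .ofNat (nat_lit 2348871842112686355456), .ofNat (nat_lit 0)],
  [],
  [],
  [],
  []],
  [[],
  [],
  [],
  [],
  [.ofNat (nat_lit 0), .ofNat (nat_lit 40720667255717038560), .ofNat (nat_lit 0)],
  [.ofNat (nat_lit 0), .ofNat (nat_lit 451714424676714611136), .ofNat (nat_lit 0)],
  [],
  [],
  []],
  [[],
  [],
  [],
  [],
  [.ofNat (nat_lit 0), .ofNat (nat_lit 1367705728575781626240), .ofNat (nat_lit 0)],
  [.ofNat (nat_lit 0), .negSucc (nat_lit 2746507395607289019647), .ofNat (nat_lit 0)],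
  [],
  [],
  []],
  [[],
  [],
  [],
  [],
  [],
  [.ofNat (nat_lit 0), .ofNat (nat_lit 9243522337583616768), .ofNat (nat_lit 0)],
  [.ofNat (nat_lit 0), .ofNat (nat_lit 1741677897223648916352), .ofNat (nat_lit 0)],
  [],
  []],
  [[],
  [],
  [],
  [],
  [],
  [],
  [.ofNat (nat_lit 0), .negSucc (nat_lit 128186958343258457855), .ofNat (nat_lit 0)],
  [.ofNat (nat_lit 0), .negSucc (nat_lit 224798464017393549983), .ofNat (nat_lit 0)],
  []],
  [[],
  [],
  [],
  [],
  [],
  [],
  [.ofNat (nat_lit 0), .ofNat (nat_lit 68836116759401810304), .ofNat (nat_lit 0)],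
  [.ofNat (nat_lit 0), .ofNat (nat_lit 85418551575429315840), .ofNat (nat_lit 0)],
  []],
  [[],
  [],
  [],
  [],
  [],
  [],
  [],
  [.ofNat (nat_lit 0), .negSucc (nat_lit 138716723078258516783), .ofNat (nat_lit 0)],
  [.ofNat (nat_lit 0), .negSucc (nat_lit 5463368988974215199), .ofNat (nat_lit 0)]],
  [[],
  [],
  [],
  [],
  [],
  [],
  [],
  [.ofNat (nat_lit 0), .ofNat (nat_lit 55870748330735079936), .ofNat (nat_lit 0)],
  []]],
  [],
  [],
  [],
  []],
  [[],
  [],
  [],
  [],
  [],
  [],
  [],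
  [],
  [[[.ofNat (nat_lit 0), .negSucc (nat_lit 1212311206832025599), .negSucc (nat_lit 5150554183090658303)],
  [.ofNat (nat_lit 0), .ofNat (nat_lit 7440523911881856000), .ofNat (nat_lit 0)],
  [],
  [],
  [],
  [],
  [],
  [],
  []],
  [[.negSucc (nat_lit 11207870032403073023), .ofNat (nat_lit 68328874115850498048), .ofNat (nat_lit 0)],
  [.ofNat (nat_lit 19712415534918718464), .negSucc (nat_lit 221930880082801259903), .ofNat (nat_lit 0)],
  [],
  [],
  [],
  [],
  [],
  [],
  []],
  [[],
  [.ofNat (nat_lit 0), .negSucc (nat_lit 440589798259151466239), .ofNat (nat_lit 0)],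
  [.ofNat (nat_lit 0), .ofNat (nat_lit 1087685384907376658304), .ofNat (nat_lit 0)],
  [],
  [],
  [],
  [],
  [],
  []],
  [[],
  [],
  [.ofNat (nat_lit 0), .ofNat (nat_lit 241985580034492106208), .ofNat (nat_lit 0)],
  [.ofNat (nat_lit 0), .negSucc (nat_lit 251082008798686161983), .ofNat (nat_lit 0)],
  [],
  [],
  [],
  [],
  []],
  [[],
  [],
  [],
  [.ofNat (nat_lit 0), .negSucc (nat_lit 123456603747042718847), .ofNat (nat_lit 0)],
  [.ofNat (nat_lit 0), .negSucc (nat_lit 130726190559660022655), .ofNat (nat_lit 0)],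
  [],
  [],
  [],
  []],
  [[],
  [],
  [],
  [],
  [.ofNat (nat_lit 0), .negSucc (nat_lit 251254729941337635119), .ofNat (nat_lit 0)],
  [.ofNat (nat_lit 0), .negSucc (nat_lit 331410547335109919615), .ofNat (nat_lit 0)],
  [],
  [],
  []],
  [[],
  [],
  [],
  [],
  [.ofNat (nat_lit 0), .negSucc (nat_lit 317198447965850766911), .ofNat (nat_lit 0)],
  [.ofNat (nat_lit 0), .ofNat (nat_lit 831941971197908705280), .ofNat (nat_lit 0)],
  [],
  [],
  []],
  [[],
  [],
  [],
  [],
  [],
  [.ofNat (nat_lit 0), .ofNat (nat_lit 128186958343258457856), .ofNat (nat_lit 0)],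
  [.ofNat (nat_lit 0), .ofNat (nat_lit 224798464017393549984), .ofNat (nat_lit 0)],
  [],
  []],
  [[],
  [],
  [],
  [],
  [],
  [],
  [.ofNat (nat_lit 0), .ofNat (nat_lit 388016104032912575160), .ofNat (nat_lit 0)],
  [.ofNat (nat_lit 0), .negSucc (nat_lit 83589206962437249983), .ofNat (nat_lit 0)],
  []],
  [[],
  [],
  [],
  [],
  [],
  [],
  [.ofNat (nat_lit 0), .negSucc (nat_lit 136571819969947179455), .ofNat (nat_lit 0)],
  [.ofNat (nat_lit 0), .negSucc (nat_lit 120192250335759239615), .ofNat (nat_lit 0)],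
  []],
  [[],
  [],
  [],
  [],
  [],
  [],
  [],
  [.ofNat (nat_lit 0), .ofNat (nat_lit 95688403226629795296), .ofNat (nat_lit 0)],
  [.ofNat (nat_lit 0), .ofNat (nat_lit 37210380978689860032), .ofNat (nat_lit 0)]],
  [[],
  [],
  [],
  [],
  [],
  [],
  [],
  [.ofNat (nat_lit 0), .negSucc (nat_lit 65404532001767710463), .ofNat (nat_lit 0)],
  [.ofNat (nat_lit 0), .ofNat (nat_lit 17347335100006488192), .ofNat (nat_lit 0)]]],
  [[[.ofNat (nat_lit 0), .negSucc (nat_lit 88306899719410040831), .ofNat (nat_lit 42343170778823639040)],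
  [.ofNat (nat_lit 0), .ofNat (nat_lit 183241270826687692800), .ofNat (nat_lit 0)],
  [],
  [],
  [],
  [],
  [],
  [],
  []],
  [[.ofNat (nat_lit 101611917908065732608), .negSucc (nat_lit 436663379962118850047), .ofNat (nat_lit 0)],
  [.negSucc (nat_lit 210767517315702245375), .ofNat (nat_lit 652571781454724046336), .ofNat (nat_lit 0)],
  [],
  [],
  [],
  [],
  [],
  [],
  []],
  [[],
  [.ofNat (nat_lit 0), .ofNat (nat_lit 487437940622843168256), .ofNat (nat_lit 0)],
  [.ofNat (nat_lit 0), .negSucc (nat_lit 1185327512030201914367), .ofNat (nat_lit 0)],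
  [],
  [],
  [],
  [],
  [],
  []],
  [[],
  [],
  [.ofNat (nat_lit 0), .ofNat (nat_lit 66061480419057742848), .ofNat (nat_lit 0)],
  [.ofNat (nat_lit 0), .ofNat (nat_lit 295971902141765414400), .ofNat (nat_lit 0)],
  [],
  [],
  [],
  [],
  []],
  [[],
  [],
  [],
  [.ofNat (nat_lit 0), .negSucc (nat_lit 696395116693754014463), .ofNat (nat_lit 0)],
  [.ofNat (nat_lit 0), .ofNat (nat_lit 2009152302425467610112), .ofNat (nat_lit 0)],
  [],
  [],
  [],
  []],
  [[],
  [],
  [],
  [],
  [.ofNat (nat_lit 0), .ofNat (nat_lit 295584824088258230016), .ofNat (nat_lit 0)],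
  [.ofNat (nat_lit 0), .negSucc (nat_lit 688389587020290091391), .ofNat (nat_lit 0)],
  [],
  [],
  []],
  [[],
  [],
  [],
  [],
  [.ofNat (nat_lit 0), .negSucc (nat_lit 18268331180691110399), .ofNat (nat_lit 0)],
  [.ofNat (nat_lit 0), .negSucc (nat_lit 899140970790726474239), .ofNat (nat_lit 0)],
  [],
  [],
  []],
  [[],
  [],
  [],
  [],
  [],
  [.ofNat (nat_lit 0), .negSucc (nat_lit 68836116759401810303), .ofNat (nat_lit 0)],
  [.ofNat (nat_lit 0), .negSucc (nat_lit 85418551575429315839), .ofNat (nat_lit 0)],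
  [],
  []],
  [[],
  [],
  [],
  [],
  [],
  [],
  [.ofNat (nat_lit 0), .negSucc (nat_lit 136571819969947179455), .ofNat (nat_lit 0)],
  [.ofNat (nat_lit 0), .negSucc (nat_lit 120192250335759239615), .ofNat (nat_lit 0)],
  []],
  [[],
  [],
  [],
  [],
  [],
  [],
  [.ofNat (nat_lit 0), .ofNat (nat_lit 47307417713757430272), .ofNat (nat_lit 0)],
  [.ofNat (nat_lit 0), .ofNat (nat_lit 480769001343036958464), .ofNat (nat_lit 0)],
  []],
  [[],
  [],
  [],
  [],
  [],
  [],
  [],
  [.ofNat (nat_lit 0), .negSucc (nat_lit 141363699984543381695), .ofNat (nat_lit 0)],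
  [.ofNat (nat_lit 0), .negSucc (nat_lit 34694670200012976383), .ofNat (nat_lit 0)]],
  [[],
  [],
  [],
  [],
  [],
  [],
  [],
  [.ofNat (nat_lit 0), .ofNat (nat_lit 237665003894733938688), .ofNat (nat_lit 0)],
  [.ofNat (nat_lit 0), .negSucc (nat_lit 69389340400025952767), .ofNat (nat_lit 0)]]],
  [],
  []],
  [[],
  [],
  [],
  [],
  [],
  [],
  [],
  [],
  [],
  [],
  [[[],
  [],
  [],
  [],
  [],
  [],
  [],
  [],
  []],
  [[.ofNat (nat_lit 0), .ofNat (nat_lit 106047277568641516032), .ofNat (nat_lit 0)],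
  [.ofNat (nat_lit 0), .negSucc (nat_lit 158904367029466974719), .ofNat (nat_lit 0)],
  [],
  [],
  [],
  [],
  [],
  [],
  []],
  [[],
  [.ofNat (nat_lit 0), .negSucc (nat_lit 42719942062540917503), .ofNat (nat_lit 0)],
  [.ofNat (nat_lit 0), .negSucc (nat_lit 21853475955896860799), .ofNat (nat_lit 0)],
  [],
  [],
  [],
  [],
  [],
  []],
  [[],
  [],
  [.ofNat (nat_lit 0), .ofNat (nat_lit 183890808566414701056), .ofNat (nat_lit 0)],
  [.ofNat (nat_lit 0), .negSucc (nat_lit 502734103738410656447), .ofNat (nat_lit 0)],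
  [],
  [],
  [],
  [],
  []],
  [[],
  [],
  [],
  [.ofNat (nat_lit 0), .ofNat (nat_lit 287277783882662763936), .ofNat (nat_lit 0)],
  [.ofNat (nat_lit 0), .negSucc (nat_lit 236179453927301079551), .ofNat (nat_lit 0)],
  [],
  [],
  [],
  []],
  [[],
  [],
  [],
  [],
  [.ofNat (nat_lit 0), .ofNat (nat_lit 313652152869977600352), .ofNat (nat_lit 0)],
  [.ofNat (nat_lit 0), .negSucc (nat_lit 433514070419273454239), .ofNat (nat_lit 0)],
  [],
  [],
  []],
  [[],
  [],
  [],
  [],
  [.ofNat (nat_lit 0), .negSucc (nat_lit 269087157852429170303), .ofNat (nat_lit 0)],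
  [.ofNat (nat_lit 0), .ofNat (nat_lit 364294037100136252032), .ofNat (nat_lit 0)],
  [],
  [],
  []],
  [[],
  [],
  [],
  [],
  [],
  [.ofNat (nat_lit 0), .negSucc (nat_lit 138716723078258516783), .ofNat (nat_lit 0)],
  [.ofNat (nat_lit 0), .negSucc (nat_lit 5463368988974215199), .ofNat (nat_lit 0)],
  [],
  []],
  [[],
  [],
  [],
  [],
  [],
  [],
  [.ofNat (nat_lit 0), .negSucc (nat_lit 95688403226629795295), .ofNat (nat_lit 0)],
  [.ofNat (nat_lit 0), .negSucc (nat_lit 37210380978689860031), .ofNat (nat_lit 0)],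
  []],
  [[],
  [],
  [],
  [],
  [],
  [],
  [.ofNat (nat_lit 0), .ofNat (nat_lit 141363699984543381696), .ofNat (nat_lit 0)],
  [.ofNat (nat_lit 0), .ofNat (nat_lit 34694670200012976384), .ofNat (nat_lit 0)],
  []],
  [[],
  [],
  [],
  [],
  [],
  [],
  [],
  [.ofNat (nat_lit 0), .ofNat (nat_lit 50267837486601525744), .ofNat (nat_lit 0)],
  []],
  [[],
  [],
  [],
  [],
  [],
  [],
  [],
  [.ofNat (nat_lit 0), .negSucc (nat_lit 18246353919389764415), .ofNat (nat_lit 0)],
  []]],
  [[[],
  [],
  [],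
  [],
  [],
  [],
  [],
  [],
  []],
  [[.ofNat (nat_lit 0), .negSucc (nat_lit 25102588656258699263), .ofNat (nat_lit 0)],
  [.ofNat (nat_lit 0), .ofNat (nat_lit 138778680800051905536), .ofNat (nat_lit 0)],
  [],
  [],
  [],
  [],
  [],
  [],
  []],
  [[],
  [.ofNat (nat_lit 0), .ofNat (nat_lit 25131733025219578368), .ofNat (nat_lit 0)],
  [],
  [],
  [],
  [],
  [],
  [],
  []],
  [[],
  [],
  [.ofNat (nat_lit 0), .negSucc (nat_lit 80533367325579561983), .ofNat (nat_lit 0)],
  [],
  [],
  [],
  [],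
  [],
  []],
  [[],
  [],
  [],
  [.ofNat (nat_lit 0), .negSucc (nat_lit 182818379671897549823), .ofNat (nat_lit 0)],
  [.ofNat (nat_lit 0), .ofNat (nat_lit 228293707429492927488), .ofNat (nat_lit 0)],
  [],
  [],
  [],
  []],
  [[],
  [],
  [],
  [],
  [.ofNat (nat_lit 0), .negSucc (nat_lit 55055628900948370175), .ofNat (nat_lit 0)],
  [],
  [],
  [],
  []],
  [[],
  [],
  [],
  [],
  [.ofNat (nat_lit 0), .ofNat (nat_lit 259957023678500456448), .ofNat (nat_lit 0)],
  [],
  [],
  [],
  []],
  [[],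
  [],
  [],
  [],
  [],
  [.ofNat (nat_lit 0), .ofNat (nat_lit 55870748330735079936), .ofNat (nat_lit 0)],
  [],
  [],
  []],
  [[],
  [],
  [],
  [],
  [],
  [],
  [.ofNat (nat_lit 0), .ofNat (nat_lit 65404532001767710464), .ofNat (nat_lit 0)],
  [.ofNat (nat_lit 0), .negSucc (nat_lit 17347335100006488191), .ofNat (nat_lit 0)],
  []],
  [[],
  [],
  [],
  [],
  [],
  [],
  [.ofNat (nat_lit 0), .negSucc (nat_lit 237665003894733938687), .ofNat (nat_lit 0)],
  [.ofNat (nat_lit 0), .ofNat (nat_lit 69389340400025952768), .ofNat (nat_lit 0)],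
  []],
  [[],
  [],
  [],
  [],
  [],
  [],
  [],
  [.ofNat (nat_lit 0), .negSucc (nat_lit 18246353919389764415), .ofNat (nat_lit 0)],
  []],
  [[],
  [],
  [],
  [],
  [],
  [],
  [],
  [.ofNat (nat_lit 0), .negSucc (nat_lit 29618153099387587583), .ofNat (nat_lit 0)],
  []]]]],
  [[[[[.ofNat (nat_lit 0), .ofNat (nat_lit 0), .negSucc (nat_lit 429025408088306687)],
  [.ofNat (nat_lit 0), .ofNat (nat_lit 0), .ofNat (nat_lit 1056550276365032448)],
  [],
  [],
  [],
  [],
  [],
  [],
  []],
  [[.ofNat (nat_lit 0), .ofNat (nat_lit 2294008359262055424), .ofNat (nat_lit 0)],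
  [.ofNat (nat_lit 0), .negSucc (nat_lit 4526336986848801791), .ofNat (nat_lit 0)],
  [],
  [],
  [],
  [],
  [],
  [],
  []],
  [[],
  [.ofNat (nat_lit 0), .negSucc (nat_lit 3538628433030970367), .ofNat (nat_lit 0)],
  [.ofNat (nat_lit 0), .ofNat (nat_lit 10742207994476421120), .ofNat (nat_lit 0)],
  [],
  [],
  [],
  [],
  [],
  []],
  [[],
  [],
  [.ofNat (nat_lit 0), .negSucc (nat_lit 9215948145249810431), .ofNat (nat_lit 0)],
  [.ofNat (nat_lit 0), .ofNat (nat_lit 25065225336184233984), .ofNat (nat_lit 0)],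
  [],
  [],
  [],
  [],
  []],
  [[],
  [],
  [],
  [.ofNat (nat_lit 0), .negSucc (nat_lit 10939348254272643071), .ofNat (nat_lit 0)],
  [.ofNat (nat_lit 0), .ofNat (nat_lit 29196293630095143936), .ofNat (nat_lit 0)],
  [],
  [],
  [],
  []],
  [[],
  [],
  [],
  [],
  [.ofNat (nat_lit 0), .negSucc (nat_lit 11799660162776555519), .ofNat (nat_lit 0)],
  [.ofNat (nat_lit 0), .ofNat (nat_lit 24580996257688584192), .ofNat (nat_lit 0)],
  [],
  [],
  []],
  [[],
  [],
  [],
  [],
  [.ofNat (nat_lit 0), .ofNat (nat_lit 44915219846131286016), .ofNat (nat_lit 0)],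
  [.ofNat (nat_lit 0), .negSucc (nat_lit 96558087227774598143), .ofNat (nat_lit 0)],
  [],
  [],
  []],
  [[],
  [],
  [],
  [],
  [],
  [.ofNat (nat_lit 0), .ofNat (nat_lit 16764239944461855744), .ofNat (nat_lit 0)],
  [.ofNat (nat_lit 0), .negSucc (nat_lit 38682253797507901439), .ofNat (nat_lit 0)],
  [],
  []],
  [[],
  [],
  [],
  [],
  [],
  [],
  [.ofNat (nat_lit 0), .ofNat (nat_lit 6210090619617549312), .ofNat (nat_lit 0)],
  [.ofNat (nat_lit 0), .negSucc (nat_lit 13576469723400287231), .ofNat (nat_lit 0)],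
  []],
  [[],
  [],
  [],
  [],
  [],
  [],
  [.ofNat (nat_lit 0), .negSucc (nat_lit 6652509094327845887), .ofNat (nat_lit 0)],
  [.ofNat (nat_lit 0), .ofNat (nat_lit 13763123244507276288), .ofNat (nat_lit 0)],
  []],
  [[],
  [],
  [],
  [],
  [],
  [],
  [],
  [],
  []],
  [[],
  [],
  [],
  [],
  [],
  [],
  [],
  [],
  []]],
  [],
  [],
  [],
  [],
  [],
  [],
  [],
  [],
  [],
  [],
  []],
  [[],
  [],
  [],
  [],
  [],
  [],
  [],
  [],
  [],
  [],
  [],
  []],
  [[],
  [[[.ofNat (nat_lit 0), .ofNat (nat_lit 7985198978945150976), .negSucc (nat_lit 1372926534713911295)],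
  [.ofNat (nat_lit 0), .negSucc (nat_lit 17375461520648343551), .ofNat (nat_lit 0)],
  [],
  [],
  [],
  [],
  [],
  [],
  []],
  [[.negSucc (nat_lit 7985198978945150975), .negSucc (nat_lit 25945555631580039167), .ofNat (nat_lit 0)],
  [.ofNat (nat_lit 17375461520648343552), .ofNat (nat_lit 71662518195957126144), .ofNat (nat_lit 0)],
  [],
  [],
  [],
  [],
  [],
  [],
  []],
  [[],
  [.ofNat (nat_lit 0), .ofNat (nat_lit 5863434631776820224), .ofNat (nat_lit 0)],
  [.ofNat (nat_lit 0), .negSucc (nat_lit 22958832477084530687), .ofNat (nat_lit 0)],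
  [],
  [],
  [],
  [],
  [],
  []],
  [[],
  [],
  [.ofNat (nat_lit 0), .ofNat (nat_lit 92054242645895038464), .ofNat (nat_lit 0)],
  [.ofNat (nat_lit 0), .negSucc (nat_lit 255352081076888755967), .ofNat (nat_lit 0)],
  [],
  [],
  [],
  [],
  []],
  [[],
  [],
  [],
  [.ofNat (nat_lit 0), .negSucc (nat_lit 130152389823758997503), .ofNat (nat_lit 0)],
  [.ofNat (nat_lit 0), .ofNat (nat_lit 248886425800635508224), .ofNat (nat_lit 0)],
  [],
  [],
  [],
  []],
  [[],
  [],
  [],
  [],
  [.ofNat (nat_lit 0), .ofNat (nat_lit 75123154224720034560), .ofNat (nat_lit 0)],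
  [.ofNat (nat_lit 0), .negSucc (nat_lit 117255632043383236223), .ofNat (nat_lit 0)],
  [],
  [],
  []],
  [[],
  [],
  [],
  [],
  [.ofNat (nat_lit 0), .negSucc (nat_lit 831110214147202206719), .ofNat (nat_lit 0)],
  [.ofNat (nat_lit 0), .ofNat (nat_lit 1816227360838582087680), .ofNat (nat_lit 0)],
  [],
  [],
  []],
  [[],
  [],
  [],
  [],
  [],
  [.ofNat (nat_lit 0), .negSucc (nat_lit 147634367521465105919), .ofNat (nat_lit 0)],
  [.ofNat (nat_lit 0), .ofNat (nat_lit 362189090244382534656), .ofNat (nat_lit 0)],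
  [],
  []],
  [[],
  [],
  [],
  [],
  [],
  [],
  [.ofNat (nat_lit 0), .negSucc (nat_lit 56246805373391462015), .ofNat (nat_lit 0)],
  [.ofNat (nat_lit 0), .ofNat (nat_lit 112942766029290873984), .ofNat (nat_lit 0)],
  []],
  [[],
  [],
  [],
  [],
  [],
  [],
  [.ofNat (nat_lit 0), .ofNat (nat_lit 364157352144574493184), .ofNat (nat_lit 0)],
  [.ofNat (nat_lit 0), .negSucc (nat_lit 801383565060523086335), .ofNat (nat_lit 0)],
  []],
  [[],
  [],
  [],
  [],
  [],
  [],
  [],
  [.ofNat (nat_lit 0), .ofNat (nat_lit 104031191858848998912), .ofNat (nat_lit 0)],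
  [.ofNat (nat_lit 0), .negSucc (nat_lit 235628358187881641471), .ofNat (nat_lit 0)]],
  [[],
  [],
  [],
  [],
  [],
  [],
  [],
  [.ofNat (nat_lit 0), .negSucc (nat_lit 46567563660294921215), .ofNat (nat_lit 0)],
  [.ofNat (nat_lit 0), .ofNat (nat_lit 96341862711550934016), .ofNat (nat_lit 0)]]],
  [],
  [],
  [],
  [],
  [],
  [],
  [],
  [],
  [],
  []],
  [[],
  [],
  [[[.ofNat (nat_lit 0), .ofNat (nat_lit 7372987432613766144), .ofNat (nat_lit 7869847002076182528)],
  [.ofNat (nat_lit 0), .negSucc (nat_lit 16408961438531069951), .ofNat (nat_lit 0)],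
  [],
  [],
  [],
  [],
  [],
  [],
  []],
  [[.negSucc (nat_lit 7372987432613766143), .negSucc (nat_lit 13733281633853002751), .ofNat (nat_lit 0)],
  [.ofNat (nat_lit 16408961438531069952), .ofNat (nat_lit 22958832477084530688), .ofNat (nat_lit 0)],
  [],
  [],
  [],
  [],
  [],
  [],
  []],
  [[],
  [.ofNat (nat_lit 0), .negSucc (nat_lit 532706077688988888575), .ofNat (nat_lit 0)],
  [.ofNat (nat_lit 0), .ofNat (nat_lit 1194494290924943784960), .ofNat (nat_lit 0)],
  [],
  [],
  [],
  [],
  [],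
  []],
  [[],
  [],
  [.ofNat (nat_lit 0), .negSucc (nat_lit 171088492262008287743), .ofNat (nat_lit 0)],
  [.ofNat (nat_lit 0), .ofNat (nat_lit 372866328716847957504), .ofNat (nat_lit 0)],
  [],
  [],
  [],
  [],
  []],
  [[],
  [],
  [],
  [.ofNat (nat_lit 0), .ofNat (nat_lit 1423586635049818667520), .ofNat (nat_lit 0)],
  [.ofNat (nat_lit 0), .negSucc (nat_lit 3184458856044813192959), .ofNat (nat_lit 0)],
  [],
  [],
  [],
  []],
  [[],
  [],
  [],
  [],
  [.ofNat (nat_lit 0), .ofNat (nat_lit 652993891618839715584), .ofNat (nat_lit 0)],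
  [.ofNat (nat_lit 0), .negSucc (nat_lit 1399598694897326376191), .ofNat (nat_lit 0)],
  [],
  [],
  []],
  [[],
  [],
  [],
  [],
  [.ofNat (nat_lit 0), .negSucc (nat_lit 108457631896935988223), .ofNat (nat_lit 0)],
  [.ofNat (nat_lit 0), .ofNat (nat_lit 213426978342616737792), .ofNat (nat_lit 0)],
  [],
  [],
  []],
  [[],
  [],
  [],
  [],
  [],
  [.ofNat (nat_lit 0), .negSucc (nat_lit 555379194920623252991), .ofNat (nat_lit 0)],
  [.ofNat (nat_lit 0), .ofNat (nat_lit 1297567589223856090752), .ofNat (nat_lit 0)],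
  [],
  []],
  [[],
  [],
  [],
  [],
  [],
  [],
  [.ofNat (nat_lit 0), .negSucc (nat_lit 411728472583093574783), .ofNat (nat_lit 0)],
  [.ofNat (nat_lit 0), .ofNat (nat_lit 882341411497299105408), .ofNat (nat_lit 0)],
  []],
  [[],
  [],
  [],
  [],
  [],
  [],
  [.ofNat (nat_lit 0), .ofNat (nat_lit 499309798825404988416), .ofNat (nat_lit 0)],
  [.ofNat (nat_lit 0), .negSucc (nat_lit 1068657584362279437311), .ofNat (nat_lit 0)],
  []],
  [[],
  [],
  [],
  [],
  [],
  [],
  [],
  [.ofNat (nat_lit 0), .ofNat (nat_lit 68732605925220521088), .ofNat (nat_lit 0)],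
  [.ofNat (nat_lit 0), .negSucc (nat_lit 172801544697664460927), .ofNat (nat_lit 0)]],
  [[],
  [],
  [],
  [],
  [],
  [],
  [],
  [],
  []]],
  [],
  [],
  [],
  [],
  [],
  [],
  [],
  [],
  []],
  [[],
  [],
  [],
  [[[.ofNat (nat_lit 0), .negSucc (nat_lit 87467448684315248639), .ofNat (nat_lit 16590842394646496256)],
  [.ofNat (nat_lit 0), .ofNat (nat_lit 183277501335031670784), .ofNat (nat_lit 0)],
  [],
  [],
  [],
  [],
  [],
  [],
  []],
  [[.ofNat (nat_lit 87467448684315248640), .ofNat (nat_lit 75463400251248542208), .ofNat (nat_lit 0)],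
  [.negSucc (nat_lit 183277501335031670783), .negSucc (nat_lit 255352081076888755967), .ofNat (nat_lit 0)],
  [],
  [],
  [],
  [],
  [],
  [],
  []],
  [[],
  [.ofNat (nat_lit 0), .ofNat (nat_lit 171088492262008287744), .ofNat (nat_lit 0)],
  [.ofNat (nat_lit 0), .negSucc (nat_lit 372866328716847957503), .ofNat (nat_lit 0)],
  [],
  [],
  [],
  [],
  [],
  []],
  [[],
  [],
  [.ofNat (nat_lit 0), .ofNat (nat_lit 4738184321444181504), .ofNat (nat_lit 0)],
  [.ofNat (nat_lit 0), .ofNat (nat_lit 166381642149753401856), .ofNat (nat_lit 0)],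
  [],
  [],
  [],
  [],
  []],
  [[],
  [],
  [],
  [.ofNat (nat_lit 0), .ofNat (nat_lit 931965443305534054656), .ofNat (nat_lit 0)],
  [.ofNat (nat_lit 0), .negSucc (nat_lit 2045027792573511457535), .ofNat (nat_lit 0)],
  [],
  [],
  [],
  []],
  [[],
  [],
  [],
  [],
  [.ofNat (nat_lit 0), .negSucc (nat_lit 358196254829308819583), .ofNat (nat_lit 0)],
  [.ofNat (nat_lit 0), .ofNat (nat_lit 629341651047238549056), .ofNat (nat_lit 0)],
  [],
  [],
  []],
  [[],
  [],
  [],
  [],
  [.ofNat (nat_lit 0), .ofNat (nat_lit 1621066591442974146048), .ofNat (nat_lit 0)],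
  [.ofNat (nat_lit 0), .negSucc (nat_lit 3589025553738670169087), .ofNat (nat_lit 0)],
  [],
  [],
  []],
  [[],
  [],
  [],
  [],
  [],
  [.ofNat (nat_lit 0), .negSucc (nat_lit 1059536871171879588863), .ofNat (nat_lit 0)],
  [.ofNat (nat_lit 0), .ofNat (nat_lit 2374262455723799704704), .ofNat (nat_lit 0)],
  [],
  []],
  [[],
  [],
  [],
  [],
  [],
  [],
  [.ofNat (nat_lit 0), .negSucc (nat_lit 160037230198556647871), .ofNat (nat_lit 0)],
  [.ofNat (nat_lit 0), .ofNat (nat_lit 371354163087300080832), .ofNat (nat_lit 0)],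
  []],
  [[],
  [],
  [],
  [],
  [],
  [],
  [.ofNat (nat_lit 0), .negSucc (nat_lit 23466824533954248191), .ofNat (nat_lit 0)],
  [.ofNat (nat_lit 0), .ofNat (nat_lit 110972371828039322112), .ofNat (nat_lit 0)],
  []],
  [[],
  [],
  [],
  [],
  [],
  [],
  [],
  [.ofNat (nat_lit 0), .ofNat (nat_lit 320824993762852294464), .ofNat (nat_lit 0)],
  [.ofNat (nat_lit 0), .negSucc (nat_lit 724949173822060724543), .ofNat (nat_lit 0)]],
  [[],
  [],
  [],
  [],
  [],
  [],
  [],
  [],
  []]],
  [],
  [],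
  [],
  [],
  [],
  [],
  [],
  []],
  [[],
  [],
  [],
  [],
  [[[.ofNat (nat_lit 0), .negSucc (nat_lit 18480759331860624383), .negSucc (nat_lit 22860418281392166911)],
  [.ofNat (nat_lit 0), .ofNat (nat_lit 34680171621149669376), .ofNat (nat_lit 0)],
  [],
  [],
  [],
  [],
  [],
  [],
  []],
  [[.ofNat (nat_lit 18480759331860624384), .ofNat (nat_lit 153012808105151164416), .ofNat (nat_lit 0)],
  [.negSucc (nat_lit 34680171621149669375), .negSucc (nat_lit 248886425800635508223), .ofNat (nat_lit 0)],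
  [],
  [],
  [],
  [],
  [],
  [],
  []],
  [[],
  [.ofNat (nat_lit 0), .ofNat (nat_lit 1423586635049818667520), .ofNat (nat_lit 0)],
  [.ofNat (nat_lit 0), .negSucc (nat_lit 3184458856044813192959), .ofNat (nat_lit 0)],
  [],
  [],
  [],
  [],
  [],
  []],
  [[],
  [],
  [.ofNat (nat_lit 0), .negSucc (nat_lit 931965443305534054655), .ofNat (nat_lit 0)],
  [.ofNat (nat_lit 0), .ofNat (nat_lit 2045027792573511457536), .ofNat (nat_lit 0)],
  [],
  [],
  [],
  [],
  []],
  [[],
  [],
  [],
  [.ofNat (nat_lit 0), .negSucc (nat_lit 3894144453326981523455), .ofNat (nat_lit 0)],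
  [.ofNat (nat_lit 0), .ofNat (nat_lit 8698494355439565392640), .ofNat (nat_lit 0)],
  [],
  [],
  [],
  []],
  [[],
  [],
  [],
  [],
  [.ofNat (nat_lit 0), .ofNat (nat_lit 193330829561372330112), .ofNat (nat_lit 0)],
  [.ofNat (nat_lit 0), .negSucc (nat_lit 611489737728529860095), .ofNat (nat_lit 0)],
  [],
  [],
  []],
  [[],
  [],
  [],
  [],
  [.ofNat (nat_lit 0), .ofNat (nat_lit 1513958279919621705216), .ofNat (nat_lit 0)],
  [.ofNat (nat_lit 0), .negSucc (nat_lit 3281845134788107204607), .ofNat (nat_lit 0)],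
  [],
  [],
  []],
  [[],
  [],
  [],
  [],
  [],
  [.ofNat (nat_lit 0), .ofNat (nat_lit 1084516012452630591360), .ofNat (nat_lit 0)],
  [.ofNat (nat_lit 0), .negSucc (nat_lit 2434670737849932091199), .ofNat (nat_lit 0)],
  [],
  []],
  [[],
  [],
  [],
  [],
  [],
  [],
  [.ofNat (nat_lit 0), .negSucc (nat_lit 153263192404718747519), .ofNat (nat_lit 0)],
  [.ofNat (nat_lit 0), .ofNat (nat_lit 406159113326125576320), .ofNat (nat_lit 0)],
  []],
  [[],
  [],
  [],
  [],
  [],
  [],
  [.ofNat (nat_lit 0), .negSucc (nat_lit 985310430954752056319), .ofNat (nat_lit 0)],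
  [.ofNat (nat_lit 0), .ofNat (nat_lit 2176673577175764817920), .ofNat (nat_lit 0)],
  []],
  [[],
  [],
  [],
  [],
  [],
  [],
  [],
  [.ofNat (nat_lit 0), .ofNat (nat_lit 3153741230828966400), .ofNat (nat_lit 0)],
  [.ofNat (nat_lit 0), .negSucc (nat_lit 39678196145407464959), .ofNat (nat_lit 0)]],
  [[],
  [],
  [],
  [],
  [],
  [],
  [],
  [.ofNat (nat_lit 0), .ofNat (nat_lit 127314973688996459520), .ofNat (nat_lit 0)],
  [.ofNat (nat_lit 0), .negSucc (nat_lit 283799289543657108479), .ofNat (nat_lit 0)]]],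
  [],
  [],
  [],
  [],
  [],
  [],
  []],
  [[],
  [],
  [],
  [],
  [],
  [[[.ofNat (nat_lit 0), .ofNat (nat_lit 167111058616157611008), .negSucc (nat_lit 40455305805761584127)],
  [.ofNat (nat_lit 0), .negSucc (nat_lit 342108161976744972287), .ofNat (nat_lit 0)],
  [],
  [],
  [],
  [],
  [],
  [],
  []],
  [[.negSucc (nat_lit 167111058616157611007), .ofNat (nat_lit 115578460030481618688), .ofNat (nat_lit 0)],
  [.ofNat (nat_lit 342108161976744972288), .negSucc (nat_lit 117255632043383236223), .ofNat (nat_lit 0)],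
  [],
  [],
  [],
  [],
  [],
  [],
  []],
  [[],
  [.ofNat (nat_lit 0), .negSucc (nat_lit 652993891618839715583), .ofNat (nat_lit 0)],
  [.ofNat (nat_lit 0), .ofNat (nat_lit 1399598694897326376192), .ofNat (nat_lit 0)],
  [],
  [],
  [],
  [],
  [],
  []],
  [[],
  [],
  [.ofNat (nat_lit 0), .negSucc (nat_lit 358196254829308819583), .ofNat (nat_lit 0)],
  [.ofNat (nat_lit 0), .ofNat (nat_lit 629341651047238549056), .ofNat (nat_lit 0)],
  [],
  [],
  [],
  [],
  []],
  [[],
  [],
  [],
  [.ofNat (nat_lit 0), .negSucc (nat_lit 193330829561372330111), .ofNat (nat_lit 0)],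
  [.ofNat (nat_lit 0), .ofNat (nat_lit 611489737728529860096), .ofNat (nat_lit 0)],
  [],
  [],
  [],
  []],
  [[],
  [],
  [],
  [],
  [.ofNat (nat_lit 0), .ofNat (nat_lit 1003606951168516337280), .ofNat (nat_lit 0)],
  [.ofNat (nat_lit 0), .negSucc (nat_lit 2140754977009185206399), .ofNat (nat_lit 0)],
  [],
  [],
  []],
  [[],
  [],
  [],
  [],
  [.ofNat (nat_lit 0), .negSucc (nat_lit 1068266208622833451007), .ofNat (nat_lit 0)],
  [.ofNat (nat_lit 0), .ofNat (nat_lit 2340139634651893799808), .ofNat (nat_lit 0)],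
  [],
  [],
  []],
  [[],
  [],
  [],
  [],
  [],
  [.ofNat (nat_lit 0), .ofNat (nat_lit 207336478869266645952), .ofNat (nat_lit 0)],
  [.ofNat (nat_lit 0), .negSucc (nat_lit 606840792547730761151), .ofNat (nat_lit 0)],
  [],
  []],
  [[],
  [],
  [],
  [],
  [],
  [],
  [.ofNat (nat_lit 0), .negSucc (nat_lit 247840152974801898623), .ofNat (nat_lit 0)],
  [.ofNat (nat_lit 0), .ofNat (nat_lit 571300607236906591488), .ofNat (nat_lit 0)],
  []],
  [[],
  [],
  [],
  [],
  [],
  [],
  [.ofNat (nat_lit 0), .negSucc (nat_lit 401270335526145297023), .ofNat (nat_lit 0)],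
  [.ofNat (nat_lit 0), .ofNat (nat_lit 897378516488289310848), .ofNat (nat_lit 0)],
  []],
  [[],
  [],
  [],
  [],
  [],
  [],
  [],
  [.ofNat (nat_lit 0), .ofNat (nat_lit 221532424185563231328), .ofNat (nat_lit 0)],
  [.ofNat (nat_lit 0), .negSucc (nat_lit 488923281719940963167), .ofNat (nat_lit 0)]],
  [[],
  [],
  [],
  [],
  [],
  [],
  [],
  [],
  []]],
  [[[.ofNat (nat_lit 0), .ofNat (nat_lit 21931770697203234816), .ofNat (nat_lit 28011907368685900800)],
  [.ofNat (nat_lit 0), .negSucc (nat_lit 56152411644563186687), .ofNat (nat_lit 0)],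
  [],
  [],
  [],
  [],
  [],
  [],
  []],
  [[.negSucc (nat_lit 21931770697203234815), .negSucc (nat_lit 859122121515888107519), .ofNat (nat_lit 0)],
  [.ofNat (nat_lit 56152411644563186688), .ofNat (nat_lit 1816227360838582087680), .ofNat (nat_lit 0)],
  [],
  [],
  [],
  [],
  [],
  [],
  []],
  [[],
  [.ofNat (nat_lit 0), .ofNat (nat_lit 108457631896935988224), .ofNat (nat_lit 0)],
  [.ofNat (nat_lit 0), .negSucc (nat_lit 213426978342616737791), .ofNat (nat_lit 0)],
  [],
  [],
  [],
  [],
  [],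
  []],
  [[],
  [],
  [.ofNat (nat_lit 0), .ofNat (nat_lit 1621066591442974146048), .ofNat (nat_lit 0)],
  [.ofNat (nat_lit 0), .negSucc (nat_lit 3589025553738670169087), .ofNat (nat_lit 0)],
  [],
  [],
  [],
  [],
  []],
  [[],
  [],
  [],
  [.ofNat (nat_lit 0), .negSucc (nat_lit 1513958279919621705215), .ofNat (nat_lit 0)],
  [.ofNat (nat_lit 0), .ofNat (nat_lit 3281845134788107204608), .ofNat (nat_lit 0)],
  [],
  [],
  [],
  []],
  [[],
  [],
  [],
  [],
  [.ofNat (nat_lit 0), .negSucc (nat_lit 1068266208622833451007), .ofNat (nat_lit 0)],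
  [.ofNat (nat_lit 0), .ofNat (nat_lit 2340139634651893799808), .ofNat (nat_lit 0)],
  [],
  [],
  []],
  [[],
  [],
  [],
  [],
  [.ofNat (nat_lit 0), .ofNat (nat_lit 173654890754926436352), .ofNat (nat_lit 0)],
  [.ofNat (nat_lit 0), .negSucc (nat_lit 380063096212982164991), .ofNat (nat_lit 0)],
  [],
  [],
  []],
  [[],
  [],
  [],
  [],
  [],
  [.ofNat (nat_lit 0), .ofNat (nat_lit 1228210233102315355392), .ofNat (nat_lit 0)],
  [.ofNat (nat_lit 0), .negSucc (nat_lit 2679473084736466202111), .ofNat (nat_lit 0)],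
  [],
  []],
  [[],
  [],
  [],
  [],
  [],
  [],
  [.ofNat (nat_lit 0), .ofNat (nat_lit 311722650243630821376), .ofNat (nat_lit 0)],
  [.ofNat (nat_lit 0), .negSucc (nat_lit 659314291049374459391), .ofNat (nat_lit 0)],
  []],
  [[],
  [],
  [],
  [],
  [],
  [],
  [.ofNat (nat_lit 0), .negSucc (nat_lit 431958236919362164223), .ofNat (nat_lit 0)],
  [.ofNat (nat_lit 0), .ofNat (nat_lit 951274566745356492288), .ofNat (nat_lit 0)],
  []],
  [[],
  [],
  [],
  [],
  [],
  [],
  [],
  [.ofNat (nat_lit 0), .negSucc (nat_lit 122239854608274168191), .ofNat (nat_lit 0)],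
  [.ofNat (nat_lit 0), .ofNat (nat_lit 252897389617821201792), .ofNat (nat_lit 0)]],
  [[],
  [],
  [],
  [],
  [],
  [],
  [],
  [],
  []]],
  [],
  [],
  [],
  [],
  []],
  [[],
  [],
  [],
  [],
  [],
  [],
  [],
  [[[.ofNat (nat_lit 0), .negSucc (nat_lit 141040981197615421439), .ofNat (nat_lit 27451474904592147456)],
  [.ofNat (nat_lit 0), .ofNat (nat_lit 310542991152016518144), .ofNat (nat_lit 0)],
  [],
  [],
  [],
  [],
  [],
  [],
  []],
  [[.ofNat (nat_lit 141040981197615421440), .ofNat (nat_lit 120182892616872958464), .ofNat (nat_lit 0)],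
  [.negSucc (nat_lit 310542991152016518143), .negSucc (nat_lit 362189090244382534655), .ofNat (nat_lit 0)],
  [],
  [],
  [],
  [],
  [],
  [],
  []],
  [[],
  [.ofNat (nat_lit 0), .negSucc (nat_lit 555379194920623252991), .ofNat (nat_lit 0)],
  [.ofNat (nat_lit 0), .ofNat (nat_lit 1297567589223856090752), .ofNat (nat_lit 0)],
  [],
  [],
  [],
  [],
  [],
  []],
  [[],
  [],
  [.ofNat (nat_lit 0), .ofNat (nat_lit 1059536871171879588864), .ofNat (nat_lit 0)],
  [.ofNat (nat_lit 0), .negSucc (nat_lit 2374262455723799704703), .ofNat (nat_lit 0)],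
  [],
  [],
  [],
  [],
  []],
  [[],
  [],
  [],
  [.ofNat (nat_lit 0), .ofNat (nat_lit 1084516012452630591360), .ofNat (nat_lit 0)],
  [.ofNat (nat_lit 0), .negSucc (nat_lit 2434670737849932091199), .ofNat (nat_lit 0)],
  [],
  [],
  [],
  []],
  [[],
  [],
  [],
  [],
  [.ofNat (nat_lit 0), .negSucc (nat_lit 207336478869266645951), .ofNat (nat_lit 0)],
  [.ofNat (nat_lit 0), .ofNat (nat_lit 606840792547730761152), .ofNat (nat_lit 0)],
  [],
  [],
  []],
  [[],
  [],
  [],
  [],
  [.ofNat (nat_lit 0), .negSucc (nat_lit 1228210233102315355391), .ofNat (nat_lit 0)],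
  [.ofNat (nat_lit 0), .ofNat (nat_lit 2679473084736466202112), .ofNat (nat_lit 0)],
  [],
  [],
  []],
  [[],
  [],
  [],
  [],
  [],
  [.ofNat (nat_lit 0), .ofNat (nat_lit 1230310779949597705344), .ofNat (nat_lit 0)],
  [.ofNat (nat_lit 0), .negSucc (nat_lit 2818116869186497038335), .ofNat (nat_lit 0)],
  [],
  []],
  [[],
  [],
  [],
  [],
  [],
  [],
  [.ofNat (nat_lit 0), .negSucc (nat_lit 175919029906516820063), .ofNat (nat_lit 0)],
  [.ofNat (nat_lit 0), .ofNat (nat_lit 405357823737666203616), .ofNat (nat_lit 0)],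
  []],
  [[],
  [],
  [],
  [],
  [],
  [],
  [.ofNat (nat_lit 0), .negSucc (nat_lit 87172492017055474943), .ofNat (nat_lit 0)],
  [.ofNat (nat_lit 0), .ofNat (nat_lit 229556328002805217536), .ofNat (nat_lit 0)],
  []],
  [[],
  [],
  [],
  [],
  [],
  [],
  [],
  [.ofNat (nat_lit 0), .ofNat (nat_lit 17183151481305130272), .ofNat (nat_lit 0)],
  [.ofNat (nat_lit 0), .negSucc (nat_lit 43200386174416115231), .ofNat (nat_lit 0)]],
  [[],
  [],
  [],
  [],
  [],
  [],
  [],
  [],
  []]],
  [],
  [],
  [],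
  []],
  [[],
  [],
  [],
  [],
  [],
  [],
  [],
  [],
  [[[.ofNat (nat_lit 0), .ofNat (nat_lit 15363915067362594816), .ofNat (nat_lit 18759525179493970944)],
  [.ofNat (nat_lit 0), .negSucc (nat_lit 46107557236878916607), .ofNat (nat_lit 0)],
  [],
  [],
  [],
  [],
  [],
  [],
  []],
  [[.negSucc (nat_lit 15363915067362594815), .negSucc (nat_lit 75006330552885432959), .ofNat (nat_lit 0)],
  [.ofNat (nat_lit 46107557236878916608), .ofNat (nat_lit 112942766029290873984), .ofNat (nat_lit 0)],
  [],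
  [],
  [],
  [],
  [],
  [],
  []],
  [[],
  [.ofNat (nat_lit 0), .ofNat (nat_lit 411728472583093574784), .ofNat (nat_lit 0)],
  [.ofNat (nat_lit 0), .negSucc (nat_lit 882341411497299105407), .ofNat (nat_lit 0)],
  [],
  [],
  [],
  [],
  [],
  []],
  [[],
  [],
  [.ofNat (nat_lit 0), .negSucc (nat_lit 160037230198556647871), .ofNat (nat_lit 0)],
  [.ofNat (nat_lit 0), .ofNat (nat_lit 371354163087300080832), .ofNat (nat_lit 0)],
  [],
  [],
  [],
  [],
  []],
  [[],
  [],
  [],
  [.ofNat (nat_lit 0), .ofNat (nat_lit 153263192404718747520), .ofNat (nat_lit 0)],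
  [.ofNat (nat_lit 0), .negSucc (nat_lit 406159113326125576319), .ofNat (nat_lit 0)],
  [],
  [],
  [],
  []],
  [[],
  [],
  [],
  [],
  [.ofNat (nat_lit 0), .negSucc (nat_lit 247840152974801898623), .ofNat (nat_lit 0)],
  [.ofNat (nat_lit 0), .ofNat (nat_lit 571300607236906591488), .ofNat (nat_lit 0)],
  [],
  [],
  []],
  [[],
  [],
  [],
  [],
  [.ofNat (nat_lit 0), .ofNat (nat_lit 311722650243630821376), .ofNat (nat_lit 0)],
  [.ofNat (nat_lit 0), .negSucc (nat_lit 659314291049374459391), .ofNat (nat_lit 0)],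
  [],
  [],
  []],
  [[],
  [],
  [],
  [],
  [],
  [.ofNat (nat_lit 0), .ofNat (nat_lit 175919029906516820064), .ofNat (nat_lit 0)],
  [.ofNat (nat_lit 0), .negSucc (nat_lit 405357823737666203615), .ofNat (nat_lit 0)],
  [],
  []],
  [[],
  [],
  [],
  [],
  [],
  [],
  [.ofNat (nat_lit 0), .negSucc (nat_lit 53290592539280364095), .ofNat (nat_lit 0)],
  [.ofNat (nat_lit 0), .ofNat (nat_lit 120406430547355121856), .ofNat (nat_lit 0)],
  []],
  [[],
  [],
  [],
  [],
  [],
  [],
  [.ofNat (nat_lit 0), .negSucc (nat_lit 40330836384362565695), .ofNat (nat_lit 0)],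
  [.ofNat (nat_lit 0), .ofNat (nat_lit 83438934669825362496), .ofNat (nat_lit 0)],
  []],
  [[],
  [],
  [],
  [],
  [],
  [],
  [],
  [.ofNat (nat_lit 0), .ofNat (nat_lit 18824844439892990016), .ofNat (nat_lit 0)],
  [.ofNat (nat_lit 0), .negSucc (nat_lit 41496277612429071935), .ofNat (nat_lit 0)]],
  [[],
  [],
  [],
  [],
  [],
  [],
  [],
  [.ofNat (nat_lit 0), .ofNat (nat_lit 5820945457536865152), .ofNat (nat_lit 0)],
  [.ofNat (nat_lit 0), .negSucc (nat_lit 12042732838943866751), .ofNat (nat_lit 0)]]],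
  [[[.ofNat (nat_lit 0), .negSucc (nat_lit 18334517066050397183), .negSucc (nat_lit 36509459223585438719)],
  [.ofNat (nat_lit 0), .ofNat (nat_lit 50369917404413813760), .ofNat (nat_lit 0)],
  [],
  [],
  [],
  [],
  [],
  [],
  []],
  [[.ofNat (nat_lit 18334517066050397184), .ofNat (nat_lit 400666811368159931904), .ofNat (nat_lit 0)],
  [.negSucc (nat_lit 50369917404413813759), .negSucc (nat_lit 801383565060523086335), .ofNat (nat_lit 0)],
  [],
  [],
  [],
  [],
  [],
  [],
  []],
  [[],
  [.ofNat (nat_lit 0), .negSucc (nat_lit 499309798825404988415), .ofNat (nat_lit 0)],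
  [.ofNat (nat_lit 0), .ofNat (nat_lit 1068657584362279437312), .ofNat (nat_lit 0)],
  [],
  [],
  [],
  [],
  [],
  []],
  [[],
  [],
  [.ofNat (nat_lit 0), .negSucc (nat_lit 23466824533954248191), .ofNat (nat_lit 0)],
  [.ofNat (nat_lit 0), .ofNat (nat_lit 110972371828039322112), .ofNat (nat_lit 0)],
  [],
  [],
  [],
  [],
  []],
  [[],
  [],
  [],
  [.ofNat (nat_lit 0), .ofNat (nat_lit 985310430954752056320), .ofNat (nat_lit 0)],
  [.ofNat (nat_lit 0), .negSucc (nat_lit 2176673577175764817919), .ofNat (nat_lit 0)],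
  [],
  [],
  [],
  []],
  [[],
  [],
  [],
  [],
  [.ofNat (nat_lit 0), .negSucc (nat_lit 401270335526145297023), .ofNat (nat_lit 0)],
  [.ofNat (nat_lit 0), .ofNat (nat_lit 897378516488289310848), .ofNat (nat_lit 0)],
  [],
  [],
  []],
  [[],
  [],
  [],
  [],
  [.ofNat (nat_lit 0), .negSucc (nat_lit 431958236919362164223), .ofNat (nat_lit 0)],
  [.ofNat (nat_lit 0), .ofNat (nat_lit 951274566745356492288), .ofNat (nat_lit 0)],
  [],
  [],
  []],
  [[],
  [],
  [],
  [],
  [],
  [.ofNat (nat_lit 0), .ofNat (nat_lit 87172492017055474944), .ofNat (nat_lit 0)],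
  [.ofNat (nat_lit 0), .negSucc (nat_lit 229556328002805217535), .ofNat (nat_lit 0)],
  [],
  []],
  [[],
  [],
  [],
  [],
  [],
  [],
  [.ofNat (nat_lit 0), .negSucc (nat_lit 40330836384362565695), .ofNat (nat_lit 0)],
  [.ofNat (nat_lit 0), .ofNat (nat_lit 83438934669825362496), .ofNat (nat_lit 0)],
  []],
  [[],
  [],
  [],
  [],
  [],
  [],
  [.ofNat (nat_lit 0), .ofNat (nat_lit 161323345537450262784), .ofNat (nat_lit 0)],
  [.ofNat (nat_lit 0), .negSucc (nat_lit 333755738679301449983), .ofNat (nat_lit 0)],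
  []],
  [[],
  [],
  [],
  [],
  [],
  [],
  [],
  [.ofNat (nat_lit 0), .negSucc (nat_lit 11641890915073730303), .ofNat (nat_lit 0)],
  [.ofNat (nat_lit 0), .ofNat (nat_lit 24085465677887733504), .ofNat (nat_lit 0)]],
  [[],
  [],
  [],
  [],
  [],
  [],
  [],
  [.ofNat (nat_lit 0), .negSucc (nat_lit 23283781830147460607), .ofNat (nat_lit 0)],
  [.ofNat (nat_lit 0), .ofNat (nat_lit 48170931355775467008), .ofNat (nat_lit 0)]]],
  [],
  []],
  [[],
  [],
  [],
  [],
  [],
  [],
  [],
  [],
  [],
  [],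
  [[[],
  [],
  [],
  [],
  [],
  [],
  [],
  [],
  []],
  [[.ofNat (nat_lit 0), .negSucc (nat_lit 104031191858848998911), .ofNat (nat_lit 0)],
  [.ofNat (nat_lit 0), .ofNat (nat_lit 235628358187881641472), .ofNat (nat_lit 0)],
  [],
  [],
  [],
  [],
  [],
  [],
  []],
  [[],
  [.ofNat (nat_lit 0), .ofNat (nat_lit 68732605925220521088), .ofNat (nat_lit 0)],
  [.ofNat (nat_lit 0), .negSucc (nat_lit 172801544697664460927), .ofNat (nat_lit 0)],
  [],
  [],
  [],
  [],
  [],
  []],
  [[],
  [],
  [.ofNat (nat_lit 0), .negSucc (nat_lit 320824993762852294463), .ofNat (nat_lit 0)],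
  [.ofNat (nat_lit 0), .ofNat (nat_lit 724949173822060724544), .ofNat (nat_lit 0)],
  [],
  [],
  [],
  [],
  []],
  [[],
  [],
  [],
  [.ofNat (nat_lit 0), .ofNat (nat_lit 3153741230828966400), .ofNat (nat_lit 0)],
  [.ofNat (nat_lit 0), .negSucc (nat_lit 39678196145407464959), .ofNat (nat_lit 0)],
  [],
  [],
  [],
  []],
  [[],
  [],
  [],
  [],
  [.ofNat (nat_lit 0), .negSucc (nat_lit 221532424185563231327), .ofNat (nat_lit 0)],
  [.ofNat (nat_lit 0), .ofNat (nat_lit 488923281719940963168), .ofNat (nat_lit 0)],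
  [],
  [],
  []],
  [[],
  [],
  [],
  [],
  [.ofNat (nat_lit 0), .ofNat (nat_lit 122239854608274168192), .ofNat (nat_lit 0)],
  [.ofNat (nat_lit 0), .negSucc (nat_lit 252897389617821201791), .ofNat (nat_lit 0)],
  [],
  [],
  []],
  [[],
  [],
  [],
  [],
  [],
  [.ofNat (nat_lit 0), .ofNat (nat_lit 17183151481305130272), .ofNat (nat_lit 0)],
  [.ofNat (nat_lit 0), .negSucc (nat_lit 43200386174416115231), .ofNat (nat_lit 0)],
  [],
  []],
  [[],
  [],
  [],
  [],
  [],
  [],
  [.ofNat (nat_lit 0), .negSucc (nat_lit 18824844439892990015), .ofNat (nat_lit 0)],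
  [.ofNat (nat_lit 0), .ofNat (nat_lit 41496277612429071936), .ofNat (nat_lit 0)],
  []],
  [[],
  [],
  [],
  [],
  [],
  [],
  [.ofNat (nat_lit 0), .ofNat (nat_lit 11641890915073730304), .ofNat (nat_lit 0)],
  [.ofNat (nat_lit 0), .negSucc (nat_lit 24085465677887733503), .ofNat (nat_lit 0)],
  []],
  [[],
  [],
  [],
  [],
  [],
  [],
  [],
  [],
  []],
  [[],
  [],
  [],
  [],
  [],
  [],
  [],
  [],
  []]],
  [[[],
  [],
  [],
  [],
  [],
  [],
  [],
  [],
  []],
  [[.ofNat (nat_lit 0), .ofNat (nat_lit 46567563660294921216), .ofNat (nat_lit 0)],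
  [.ofNat (nat_lit 0), .negSucc (nat_lit 96341862711550934015), .ofNat (nat_lit 0)],
  [],
  [],
  [],
  [],
  [],
  [],
  []],
  [[],
  [],
  [],
  [],
  [],
  [],
  [],
  [],
  []],
  [[],
  [],
  [],
  [],
  [],
  [],
  [],
  [],
  []],
  [[],
  [],
  [],
  [.ofNat (nat_lit 0), .ofNat (nat_lit 127314973688996459520), .ofNat (nat_lit 0)],
  [.ofNat (nat_lit 0), .negSucc (nat_lit 283799289543657108479), .ofNat (nat_lit 0)],
  [],
  [],
  [],
  []],
  [[],
  [],
  [],
  [],
  [],
  [],
  [],
  [],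
  []],
  [[],
  [],
  [],
  [],
  [],
  [],
  [],
  [],
  []],
  [[],
  [],
  [],
  [],
  [],
  [],
  [],
  [],
  []],
  [[],
  [],
  [],
  [],
  [],
  [],
  [.ofNat (nat_lit 0), .negSucc (nat_lit 5820945457536865151), .ofNat (nat_lit 0)],
  [.ofNat (nat_lit 0), .ofNat (nat_lit 12042732838943866752), .ofNat (nat_lit 0)],
  []],
  [[],
  [],
  [],
  [],
  [],
  [],
  [.ofNat (nat_lit 0), .ofNat (nat_lit 23283781830147460608), .ofNat (nat_lit 0)],
  [.ofNat (nat_lit 0), .negSucc (nat_lit 48170931355775467007), .ofNat (nat_lit 0)],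
  []],
  [[],
  [],
  [],
  [],
  [],
  [],
  [],
  [],
  []],
  [[],
  [],
  [],
  [],
  [],
  [],
  [],
  [],
  []]]]]]

noncomputable def BP5_E : L5 := [[[[[],
  []],
  [[],
  []],
  [[],
  []]],
  [[[.ofNat (nat_lit 737743616806715136), .negSucc (nat_lit 288244281177647711), .ofNat (nat_lit 0)],
  []],
  [[.ofNat (nat_lit 0), .ofNat (nat_lit 5280941427433765632), .ofNat (nat_lit 0)],
  []],
  [[],
  []]],
  [[[.negSucc (nat_lit 7019598445577726975), .ofNat (nat_lit 5317532044273252224), .ofNat (nat_lit 0)],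
  []],
  [[.ofNat (nat_lit 0), .negSucc (nat_lit 42489287728638001055), .ofNat (nat_lit 0)],
  []],
  [[],
  []]],
  [[[.ofNat (nat_lit 29293319430405946656), .negSucc (nat_lit 32380282118036405663), .ofNat (nat_lit 0)],
  []],
  [[.ofNat (nat_lit 0), .ofNat (nat_lit 147482980634393861472), .ofNat (nat_lit 0)],
  []],
  [[],
  []]],
  [[[.negSucc (nat_lit 66885905113002876959), .ofNat (nat_lit 91862708871432057408), .ofNat (nat_lit 0)],
  []],
  [[.ofNat (nat_lit 0), .negSucc (nat_lit 284205744443929463711), .ofNat (nat_lit 0)],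
  []],
  [[],
  []]],
  [[[.ofNat (nat_lit 89617749992970203808), .negSucc (nat_lit 140617186776640962431), .ofNat (nat_lit 0)],
  []],
  [[.ofNat (nat_lit 0), .ofNat (nat_lit 324292844021862986208), .ofNat (nat_lit 0)],
  []],
  [[],
  []]],
  [[[.negSucc (nat_lit 71305386244731304415), .ofNat (nat_lit 121745898215904985344), .ofNat (nat_lit 0)],
  []],
  [[.ofNat (nat_lit 0), .negSucc (nat_lit 213837962437100260511), .ofNat (nat_lit 0)],
  []],
  [[],
  []]],
  [[[.ofNat (nat_lit 32454644376745463904), .negSucc (nat_lit 58079891833191130463), .ofNat (nat_lit 0)],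
  []],
  [[.ofNat (nat_lit 0), .ofNat (nat_lit 70323469223440032576), .ofNat (nat_lit 0)],
  []],
  [[],
  []]],
  [[[.negSucc (nat_lit 7559280824008757183), .ofNat (nat_lit 13442214415797717696), .ofNat (nat_lit 0)],
  []],
  [[.ofNat (nat_lit 0), .negSucc (nat_lit 4996106128751196383), .ofNat (nat_lit 0)],
  []],
  [[],
  []]],
  [[[.ofNat (nat_lit 666713210392336032), .negSucc (nat_lit 1002748538361866399), .ofNat (nat_lit 0)],
  []],
  [[.ofNat (nat_lit 0), .negSucc (nat_lit 1851134568711724223), .ofNat (nat_lit 0)],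
  []],
  [[],
  []]]],
  [[[[],
  []],
  [[],
  []],
  [[],
  []]],
  [[[.negSucc (nat_lit 230844665274826751), .ofNat (nat_lit 0), .ofNat (nat_lit 0)],
  []],
  [[.ofNat (nat_lit 0), .ofNat (nat_lit 706997547885024), .ofNat (nat_lit 0)],
  [.ofNat (nat_lit 0), .ofNat (nat_lit 72189667667089152), .ofNat (nat_lit 0)]],
  [[.ofNat (nat_lit 0), .ofNat (nat_lit 66910930274226240), .ofNat (nat_lit 0)],
  [.ofNat (nat_lit 0), .negSucc (nat_lit 226765052165590847), .ofNat (nat_lit 0)]]],
  [[[.ofNat (nat_lit 3179108138774514336), .negSucc (nat_lit 1431071505645068735), .ofNat (nat_lit 0)],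
  []],
  [[.ofNat (nat_lit 0), .ofNat (nat_lit 8224384459682227392), .ofNat (nat_lit 0)],
  [.ofNat (nat_lit 0), .negSucc (nat_lit 144379335334178303), .ofNat (nat_lit 0)]],
  [[.ofNat (nat_lit 0), .negSucc (nat_lit 133821860548452479), .ofNat (nat_lit 0)],
  [.ofNat (nat_lit 0), .ofNat (nat_lit 453530104331181696), .ofNat (nat_lit 0)]]],
  [[[.negSucc (nat_lit 16519721504176055519), .ofNat (nat_lit 14368612357817033472), .ofNat (nat_lit 0)],
  []],
  [[.ofNat (nat_lit 0), .negSucc (nat_lit 30199059169846559999), .ofNat (nat_lit 0)],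
  [.ofNat (nat_lit 0), .ofNat (nat_lit 72189667667089152), .ofNat (nat_lit 0)]],
  [[.ofNat (nat_lit 0), .ofNat (nat_lit 66910930274226240), .ofNat (nat_lit 0)],
  [.ofNat (nat_lit 0), .negSucc (nat_lit 226765052165590847), .ofNat (nat_lit 0)]]],
  [[[.ofNat (nat_lit 39646906130355192864), .negSucc (nat_lit 46825153761671438399), .ofNat (nat_lit 0)],
  []],
  [[.ofNat (nat_lit 0), .ofNat (nat_lit 27075224128444330176), .ofNat (nat_lit 0)],
  []],
  [[],
  []]],
  [[[.negSucc (nat_lit 45422372619445773023), .ofNat (nat_lit 69267456853257946176), .ofNat (nat_lit 0)],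
  []],
  [[.ofNat (nat_lit 0), .ofNat (nat_lit 46194721401986073792), .ofNat (nat_lit 0)],
  []],
  [[],
  []]],
  [[[.ofNat (nat_lit 18661808906043492096), .negSucc (nat_lit 48535960269595606847), .ofNat (nat_lit 0)],
  []],
  [[.ofNat (nat_lit 0), .negSucc (nat_lit 139477180857869215583), .ofNat (nat_lit 0)],
  []],
  [[],
  []]],
  [[[.ofNat (nat_lit 7393446355454896608), .ofNat (nat_lit 12911459385256831872), .ofNat (nat_lit 0)],
  []],
  [[.ofNat (nat_lit 0), .ofNat (nat_lit 147782947952219916384), .ofNat (nat_lit 0)],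
  []],
  [[],
  []]],
  [[[.negSucc (nat_lit 8606030227199794943), .ofNat (nat_lit 646729826211844416), .ofNat (nat_lit 0)],
  []],
  [[.ofNat (nat_lit 0), .negSucc (nat_lit 73671351760077443999), .ofNat (nat_lit 0)],
  []],
  [[],
  []]],
  [[[.ofNat (nat_lit 1897699485468354336), .negSucc (nat_lit 402072885631541951), .ofNat (nat_lit 0)],
  []],
  [[.ofNat (nat_lit 0), .ofNat (nat_lit 14069606847912786816), .ofNat (nat_lit 0)],
  []],
  [[],
  []]]],
  [[[[],
  []],
  [[],
  []],
  [[],
  []]],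
  [[[.ofNat (nat_lit 0), .negSucc (nat_lit 28332501111019007), .ofNat (nat_lit 0)],
  []],
  [[.ofNat (nat_lit 0), .ofNat (nat_lit 156651905753649504), .ofNat (nat_lit 0)],
  [.ofNat (nat_lit 0), .ofNat (nat_lit 32547440439216000), .ofNat (nat_lit 0)]],
  [[.ofNat (nat_lit 0), .ofNat (nat_lit 110582138532217824), .ofNat (nat_lit 0)],
  [.ofNat (nat_lit 0), .negSucc (nat_lit 335693999827388159), .ofNat (nat_lit 0)]]],
  [[[],
  []],
  [[],
  []],
  [[],
  []]],
  [[[.ofNat (nat_lit 1316423952993549600), .ofNat (nat_lit 817479088816925952), .ofNat (nat_lit 0)],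
  []],
  [[.ofNat (nat_lit 0), .negSucc (nat_lit 22425027686102376575), .ofNat (nat_lit 0)],
  [.ofNat (nat_lit 0), .negSucc (nat_lit 97642321317647999), .ofNat (nat_lit 0)]],
  [[.ofNat (nat_lit 0), .negSucc (nat_lit 331746415596653471), .ofNat (nat_lit 0)],
  [.ofNat (nat_lit 0), .ofNat (nat_lit 1007081999482164480), .ofNat (nat_lit 0)]]],
  [[[.negSucc (nat_lit 7416496516688356031), .ofNat (nat_lit 1135318278354734880), .ofNat (nat_lit 0)],
  []],
  [[.ofNat (nat_lit 0), .ofNat (nat_lit 120886036839765493344), .ofNat (nat_lit 0)],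
  [.ofNat (nat_lit 0), .ofNat (nat_lit 65094880878432000), .ofNat (nat_lit 0)]],
  [[.ofNat (nat_lit 0), .ofNat (nat_lit 221164277064435648), .ofNat (nat_lit 0)],
  [.ofNat (nat_lit 0), .negSucc (nat_lit 671387999654776319), .ofNat (nat_lit 0)]]],
  [[[.ofNat (nat_lit 15749396860423065408), .negSucc (nat_lit 15986424468973613759), .ofNat (nat_lit 0)],
  []],
  [[.ofNat (nat_lit 0), .negSucc (nat_lit 284224747207689449855), .ofNat (nat_lit 0)],
  []],
  [[],
  []]],
  [[[.negSucc (nat_lit 15786500700420772127), .ofNat (nat_lit 38491232743098732096), .ofNat (nat_lit 0)],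
  []],
  [[.ofNat (nat_lit 0), .ofNat (nat_lit 366437932344006707232), .ofNat (nat_lit 0)],
  []],
  [[],
  []]],
  [[[.ofNat (nat_lit 7371179357288570496), .negSucc (nat_lit 42336357849205936703), .ofNat (nat_lit 0)],
  []],
  [[.ofNat (nat_lit 0), .negSucc (nat_lit 268964509313676980447), .ofNat (nat_lit 0)],
  []],
  [[],
  []]],
  [[[.negSucc (nat_lit 1196505189526603679), .ofNat (nat_lit 22789909429223054112), .ofNat (nat_lit 0)],
  []],
  [[.ofNat (nat_lit 0), .ofNat (nat_lit 104380977097849235328), .ofNat (nat_lit 0)],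
  []],
  [[],
  []]],
  [[[.negSucc (nat_lit 37497764069453663), .negSucc (nat_lit 4882824720202877567), .ofNat (nat_lit 0)],
  []],
  [[.ofNat (nat_lit 0), .negSucc (nat_lit 16247313979906278527), .ofNat (nat_lit 0)],
  []],
  [[],
  []]]],
  [[[[],
  []],
  [[],
  []],
  [[],
  []]],
  [[[.ofNat (nat_lit 5345038741914144), .negSucc (nat_lit 13048051508786591), .ofNat (nat_lit 0)],
  [.negSucc (nat_lit 34139453822769023), .ofNat (nat_lit 0), .ofNat (nat_lit 0)]],
  [[.ofNat (nat_lit 0), .negSucc (nat_lit 140153547236067071), .ofNat (nat_lit 0)],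
  [.ofNat (nat_lit 0), .ofNat (nat_lit 122324797055199744), .ofNat (nat_lit 0)]],
  [[.ofNat (nat_lit 0), .negSucc (nat_lit 287998379539056575), .ofNat (nat_lit 0)],
  [.ofNat (nat_lit 0), .ofNat (nat_lit 783288291755757312), .ofNat (nat_lit 0)]]],
  [[[],
  []],
  [[],
  []],
  [[],
  []]],
  [[[],
  []],
  [[],
  []],
  [[],
  []]],
  [[[.ofNat (nat_lit 3003488369031764448), .negSucc (nat_lit 2413820799273021695), .ofNat (nat_lit 0)],
  [.ofNat (nat_lit 136557815291076096), .ofNat (nat_lit 0), .ofNat (nat_lit 0)]],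
  [[.ofNat (nat_lit 0), .negSucc (nat_lit 5452648535481971903), .ofNat (nat_lit 0)],
  [.ofNat (nat_lit 0), .negSucc (nat_lit 489299188220798975), .ofNat (nat_lit 0)]],
  [[.ofNat (nat_lit 0), .ofNat (nat_lit 1151993518156226304), .ofNat (nat_lit 0)],
  [.ofNat (nat_lit 0), .negSucc (nat_lit 3133153167023029247), .ofNat (nat_lit 0)]]],
  [[[.negSucc (nat_lit 16238569267957342175), .ofNat (nat_lit 15386536007770511232), .ofNat (nat_lit 0)],
  [.negSucc (nat_lit 102418361468307071), .ofNat (nat_lit 0), .ofNat (nat_lit 0)]],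
  [[.ofNat (nat_lit 0), .ofNat (nat_lit 29110004519906526336), .ofNat (nat_lit 0)],
  [.ofNat (nat_lit 0), .ofNat (nat_lit 366974391165599232), .ofNat (nat_lit 0)]],
  [[.ofNat (nat_lit 0), .negSucc (nat_lit 863995138617169727), .ofNat (nat_lit 0)],
  [.ofNat (nat_lit 0), .ofNat (nat_lit 2349864875267271936), .ofNat (nat_lit 0)]]],
  [[[.ofNat (nat_lit 32712237046764398592), .negSucc (nat_lit 30706592882296178015), .ofNat (nat_lit 0)],
  []],
  [[.ofNat (nat_lit 0), .negSucc (nat_lit 45014431679624536127), .ofNat (nat_lit 0)],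
  []],
  [[],
  []]],
  [[[.negSucc (nat_lit 30384260581217678495), .ofNat (nat_lit 24129038061750242592), .ofNat (nat_lit 0)],
  []],
  [[.ofNat (nat_lit 0), .ofNat (nat_lit 26465772813856431552), .ofNat (nat_lit 0)],
  []],
  [[],
  []]],
  [[[.ofNat (nat_lit 12525884938877394528), .negSucc (nat_lit 5510953099258594847), .ofNat (nat_lit 0)],
  []],
  [[.ofNat (nat_lit 0), .negSucc (nat_lit 5943797613166963967), .ofNat (nat_lit 0)],
  []],
  [[],
  []]],
  [[[.negSucc (nat_lit 1624125544240451039), .negSucc (nat_lit 871159237184172671), .ofNat (nat_lit 0)],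
  []],
  [[.ofNat (nat_lit 0), .ofNat (nat_lit 975254041746581184), .ofNat (nat_lit 0)],
  []],
  [[],
  []]]],
  [[[[],
  []],
  [[],
  []],
  [[],
  []]],
  [[[.ofNat (nat_lit 47372515972441056), .negSucc (nat_lit 6266259856877759), .ofNat (nat_lit 0)],
  [.negSucc (nat_lit 101302948675890431), .ofNat (nat_lit 0), .ofNat (nat_lit 0)]],
  [[.ofNat (nat_lit 0), .negSucc (nat_lit 181291057905029183), .ofNat (nat_lit 0)],
  [.ofNat (nat_lit 0), .ofNat (nat_lit 881760960388751904), .ofNat (nat_lit 0)]],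
  [[.ofNat (nat_lit 0), .ofNat (nat_lit 341854632946020096), .ofNat (nat_lit 0)],
  [.ofNat (nat_lit 0), .negSucc (nat_lit 912384175940473247), .ofNat (nat_lit 0)]]],
  [[[],
  []],
  [[],
  []],
  [[],
  []]],
  [[[],
  []],
  [[],
  []],
  [[],
  []]],
  [[[],
  []],
  [[],
  []],
  [[],
  []]],
  [[[.ofNat (nat_lit 2767703949825896448), .ofNat (nat_lit 83440482254634240), .ofNat (nat_lit 0)],
  [.ofNat (nat_lit 506514743379452160), .ofNat (nat_lit 0), .ofNat (nat_lit 0)]],
  [[.ofNat (nat_lit 0), .negSucc (nat_lit 591914386792412063), .ofNat (nat_lit 0)],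
  [.ofNat (nat_lit 0), .negSucc (nat_lit 4408804801943759519), .ofNat (nat_lit 0)]],
  [[.ofNat (nat_lit 0), .negSucc (nat_lit 1709273164730100479), .ofNat (nat_lit 0)],
  [.ofNat (nat_lit 0), .ofNat (nat_lit 4561920879702366240), .ofNat (nat_lit 0)]]],
  [[[.negSucc (nat_lit 10612678444145537759), .negSucc (nat_lit 6027609962408407199), .ofNat (nat_lit 0)],
  [.negSucc (nat_lit 405211794703561727), .ofNat (nat_lit 0), .ofNat (nat_lit 0)]],
  [[.ofNat (nat_lit 0), .negSucc (nat_lit 5612344360351405055), .ofNat (nat_lit 0)],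
  [.ofNat (nat_lit 0), .ofNat (nat_lit 3527043841555007616), .ofNat (nat_lit 0)]],
  [[.ofNat (nat_lit 0), .ofNat (nat_lit 1367418531784080384), .ofNat (nat_lit 0)],
  [.ofNat (nat_lit 0), .negSucc (nat_lit 3649536703761892991), .ofNat (nat_lit 0)]]],
  [[[.ofNat (nat_lit 13931003070799332768), .ofNat (nat_lit 17033336622726198336), .ofNat (nat_lit 0)],
  []],
  [[.ofNat (nat_lit 0), .ofNat (nat_lit 12772399029394194144), .ofNat (nat_lit 0)],
  []],
  [[],
  []]],
  [[[.negSucc (nat_lit 7473766736245166495), .negSucc (nat_lit 16267475208390689951), .ofNat (nat_lit 0)],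
  []],
  [[.ofNat (nat_lit 0), .negSucc (nat_lit 4889778967324291391), .ofNat (nat_lit 0)],
  []],
  [[],
  []]],
  [[[.ofNat (nat_lit 1340365643793033984), .ofNat (nat_lit 5184574325675142336), .ofNat (nat_lit 0)],
  []],
  [[.ofNat (nat_lit 0), .negSucc (nat_lit 1497070257021056447), .ofNat (nat_lit 0)],
  []],
  [[],
  []]]],
  [[[[],
  []],
  [[],
  []],
  [[],
  []]],
  [[[.negSucc (nat_lit 312733874579039), .negSucc (nat_lit 19527267271120415), .ofNat (nat_lit 0)],
  [.ofNat (nat_lit 19408101796000512), .ofNat (nat_lit 0), .ofNat (nat_lit 0)]],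
  [[.ofNat (nat_lit 0), .ofNat (nat_lit 306613570405256064), .ofNat (nat_lit 0)],
  [.ofNat (nat_lit 0), .negSucc (nat_lit 1404380245622963327), .ofNat (nat_lit 0)]],
  [[.ofNat (nat_lit 0), .negSucc (nat_lit 368739380086767359), .ofNat (nat_lit 0)],
  [.ofNat (nat_lit 0), .ofNat (nat_lit 768156133052768256), .ofNat (nat_lit 0)]]],
  [[[],
  []],
  [[],
  []],
  [[],
  []]],
  [[[],
  []],
  [[],
  []],
  [[],
  []]],
  [[[],
  []],
  [[],
  []],
  [[],
  []]],
  [[[],
  []],
  [[],
  []],
  [[],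
  []]],
  [[[.ofNat (nat_lit 750709212926796576), .negSucc (nat_lit 1148330935682129663), .ofNat (nat_lit 0)],
  [.negSucc (nat_lit 116448610776003071), .ofNat (nat_lit 0), .ofNat (nat_lit 0)]],
  [[.ofNat (nat_lit 0), .negSucc (nat_lit 3046422526098165791), .ofNat (nat_lit 0)],
  [.ofNat (nat_lit 0), .ofNat (nat_lit 8426281473737779968), .ofNat (nat_lit 0)]],
  [[.ofNat (nat_lit 0), .ofNat (nat_lit 2212436280520604160), .ofNat (nat_lit 0)],
  [.ofNat (nat_lit 0), .negSucc (nat_lit 4608936798316609535), .ofNat (nat_lit 0)]]],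
  [[[.negSucc (nat_lit 2656277164639739519), .ofNat (nat_lit 4526141824362538656), .ofNat (nat_lit 0)],
  [.ofNat (nat_lit 97040508980002560), .ofNat (nat_lit 0), .ofNat (nat_lit 0)]],
  [[.ofNat (nat_lit 0), .ofNat (nat_lit 3243440886506834976), .ofNat (nat_lit 0)],
  [.ofNat (nat_lit 0), .negSucc (nat_lit 7021901228114816639), .ofNat (nat_lit 0)]],
  [[.ofNat (nat_lit 0), .negSucc (nat_lit 1843696900433836799), .ofNat (nat_lit 0)],
  [.ofNat (nat_lit 0), .ofNat (nat_lit 3840780665263841280), .ofNat (nat_lit 0)]]],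
  [[[.ofNat (nat_lit 3062928561495721632), .negSucc (nat_lit 5451072703509724991), .ofNat (nat_lit 0)],
  []],
  [[.ofNat (nat_lit 0), .ofNat (nat_lit 199477242038778912), .ofNat (nat_lit 0)],
  []],
  [[],
  []]],
  [[[.negSucc (nat_lit 1157047875908199647), .ofNat (nat_lit 2092789082100436416), .ofNat (nat_lit 0)],
  []],
  [[.ofNat (nat_lit 0), .negSucc (nat_lit 703109172852704159), .ofNat (nat_lit 0)],
  []],
  [[],
  []]]],
  [[[[],
  []],
  [[],
  []],
  [[],
  []]],
  [[[.ofNat (nat_lit 22929377791804992), .negSucc (nat_lit 27430643827444895), .ofNat (nat_lit 0)],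
  [.negSucc (nat_lit 42966026584324703), .ofNat (nat_lit 0), .ofNat (nat_lit 0)]],
  [[.ofNat (nat_lit 0), .negSucc (nat_lit 1357169590048341599), .ofNat (nat_lit 0)],
  [.ofNat (nat_lit 0), .ofNat (nat_lit 2666790770747424192), .ofNat (nat_lit 0)]],
  [[.ofNat (nat_lit 0), .ofNat (nat_lit 1403600620191602688), .ofNat (nat_lit 0)],
  [.ofNat (nat_lit 0), .negSucc (nat_lit 3017440225867956191), .ofNat (nat_lit 0)]]],
  [[[],
  []],
  [[],
  []],
  [[],
  []]],
  [[[],
  []],
  [[],
  []],
  [[],
  []]],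
  [[[],
  []],
  [[],
  []],
  [[],
  []]],
  [[[],
  []],
  [[],
  []],
  [[],
  []]],
  [[[.negSucc (nat_lit 142066598334724511), .ofNat (nat_lit 4831590300458349600), .ofNat (nat_lit 0)],
  [.ofNat (nat_lit 257796159505948224), .ofNat (nat_lit 0), .ofNat (nat_lit 0)]],
  [[.ofNat (nat_lit 0), .ofNat (nat_lit 8589567346893323136), .ofNat (nat_lit 0)],
  [.ofNat (nat_lit 0), .negSucc (nat_lit 16000744624484545151), .ofNat (nat_lit 0)]],
  [[.ofNat (nat_lit 0), .negSucc (nat_lit 8421603721149616127), .ofNat (nat_lit 0)],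
  [.ofNat (nat_lit 0), .ofNat (nat_lit 18104641355207737152), .ofNat (nat_lit 0)]]],
  [[[.ofNat (nat_lit 169469849112509376), .negSucc (nat_lit 12813729623447251391), .ofNat (nat_lit 0)],
  [.negSucc (nat_lit 214830132921623519), .ofNat (nat_lit 0), .ofNat (nat_lit 0)]],
  [[.ofNat (nat_lit 0), .negSucc (nat_lit 6108214249372031423), .ofNat (nat_lit 0)],
  [.ofNat (nat_lit 0), .ofNat (nat_lit 13333953853737120960), .ofNat (nat_lit 0)]],
  [[.ofNat (nat_lit 0), .ofNat (nat_lit 7018003100958013440), .ofNat (nat_lit 0)],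
  [.ofNat (nat_lit 0), .negSucc (nat_lit 15087201129339780959), .ofNat (nat_lit 0)]]],
  [[[.negSucc (nat_lit 96174925555285151), .ofNat (nat_lit 11352133496139013152), .ofNat (nat_lit 0)],
  []],
  [[.ofNat (nat_lit 0), .negSucc (nat_lit 2694916821549173759), .ofNat (nat_lit 0)],
  []],
  [[],
  []]],
  [[[.ofNat (nat_lit 45842296985695296), .negSucc (nat_lit 3342563529322666463), .ofNat (nat_lit 0)],
  []],
  [[.ofNat (nat_lit 0), .ofNat (nat_lit 1570733314076223648), .ofNat (nat_lit 0)],
  []],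
  [[],
  []]]],
  [[[[],
  []],
  [[],
  []],
  [[],
  []]],
  [[[.negSucc (nat_lit 35062245210311135), .ofNat (nat_lit 12061644247230048), .ofNat (nat_lit 0)],
  [.ofNat (nat_lit 58296983689140480), .ofNat (nat_lit 0), .ofNat (nat_lit 0)]],
  [[.ofNat (nat_lit 0), .ofNat (nat_lit 714022445196660960), .ofNat (nat_lit 0)],
  [.ofNat (nat_lit 0), .negSucc (nat_lit 434495829829537439), .ofNat (nat_lit 0)]],
  [[.ofNat (nat_lit 0), .negSucc (nat_lit 523882498264432991), .ofNat (nat_lit 0)],
  [.ofNat (nat_lit 0), .ofNat (nat_lit 1208820431172121920), .ofNat (nat_lit 0)]]],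
  [[[],
  []],
  [[],
  []],
  [[],
  []]],
  [[[],
  []],
  [[],
  []],
  [[],
  []]],
  [[[],
  []],
  [[],
  []],
  [[],
  []]],
  [[[],
  []],
  [[],
  []],
  [[],
  []]],
  [[[],
  []],
  [[],
  []],
  [[],
  []]],
  [[[.ofNat (nat_lit 891475405766727840), .negSucc (nat_lit 1102031346107091455), .ofNat (nat_lit 0)],
  [.negSucc (nat_lit 408078885823983359), .ofNat (nat_lit 0), .ofNat (nat_lit 0)]],
  [[.ofNat (nat_lit 0), .negSucc (nat_lit 2481489387452265407), .ofNat (nat_lit 0)],
  [.ofNat (nat_lit 0), .ofNat (nat_lit 3041470808806762080), .ofNat (nat_lit 0)]],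
  [[.ofNat (nat_lit 0), .ofNat (nat_lit 3667177487851030944), .ofNat (nat_lit 0)],
  [.ofNat (nat_lit 0), .negSucc (nat_lit 8461743018204853439), .ofNat (nat_lit 0)]]],
  [[[.negSucc (nat_lit 1502452849850966591), .ofNat (nat_lit 2107569538236342528), .ofNat (nat_lit 0)],
  [.ofNat (nat_lit 349781902134842880), .ofNat (nat_lit 0), .ofNat (nat_lit 0)]],
  [[.ofNat (nat_lit 0), .negSucc (nat_lit 749200786668756863), .ofNat (nat_lit 0)],
  [.ofNat (nat_lit 0), .negSucc (nat_lit 2606974978977224639), .ofNat (nat_lit 0)]],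
  [[.ofNat (nat_lit 0), .negSucc (nat_lit 3143294989586597951), .ofNat (nat_lit 0)],
  [.ofNat (nat_lit 0), .ofNat (nat_lit 7252922587032731520), .ofNat (nat_lit 0)]]],
  [[[.ofNat (nat_lit 646039689294549888), .negSucc (nat_lit 1017599836376481119), .ofNat (nat_lit 0)],
  []],
  [[.ofNat (nat_lit 0), .ofNat (nat_lit 2516667728924361312), .ofNat (nat_lit 0)],
  []],
  [[],
  []]]],
  [[[[],
  []],
  [[],
  []],
  [[],
  []]],
  [[[.ofNat (nat_lit 3382206280825248), .negSucc (nat_lit 1189885076918495), .ofNat (nat_lit 0)],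
  [.negSucc (nat_lit 6757575397088255), .ofNat (nat_lit 0), .ofNat (nat_lit 0)]],
  [[.ofNat (nat_lit 0), .negSucc (nat_lit 205321254705155519), .ofNat (nat_lit 0)],
  [.ofNat (nat_lit 0), .ofNat (nat_lit 409679004720474144), .ofNat (nat_lit 0)]],
  [[.ofNat (nat_lit 0), .ofNat (nat_lit 194065331863048416), .ofNat (nat_lit 0)],
  [.ofNat (nat_lit 0), .negSucc (nat_lit 424264678856258975), .ofNat (nat_lit 0)]]],
  [[[],
  []],
  [[],
  []],
  [[],
  []]],
  [[[],
  []],
  [[],
  []],
  [[],
  []]],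
  [[[],
  []],
  [[],
  []],
  [[],
  []]],
  [[[],
  []],
  [[],
  []],
  [[],
  []]],
  [[[],
  []],
  [[],
  []],
  [[],
  []]],
  [[[],
  []],
  [[],
  []],
  [[],
  []]],
  [[[.negSucc (nat_lit 27057650246601983), .ofNat (nat_lit 9519080615347968), .ofNat (nat_lit 0)],
  [.ofNat (nat_lit 54060603176706048), .ofNat (nat_lit 0), .ofNat (nat_lit 0)]],
  [[.ofNat (nat_lit 0), .ofNat (nat_lit 1642570037641244160), .ofNat (nat_lit 0)],
  [.ofNat (nat_lit 0), .negSucc (nat_lit 3277432037763793151), .ofNat (nat_lit 0)]],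
  [[.ofNat (nat_lit 0), .negSucc (nat_lit 1552522654904387327), .ofNat (nat_lit 0)],
  [.ofNat (nat_lit 0), .ofNat (nat_lit 3394117430850071808), .ofNat (nat_lit 0)]]],
  [[[.ofNat (nat_lit 23675443965776736), .negSucc (nat_lit 8329195538429471), .ofNat (nat_lit 0)],
  [.negSucc (nat_lit 47303027779617791), .ofNat (nat_lit 0), .ofNat (nat_lit 0)]],
  [[.ofNat (nat_lit 0), .negSucc (nat_lit 1437248782936088639), .ofNat (nat_lit 0)],
  [.ofNat (nat_lit 0), .ofNat (nat_lit 2867753033043319008), .ofNat (nat_lit 0)]],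
  [[.ofNat (nat_lit 0), .ofNat (nat_lit 1358457323041338912), .ofNat (nat_lit 0)],
  [.ofNat (nat_lit 0), .negSucc (nat_lit 2969852751993812831), .ofNat (nat_lit 0)]]]],
  [[[[],
  []],
  [[],
  []],
  [[],
  []]],
  [[[.negSucc (nat_lit 3180470181275807), .ofNat (nat_lit 8889754067262720), .ofNat (nat_lit 0)],
  [.negSucc (nat_lit 10027713155032223), .ofNat (nat_lit 0), .ofNat (nat_lit 0)]],
  [[.ofNat (nat_lit 0), .ofNat (nat_lit 112065127929726336), .ofNat (nat_lit 0)],
  [.ofNat (nat_lit 0), .negSucc (nat_lit 619547682143088863), .ofNat (nat_lit 0)]],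
  [[.ofNat (nat_lit 0), .negSucc (nat_lit 207890909197745183), .ofNat (nat_lit 0)],
  [.ofNat (nat_lit 0), .ofNat (nat_lit 430097601390852384), .ofNat (nat_lit 0)]]],
  [[[],
  []],
  [[],
  []],
  [[],
  []]],
  [[[],
  []],
  [[],
  []],
  [[],
  []]],
  [[[],
  []],
  [[],
  []],
  [[],
  []]],
  [[[],
  []],
  [[],
  []],
  [[],
  []]],
  [[[],
  []],
  [[],
  []],
  [[],
  []]],
  [[[],
  []],
  [[],
  []],
  [[],
  []]],
  [[[.ofNat (nat_lit 25443761450206464), .negSucc (nat_lit 71118032538101759), .ofNat (nat_lit 0)],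
  [.ofNat (nat_lit 80221705240257792), .ofNat (nat_lit 0), .ofNat (nat_lit 0)]],
  [[.ofNat (nat_lit 0), .negSucc (nat_lit 896521023437810687), .ofNat (nat_lit 0)],
  [.ofNat (nat_lit 0), .ofNat (nat_lit 4956381457144710912), .ofNat (nat_lit 0)]],
  [[.ofNat (nat_lit 0), .ofNat (nat_lit 1663127273581961472), .ofNat (nat_lit 0)],
  [.ofNat (nat_lit 0), .negSucc (nat_lit 3440780811126819071), .ofNat (nat_lit 0)]]],
  [[[.negSucc (nat_lit 22263291268930655), .ofNat (nat_lit 62228278470839040), .ofNat (nat_lit 0)],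
  [.negSucc (nat_lit 70193992085225567), .ofNat (nat_lit 0), .ofNat (nat_lit 0)]],
  [[.ofNat (nat_lit 0), .ofNat (nat_lit 784455895508084352), .ofNat (nat_lit 0)],
  [.ofNat (nat_lit 0), .negSucc (nat_lit 4336833775001622047), .ofNat (nat_lit 0)]],
  [[.ofNat (nat_lit 0), .negSucc (nat_lit 1455236364384216287), .ofNat (nat_lit 0)],
  [.ofNat (nat_lit 0), .ofNat (nat_lit 3010683209735966688), .ofNat (nat_lit 0)]]]],
  [[[[],
  []],
  [[],
  []],
  [[],
  []]],
  [[[],
  []],
  [[],
  []],
  [[],
  []]],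
  [[[],
  []],
  [[],
  []],
  [[],
  []]],
  [[[],
  []],
  [[],
  []],
  [[],
  []]],
  [[[],
  []],
  [[],
  []],
  [[],
  []]],
  [[[],
  []],
  [[],
  []],
  [[],
  []]],
  [[[],
  []],
  [[],
  []],
  [[],
  []]],
  [[[],
  []],
  [[],
  []],
  [[],
  []]],
  [[[],
  []],
  [[],
  []],
  [[],
  []]],
  [[[],
  []],
  [[],
  []],
  [[],
  []]]],
  [[[[],
  []],
  [[],
  []],
  [[],
  []]],
  [[[],
  []],
  [[],
  []],
  [[],
  []]],
  [[[],
  []],
  [[],
  []],
  [[],
  []]],
  [[[],
  []],
  [[],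
  []],
  [[],
  []]],
  [[[],
  []],
  [[],
  []],
  [[],
  []]],
  [[[],
  []],
  [[],
  []],
  [[],
  []]],
  [[[],
  []],
  [[],
  []],
  [[],
  []]],
  [[[],
  []],
  [[],
  []],
  [[],
  []]],
  [[[],
  []],
  [[],
  []],
  [[],
  []]],
  [[[],
  []],
  [[],
  []],
  [[],
  []]]]]

noncomputable def BP5_tn : List (List ℕ) := [[nat_lit 16384, nat_lit 0, nat_lit 0],
  [nat_lit 32768, nat_lit 16384, nat_lit 0],
  [nat_lit 16384, nat_lit 16384, nat_lit 16384]]

noncomputable def BP5_zn : List (List ℕ) := [[nat_lit 18014398509481984, nat_lit 1125899906842624, nat_lit 70368744177664, nat_lit 4398046511104, nat_lit 274877906944, nat_lit 17179869184, nat_lit 1073741824, nat_lit 67108864, nat_lit 4194304, nat_lit 262144],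
  [nat_lit 162129586585337856, nat_lit 18577348462903296, nat_lit 1688849860263936, nat_lit 138538465099776, nat_lit 10720238370816, nat_lit 798863917056, nat_lit 57982058496, nat_lit 4127195136, nat_lit 289406976, nat_lit 20054016],
  [nat_lit 648518346341351424, nat_lit 108086391056891904, nat_lit 14935765951709184, nat_lit 1692148395147264, nat_lit 168637595910144, nat_lit 15436112461824, nat_lit 1331171426304, nat_lit 109873987584, nat_lit 8770289664, nat_lit 681836544],
  [nat_lit 1513209474796486656, nat_lit 331014572611731456, nat_lit 63173540085497856, nat_lit 10190823522041856, nat_lit 1367242709139456, nat_lit 159605279686656, nat_lit 16844593299456, nat_lit 1650097913856, nat_lit 152731385856, nat_lit 13523091456],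
  [nat_lit 2269814212194729984, nat_lit 614741349136072704, nat_lit 151099285935489024, nat_lit 32813825019346944, nat_lit 6097496350654464, nat_lit 947835931459584, nat_lit 127185457250304, nat_lit 15247683354624, nat_lit 1676863340544, nat_lit 172419416064],
  [nat_lit 2269814212194729984, nat_lit 732960839354548224, nat_lit 221292108252708864, nat_lit 61288427399675904, nat_lit 15165374903353344, nat_lit 3239294936285184, nat_lit 578808314855424, nat_lit 88495110488064, nat_lit 11954412847104, nat_lit 1465565036544],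
  [nat_lit 1513209474796486656, nat_lit 567453553048682496, nat_lit 203559184719937536, nat_lit 68995454154571776, nat_lit 21706318037385216, nat_lit 6173955358457856, nat_lit 1527939329949696, nat_lit 314493014900736, nat_lit 54714428030976, nat_lit 8304868540416],
  [nat_lit 648518346341351424, nat_lit 276971377083285504, nat_lit 115211226404880384, nat_lit 46346064378200064, nat_lit 17844146005868544, nat_lit 6472785224269824, nat_lit 2156523530747904, nat_lit 632007474806784, nat_lit 151860453310464, nat_lit 30253449682944],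
  [nat_lit 162129586585337856, nat_lit 77687093572141056, nat_lit 36785261018873856, nat_lit 17158978463072256, nat_lit 7849636848992256, nat_lit 3497519644409856, nat_lit 1500738597421056, nat_lit 607441813241856, nat_lit 221858631008256, nat_lit 64288580576256],
  [nat_lit 18014398509481984, nat_lit 9570149208162304, nat_lit 5084141766836224, nat_lit 2700950313631744, nat_lit 1434879854116864, nat_lit 762279922499584, nat_lit 404961208827904, nat_lit 215135642189824, nat_lit 114290809913344, nat_lit 60716992766464],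
  [nat_lit 18014398509481984, nat_lit 9570149208162304, nat_lit 5084141766836224, nat_lit 2700950313631744, nat_lit 1434879854116864, nat_lit 762279922499584, nat_lit 404961208827904, nat_lit 215135642189824, nat_lit 114290809913344, nat_lit 60716992766464],
  [nat_lit 162129586585337856, nat_lit 94575592174780416, nat_lit 54729290784178176, nat_lit 31458127182299136, nat_lit 17978200525111296, nat_lit 10223518960582656, nat_lit 5788563161481216, nat_lit 3264999746174976, nat_lit 1835375947431936, nat_lit 1028617289220096],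
  [nat_lit 648518346341351424, nat_lit 412079365904400384, nat_lit 258763464527314944, nat_lit 160739254132015104, nat_lit 98872655414820864, nat_lit 60280779753652224, nat_lit 36459120043229184, nat_lit 21892470938271744, nat_lit 13059998984699904, nat_lit 7744883118833664],
  [nat_lit 1513209474796486656, nat_lit 1040331513922584576, nat_lit 705992018148458496, nat_lit 473082470036668416, nat_lit 313191660924174336, nat_lit 204974945527136256, nat_lit 132714599521714176, nat_lit 85071280100868096, nat_lit 54026589507158016, nat_lit 34016741541543936],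
  [nat_lit 2269814212194729984, nat_lit 1678716761102352384, nat_lit 1226157775109750784, nat_lit 884305866138845184, nat_lit 629678300498755584, nat_lit 442733312537001984, nat_lit 307462418290704384, nat_lit 210982729137782784, nat_lit 143129265448157184, nat_lit 96047270234947584],
  [nat_lit 2269814212194729984, nat_lit 1796936251320827904, nat_lit 1407181369506791424, nat_lit 1089417011521388544, nat_lit 833380353010827264, nat_lit 629678300498755584, nat_lit 469787491386261504, nat_lit 346054293951873024, nat_lit 251694807351558144, nat_lit 180794861618724864],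
  [nat_lit 1513209474796486656, nat_lit 1276770494359535616, nat_lit 1068039206942539776, nat_lit 885160186673627136, nat_lit 726278007680925696, nat_lit 589537244092563456, nat_lit 473082470036668416, nat_lit 375058259641368576, nat_lit 293609187034791936, nat_lit 226879826345066496],
  [nat_lit 648518346341351424, nat_lit 580964351930793984, nat_lit 517368599380230144, nat_lit 457731088689659904, nat_lit 402051819859083264, nat_lit 350330792888500224, nat_lit 302568007777910784, nat_lit 258763464527314944, nat_lit 218917163136712704, nat_lit 183029103606104064],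
  [nat_lit 162129586585337856, nat_lit 153685337284018176, nat_lit 145241087982698496, nat_lit 136796838681378816, nat_lit 128352589380059136, nat_lit 119908340078739456, nat_lit 111464090777419776, nat_lit 103019841476100096, nat_lit 94575592174780416, nat_lit 86131342873460736],
  [nat_lit 18014398509481984, nat_lit 18014398509481984, nat_lit 18014398509481984, nat_lit 18014398509481984, nat_lit 18014398509481984, nat_lit 18014398509481984, nat_lit 18014398509481984, nat_lit 18014398509481984, nat_lit 18014398509481984, nat_lit 18014398509481984],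
  [nat_lit 18014398509481984, nat_lit 18014398509481984, nat_lit 18014398509481984, nat_lit 18014398509481984, nat_lit 18014398509481984, nat_lit 18014398509481984, nat_lit 18014398509481984, nat_lit 18014398509481984, nat_lit 18014398509481984, nat_lit 18014398509481984],
  [nat_lit 162129586585337856, nat_lit 170573835886657536, nat_lit 179018085187977216, nat_lit 187462334489296896, nat_lit 195906583790616576, nat_lit 204350833091936256, nat_lit 212795082393255936, nat_lit 221239331694575616, nat_lit 229683580995895296, nat_lit 238127830297214976],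
  [nat_lit 648518346341351424, nat_lit 716072340751908864, nat_lit 787584577022459904, nat_lit 863055055153004544, nat_lit 942483775143542784, nat_lit 1025870736994074624, nat_lit 1113215940704600064, nat_lit 1204519386275119104, nat_lit 1299781073705631744, nat_lit 1399001002996137984],
  [nat_lit 1513209474796486656, nat_lit 1749648455233437696, nat_lit 2013795128690343936, nat_lit 2307504921039077376, nat_lit 2632633258151510016, nat_lit 2991035565899513856, nat_lit 3384567270154960896, nat_lit 3815083796789723136, nat_lit 4284440571675672576, nat_lit 4794493020684681216],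
  [nat_lit 2269814212194729984, nat_lit 2742692173068632064, nat_lit 3298693213002399744, nat_lit 3948949887227265024, nat_lit 4705464481851899904, nat_lit 5581109013862416384, nat_lit 6589625231122366464, nat_lit 7745624612372742144, nat_lit 9064588367231975424, nat_lit 10562867436195938304],
  [nat_lit 2269814212194729984, nat_lit 2860911663287107584, nat_lit 3590547579479261184, nat_lit 4486553348849270784, nat_lit 5581109013862416384, nat_lit 6911150957719977984, nat_lit 8518779590708035584, nat_lit 10451667036546269184, nat_lit 12763464818736758784, nat_lit 15514211546912784384],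
  [nat_lit 1513209474796486656, nat_lit 1986087435670388736, nat_lit 2597503861644066816, nat_lit 3384567270154960896, nat_lit 4393083487414910976, nat_lit 5679186393805357056, nat_lit 7311159772248539136, nat_lit 9371450259554697216, nat_lit 11958871400745271296, nat_lit 15190998806352101376],
  [nat_lit 648518346341351424, nat_lit 884957326778302464, nat_lit 1204519386275119104, nat_lit 1635035912909881344, nat_lit 2213035603535069184, nat_lit 2986190581870362624, nat_lit 4016335825523441664, nat_lit 5383151481458786304, nat_lit 7188597649434476544, nat_lit 9562191212926992384],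
  [nat_lit 162129586585337856, nat_lit 229683580995895296, nat_lit 324945268426407936, nat_lit 459047204108107776, nat_lit 647470597659426816, nat_lit 911676058481197056, nat_lit 1281307650079850496, nat_lit 1797149412358619136, nat_lit 2515055501316734976, nat_lit 3511117085996630016],
  [nat_lit 18014398509481984, nat_lit 26458647810801664, nat_lit 38861138972114944, nat_lit 57077297865293824, nat_lit 83832281239650304, nat_lit 123128663070736384, nat_lit 180845223885144064, nat_lit 265616422581305344, nat_lit 390124120666292224, nat_lit 572994802228616704]]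

noncomputable def BP5_sn : List (List ℕ) := [[nat_lit 4096, nat_lit 0, nat_lit 0],
  [nat_lit 8192, nat_lit 1536, nat_lit 0],
  [nat_lit 4096, nat_lit 1536, nat_lit 576]]

noncomputable def BP5_en : List (List ℕ) := [[nat_lit 18446744073709551616, nat_lit 8070450532247928832, nat_lit 3530822107858468864, nat_lit 1544734672188080128, nat_lit 675821419082285056, nat_lit 295671870848499712, nat_lit 129356443496218624, nat_lit 56593444029595648, nat_lit 24759631762948096],
  [nat_lit 147573952589676412928, nat_lit 65140065010286854144, nat_lit 28750980021133246464, nat_lit 12688891950116372480, nat_lit 5599663186681790464, nat_lit 2470972063519604736, nat_lit 1090290023753842688, nat_lit 481044274251563008, nat_lit 212225415110983680],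
  [nat_lit 516508834063867445248, nat_lit 230007840169065971712, nat_lit 102411855526405079040, nat_lit 45593316727592058880, nat_lit 20295330983256784896, nat_lit 9033077360412327936, nat_lit 4019949476201365504, nat_lit 1788757070221148160, nat_lit 795845306666188800],
  [nat_lit 1033017668127734890496, nat_lit 464050905604255907840, nat_lit 208426590754706554880, nat_lit 93598874005594439680, nat_lit 42026043610249560064, nat_lit 18866753117473472512, nat_lit 8468510025386557440, nat_lit 3800567382854860800, nat_lit 1705382799998976000],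
  [nat_lit 1291272085159668613120, nat_lit 585107663587974840320, nat_lit 265081874067027394560, nat_lit 120074410314998743040, nat_lit 54380983092684783616, nat_lit 24624634927880601600, nat_lit 11148558279376896000, nat_lit 5046540938772480000, nat_lit 2283994821427200000],
  [nat_lit 1033017668127734890496, nat_lit 472121356136503836672, nat_lit 215740436549556240384, nat_lit 98569159144351203328, nat_lit 45027903868124528640, nat_lit 20566158839119872000, nat_lit 9391933835182080000, nat_lit 4288316807577600000, nat_lit 1957709846937600000],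
  [nat_lit 516508834063867445248, nat_lit 238078290701313900544, nat_lit 109725701321254764544, nat_lit 50564164816302243840, nat_lit 23298211587922329600, nat_lit 10733638668779520000, nat_lit 4944420038246400000, nat_lit 2277335944396800000, nat_lit 1048773132288000000],
  [nat_lit 147573952589676412928, nat_lit 68598829524107395072, nat_lit 31885485361783111680, nat_lit 14819657523816038400, nat_lit 6887340836388864000, nat_lit 3200609628979200000, nat_lit 1487239800422400000, nat_lit 691028361216000000, nat_lit 321052999680000000],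
  [nat_lit 18446744073709551616, nat_lit 8646911284551352320, nat_lit 4053239664633446400, nat_lit 1899956092796928000, nat_lit 890604418498560000, nat_lit 417470821171200000, nat_lit 195689447424000000, nat_lit 91729428480000000, nat_lit 42998169600000000]]

noncomputable def BP5_en1 : List (List ℕ) := [[nat_lit 256, nat_lit 112],
  [nat_lit 256, nat_lit 120]]


end Crest.Agent.R163.Ck
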