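import Crest.Agent.R163.BP6D

/-! Row 163: Bellman certificate, kernel checks (generated). -/

set_option autoImplicit false
set_option Elab.async false
set_option maxRecDepth 100000

namespace Crest.Agent.R163.Ck

theorem BP6_p0_0_0 : pcAll 288 BP6_A B9m1b_288_degs B9m1b_288_rp 10 B9m1b_288_cp B9m1b_288_rw BP6_tn (chunk 10 0 B9m1b_288_sw)
    (chunk 1 0 BP6_en) (chunk 1 0 BP6_sn) = true := by decide +kernel

theorem BP6_p0_1_0 : pcAll 288 BP6_A B9m1b_288_degs B9m1b_288_rp 10 B9m1b_288_cp B9m1b_288_rw BP6_tn (chunk 10 0 B9m1b_288_sw)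
    (chunk 1 1 BP6_en) (chunk 1 0 BP6_sn) = true := by decide +kernel

theorem BP6_p0_2_0 : pcAll 288 BP6_A B9m1b_288_degs B9m1b_288_rp 10 B9m1b_288_cp B9m1b_288_rw BP6_tn (chunk 10 0 B9m1b_288_sw)
    (chunk 1 2 BP6_en) (chunk 1 0 BP6_sn) = true := by decide +kernel

theorem BP6_p0_3_0 : pcAll 288 BP6_A B9m1b_288_degs B9m1b_288_rp 10 B9m1b_288_cp B9m1b_288_rw BP6_tn (chunk 10 0 B9m1b_288_sw)
    (chunk 1 3 BP6_en) (chunk 1 0 BP6_sn) = true := by decide +kernel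

theorem BP6_p0_4_0 : pcAll 288 BP6_A B9m1b_288_degs B9m1b_288_rp 10 B9m1b_288_cp B9m1b_288_rw BP6_tn (chunk 10 0 B9m1b_288_sw)
    (chunk 1 4 BP6_en) (chunk 1 0 BP6_sn) = true := by decide +kernel

theorem BP6_p0_5_0 : pcAll 288 BP6_A B9m1b_288_degs B9m1b_288_rp 10 B9m1b_288_cp B9m1b_288_rw BP6_tn (chunk 10 0 B9m1b_288_sw)
    (chunk 1 5 BP6_en) (chunk 1 0 BP6_sn) = true := by decide +kernel

theorem BP6_p0_6_0 : pcAll 288 BP6_A B9m1b_288_degs B9m1b_288_rp 10 B9m1b_288_cp B9m1b_288_rw BP6_tn (chunk 10 0 B9m1b_288_sw)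
    (chunk 1 6 BP6_en) (chunk 1 0 BP6_sn) = true := by decide +kernel

theorem BP6_p0_7_0 : pcAll 288 BP6_A B9m1b_288_degs B9m1b_288_rp 10 B9m1b_288_cp B9m1b_288_rw BP6_tn (chunk 10 0 B9m1b_288_sw)
    (chunk 1 7 BP6_en) (chunk 1 0 BP6_sn) = true := by decide +kernel

theorem BP6_p0_8_0 : pcAll 288 BP6_A B9m1b_288_degs B9m1b_288_rp 10 B9m1b_288_cp B9m1b_288_rw BP6_tn (chunk 10 0 B9m1b_288_sw)
    (chunk 1 8 BP6_en) (chunk 1 0 BP6_sn) = true := by decide +kernel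

theorem BP6_p1_0_0 : pcAll 288 BP6_A B9m1b_288_degs B9m1b_288_rp 10 B9m1b_288_cp B9m1b_288_rw BP6_tn (chunk 10 0 B9m1b_288_sw)
    (chunk 1 0 BP6_en) (chunk 1 1 BP6_sn) = true := by decide +kernel

theorem BP6_p1_1_0 : pcAll 288 BP6_A B9m1b_288_degs B9m1b_288_rp 10 B9m1b_288_cp B9m1b_288_rw BP6_tn (chunk 10 0 B9m1b_288_sw)
    (chunk 1 1 BP6_en) (chunk 1 1 BP6_sn) = true := by decide +kernel

theorem BP6_p1_2_0 : pcAll 288 BP6_A B9m1b_288_degs B9m1b_288_rp 10 B9m1b_288_cp B9m1b_288_rw BP6_tn (chunk 10 0 B9m1b_288_sw)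
    (chunk 1 2 BP6_en) (chunk 1 1 BP6_sn) = true := by decide +kernel

theorem BP6_p1_3_0 : pcAll 288 BP6_A B9m1b_288_degs B9m1b_288_rp 10 B9m1b_288_cp B9m1b_288_rw BP6_tn (chunk 10 0 B9m1b_288_sw)
    (chunk 1 3 BP6_en) (chunk 1 1 BP6_sn) = true := by decide +kernel

theorem BP6_p1_4_0 : pcAll 288 BP6_A B9m1b_288_degs B9m1b_288_rp 10 B9m1b_288_cp B9m1b_288_rw BP6_tn (chunk 10 0 B9m1b_288_sw)
    (chunk 1 4 BP6_en) (chunk 1 1 BP6_sn) = true := by decide +kernel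

theorem BP6_p1_5_0 : pcAll 288 BP6_A B9m1b_288_degs B9m1b_288_rp 10 B9m1b_288_cp B9m1b_288_rw BP6_tn (chunk 10 0 B9m1b_288_sw)
    (chunk 1 5 BP6_en) (chunk 1 1 BP6_sn) = true := by decide +kernel

theorem BP6_p1_6_0 : pcAll 288 BP6_A B9m1b_288_degs B9m1b_288_rp 10 B9m1b_288_cp B9m1b_288_rw BP6_tn (chunk 10 0 B9m1b_288_sw)
    (chunk 1 6 BP6_en) (chunk 1 1 BP6_sn) = true := by decide +kernel

theorem BP6_p1_7_0 : pcAll 288 BP6_A B9m1b_288_degs B9m1b_288_rp 10 B9m1b_288_cp B9m1b_288_rw BP6_tn (chunk 10 0 B9m1b_288_sw)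
    (chunk 1 7 BP6_en) (chunk 1 1 BP6_sn) = true := by decide +kernel

theorem BP6_p1_8_0 : pcAll 288 BP6_A B9m1b_288_degs B9m1b_288_rp 10 B9m1b_288_cp B9m1b_288_rw BP6_tn (chunk 10 0 B9m1b_288_sw)
    (chunk 1 8 BP6_en) (chunk 1 1 BP6_sn) = true := by decide +kernel

theorem BP6_p2_0_0 : pcAll 288 BP6_A B9m1b_288_degs B9m1b_288_rp 10 B9m1b_288_cp B9m1b_288_rw BP6_tn (chunk 10 0 B9m1b_288_sw)
    (chunk 1 0 BP6_en) (chunk 1 2 BP6_sn) = true := by decide +kernel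

theorem BP6_p2_1_0 : pcAll 288 BP6_A B9m1b_288_degs B9m1b_288_rp 10 B9m1b_288_cp B9m1b_288_rw BP6_tn (chunk 10 0 B9m1b_288_sw)
    (chunk 1 1 BP6_en) (chunk 1 2 BP6_sn) = true := by decide +kernel

theorem BP6_p2_2_0 : pcAll 288 BP6_A B9m1b_288_degs B9m1b_288_rp 10 B9m1b_288_cp B9m1b_288_rw BP6_tn (chunk 10 0 B9m1b_288_sw)
    (chunk 1 2 BP6_en) (chunk 1 2 BP6_sn) = true := by decide +kernel

theorem BP6_p2_3_0 : pcAll 288 BP6_A B9m1b_288_degs B9m1b_288_rp 10 B9m1b_288_cp B9m1b_288_rw BP6_tn (chunk 10 0 B9m1b_288_sw)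
    (chunk 1 3 BP6_en) (chunk 1 2 BP6_sn) = true := by decide +kernel

theorem BP6_p2_4_0 : pcAll 288 BP6_A B9m1b_288_degs B9m1b_288_rp 10 B9m1b_288_cp B9m1b_288_rw BP6_tn (chunk 10 0 B9m1b_288_sw)
    (chunk 1 4 BP6_en) (chunk 1 2 BP6_sn) = true := by decide +kernel

theorem BP6_p2_5_0 : pcAll 288 BP6_A B9m1b_288_degs B9m1b_288_rp 10 B9m1b_288_cp B9m1b_288_rw BP6_tn (chunk 10 0 B9m1b_288_sw)
    (chunk 1 5 BP6_en) (chunk 1 2 BP6_sn) = true := by decide +kernel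

theorem BP6_p2_6_0 : pcAll 288 BP6_A B9m1b_288_degs B9m1b_288_rp 10 B9m1b_288_cp B9m1b_288_rw BP6_tn (chunk 10 0 B9m1b_288_sw)
    (chunk 1 6 BP6_en) (chunk 1 2 BP6_sn) = true := by decide +kernel

theorem BP6_p2_7_0 : pcAll 288 BP6_A B9m1b_288_degs B9m1b_288_rp 10 B9m1b_288_cp B9m1b_288_rw BP6_tn (chunk 10 0 B9m1b_288_sw)
    (chunk 1 7 BP6_en) (chunk 1 2 BP6_sn) = true := by decide +kernel

theorem BP6_p2_8_0 : pcAll 288 BP6_A B9m1b_288_degs B9m1b_288_rp 10 B9m1b_288_cp B9m1b_288_rw BP6_tn (chunk 10 0 B9m1b_288_sw)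
    (chunk 1 8 BP6_en) (chunk 1 2 BP6_sn) = true := by decide +kernel

theorem BP6_e0_0 : ecAll 288 BP6_E B9m1b_288_degs B9m1b_288_re 15 B9m1b_288_ce BP6_zn (chunk 1 0 BP6_tn) BP6_en1
    (chunk 1 0 BP6_sn) = true := by decide +kernel

theorem BP6_e0_1 : ecAll 288 BP6_E B9m1b_288_degs B9m1b_288_re 15 B9m1b_288_ce BP6_zn (chunk 1 1 BP6_tn) BP6_en1
    (chunk 1 0 BP6_sn) = true := by decide +kernel

theorem BP6_e0_2 : ecAll 288 BP6_E B9m1b_288_degs B9m1b_288_re 15 B9m1b_288_ce BP6_zn (chunk 1 2 BP6_tn) BP6_en1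
    (chunk 1 0 BP6_sn) = true := by decide +kernel

theorem BP6_e1_0 : ecAll 288 BP6_E B9m1b_288_degs B9m1b_288_re 15 B9m1b_288_ce BP6_zn (chunk 1 0 BP6_tn) BP6_en1
    (chunk 1 1 BP6_sn) = true := by decide +kernel

theorem BP6_e1_1 : ecAll 288 BP6_E B9m1b_288_degs B9m1b_288_re 15 B9m1b_288_ce BP6_zn (chunk 1 1 BP6_tn) BP6_en1
    (chunk 1 1 BP6_sn) = true := by decide +kernel

theorem BP6_e1_2 : ecAll 288 BP6_E B9m1b_288_degs B9m1b_288_re 15 B9m1b_288_ce BP6_zn (chunk 1 2 BP6_tn) BP6_en1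
    (chunk 1 1 BP6_sn) = true := by decide +kernel

theorem BP6_e2_0 : ecAll 288 BP6_E B9m1b_288_degs B9m1b_288_re 15 B9m1b_288_ce BP6_zn (chunk 1 0 BP6_tn) BP6_en1
    (chunk 1 2 BP6_sn) = true := by decide +kernel

theorem BP6_e2_1 : ecAll 288 BP6_E B9m1b_288_degs B9m1b_288_re 15 B9m1b_288_ce BP6_zn (chunk 1 1 BP6_tn) BP6_en1
    (chunk 1 2 BP6_sn) = true := by decide +kernel

theorem BP6_e2_2 : ecAll 288 BP6_E B9m1b_288_degs B9m1b_288_re 15 B9m1b_288_ce BP6_zn (chunk 1 2 BP6_tn) BP6_en1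
    (chunk 1 2 BP6_sn) = true := by decide +kernel

theorem BP6_A_eq : BP6.arrP = BP6_A := by decide +kernel

theorem BP6_E_eq : BP6.arrE = BP6_E := by decide +kernel

theorem BP6_G : sc BP6.arrG BP6_en1 BP6_sn = true := by decide +kernel


end Crest.Agent.R163.Ck
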