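import Crest.Agent.R163.B9m1b_288D

/-! Row 163: Bellman certificate, data (generated). -/

set_option autoImplicit false
set_option Elab.async false
set_option maxRecDepth 100000

namespace Crest.Agent.R163.Ck

noncomputable def BP6 : Bell := ⟨false, 9, 3, 3, 2, 9, 32, fs3_9, lams3_9, TT3_9,
  [[[[.ofNat (nat_lit 19356626623626315), .negSucc (nat_lit 4052196976960916), .negSucc (nat_lit 163672708091603813), .ofNat (nat_lit 530347021638948), .ofNat (nat_lit 400335791711403384), .ofNat (nat_lit 230648347962059724), .ofNat (nat_lit 2380277956870323), .negSucc (nat_lit 297198667226588237), .negSucc (nat_lit 228460895328869891), .negSucc (nat_lit 785248838461549007), .negSucc (nat_lit 2127498157360853), .ofNat (nat_lit 142591747733093016), .ofNat (nat_lit 273374378478374796), .ofNat (nat_lit 512850167666723106), .ofNat (nat_lit 661278182834944584), .ofNat (nat_lit 690362509633938), .negSucc (nat_lit 43582931291384063), .negSucc (nat_lit 99830792668908941), .negSucc (nat_lit 211977306130812587),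 .negSucc (nat_lit 61269576980656265), .negSucc (nat_lit 609232471924071851), .negSucc (nat_lit 90029623183528517), .negSucc (nat_lit 69844841572166), .ofNat (nat_lit 8116763330096046), .ofNat (nat_lit 22365249076070244), .ofNat (nat_lit 54795086262899118), .ofNat (nat_lit 31040041299813252), .ofNat (nat_lit 167483240506468944), .ofNat (nat_lit 95055845989807026), .ofNat (nat_lit 33544935468800784), .negSucc (nat_lit 6426801571799), .negSucc (nat_lit 832070967338657), .negSucc (nat_lit 2832962832610889), .negSucc (nat_lit 8189376202399631), .negSucc (nat_lit 4274335827163253), .negSucc (nat_lit 25590928925499659), .negSucc (nat_lit 2465420071499165), .negSucc (nat_lit 32425523448993329), .ofNat (nat_lit 3447577770652422), .ofNat (nat_lit 15110955528758094), .ofNat (nat_lit 1223442046066), .ofNat (nat_lit 35554732288680), .ofNat (nat_lit 154500947298696), .ofNat (nat_lit 547606263894300), .ofNat (nat_lit 251486872752624), .ofNat (nat_lit 1740290274822648), .ofNat (nat_lit 328301050061148),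 .ofNat (nat_lit 2121704413809072), .negSucc (nat_lit 1054611414663875), .ofNat (nat_lit 1500813934038936), .negSucc (nat_lit 5464037678807279), .negSucc (nat_lit 1788362228331567)],
  [.ofNat (nat_lit 0), .ofNat (nat_lit 0), .ofNat (nat_lit 0), .ofNat (nat_lit 0), .ofNat (nat_lit 0), .ofNat (nat_lit 0), .negSucc (nat_lit 493264273936031), .ofNat (nat_lit 1973057095744128), .negSucc (nat_lit 1479792821808095), .ofNat (nat_lit 0), .ofNat (nat_lit 655677880376868), .negSucc (nat_lit 2908441196432315), .ofNat (nat_lit 1311355760753736), .ofNat (nat_lit 3765630221206848), .negSucc (nat_lit 2824222665905135), .ofNat (nat_lit 3552030895464), .negSucc (nat_lit 447201634887071), .ofNat (nat_lit 1029545713018908), .ofNat (nat_lit 1153181997984492), .negSucc (nat_lit 160006659513011), .negSucc (nat_lit 4009921794026135), .ofNat (nat_lit 2430850346527356), .negSucc (nat_lit 153084861576467), .ofNat (nat_lit 950331380423976), .negSucc (nat_lit 939132796549661), .negSucc (nat_lit 1548073392888365), .ofNat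 (nat_lit 326793350243790), .ofNat (nat_lit 3212237045763090), .negSucc (nat_lit 1410439767777809), .negSucc (nat_lit 438630957638549), .ofNat (nat_lit 45991503610992), .negSucc (nat_lit 271362904854191), .ofNat (nat_lit 227597449626144), .ofNat (nat_lit 384180783245424), .ofNat (nat_lit 25555008026880), .negSucc (nat_lit 573127605533807), .negSucc (nat_lit 124350180443567), .ofNat (nat_lit 384180783245424), .negSucc (nat_lit 295994510769887), .ofNat (nat_lit 197329673846592), .negSucc (nat_lit 4025523716591), .ofNat (nat_lit 24153142299552), .negSucc (nat_lit 15401070068327), .negSucc (nat_lit 32905214530775), .negSucc (nat_lit 17504144462447), .ofNat (nat_lit 17504144462448), .ofNat (nat_lit 8752072231224), .ofNat (nat_lit 160319923865640), .ofNat (nat_lit 0), .negSucc (nat_lit 75783925817207), .negSucc (nat_lit 195328212790535), .ofNat (nat_lit 130218808527024)]],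
  [[.ofNat (nat_lit 1913910566897331), .ofNat (nat_lit 16429979560821219), .ofNat (nat_lit 32024342370835476), .negSucc (nat_lit 3490338159340316), .negSucc (nat_lit 298146335490198233), .negSucc (nat_lit 88090216767051731), .negSucc (nat_lit 6426128819457080), .ofNat (nat_lit 271422630870297804), .ofNat (nat_lit 229924026822894858), .ofNat (nat_lit 550625477245522308), .ofNat (nat_lit 5563697827358736), .negSucc (nat_lit 156226130261240417), .negSucc (nat_lit 191253930700697009), .negSucc (nat_lit 422042019945852851), .negSucc (nat_lit 458502400400772005), .negSucc (nat_lit 2042566727695154), .ofNat (nat_lit 62848574677126278), .ofNat (nat_lit 30205378402685838), .ofNat (nat_lit 222769163981409966), .negSucc (nat_lit 23877567094975541), .ofNat (nat_lit 121001201699427306), .ofNat (nat_lit 33896889769822776), .ofNat (nat_lit 398533026085038), .negSucc (nat_lit 15932882483630621), .negSucc (nat_lit 2615626269968489), .negSucc (nat_lit 83783181135982859), .ofNat (nat_lit 53950101589256292),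 .ofNat (nat_lit 71461930286391210), .ofNat (nat_lit 142675026438738060), .ofNat (nat_lit 147036423997461420), .negSucc (nat_lit 40304497928192), .ofNat (nat_lit 2189675483947638), .ofNat (nat_lit 634226440143708), .ofNat (nat_lit 18023548957671330), .negSucc (nat_lit 12249945863022005), .negSucc (nat_lit 18230341678881227), .negSucc (nat_lit 10022726897702297), .negSucc (nat_lit 123917084246048813), .negSucc (nat_lit 81841111488236105), .negSucc (nat_lit 89346903458757587), .ofNat (nat_lit 1656972323842), .negSucc (nat_lit 121671180653243), .negSucc (nat_lit 91650681302117), .negSucc (nat_lit 1584108743989427), .ofNat (nat_lit 892284877027266), .ofNat (nat_lit 485818119210234), .ofNat (nat_lit 1908740397889212), .ofNat (nat_lit 14318471024615472), .ofNat (nat_lit 11430361065588084), .ofNat (nat_lit 10613684661428970), .ofNat (nat_lit 32222293902003084), .ofNat (nat_lit 3007121958502586)],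
  []],
  [[],
  []]],
  [[[],
  []],
  [[.ofNat (nat_lit 38093268375829773), .negSucc (nat_lit 86307109615545092), .ofNat (nat_lit 293370355022152428), .ofNat (nat_lit 89957095673424165), .negSucc (nat_lit 1244263991823036719), .negSucc (nat_lit 1624567141622470301), .negSucc (nat_lit 57628618078315463), .ofNat (nat_lit 1087675027487551980), .ofNat (nat_lit 1195376790876838272), .ofNat (nat_lit 8100709567722798228), .ofNat (nat_lit 25828431964463799), .negSucc (nat_lit 503894937045374567), .negSucc (nat_lit 1842264280700556569), .negSucc (nat_lit 5933439681167454317), .negSucc (nat_lit 11607730352491121387), .negSucc (nat_lit 6567761279143403), .ofNat (nat_lit 120569606748285966), .ofNat (nat_lit 681036488452629792), .ofNat (nat_lit 2370479598230281524), .ofNat (nat_lit 640542956600701962), .ofNat (nat_lit 13931647277199791814), .ofNat (nat_lit 4615663960797453450), .ofNat (nat_lit 452532074147424), .negSucc (nat_lit 10660752081533591), .negSucc (nat_lit 152660903975501993), .negSucc (nat_lit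 504319260365128799), .negSucc (nat_lit 361881521959150925), .negSucc (nat_lit 4196998381753642265), .negSucc (nat_lit 3314938016158850969), .negSucc (nat_lit 6333581766963114665), .ofNat (nat_lit 126258824037633), .negSucc (nat_lit 821875262617829), .ofNat (nat_lit 26630019304315032), .ofNat (nat_lit 46768506124625958), .ofNat (nat_lit 34489384607373414), .ofNat (nat_lit 619908138376211196), .ofNat (nat_lit 43523145047395302), .ofNat (nat_lit 1387199458462711998), .ofNat (nat_lit 1291666454412246990), .ofNat (nat_lit 1973965071714663288), .negSucc (nat_lit 18923219798266), .ofNat (nat_lit 162678987787584), .negSucc (nat_lit 2688657847254311), .negSucc (nat_lit 704461598663093), .ofNat (nat_lit 134751902599644), .negSucc (nat_lit 35330717374883105), .negSucc (nat_lit 6103684900481789), .negSucc (nat_lit 101664750596147795), .negSucc (nat_lit 99902850308066285), .negSucc (nat_lit 78620935764095549), .negSucc (nat_lit 409810229440602257), .negSucc (nat_lit 98605261597767285)],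
  [.ofNat (nat_lit 0), .negSucc (nat_lit 11792845056845339), .ofNat (nat_lit 11792845056845340), .negSucc (nat_lit 12805270676155295), .ofNat (nat_lit 44312234556888558), .negSucc (nat_lit 31506963880733261), .ofNat (nat_lit 21318511409941284), .negSucc (nat_lit 75426882404901011), .ofNat (nat_lit 44261207760095604), .ofNat (nat_lit 9847163234864124), .negSucc (nat_lit 12693439502931743), .ofNat (nat_lit 49940104765918788), .negSucc (nat_lit 25386879005863487), .negSucc (nat_lit 47439145028494223), .ofNat (nat_lit 35579358771370668), .ofNat (nat_lit 683122934113848), .ofNat (nat_lit 2448789264664992), .ofNat (nat_lit 122392631370467988), .negSucc (nat_lit 144883421705500667), .negSucc (nat_lit 132072070438594907), .ofNat (nat_lit 315956950888393656), .negSucc (nat_lit 164526002313544907), .ofNat (nat_lit 1886652182648844), .negSucc (nat_lit 11957076926595647), .negSucc (nat_lit 25084282738062833), .ofNat (nat_lit 57207048462010998), .ofNat (nat_lit 32630891468658210), .negSucc (nat_lit 79921392582173849),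 .negSucc (nat_lit 16825992248388149), .ofNat (nat_lit 42064152381902430), .negSucc (nat_lit 622329410342687), .ofNat (nat_lit 3718501512455712), .negSucc (nat_lit 14147523893543231), .ofNat (nat_lit 5543236795948512), .ofNat (nat_lit 32578150812749184), .negSucc (nat_lit 24190513009560287), .negSucc (nat_lit 20266665251033183), .ofNat (nat_lit 5543236795948512), .ofNat (nat_lit 35531716942132416), .negSucc (nat_lit 23687811294754943), .ofNat (nat_lit 58999739238832), .negSucc (nat_lit 353998435432991), .ofNat (nat_lit 3409337210817216), .negSucc (nat_lit 2701340339951231), .negSucc (nat_lit 6110677550768447), .ofNat (nat_lit 6110677550768448), .ofNat (nat_lit 3055338775384224), .negSucc (nat_lit 5533327823415167), .ofNat (nat_lit 0), .ofNat (nat_lit 4294333299399696), .negSucc (nat_lit 6688027278121727), .ofNat (nat_lit 4458684852081152)]],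
  [[.ofNat (nat_lit 1443033129867363), .ofNat (nat_lit 0), .ofNat (nat_lit 0), .ofNat (nat_lit 0), .ofNat (nat_lit 0), .ofNat (nat_lit 0), .ofNat (nat_lit 0), .ofNat (nat_lit 0), .ofNat (nat_lit 0), .ofNat (nat_lit 0), .ofNat (nat_lit 0), .ofNat (nat_lit 0), .ofNat (nat_lit 0), .ofNat (nat_lit 0), .ofNat (nat_lit 0), .ofNat (nat_lit 0), .ofNat (nat_lit 0), .ofNat (nat_lit 0), .ofNat (nat_lit 0), .ofNat (nat_lit 0), .ofNat (nat_lit 0), .ofNat (nat_lit 0), .ofNat (nat_lit 0), .ofNat (nat_lit 0), .ofNat (nat_lit 0), .ofNat (nat_lit 0), .ofNat (nat_lit 0), .ofNat (nat_lit 0), .ofNat (nat_lit 0), .ofNat (nat_lit 0), .ofNat (nat_lit 0), .ofNat (nat_lit 0), .ofNat (nat_lit 0), .ofNat (nat_lit 0), .ofNat (nat_lit 0), .ofNat (nat_lit 0), .ofNat (nat_lit 0), .ofNat (nat_lit 0), .ofNat (nat_lit 0), .ofNat (nat_lit 0), .ofNat (nat_lit 0), .ofNat (nat_lit 0), .ofNat (nat_lit 0), .ofNat (nat_lit 0), .ofNat (nat_lit 0), .ofNat (nat_lit 0), .ofNat (nat_lit 0), .ofNat (nat_lit 0), .ofNat (nat_lit 0), .ofNat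 (nat_lit 0), .ofNat (nat_lit 0), .ofNat (nat_lit 0)],
  [.negSucc (nat_lit 2315656581448508), .ofNat (nat_lit 0), .ofNat (nat_lit 0), .ofNat (nat_lit 0), .ofNat (nat_lit 0), .ofNat (nat_lit 0), .ofNat (nat_lit 0), .ofNat (nat_lit 0), .ofNat (nat_lit 0), .ofNat (nat_lit 0), .ofNat (nat_lit 0), .ofNat (nat_lit 0), .ofNat (nat_lit 0), .ofNat (nat_lit 0), .ofNat (nat_lit 0), .ofNat (nat_lit 0), .ofNat (nat_lit 0), .ofNat (nat_lit 0), .ofNat (nat_lit 0), .ofNat (nat_lit 0), .ofNat (nat_lit 0), .ofNat (nat_lit 0), .ofNat (nat_lit 0), .ofNat (nat_lit 0), .ofNat (nat_lit 0), .ofNat (nat_lit 0), .ofNat (nat_lit 0), .ofNat (nat_lit 0), .ofNat (nat_lit 0), .ofNat (nat_lit 0), .ofNat (nat_lit 0), .ofNat (nat_lit 0), .ofNat (nat_lit 0), .ofNat (nat_lit 0), .ofNat (nat_lit 0), .ofNat (nat_lit 0), .ofNat (nat_lit 0), .ofNat (nat_lit 0), .ofNat (nat_lit 0), .ofNat (nat_lit 0), .ofNat (nat_lit 0), .ofNat (nat_lit 0), .ofNat (nat_lit 0), .ofNat (nat_lit 0), .ofNat (nat_lit 0), .ofNat (nat_lit 0), .ofNat (nat_lit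 0), .ofNat (nat_lit 0), .ofNat (nat_lit 0), .ofNat (nat_lit 0), .ofNat (nat_lit 0), .ofNat (nat_lit 0)]]],
  [[[],
  []],
  [[.ofNat (nat_lit 0), .negSucc (nat_lit 10791932281339103), .ofNat (nat_lit 10791932281339104), .negSucc (nat_lit 7452499788296603), .ofNat (nat_lit 27753465505559364), .negSucc (nat_lit 20300965717262759), .ofNat (nat_lit 14365095059418696), .negSucc (nat_lit 51292943458661591), .ofNat (nat_lit 30760411620229704), .ofNat (nat_lit 6167436779013192), .negSucc (nat_lit 4774497419601107), .ofNat (nat_lit 14640524998194816), .negSucc (nat_lit 9548994839202215), .negSucc (nat_lit 1268130957565967), .ofNat (nat_lit 951098218174476), .negSucc (nat_lit 1594225313952911), .ofNat (nat_lit 10923093259448832), .ofNat (nat_lit 77771544584201928), .negSucc (nat_lit 108473631172152407), .negSucc (nat_lit 88458153905429207), .ofNat (nat_lit 222378227847230256), .negSucc (nat_lit 112546855299346487), .ofNat (nat_lit 1537505613502560), .negSucc (nat_lit 9056867817409559), .negSucc (nat_lit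 16671164075111339), .ofNat (nat_lit 38724753096014940), .ofNat (nat_lit 22821186529121580), .negSucc (nat_lit 51048810845085779), .negSucc (nat_lit 16815317097666779), .ofNat (nat_lit 30508714596634380), .negSucc (nat_lit 396459611976047), .ofNat (nat_lit 2341149649122864), .negSucc (nat_lit 8342994221298335), .ofNat (nat_lit 3055815812767632), .ofNat (nat_lit 18911277008678784), .negSucc (nat_lit 14150610918416015), .negSucc (nat_lit 11682445577841743), .ofNat (nat_lit 3055815812767632), .ofNat (nat_lit 21625356138585696), .negSucc (nat_lit 14416904092390463), .ofNat (nat_lit 34888348954144), .negSucc (nat_lit 209330093724863), .ofNat (nat_lit 1992775113834456), .negSucc (nat_lit 1574114926384727), .negSucc (nat_lit 3566890040219183), .ofNat (nat_lit 3566890040219184), .ofNat (nat_lit 1783445020109592), .negSucc (nat_lit 3248755676183639), .ofNat (nat_lit 0), .ofNat (nat_lit 2516100348146616), .negSucc (nat_lit 3885024404254727), .ofNat (nat_lit 2590016269503152)],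
  [.ofNat (nat_lit 0), .ofNat (nat_lit 26155321982867592), .negSucc (nat_lit 26155321982867591), .ofNat (nat_lit 16822407592765692), .negSucc (nat_lit 63544883769730871), .ofNat (nat_lit 46722476176965180), .negSucc (nat_lit 33457786757748431), .ofNat (nat_lit 119710061748831312), .negSucc (nat_lit 72131189708920463), .negSucc (nat_lit 14121085282162415), .ofNat (nat_lit 11805652448903880), .negSucc (nat_lit 37465193496748679), .ofNat (nat_lit 23611304897807760), .ofNat (nat_lit 8192944600148160), .negSucc (nat_lit 6144708450111119), .ofNat (nat_lit 2832897909946896), .negSucc (nat_lit 20691757752732287), .negSucc (nat_lit 157180802107448303), .ofNat (nat_lit 218146122221906304), .ofNat (nat_lit 178734032243284608), .negSucc (nat_lit 451069725616016255), .ofNat (nat_lit 229229233101059040), .negSucc (nat_lit 3124512698246423), .ofNat (nat_lit 18484626659143968), .ofNat (nat_lit 33501744747714744), .negSucc (nat_lit 78794738039403647), .negSucc (nat_lit 45999795540700439), .ofNat (nat_lit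 104553306550610280), .ofNat (nat_lit 33001727352814080), .negSucc (nat_lit 61622359031932559), .ofNat (nat_lit 818249796590976), .negSucc (nat_lit 4835548125254015), .ofNat (nat_lit 17033298219001728), .negSucc (nat_lit 6095455646770943), .negSucc (nat_lit 38451601837300607), .ofNat (nat_lit 28549068425155584), .ofNat (nat_lit 23725151699488128), .negSucc (nat_lit 6095455646770943), .negSucc (nat_lit 43943120652419711), .ofNat (nat_lit 29295413768279808), .negSucc (nat_lit 72362416612415), .ofNat (nat_lit 434174499674496), .negSucc (nat_lit 4056558432856271), .ofNat (nat_lit 3188209433507280), .ofNat (nat_lit 7244767866363552), .negSucc (nat_lit 7244767866363551), .negSucc (nat_lit 3622383933181775), .ofNat (nat_lit 6661605430903248), .ofNat (nat_lit 0), .negSucc (nat_lit 5141994682042511), .ofNat (nat_lit 7827930301823856), .negSucc (nat_lit 5218620201215903)]],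
  [[.ofNat (nat_lit 390365970161679), .ofNat (nat_lit 0), .ofNat (nat_lit 0), .ofNat (nat_lit 0), .ofNat (nat_lit 0), .ofNat (nat_lit 0), .ofNat (nat_lit 0), .ofNat (nat_lit 0), .ofNat (nat_lit 0), .ofNat (nat_lit 0), .ofNat (nat_lit 0), .ofNat (nat_lit 0), .ofNat (nat_lit 0), .ofNat (nat_lit 0), .ofNat (nat_lit 0), .ofNat (nat_lit 0), .ofNat (nat_lit 0), .ofNat (nat_lit 0), .ofNat (nat_lit 0), .ofNat (nat_lit 0), .ofNat (nat_lit 0), .ofNat (nat_lit 0), .ofNat (nat_lit 0), .ofNat (nat_lit 0), .ofNat (nat_lit 0), .ofNat (nat_lit 0), .ofNat (nat_lit 0), .ofNat (nat_lit 0), .ofNat (nat_lit 0), .ofNat (nat_lit 0), .ofNat (nat_lit 0), .ofNat (nat_lit 0), .ofNat (nat_lit 0), .ofNat (nat_lit 0), .ofNat (nat_lit 0), .ofNat (nat_lit 0), .ofNat (nat_lit 0), .ofNat (nat_lit 0), .ofNat (nat_lit 0), .ofNat (nat_lit 0), .ofNat (nat_lit 0), .ofNat (nat_lit 0), .ofNat (nat_lit 0), .ofNat (nat_lit 0), .ofNat (nat_lit 0), .ofNat (nat_lit 0), .ofNat (nat_lit 0), .ofNat (nat_lit 0), .ofNat (nat_lit 0), .ofNat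 (nat_lit 0), .ofNat (nat_lit 0), .ofNat (nat_lit 0)],
  [.negSucc (nat_lit 2665926936477800), .ofNat (nat_lit 0), .ofNat (nat_lit 0), .ofNat (nat_lit 0), .ofNat (nat_lit 0), .ofNat (nat_lit 0), .ofNat (nat_lit 0), .ofNat (nat_lit 0), .ofNat (nat_lit 0), .ofNat (nat_lit 0), .ofNat (nat_lit 0), .ofNat (nat_lit 0), .ofNat (nat_lit 0), .ofNat (nat_lit 0), .ofNat (nat_lit 0), .ofNat (nat_lit 0), .ofNat (nat_lit 0), .ofNat (nat_lit 0), .ofNat (nat_lit 0), .ofNat (nat_lit 0), .ofNat (nat_lit 0), .ofNat (nat_lit 0), .ofNat (nat_lit 0), .ofNat (nat_lit 0), .ofNat (nat_lit 0), .ofNat (nat_lit 0), .ofNat (nat_lit 0), .ofNat (nat_lit 0), .ofNat (nat_lit 0), .ofNat (nat_lit 0), .ofNat (nat_lit 0), .ofNat (nat_lit 0), .ofNat (nat_lit 0), .ofNat (nat_lit 0), .ofNat (nat_lit 0), .ofNat (nat_lit 0), .ofNat (nat_lit 0), .ofNat (nat_lit 0), .ofNat (nat_lit 0), .ofNat (nat_lit 0), .ofNat (nat_lit 0), .ofNat (nat_lit 0), .ofNat (nat_lit 0), .ofNat (nat_lit 0), .ofNat (nat_lit 0), .ofNat (nat_lit 0), .ofNat (nat_lit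 0), .ofNat (nat_lit 0), .ofNat (nat_lit 0), .ofNat (nat_lit 0), .ofNat (nat_lit 0), .ofNat (nat_lit 0)]]]],
  [[.ofNat (nat_lit 0), .ofNat (nat_lit 0)],
  [.ofNat (nat_lit 0), .ofNat (nat_lit 0)],
  [.negSucc (nat_lit 1839709228791023), .ofNat (nat_lit 4984760746106694)]],
  [[[[.ofNat (nat_lit 0), .ofNat (nat_lit 190434879796589568), .negSucc (nat_lit 6228647668117370879), .ofNat (nat_lit 923697886692455424), .ofNat (nat_lit 45576126585033403392), .negSucc (nat_lit 49372466256792963071), .ofNat (nat_lit 52966959371892034560), .negSucc (nat_lit 24339215393763637247), .ofNat (nat_lit 25304876791826190336), .negSucc (nat_lit 24565339234799179775), .ofNat (nat_lit 0), .ofNat (nat_lit 0)],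
  [.ofNat (nat_lit 0), .negSucc (nat_lit 3474971644382032895), .negSucc (nat_lit 756198868001651711), .ofNat (nat_lit 10349887603935089664), .negSucc (nat_lit 109210091282467743743), .ofNat (nat_lit 117693874493350060032), .negSucc (nat_lit 98141198258852093951), .ofNat (nat_lit 19119244751331581952), .negSucc (nat_lit 48882528114408059903), .ofNat (nat_lit 57585036254410828800), .ofNat (nat_lit 0), .ofNat (nat_lit 0)]],
  [[.ofNat (nat_lit 103466146564896768), .negSucc (nat_lit 276782324111244287), .ofNat (nat_lit 2603951551590036480), .negSucc (nat_lit 755568367089573887), .negSucc (nat_lit 8223983566132488191), .ofNat (nat_lit 8038614288012014592), .negSucc (nat_lit 1231489207687431167), .negSucc (nat_lit 3061784295579202559), .negSucc (nat_lit 2647581435866539007), .ofNat (nat_lit 4819473901465611264), .ofNat (nat_lit 0), .ofNat (nat_lit 0)],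
  [.ofNat (nat_lit 365315187468303360), .ofNat (nat_lit 0), .ofNat (nat_lit 0), .ofNat (nat_lit 0), .ofNat (nat_lit 0), .ofNat (nat_lit 0), .ofNat (nat_lit 0), .ofNat (nat_lit 0), .ofNat (nat_lit 0), .ofNat (nat_lit 0), .ofNat (nat_lit 0), .ofNat (nat_lit 0)]]],
  [[[.ofNat (nat_lit 0), .negSucc (nat_lit 26317391285789125631), .negSucc (nat_lit 17056335173980391423), .ofNat (nat_lit 77076374798999116800), .negSucc (nat_lit 73003750132037704703), .ofNat (nat_lit 45970399406522456064), .negSucc (nat_lit 84880300795583321087), .negSucc (nat_lit 19517007864645734399), .ofNat (nat_lit 9354429316116246528), .ofNat (nat_lit 5848461572594872320), .ofNat (nat_lit 0), .ofNat (nat_lit 0)],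
  [.ofNat (nat_lit 0), .ofNat (nat_lit 59052316423996523520), .ofNat (nat_lit 39837301725673414656), .negSucc (nat_lit 170124805255828985855), .ofNat (nat_lit 165960916334885025792), .negSucc (nat_lit 88522391621049311231), .ofNat (nat_lit 166692121444781687808), .ofNat (nat_lit 22984145073261665280), .negSucc (nat_lit 18889341201473080319), .negSucc (nat_lit 1904568924985565183), .ofNat (nat_lit 0), .ofNat (nat_lit 0)]],
  [[.ofNat (nat_lit 4000129822383952896), .ofNat (nat_lit 2311559177348542464), .ofNat (nat_lit 913896053800574976), .ofNat (nat_lit 5470249687311873024), .negSucc (nat_lit 8445926402857764863), .negSucc (nat_lit 31530022315874565119), .ofNat (nat_lit 3707309991285540864), .ofNat (nat_lit 63003131311738420224), .negSucc (nat_lit 4208543301645914111), .negSucc (nat_lit 23865955082055300095), .ofNat (nat_lit 0), .ofNat (nat_lit 0)],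
  [.negSucc (nat_lit 11915163331065824255), .ofNat (nat_lit 0), .ofNat (nat_lit 0), .ofNat (nat_lit 0), .ofNat (nat_lit 0), .ofNat (nat_lit 0), .ofNat (nat_lit 0), .ofNat (nat_lit 0), .ofNat (nat_lit 0), .ofNat (nat_lit 0), .ofNat (nat_lit 0), .ofNat (nat_lit 0)]]],
  [[[.ofNat (nat_lit 0), .ofNat (nat_lit 8589191650582118400), .ofNat (nat_lit 6819604496785760256), .negSucc (nat_lit 17156645408910716927), .ofNat (nat_lit 5641055828924046336), .negSucc (nat_lit 25620731108844659711), .negSucc (nat_lit 44082373068397716479), .ofNat (nat_lit 107323000557673236480), .negSucc (nat_lit 20473313942178865151), .negSucc (nat_lit 17857343629797414911), .ofNat (nat_lit 0), .ofNat (nat_lit 0)],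
  [.ofNat (nat_lit 0), .negSucc (nat_lit 16961167151411484671), .negSucc (nat_lit 9623908362832404479), .ofNat (nat_lit 35276632462437129216), .negSucc (nat_lit 30722171906080355327), .ofNat (nat_lit 52149904749202738176), .ofNat (nat_lit 90674836122154659840), .negSucc (nat_lit 195314517078324655103), .ofNat (nat_lit 37030941001658179584), .ofNat (nat_lit 30164264352626946048), .ofNat (nat_lit 0), .ofNat (nat_lit 0)]],
  [[.negSucc (nat_lit 7586408913432274943), .negSucc (nat_lit 993604275730879487), .negSucc (nat_lit 7629552370232819711), .negSucc (nat_lit 10021750954803053567), .ofNat (nat_lit 32613027405392157696), .ofNat (nat_lit 29948399562005968896), .negSucc (nat_lit 4865810747360652287), .negSucc (nat_lit 75240883544965198847), .ofNat (nat_lit 7186738931414913024), .ofNat (nat_lit 24246428953127251968), .ofNat (nat_lit 0), .ofNat (nat_lit 0)],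
  [.ofNat (nat_lit 19235186954171633664), .ofNat (nat_lit 0), .ofNat (nat_lit 0), .ofNat (nat_lit 0), .ofNat (nat_lit 0), .ofNat (nat_lit 0), .ofNat (nat_lit 0), .ofNat (nat_lit 0), .ofNat (nat_lit 0), .ofNat (nat_lit 0), .ofNat (nat_lit 0), .ofNat (nat_lit 0)]]]]⟩

noncomputable def BP6_A : L6 := [[[[[[.ofNat (nat_lit 0), .ofNat (nat_lit 0), .ofNat (nat_lit 1374199778419282944)],
  [.ofNat (nat_lit 0), .ofNat (nat_lit 0), .negSucc (nat_lit 2736547526871576575)],
  [],
  [],
  [],
  [],
  [],
  [],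
  []],
  [[.ofNat (nat_lit 0), .ofNat (nat_lit 103466146564896768), .ofNat (nat_lit 0)],
  [.ofNat (nat_lit 0), .ofNat (nat_lit 365315187468303360), .ofNat (nat_lit 0)],
  [],
  [],
  [],
  [],
  [],
  [],
  []],
  [[.ofNat (nat_lit 0), .ofNat (nat_lit 1102092404512333824), .ofNat (nat_lit 0)],
  [.ofNat (nat_lit 0), .ofNat (nat_lit 1102092404512333824), .ofNat (nat_lit 0)],
  [],
  [],
  [],
  [],
  [],
  [],
  []],
  [[.ofNat (nat_lit 676092372287127552), .ofNat (nat_lit 817267046230803456), .ofNat (nat_lit 0)],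
  [.negSucc (nat_lit 852360665361463295), .ofNat (nat_lit 0), .ofNat (nat_lit 0)],
  [.negSucc (nat_lit 676092372287127551), .negSucc (nat_lit 817267046230803455), .ofNat (nat_lit 0)],
  [.ofNat (nat_lit 852360665361463296), .ofNat (nat_lit 0), .ofNat (nat_lit 0)],
  [],
  [],
  [],
  [],
  []],
  [[.negSucc (nat_lit 1139194481897705471), .ofNat (nat_lit 438428031125815296), .ofNat (nat_lit 0)],
  [.ofNat (nat_lit 2207810906282068992), .ofNat (nat_lit 0), .ofNat (nat_lit 0)],
  [],
  [.negSucc (nat_lit 1139194481897705471), .ofNat (nat_lit 438428031125815296), .ofNat (nat_lit 0)],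
  [.ofNat (nat_lit 2207810906282068992), .ofNat (nat_lit 0), .ofNat (nat_lit 0)],
  [],
  [],
  [],
  []],
  [[.negSucc (nat_lit 340151977809552383), .ofNat (nat_lit 467312792184649728), .ofNat (nat_lit 0)],
  [.ofNat (nat_lit 315620749288304640), .ofNat (nat_lit 0), .ofNat (nat_lit 0)],
  [],
  [],
  [.ofNat (nat_lit 340151977809552384), .negSucc (nat_lit 467312792184649727), .ofNat (nat_lit 0)],
  [.negSucc (nat_lit 315620749288304639), .ofNat (nat_lit 0), .ofNat (nat_lit 0)],
  [],
  [],
  []],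
  [[.negSucc (nat_lit 264658926299931647), .ofNat (nat_lit 704098169942934528), .ofNat (nat_lit 0)],
  [.ofNat (nat_lit 877459895268940800), .ofNat (nat_lit 0), .ofNat (nat_lit 0)],
  [],
  [],
  [.ofNat (nat_lit 264658926299931648), .negSucc (nat_lit 704098169942934527), .ofNat (nat_lit 0)],
  [.negSucc (nat_lit 877459895268940799), .ofNat (nat_lit 0), .ofNat (nat_lit 0)],
  [],
  [],
  []],
  [[.ofNat (nat_lit 855456733104325632), .ofNat (nat_lit 633973811089572864), .ofNat (nat_lit 0)],
  [.negSucc (nat_lit 1501843016972786687), .ofNat (nat_lit 0), .ofNat (nat_lit 0)],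
  [],
  [],
  [],
  [.ofNat (nat_lit 855456733104325632), .ofNat (nat_lit 633973811089572864), .ofNat (nat_lit 0)],
  [.negSucc (nat_lit 1501843016972786687), .ofNat (nat_lit 0), .ofNat (nat_lit 0)],
  [],
  []],
  [[.negSucc (nat_lit 44243217954376703), .ofNat (nat_lit 127690759942428672), .ofNat (nat_lit 0)],
  [.ofNat (nat_lit 95264245418084352), .ofNat (nat_lit 0), .ofNat (nat_lit 0)],
  [],
  [],
  [],
  [],
  [.ofNat (nat_lit 44243217954376704), .negSucc (nat_lit 127690759942428671), .ofNat (nat_lit 0)],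
  [.negSucc (nat_lit 95264245418084351), .ofNat (nat_lit 0), .ofNat (nat_lit 0)],
  []],
  [[.negSucc (nat_lit 24754126712481791), .negSucc (nat_lit 838369916435644415), .ofNat (nat_lit 0)],
  [.ofNat (nat_lit 292423940790073344), .ofNat (nat_lit 0), .ofNat (nat_lit 0)],
  [],
  [],
  [],
  [],
  [.ofNat (nat_lit 24754126712481792), .ofNat (nat_lit 838369916435644416), .ofNat (nat_lit 0)],
  [.negSucc (nat_lit 292423940790073343), .ofNat (nat_lit 0), .ofNat (nat_lit 0)],
  []],
  [[],
  [],
  [],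
  [],
  [],
  [],
  [],
  [],
  []],
  [[],
  [],
  [],
  [],
  [],
  [],
  [],
  [],
  []]],
  [],
  [],
  [],
  [],
  [],
  [],
  [],
  [],
  [],
  [],
  []],
  [[],
  [],
  [],
  [],
  [],
  [],
  [],
  [],
  [],
  [],
  [],
  []],
  [[],
  [[[.ofNat (nat_lit 0), .ofNat (nat_lit 2900615706903278592), .ofNat (nat_lit 276782324111244288)],
  [.ofNat (nat_lit 0), .negSucc (nat_lit 5581933359275188223), .ofNat (nat_lit 0)],
  [],
  [],
  [],
  [],
  [],
  [],
  []],
  [[.ofNat (nat_lit 342573563525861376), .negSucc (nat_lit 3532222476452371967), .ofNat (nat_lit 0)],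
  [.negSucc (nat_lit 65528982936179711), .ofNat (nat_lit 0), .ofNat (nat_lit 0)],
  [],
  [],
  [],
  [],
  [],
  [],
  []],
  [[],
  [.negSucc (nat_lit 9239437727236767743), .ofNat (nat_lit 1716503095889473536), .ofNat (nat_lit 0)],
  [.ofNat (nat_lit 5421800963682422784), .ofNat (nat_lit 0), .ofNat (nat_lit 0)],
  [],
  [],
  [],
  [],
  [],
  []],
  [[],
  [],
  [.ofNat (nat_lit 14103083730628604160), .negSucc (nat_lit 21827927082128179967), .ofNat (nat_lit 0)],
  [.negSucc (nat_lit 21471179607088125695), .ofNat (nat_lit 0), .ofNat (nat_lit 0)],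
  [],
  [],
  [],
  [],
  []],
  [[],
  [],
  [],
  [.ofNat (nat_lit 8683807876246467072), .ofNat (nat_lit 5453832205866106368), .ofNat (nat_lit 0)],
  [.negSucc (nat_lit 14565975536032104959), .ofNat (nat_lit 0), .ofNat (nat_lit 0)],
  [],
  [],
  [],
  []],
  [[],
  [],
  [],
  [],
  [.negSucc (nat_lit 23171420181957528959), .ofNat (nat_lit 28668145067803780992), .ofNat (nat_lit 0)],
  [.ofNat (nat_lit 20284713563483912832), .ofNat (nat_lit 0), .ofNat (nat_lit 0)],
  [],
  [],
  []],
  [[],
  [],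
  [],
  [],
  [.negSucc (nat_lit 11775209867519726591), .ofNat (nat_lit 15647878844338498560), .ofNat (nat_lit 0)],
  [.ofNat (nat_lit 25953546536523021312), .ofNat (nat_lit 0), .ofNat (nat_lit 0)],
  [],
  [],
  []],
  [[],
  [],
  [],
  [],
  [],
  [.negSucc (nat_lit 15594848185035428351), .negSucc (nat_lit 23176645141384728575), .ofNat (nat_lit 0)],
  [.ofNat (nat_lit 19825564730793196032), .ofNat (nat_lit 0), .ofNat (nat_lit 0)],
  [],
  []],
  [[],
  [],
  [],
  [],
  [],
  [],
  [.ofNat (nat_lit 9620059114650269952), .negSucc (nat_lit 28234037652646219775), .ofNat (nat_lit 0)],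
  [.negSucc (nat_lit 5181985601404685567), .ofNat (nat_lit 0), .ofNat (nat_lit 0)],
  []],
  [[],
  [],
  [],
  [],
  [],
  [],
  [.ofNat (nat_lit 6565475366517533184), .negSucc (nat_lit 29175272487166311935), .ofNat (nat_lit 0)],
  [.negSucc (nat_lit 10857729654316643327), .ofNat (nat_lit 0), .ofNat (nat_lit 0)],
  []],
  [[],
  [],
  [],
  [],
  [],
  [],
  [],
  [.ofNat (nat_lit 8601159311304058368), .negSucc (nat_lit 23370989089083807743), .ofNat (nat_lit 0)],
  [.negSucc (nat_lit 5737850250002131967), .ofNat (nat_lit 0), .ofNat (nat_lit 0)]],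
  [[],
  [],
  [],
  [],
  [],
  [],
  [],
  [.ofNat (nat_lit 173278886987372544), .ofNat (nat_lit 5868589415049510912), .ofNat (nat_lit 0)],
  [.negSucc (nat_lit 2046967585530513407), .ofNat (nat_lit 0), .ofNat (nat_lit 0)]]],
  [],
  [],
  [],
  [],
  [],
  [],
  [],
  [],
  [],
  []],
  [[],
  [],
  [[[.ofNat (nat_lit 0), .ofNat (nat_lit 11205511139724530688), .negSucc (nat_lit 2603951551590036479)],
  [.ofNat (nat_lit 0), .negSucc (nat_lit 21931665225125289983), .ofNat (nat_lit 0)],
  [],
  [],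
  [],
  [],
  [],
  [],
  []],
  [[.ofNat (nat_lit 3010790059119396864), .ofNat (nat_lit 887448455700562944), .ofNat (nat_lit 0)],
  [.negSucc (nat_lit 6177999831684074495), .ofNat (nat_lit 0), .ofNat (nat_lit 0)],
  [],
  [],
  [],
  [],
  [],
  [],
  []],
  [[],
  [.negSucc (nat_lit 5978223952331788799), .ofNat (nat_lit 14873382026916198912), .ofNat (nat_lit 0)],
  [.ofNat (nat_lit 25866128613526907904), .ofNat (nat_lit 0), .ofNat (nat_lit 0)],
  [],
  [],
  [],
  [],
  [],
  []],
  [[],
  [],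
  [.negSucc (nat_lit 5373283541534760959), .negSucc (nat_lit 12629648864441369087), .ofNat (nat_lit 0)],
  [.ofNat (nat_lit 15030657326029211136), .ofNat (nat_lit 0), .ofNat (nat_lit 0)],
  [],
  [],
  [],
  [],
  []],
  [[],
  [],
  [],
  [.ofNat (nat_lit 44768271434608694016), .negSucc (nat_lit 6704059160257069823), .ofNat (nat_lit 0)],
  [.negSucc (nat_lit 80959205176067434751), .ofNat (nat_lit 0), .ofNat (nat_lit 0)],
  [],
  [],
  [],
  []],
  [[],
  [],
  [],
  [],
  [.negSucc (nat_lit 13694114344095774719), .ofNat (nat_lit 85518678356902086912), .ofNat (nat_lit 0)],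
  [.negSucc (nat_lit 169925248995489791), .ofNat (nat_lit 0), .ofNat (nat_lit 0)],
  [],
  [],
  []],
  [[],
  [],
  [],
  [],
  [.ofNat (nat_lit 5111914734335195136), .ofNat (nat_lit 42207124387094143488), .ofNat (nat_lit 0)],
  [.negSucc (nat_lit 11284531682959272959), .ofNat (nat_lit 0), .ofNat (nat_lit 0)],
  [],
  [],
  []],
  [[],
  [],
  [],
  [],
  [],
  [.negSucc (nat_lit 40791944348225633663), .ofNat (nat_lit 53757255562633498752), .ofNat (nat_lit 0)],
  [.ofNat (nat_lit 51077711131724843136), .ofNat (nat_lit 0), .ofNat (nat_lit 0)],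
  [],
  []],
  [[],
  [],
  [],
  [],
  [],
  [],
  [.ofNat (nat_lit 15339033325633448448), .negSucc (nat_lit 47857958685118946303), .ofNat (nat_lit 0)],
  [.negSucc (nat_lit 5605481993357677823), .ofNat (nat_lit 0), .ofNat (nat_lit 0)],
  []],
  [[],
  [],
  [],
  [],
  [],
  [],
  [.negSucc (nat_lit 11454908094421456895), .negSucc (nat_lit 70598522902446231551), .ofNat (nat_lit 0)],
  [.ofNat (nat_lit 2623791307027230720), .ofNat (nat_lit 0), .ofNat (nat_lit 0)],
  []],
  [[],
  [],
  [],
  [],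
  [],
  [],
  [],
  [.ofNat (nat_lit 16095717122110884864), .negSucc (nat_lit 37862063535329501183), .ofNat (nat_lit 0)],
  [.negSucc (nat_lit 12444839597872910591), .ofNat (nat_lit 0), .ofNat (nat_lit 0)]],
  [[],
  [],
  [],
  [],
  [],
  [],
  [],
  [.negSucc (nat_lit 4733767980912549887), .negSucc (nat_lit 44988601602541773311), .ofNat (nat_lit 0)],
  []]],
  [],
  [],
  [],
  [],
  [],
  [],
  [],
  [],
  []],
  [[],
  [],
  [],
  [[[.ofNat (nat_lit 0), .negSucc (nat_lit 11179571508469186559), .ofNat (nat_lit 755568367089573888)],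
  [.ofNat (nat_lit 0), .ofNat (nat_lit 20816534089161713664), .ofNat (nat_lit 0)],
  [],
  [],
  [],
  [],
  [],
  [],
  []],
  [[.ofNat (nat_lit 15026781617321059584), .negSucc (nat_lit 22583495449217753855), .ofNat (nat_lit 0)],
  [.negSucc (nat_lit 11121292003153036031), .ofNat (nat_lit 0), .ofNat (nat_lit 0)],
  [],
  [],
  [],
  [],
  [],
  [],
  []],
  [[],
  [.ofNat (nat_lit 5373283541534760960), .ofNat (nat_lit 12629648864441369088), .ofNat (nat_lit 0)],
  [.negSucc (nat_lit 15030657326029211135), .ofNat (nat_lit 0), .ofNat (nat_lit 0)],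
  [],
  [],
  [],
  [],
  [],
  []],
  [[],
  [],
  [.negSucc (nat_lit 69777827967711131135), .ofNat (nat_lit 38820455136743436288), .ofNat (nat_lit 0)],
  [.ofNat (nat_lit 85030108115190930432), .ofNat (nat_lit 0), .ofNat (nat_lit 0)],
  [],
  [],
  [],
  [],
  []],
  [[],
  [],
  [],
  [.ofNat (nat_lit 30381500577222353664), .negSucc (nat_lit 205169927578232220287), .ofNat (nat_lit 0)],
  [.negSucc (nat_lit 50780363981653619711), .ofNat (nat_lit 0), .ofNat (nat_lit 0)],
  [],
  [],
  [],
  []],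
  [[],
  [],
  [],
  [],
  [.ofNat (nat_lit 57546093313127745792), .ofNat (nat_lit 58463598246483676608), .ofNat (nat_lit 0)],
  [.negSucc (nat_lit 66579828613315424063), .ofNat (nat_lit 0), .ofNat (nat_lit 0)],
  [],
  [],
  []],
  [[],
  [],
  [],
  [],
  [.ofNat (nat_lit 26336373556267291392), .negSucc (nat_lit 106039928413981539071), .ofNat (nat_lit 0)],
  [.negSucc (nat_lit 56608735211905079807), .ofNat (nat_lit 0), .ofNat (nat_lit 0)],
  [],
  [],
  []],
  [[],
  [],
  [],
  [],
  [],
  [.negSucc (nat_lit 29050080518726880767), .ofNat (nat_lit 304881379605832828032), .ofNat (nat_lit 0)],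
  [.ofNat (nat_lit 68020684774170118272), .ofNat (nat_lit 0), .ofNat (nat_lit 0)],
  [],
  []],
  [[],
  [],
  [],
  [],
  [],
  [],
  [.negSucc (nat_lit 3154944463836491807), .negSucc (nat_lit 42725066635690787807), .ofNat (nat_lit 0)],
  [.ofNat (nat_lit 10863517909108060800), .ofNat (nat_lit 0), .ofNat (nat_lit 0)],
  []],
  [[],
  [],
  [],
  [],
  [],
  [],
  [.negSucc (nat_lit 8204302111006333439), .ofNat (nat_lit 154643169968877881088), .ofNat (nat_lit 0)],
  [.ofNat (nat_lit 27251713136899842048), .ofNat (nat_lit 0), .ofNat (nat_lit 0)],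
  []],
  [[],
  [],
  [],
  [],
  [],
  [],
  [],
  [.ofNat (nat_lit 8117486190342668160), .negSucc (nat_lit 29616968790460899071), .ofNat (nat_lit 0)],
  [.negSucc (nat_lit 16829744327719424639), .ofNat (nat_lit 0), .ofNat (nat_lit 0)]],
  [[],
  [],
  [],
  [],
  [],
  [],
  [],
  [.ofNat (nat_lit 14204861756200903680), .negSucc (nat_lit 57197063866540142591), .ofNat (nat_lit 0)],
  []]],
  [],
  [],
  [],
  [],
  [],
  [],
  [],
  []],
  [[],
  [],
  [],
  [],
  [[[.ofNat (nat_lit 0), .negSucc (nat_lit 38085471872750287871), .ofNat (nat_lit 8223983566132488192)],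
  [.ofNat (nat_lit 0), .ofNat (nat_lit 75267711991767297024), .ofNat (nat_lit 0)],
  [],
  [],
  [],
  [],
  [],
  [],
  []],
  [[.ofNat (nat_lit 36892318708786936320), .negSucc (nat_lit 13677815771998594559), .ofNat (nat_lit 0)],
  [.negSucc (nat_lit 94644115746435638783), .ofNat (nat_lit 0), .ofNat (nat_lit 0)],
  [],
  [],
  [],
  [],
  [],
  [],
  []],
  [[],
  [.ofNat (nat_lit 44768271434608694016), .negSucc (nat_lit 6704059160257069823), .ofNat (nat_lit 0)],
  [.negSucc (nat_lit 80959205176067434751), .ofNat (nat_lit 0), .ofNat (nat_lit 0)],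
  [],
  [],
  [],
  [],
  [],
  []],
  [[],
  [],
  [.negSucc (nat_lit 30381500577222353663), .ofNat (nat_lit 205169927578232220288), .ofNat (nat_lit 0)],
  [.ofNat (nat_lit 50780363981653619712), .ofNat (nat_lit 0), .ofNat (nat_lit 0)],
  [],
  [],
  [],
  [],
  []],
  [[],
  [],
  [],
  [.negSucc (nat_lit 76587661732756351103), .negSucc (nat_lit 21102531296714744831), .ofNat (nat_lit 0)],
  [.ofNat (nat_lit 189018551165080340736), .ofNat (nat_lit 0), .ofNat (nat_lit 0)],
  [],
  [],
  [],
  []],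
  [[],
  [],
  [],
  [],
  [.ofNat (nat_lit 74657682234356588352), .negSucc (nat_lit 327404268748861962047), .ofNat (nat_lit 0)],
  [.negSucc (nat_lit 113551784445517831295), .ofNat (nat_lit 0), .ofNat (nat_lit 0)],
  [],
  [],
  []],
  [[],
  [],
  [],
  [],
  [.ofNat (nat_lit 9015835500449042688), .negSucc (nat_lit 138718295399664207359), .ofNat (nat_lit 0)],
  [.negSucc (nat_lit 18232468611440020991), .ofNat (nat_lit 0), .ofNat (nat_lit 0)],
  [],
  [],
  []],
  [[],
  [],
  [],
  [],
  [],
  [.negSucc (nat_lit 1314126468706664447), .negSucc (nat_lit 80003108239756786943), .ofNat (nat_lit 0)],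
  [.negSucc (nat_lit 29046088604636491967), .ofNat (nat_lit 0), .ofNat (nat_lit 0)],
  [],
  []],
  [[],
  [],
  [],
  [],
  [],
  [],
  [.negSucc (nat_lit 21492526828808702591), .negSucc (nat_lit 15111280272686997311), .ofNat (nat_lit 0)],
  [.ofNat (nat_lit 35833419088588749312), .ofNat (nat_lit 0), .ofNat (nat_lit 0)],
  []],
  [[],
  [],
  [],
  [],
  [],
  [],
  [.negSucc (nat_lit 30931389835783691903), .ofNat (nat_lit 380158710889485843072), .ofNat (nat_lit 0)],
  [.ofNat (nat_lit 23269057472852130816), .ofNat (nat_lit 0), .ofNat (nat_lit 0)],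
  []],
  [[],
  [],
  [],
  [],
  [],
  [],
  [],
  [.negSucc (nat_lit 5783582543520065471), .ofNat (nat_lit 36769815917411024160), .ofNat (nat_lit 0)],
  [.negSucc (nat_lit 16616328679705918463), .ofNat (nat_lit 0), .ofNat (nat_lit 0)]],
  [[],
  [],
  [],
  [],
  [],
  [],
  [],
  [.ofNat (nat_lit 24577925023817390592), .ofNat (nat_lit 75386251730409140736), .ofNat (nat_lit 0)],
  [.negSucc (nat_lit 4714366457236875263), .ofNat (nat_lit 0), .ofNat (nat_lit 0)]]],
  [],
  [],
  [],
  [],
  [],
  [],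
  []],
  [[],
  [],
  [],
  [],
  [],
  [[[.ofNat (nat_lit 0), .ofNat (nat_lit 37051185944252952576), .negSucc (nat_lit 8038614288012014591)],
  [.ofNat (nat_lit 0), .negSucc (nat_lit 69044500078125944831), .ofNat (nat_lit 0)],
  [],
  [],
  [],
  [],
  [],
  [],
  []],
  [[.negSucc (nat_lit 72543886438750492031), .ofNat (nat_lit 36706759355815795584), .ofNat (nat_lit 0)],
  [.ofNat (nat_lit 137978588056833972864), .ofNat (nat_lit 0), .ofNat (nat_lit 0)],
  [],
  [],
  [],
  [],
  [],
  [],
  []],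
  [[],
  [.ofNat (nat_lit 13694114344095774720), .negSucc (nat_lit 85518678356902086911), .ofNat (nat_lit 0)],
  [.ofNat (nat_lit 169925248995489792), .ofNat (nat_lit 0), .ofNat (nat_lit 0)],
  [],
  [],
  [],
  [],
  [],
  []],
  [[],
  [],
  [.ofNat (nat_lit 57546093313127745792), .ofNat (nat_lit 58463598246483676608), .ofNat (nat_lit 0)],
  [.negSucc (nat_lit 66579828613315424063), .ofNat (nat_lit 0), .ofNat (nat_lit 0)],
  [],
  [],
  [],
  [],
  []],
  [[],
  [],
  [],
  [.negSucc (nat_lit 74657682234356588351), .ofNat (nat_lit 327404268748861962048), .ofNat (nat_lit 0)],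
  [.ofNat (nat_lit 113551784445517831296), .ofNat (nat_lit 0), .ofNat (nat_lit 0)],
  [],
  [],
  [],
  []],
  [[],
  [],
  [],
  [],
  [.ofNat (nat_lit 18085526358831845280), .negSucc (nat_lit 383787350508505354271), .ofNat (nat_lit 0)],
  [.negSucc (nat_lit 2683069038321599231), .ofNat (nat_lit 0), .ofNat (nat_lit 0)],
  [],
  [],
  []],
  [[],
  [],
  [],
  [],
  [.negSucc (nat_lit 19248287471132205311), .ofNat (nat_lit 160555490146526200704), .ofNat (nat_lit 0)],
  [.ofNat (nat_lit 12145389214981965696), .ofNat (nat_lit 0), .ofNat (nat_lit 0)],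
  [],
  [],
  []],
  [[],
  [],
  [],
  [],
  [],
  [.ofNat (nat_lit 37845440566489499904), .negSucc (nat_lit 515946445493918935391), .ofNat (nat_lit 0)],
  [.negSucc (nat_lit 70555501051395212159), .ofNat (nat_lit 0), .ofNat (nat_lit 0)],
  [],
  []],
  [[],
  [],
  [],
  [],
  [],
  [],
  [.negSucc (nat_lit 37919297986289540063), .ofNat (nat_lit 189184839219526652928), .ofNat (nat_lit 0)],
  [.ofNat (nat_lit 17799675961368500352), .ofNat (nat_lit 0), .ofNat (nat_lit 0)],
  []],
  [[],
  [],
  [],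
  [],
  [],
  [],
  [.negSucc (nat_lit 53762316245017101503), .negSucc (nat_lit 63033553153926762047), .ofNat (nat_lit 0)],
  [.ofNat (nat_lit 16651734845361120000), .ofNat (nat_lit 0), .ofNat (nat_lit 0)],
  []],
  [[],
  [],
  [],
  [],
  [],
  [],
  [],
  [.negSucc (nat_lit 26307198512319420863), .ofNat (nat_lit 169785390878421941088), .ofNat (nat_lit 0)],
  [.negSucc (nat_lit 5728227207850913471), .ofNat (nat_lit 0), .ofNat (nat_lit 0)]],
  [[],
  [],
  [],
  [],
  [],
  [],
  [],
  [.negSucc (nat_lit 22930273260965772287), .ofNat (nat_lit 77174753673937441536), .ofNat (nat_lit 0)],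
  []]],
  [[[.ofNat (nat_lit 0), .ofNat (nat_lit 6551790680595262464), .ofNat (nat_lit 1231489207687431168)],
  [.ofNat (nat_lit 0), .negSucc (nat_lit 14703184851170724863), .ofNat (nat_lit 0)],
  [],
  [],
  [],
  [],
  [],
  [],
  []],
  [[.ofNat (nat_lit 41191749504372307968), .ofNat (nat_lit 14416389636651067392), .ofNat (nat_lit 0)],
  [.negSucc (nat_lit 72187651722329072639), .ofNat (nat_lit 0), .ofNat (nat_lit 0)],
  [],
  [],
  [],
  [],
  [],
  [],
  []],
  [[],
  [.negSucc (nat_lit 5111914734335195135), .negSucc (nat_lit 42207124387094143487), .ofNat (nat_lit 0)],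
  [.ofNat (nat_lit 11284531682959272960), .ofNat (nat_lit 0), .ofNat (nat_lit 0)],
  [],
  [],
  [],
  [],
  [],
  []],
  [[],
  [],
  [.ofNat (nat_lit 26336373556267291392), .negSucc (nat_lit 106039928413981539071), .ofNat (nat_lit 0)],
  [.negSucc (nat_lit 56608735211905079807), .ofNat (nat_lit 0), .ofNat (nat_lit 0)],
  [],
  [],
  [],
  [],
  []],
  [[],
  [],
  [],
  [.negSucc (nat_lit 9015835500449042687), .ofNat (nat_lit 138718295399664207360), .ofNat (nat_lit 0)],
  [.ofNat (nat_lit 18232468611440020992), .ofNat (nat_lit 0), .ofNat (nat_lit 0)],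
  [],
  [],
  [],
  []],
  [[],
  [],
  [],
  [],
  [.negSucc (nat_lit 19248287471132205311), .ofNat (nat_lit 160555490146526200704), .ofNat (nat_lit 0)],
  [.ofNat (nat_lit 12145389214981965696), .ofNat (nat_lit 0), .ofNat (nat_lit 0)],
  [],
  [],
  []],
  [[],
  [],
  [],
  [],
  [.ofNat (nat_lit 9292266948342021120), .ofNat (nat_lit 137411764014271684608), .ofNat (nat_lit 0)],
  [.negSucc (nat_lit 2513128949292252671), .ofNat (nat_lit 0), .ofNat (nat_lit 0)],
  [],
  [],
  []],
  [[],
  [],
  [],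
  [],
  [],
  [.ofNat (nat_lit 6134844594678363648), .negSucc (nat_lit 51121679931353268863), .ofNat (nat_lit 0)],
  [.negSucc (nat_lit 13272355895769545471), .ofNat (nat_lit 0), .ofNat (nat_lit 0)],
  [],
  []],
  [[],
  [],
  [],
  [],
  [],
  [],
  [.ofNat (nat_lit 19903361084814587904), .negSucc (nat_lit 100873804666756293503), .ofNat (nat_lit 0)],
  [.ofNat (nat_lit 6749752203109615104), .ofNat (nat_lit 0), .ofNat (nat_lit 0)],
  []],
  [[],
  [],
  [],
  [],
  [],
  [],
  [.negSucc (nat_lit 31600186934732096255), .negSucc (nat_lit 88547062562490076415), .ofNat (nat_lit 0)],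
  [.ofNat (nat_lit 8822923934345524224), .ofNat (nat_lit 0), .ofNat (nat_lit 0)],
  []],
  [[],
  [],
  [],
  [],
  [],
  [],
  [],
  [.ofNat (nat_lit 11864414445015423744), .negSucc (nat_lit 34292099868651810431), .ofNat (nat_lit 0)],
  [.negSucc (nat_lit 5373289912017597695), .ofNat (nat_lit 0), .ofNat (nat_lit 0)]],
  [[],
  [],
  [],
  [],
  [],
  [],
  [],
  [.negSucc (nat_lit 8432695031141449727), .negSucc (nat_lit 51573187407885152255), .ofNat (nat_lit 0)],
  []]],
  [],
  [],
  [],
  [],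
  []],
  [[],
  [],
  [],
  [],
  [],
  [],
  [],
  [[[.ofNat (nat_lit 0), .negSucc (nat_lit 2544297527597331455), .ofNat (nat_lit 3061784295579202560)],
  [.ofNat (nat_lit 0), .ofNat (nat_lit 478355644153055232), .ofNat (nat_lit 0)],
  [],
  [],
  [],
  [],
  [],
  [],
  []],
  [[.negSucc (nat_lit 8744367208728208895), .ofNat (nat_lit 20114860845805526016), .ofNat (nat_lit 0)],
  [.negSucc (nat_lit 706319979461614079), .ofNat (nat_lit 0), .ofNat (nat_lit 0)],
  [],
  [],
  [],
  [],
  [],
  [],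
  []],
  [[],
  [.negSucc (nat_lit 40791944348225633663), .ofNat (nat_lit 53757255562633498752), .ofNat (nat_lit 0)],
  [.ofNat (nat_lit 51077711131724843136), .ofNat (nat_lit 0), .ofNat (nat_lit 0)],
  [],
  [],
  [],
  [],
  [],
  []],
  [[],
  [],
  [.ofNat (nat_lit 29050080518726880768), .negSucc (nat_lit 304881379605832828031), .ofNat (nat_lit 0)],
  [.negSucc (nat_lit 68020684774170118271), .ofNat (nat_lit 0), .ofNat (nat_lit 0)],
  [],
  [],
  [],
  [],
  []],
  [[],
  [],
  [],
  [.negSucc (nat_lit 1314126468706664447), .negSucc (nat_lit 80003108239756786943), .ofNat (nat_lit 0)],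
  [.negSucc (nat_lit 29046088604636491967), .ofNat (nat_lit 0), .ofNat (nat_lit 0)],
  [],
  [],
  [],
  []],
  [[],
  [],
  [],
  [],
  [.negSucc (nat_lit 37845440566489499903), .ofNat (nat_lit 515946445493918935392), .ofNat (nat_lit 0)],
  [.ofNat (nat_lit 70555501051395212160), .ofNat (nat_lit 0), .ofNat (nat_lit 0)],
  [],
  [],
  []],
  [[],
  [],
  [],
  [],
  [.negSucc (nat_lit 6134844594678363647), .ofNat (nat_lit 51121679931353268864), .ofNat (nat_lit 0)],
  [.ofNat (nat_lit 13272355895769545472), .ofNat (nat_lit 0), .ofNat (nat_lit 0)],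
  [],
  [],
  []],
  [[],
  [],
  [],
  [],
  [],
  [.ofNat (nat_lit 145941343540605713952), .ofNat (nat_lit 124497517667607880704), .ofNat (nat_lit 0)],
  [.negSucc (nat_lit 80535746998758669695), .ofNat (nat_lit 0), .ofNat (nat_lit 0)],
  [],
  []],
  [[],
  [],
  [],
  [],
  [],
  [],
  [.negSucc (nat_lit 2317922503471357775), .negSucc (nat_lit 8391739781527078607), .ofNat (nat_lit 0)],
  [.ofNat (nat_lit 12947718568701782592), .ofNat (nat_lit 0), .ofNat (nat_lit 0)],
  []],
  [[],
  [],
  [],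
  [],
  [],
  [],
  [.ofNat (nat_lit 56434286682650293056), .negSucc (nat_lit 305294010236856388799), .ofNat (nat_lit 0)],
  [.ofNat (nat_lit 20384150144827461120), .ofNat (nat_lit 0), .ofNat (nat_lit 0)],
  []],
  [[],
  [],
  [],
  [],
  [],
  [],
  [],
  [.negSucc (nat_lit 4862659958472159935), .ofNat (nat_lit 4067453333455261776), .ofNat (nat_lit 0)],
  [.negSucc (nat_lit 3111209899468227647), .ofNat (nat_lit 0), .ofNat (nat_lit 0)]],
  [[],
  [],
  [],
  [],
  [],
  [],
  [],
  [.negSucc (nat_lit 11747373297766732799), .negSucc (nat_lit 49001375830473050111), .ofNat (nat_lit 0)],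
  []]],
  [],
  [],
  [],
  []],
  [[],
  [],
  [],
  [],
  [],
  [],
  [],
  [],
  [[[.ofNat (nat_lit 0), .negSucc (nat_lit 17369431498339706879), .ofNat (nat_lit 2647581435866539008)],
  [.ofNat (nat_lit 0), .ofNat (nat_lit 33340140051667255296), .ofNat (nat_lit 0)],
  [],
  [],
  [],
  [],
  [],
  [],
  []],
  [[.ofNat (nat_lit 34924935906476460288), .negSucc (nat_lit 30881619088512758783), .ofNat (nat_lit 0)],
  [.negSucc (nat_lit 54064513715812745471), .ofNat (nat_lit 0), .ofNat (nat_lit 0)],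
  [],
  [],
  [],
  [],
  [],
  [],
  []],
  [[],
  [.negSucc (nat_lit 15339033325633448447), .ofNat (nat_lit 47857958685118946304), .ofNat (nat_lit 0)],
  [.ofNat (nat_lit 5605481993357677824), .ofNat (nat_lit 0), .ofNat (nat_lit 0)],
  [],
  [],
  [],
  [],
  [],
  []],
  [[],
  [],
  [.negSucc (nat_lit 3154944463836491807), .negSucc (nat_lit 42725066635690787807), .ofNat (nat_lit 0)],
  [.ofNat (nat_lit 10863517909108060800), .ofNat (nat_lit 0), .ofNat (nat_lit 0)],
  [],
  [],
  [],
  [],
  []],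
  [[],
  [],
  [],
  [.ofNat (nat_lit 21492526828808702592), .ofNat (nat_lit 15111280272686997312), .ofNat (nat_lit 0)],
  [.negSucc (nat_lit 35833419088588749311), .ofNat (nat_lit 0), .ofNat (nat_lit 0)],
  [],
  [],
  [],
  []],
  [[],
  [],
  [],
  [],
  [.negSucc (nat_lit 37919297986289540063), .ofNat (nat_lit 189184839219526652928), .ofNat (nat_lit 0)],
  [.ofNat (nat_lit 17799675961368500352), .ofNat (nat_lit 0), .ofNat (nat_lit 0)],
  [],
  [],
  []],
  [[],
  [],
  [],
  [],
  [.ofNat (nat_lit 19903361084814587904), .negSucc (nat_lit 100873804666756293503), .ofNat (nat_lit 0)],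
  [.ofNat (nat_lit 6749752203109615104), .ofNat (nat_lit 0), .ofNat (nat_lit 0)],
  [],
  [],
  []],
  [[],
  [],
  [],
  [],
  [],
  [.ofNat (nat_lit 2317922503471357776), .ofNat (nat_lit 8391739781527078608), .ofNat (nat_lit 0)],
  [.negSucc (nat_lit 12947718568701782591), .ofNat (nat_lit 0), .ofNat (nat_lit 0)],
  [],
  []],
  [[],
  [],
  [],
  [],
  [],
  [],
  [.negSucc (nat_lit 15318648886444775855), .negSucc (nat_lit 9553643528551705223), .ofNat (nat_lit 0)],
  [.ofNat (nat_lit 2789865124464917376), .ofNat (nat_lit 0), .ofNat (nat_lit 0)],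
  []],
  [[],
  [],
  [],
  [],
  [],
  [],
  [.ofNat (nat_lit 28545197985629248608), .negSucc (nat_lit 109222346683373352479), .ofNat (nat_lit 0)],
  [.negSucc (nat_lit 1772820141039819647), .ofNat (nat_lit 0), .ofNat (nat_lit 0)],
  []],
  [[],
  [],
  [],
  [],
  [],
  [],
  [],
  [.negSucc (nat_lit 6158504522604419567), .negSucc (nat_lit 35525069218936486079), .ofNat (nat_lit 0)],
  [.negSucc (nat_lit 461360333058952319), .ofNat (nat_lit 0), .ofNat (nat_lit 0)]],
  [[],
  [],
  [],
  [],
  [],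
  [],
  [],
  [.negSucc (nat_lit 1002013428262596479), .ofNat (nat_lit 29308508528040737280), .ofNat (nat_lit 0)],
  [.ofNat (nat_lit 255870948191314176), .ofNat (nat_lit 0), .ofNat (nat_lit 0)]]],
  [[[.ofNat (nat_lit 0), .ofNat (nat_lit 18890303669901361152), .negSucc (nat_lit 4819473901465611263)],
  [.ofNat (nat_lit 0), .negSucc (nat_lit 33578610559027080191), .ofNat (nat_lit 0)],
  [],
  [],
  [],
  [],
  [],
  [],
  []],
  [[.negSucc (nat_lit 17999863868281646591), .negSucc (nat_lit 24355798585700700671), .ofNat (nat_lit 0)],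
  [.ofNat (nat_lit 46727306600094185472), .ofNat (nat_lit 0), .ofNat (nat_lit 0)],
  [],
  [],
  [],
  [],
  [],
  [],
  []],
  [[],
  [.ofNat (nat_lit 11454908094421456896), .ofNat (nat_lit 70598522902446231552), .ofNat (nat_lit 0)],
  [.negSucc (nat_lit 2623791307027230719), .ofNat (nat_lit 0), .ofNat (nat_lit 0)],
  [],
  [],
  [],
  [],
  [],
  []],
  [[],
  [],
  [.negSucc (nat_lit 8204302111006333439), .ofNat (nat_lit 154643169968877881088), .ofNat (nat_lit 0)],
  [.ofNat (nat_lit 27251713136899842048), .ofNat (nat_lit 0), .ofNat (nat_lit 0)],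
  [],
  [],
  [],
  [],
  []],
  [[],
  [],
  [],
  [.ofNat (nat_lit 30931389835783691904), .negSucc (nat_lit 380158710889485843071), .ofNat (nat_lit 0)],
  [.negSucc (nat_lit 23269057472852130815), .ofNat (nat_lit 0), .ofNat (nat_lit 0)],
  [],
  [],
  [],
  []],
  [[],
  [],
  [],
  [],
  [.negSucc (nat_lit 53762316245017101503), .negSucc (nat_lit 63033553153926762047), .ofNat (nat_lit 0)],
  [.ofNat (nat_lit 16651734845361120000), .ofNat (nat_lit 0), .ofNat (nat_lit 0)],
  [],
  [],
  []],
  [[],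
  [],
  [],
  [],
  [.negSucc (nat_lit 31600186934732096255), .negSucc (nat_lit 88547062562490076415), .ofNat (nat_lit 0)],
  [.ofNat (nat_lit 8822923934345524224), .ofNat (nat_lit 0), .ofNat (nat_lit 0)],
  [],
  [],
  []],
  [[],
  [],
  [],
  [],
  [],
  [.negSucc (nat_lit 56434286682650293055), .ofNat (nat_lit 305294010236856388800), .ofNat (nat_lit 0)],
  [.negSucc (nat_lit 20384150144827461119), .ofNat (nat_lit 0), .ofNat (nat_lit 0)],
  [],
  []],
  [[],
  [],
  [],
  [],
  [],
  [],
  [.ofNat (nat_lit 28545197985629248608), .negSucc (nat_lit 109222346683373352479), .ofNat (nat_lit 0)],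
  [.negSucc (nat_lit 1772820141039819647), .ofNat (nat_lit 0), .ofNat (nat_lit 0)],
  []],
  [[],
  [],
  [],
  [],
  [],
  [],
  [.ofNat (nat_lit 6340314893248901376), .ofNat (nat_lit 175157374911999570432), .ofNat (nat_lit 0)],
  [.ofNat (nat_lit 7091280564159278592), .ofNat (nat_lit 0), .ofNat (nat_lit 0)],
  []],
  [[],
  [],
  [],
  [],
  [],
  [],
  [],
  [.ofNat (nat_lit 16066823370242282496), .negSucc (nat_lit 82110212217426841919), .ofNat (nat_lit 0)],
  [.negSucc (nat_lit 511741896382628351), .ofNat (nat_lit 0), .ofNat (nat_lit 0)]],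
  [[],
  [],
  [],
  [],
  [],
  [],
  [],
  [.ofNat (nat_lit 27173889747157856256), .negSucc (nat_lit 44141030518415316479), .ofNat (nat_lit 0)],
  [.negSucc (nat_lit 1023483792765256703), .ofNat (nat_lit 0), .ofNat (nat_lit 0)]]],
  [],
  []],
  [[],
  [],
  [],
  [],
  [],
  [],
  [],
  [],
  [],
  [],
  [[[],
  [],
  [],
  [],
  [],
  [],
  [],
  [],
  []],
  [[.negSucc (nat_lit 8601159311304058367), .ofNat (nat_lit 23370989089083807744), .ofNat (nat_lit 0)],
  [.ofNat (nat_lit 5737850250002131968), .ofNat (nat_lit 0), .ofNat (nat_lit 0)],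
  [],
  [],
  [],
  [],
  [],
  [],
  []],
  [[],
  [.ofNat (nat_lit 16095717122110884864), .negSucc (nat_lit 37862063535329501183), .ofNat (nat_lit 0)],
  [.negSucc (nat_lit 12444839597872910591), .ofNat (nat_lit 0), .ofNat (nat_lit 0)],
  [],
  [],
  [],
  [],
  [],
  []],
  [[],
  [],
  [.negSucc (nat_lit 8117486190342668159), .ofNat (nat_lit 29616968790460899072), .ofNat (nat_lit 0)],
  [.ofNat (nat_lit 16829744327719424640), .ofNat (nat_lit 0), .ofNat (nat_lit 0)],
  [],
  [],
  [],
  [],
  []],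
  [[],
  [],
  [],
  [.negSucc (nat_lit 5783582543520065471), .ofNat (nat_lit 36769815917411024160), .ofNat (nat_lit 0)],
  [.negSucc (nat_lit 16616328679705918463), .ofNat (nat_lit 0), .ofNat (nat_lit 0)],
  [],
  [],
  [],
  []],
  [[],
  [],
  [],
  [],
  [.ofNat (nat_lit 26307198512319420864), .negSucc (nat_lit 169785390878421941087), .ofNat (nat_lit 0)],
  [.ofNat (nat_lit 5728227207850913472), .ofNat (nat_lit 0), .ofNat (nat_lit 0)],
  [],
  [],
  []],
  [[],
  [],
  [],
  [],
  [.negSucc (nat_lit 11864414445015423743), .ofNat (nat_lit 34292099868651810432), .ofNat (nat_lit 0)],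
  [.ofNat (nat_lit 5373289912017597696), .ofNat (nat_lit 0), .ofNat (nat_lit 0)],
  [],
  [],
  []],
  [[],
  [],
  [],
  [],
  [],
  [.negSucc (nat_lit 4862659958472159935), .ofNat (nat_lit 4067453333455261776), .ofNat (nat_lit 0)],
  [.negSucc (nat_lit 3111209899468227647), .ofNat (nat_lit 0), .ofNat (nat_lit 0)],
  [],
  []],
  [[],
  [],
  [],
  [],
  [],
  [],
  [.ofNat (nat_lit 6158504522604419568), .ofNat (nat_lit 35525069218936486080), .ofNat (nat_lit 0)],
  [.ofNat (nat_lit 461360333058952320), .ofNat (nat_lit 0), .ofNat (nat_lit 0)],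
  []],
  [[],
  [],
  [],
  [],
  [],
  [],
  [.negSucc (nat_lit 16066823370242282495), .ofNat (nat_lit 82110212217426841920), .ofNat (nat_lit 0)],
  [.ofNat (nat_lit 511741896382628352), .ofNat (nat_lit 0), .ofNat (nat_lit 0)],
  []],
  [[],
  [],
  [],
  [],
  [],
  [],
  [],
  [.ofNat (nat_lit 12941684227707064848), .ofNat (nat_lit 24188442256153224144), .ofNat (nat_lit 0)],
  []],
  [[],
  [],
  [],
  [],
  [],
  [],
  [],
  [.negSucc (nat_lit 1333706233474963583), .negSucc (nat_lit 26102160081851006015), .ofNat (nat_lit 0)],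
  []]],
  [[[],
  [],
  [],
  [],
  [],
  [],
  [],
  [],
  []],
  [[.negSucc (nat_lit 173278886987372543), .negSucc (nat_lit 5868589415049510911), .ofNat (nat_lit 0)],
  [.ofNat (nat_lit 2046967585530513408), .ofNat (nat_lit 0), .ofNat (nat_lit 0)],
  [],
  [],
  [],
  [],
  [],
  [],
  []],
  [[],
  [.negSucc (nat_lit 4733767980912549887), .negSucc (nat_lit 44988601602541773311), .ofNat (nat_lit 0)],
  [],
  [],
  [],
  [],
  [],
  [],
  []],
  [[],
  [],
  [.negSucc (nat_lit 14204861756200903679), .ofNat (nat_lit 57197063866540142592), .ofNat (nat_lit 0)],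
  [],
  [],
  [],
  [],
  [],
  []],
  [[],
  [],
  [],
  [.ofNat (nat_lit 24577925023817390592), .ofNat (nat_lit 75386251730409140736), .ofNat (nat_lit 0)],
  [.negSucc (nat_lit 4714366457236875263), .ofNat (nat_lit 0), .ofNat (nat_lit 0)],
  [],
  [],
  [],
  []],
  [[],
  [],
  [],
  [],
  [.ofNat (nat_lit 22930273260965772288), .negSucc (nat_lit 77174753673937441535), .ofNat (nat_lit 0)],
  [],
  [],
  [],
  []],
  [[],
  [],
  [],
  [],
  [.ofNat (nat_lit 8432695031141449728), .ofNat (nat_lit 51573187407885152256), .ofNat (nat_lit 0)],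
  [],
  [],
  [],
  []],
  [[],
  [],
  [],
  [],
  [],
  [.negSucc (nat_lit 11747373297766732799), .negSucc (nat_lit 49001375830473050111), .ofNat (nat_lit 0)],
  [],
  [],
  []],
  [[],
  [],
  [],
  [],
  [],
  [],
  [.ofNat (nat_lit 1002013428262596480), .negSucc (nat_lit 29308508528040737279), .ofNat (nat_lit 0)],
  [.negSucc (nat_lit 255870948191314175), .ofNat (nat_lit 0), .ofNat (nat_lit 0)],
  []],
  [[],
  [],
  [],
  [],
  [],
  [],
  [.negSucc (nat_lit 27173889747157856255), .ofNat (nat_lit 44141030518415316480), .ofNat (nat_lit 0)],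
  [.ofNat (nat_lit 1023483792765256704), .ofNat (nat_lit 0), .ofNat (nat_lit 0)],
  []],
  [[],
  [],
  [],
  [],
  [],
  [],
  [],
  [.negSucc (nat_lit 1333706233474963583), .negSucc (nat_lit 26102160081851006015), .ofNat (nat_lit 0)],
  []],
  [[],
  [],
  [],
  [],
  [],
  [],
  [],
  [.negSucc (nat_lit 832271048084763647), .ofNat (nat_lit 37418497214793707520), .ofNat (nat_lit 0)],
  []]]]],
  [[[[[.ofNat (nat_lit 0), .ofNat (nat_lit 0), .negSucc (nat_lit 3200660315492834303)],
  [.ofNat (nat_lit 0), .ofNat (nat_lit 0), .ofNat (nat_lit 6455344965159287808)],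
  [],
  [],
  [],
  [],
  [],
  [],
  []],
  [[.ofNat (nat_lit 0), .ofNat (nat_lit 909079235684084736), .ofNat (nat_lit 0)],
  [.ofNat (nat_lit 0), .negSucc (nat_lit 2858258327408603135), .ofNat (nat_lit 0)],
  [],
  [],
  [],
  [],
  [],
  [],
  []],
  [[],
  [.ofNat (nat_lit 0), .ofNat (nat_lit 4976863471607159808), .ofNat (nat_lit 0)],
  [.ofNat (nat_lit 0), .negSucc (nat_lit 22687864093126941695), .ofNat (nat_lit 0)],
  [],
  [],
  [],
  [],
  [],
  []],
  [[],
  [],
  [.ofNat (nat_lit 0), .ofNat (nat_lit 10255873621776731136), .ofNat (nat_lit 0)],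
  [.ofNat (nat_lit 0), .negSucc (nat_lit 31166421693096803327), .ofNat (nat_lit 0)],
  [],
  [],
  [],
  [],
  []],
  [[],
  [],
  [],
  [.ofNat (nat_lit 0), .ofNat (nat_lit 7490654712283115520), .ofNat (nat_lit 0)],
  [.ofNat (nat_lit 0), .negSucc (nat_lit 33942379290700446719), .ofNat (nat_lit 0)],
  [],
  [],
  [],
  []],
  [[],
  [],
  [],
  [],
  [.ofNat (nat_lit 0), .ofNat (nat_lit 12321280312540010496), .ofNat (nat_lit 0)],
  [.ofNat (nat_lit 0), .negSucc (nat_lit 48649374415224115199), .ofNat (nat_lit 0)],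
  [],
  [],
  []],
  [[],
  [],
  [],
  [],
  [.ofNat (nat_lit 0), .negSucc (nat_lit 59518750052487297023), .ofNat (nat_lit 0)],
  [.ofNat (nat_lit 0), .ofNat (nat_lit 112844383110022818816), .ofNat (nat_lit 0)],
  [],
  [],
  []],
  [[],
  [],
  [],
  [],
  [],
  [.ofNat (nat_lit 0), .negSucc (nat_lit 26883512921360968703), .ofNat (nat_lit 0)],
  [.ofNat (nat_lit 0), .ofNat (nat_lit 19597600395484637184), .ofNat (nat_lit 0)],
  [],
  []],
  [[],
  [],
  [],
  [],
  [],
  [],
  [.ofNat (nat_lit 0), .negSucc (nat_lit 7935445293486483455), .ofNat (nat_lit 0)],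
  [.ofNat (nat_lit 0), .ofNat (nat_lit 15542388062740804608), .ofNat (nat_lit 0)],
  []],
  [[],
  [],
  [],
  [],
  [],
  [],
  [.ofNat (nat_lit 0), .ofNat (nat_lit 5675035564897818624), .ofNat (nat_lit 0)],
  [.ofNat (nat_lit 0), .negSucc (nat_lit 24006425695383748607), .ofNat (nat_lit 0)],
  []],
  [[],
  [],
  [],
  [],
  [],
  [],
  [],
  [],
  []],
  [[],
  [],
  [],
  [],
  [],
  [],
  [],
  [],
  []]],
  [],
  [],
  [],
  [],
  [],
  [],
  [],
  [],
  [],
  [],
  []],
  [[],
  [],
  [],
  [],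
  [],
  [],
  [],
  [],
  [],
  [],
  [],
  []],
  [[],
  [[[.ofNat (nat_lit 0), .ofNat (nat_lit 9740983301652261888), .negSucc (nat_lit 2311559177348542463)],
  [.ofNat (nat_lit 0), .negSucc (nat_lit 18877741858311902207), .ofNat (nat_lit 0)],
  [],
  [],
  [],
  [],
  [],
  [],
  []],
  [[.negSucc (nat_lit 26317391285789125631), .ofNat (nat_lit 24993739456804472832), .ofNat (nat_lit 0)],
  [.ofNat (nat_lit 59052316423996523520), .negSucc (nat_lit 61130546994834998783), .ofNat (nat_lit 0)],
  [],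
  [],
  [],
  [],
  [],
  [],
  []],
  [[],
  [.ofNat (nat_lit 0), .negSucc (nat_lit 29082516639495810047), .ofNat (nat_lit 0)],
  [.ofNat (nat_lit 0), .ofNat (nat_lit 66016666892623472640), .ofNat (nat_lit 0)],
  [],
  [],
  [],
  [],
  [],
  []],
  [[],
  [],
  [.ofNat (nat_lit 0), .negSucc (nat_lit 58247247768560340479), .ofNat (nat_lit 0)],
  [.ofNat (nat_lit 0), .ofNat (nat_lit 110343658637433786624), .ofNat (nat_lit 0)],
  [],
  [],
  [],
  [],
  []],
  [[],
  [],
  [],
  [.ofNat (nat_lit 0), .ofNat (nat_lit 225188609260495735296), .ofNat (nat_lit 0)],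
  [.ofNat (nat_lit 0), .negSucc (nat_lit 320557021550681089535), .ofNat (nat_lit 0)],
  [],
  [],
  [],
  []],
  [[],
  [],
  [],
  [],
  [.ofNat (nat_lit 0), .negSucc (nat_lit 182489834674703312639), .ofNat (nat_lit 0)],
  [.ofNat (nat_lit 0), .ofNat (nat_lit 554226572116405245312), .ofNat (nat_lit 0)],
  [],
  [],
  []],
  [[],
  [],
  [],
  [],
  [.ofNat (nat_lit 0), .ofNat (nat_lit 1070003170276170522624), .ofNat (nat_lit 0)],
  [.ofNat (nat_lit 0), .negSucc (nat_lit 2074870645262768858111), .ofNat (nat_lit 0)],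
  [],
  [],
  []],
  [[],
  [],
  [],
  [],
  [],
  [.ofNat (nat_lit 0), .ofNat (nat_lit 102715175503794636288), .ofNat (nat_lit 0)],
  [.ofNat (nat_lit 0), .negSucc (nat_lit 173880638762892240383), .ofNat (nat_lit 0)],
  [],
  []],
  [[],
  [],
  [],
  [],
  [],
  [],
  [.ofNat (nat_lit 0), .ofNat (nat_lit 79332507725621448960), .ofNat (nat_lit 0)],
  [.ofNat (nat_lit 0), .negSucc (nat_lit 249665788382441942015), .ofNat (nat_lit 0)],
  []],
  [[],
  [],
  [],
  [],
  [],
  [],
  [.ofNat (nat_lit 0), .negSucc (nat_lit 480319348996250675711), .ofNat (nat_lit 0)],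
  [.ofNat (nat_lit 0), .ofNat (nat_lit 823328634282717487104), .ofNat (nat_lit 0)],
  []],
  [[],
  [],
  [],
  [],
  [],
  [],
  [],
  [.ofNat (nat_lit 0), .negSucc (nat_lit 120025282594292858879), .ofNat (nat_lit 0)],
  [.ofNat (nat_lit 0), .ofNat (nat_lit 183119395955213168640), .ofNat (nat_lit 0)]],
  [[],
  [],
  [],
  [],
  [],
  [],
  [],
  [.ofNat (nat_lit 0), .ofNat (nat_lit 39725248954284730368), .ofNat (nat_lit 0)],
  [.ofNat (nat_lit 0), .negSucc (nat_lit 168044979867686240255), .ofNat (nat_lit 0)]]],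
  [],
  [],
  [],
  [],
  [],
  [],
  [],
  [],
  [],
  []],
  [[],
  [],
  [[[.ofNat (nat_lit 0), .negSucc (nat_lit 11363213503712397311), .negSucc (nat_lit 913896053800574975)],
  [.ofNat (nat_lit 0), .ofNat (nat_lit 25232659254530998272), .ofNat (nat_lit 0)],
  [],
  [],
  [],
  [],
  [],
  [],
  []],
  [[.negSucc (nat_lit 17056335173980391423), .ofNat (nat_lit 29996412693296385024), .ofNat (nat_lit 0)],
  [.ofNat (nat_lit 39837301725673414656), .negSucc (nat_lit 66016666892623472639), .ofNat (nat_lit 0)],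
  [],
  [],
  [],
  [],
  [],
  [],
  []],
  [[],
  [.ofNat (nat_lit 0), .ofNat (nat_lit 636011866343081889792), .ofNat (nat_lit 0)],
  [.ofNat (nat_lit 0), .negSucc (nat_lit 1324021767726314303999), .ofNat (nat_lit 0)],
  [],
  [],
  [],
  [],
  [],
  []],
  [[],
  [],
  [.ofNat (nat_lit 0), .ofNat (nat_lit 194891714388235706112), .ofNat (nat_lit 0)],
  [.ofNat (nat_lit 0), .negSucc (nat_lit 529381168872610553855), .ofNat (nat_lit 0)],
  [],
  [],
  [],
  [],
  []],
  [[],
  [],
  [],
  [.ofNat (nat_lit 0), .negSucc (nat_lit 1600805593465983007487), .ofNat (nat_lit 0)],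
  [.ofNat (nat_lit 0), .ofNat (nat_lit 3009666837984836421888), .ofNat (nat_lit 0)],
  [],
  [],
  [],
  []],
  [[],
  [],
  [],
  [],
  [.ofNat (nat_lit 0), .negSucc (nat_lit 881762452165292933375), .ofNat (nat_lit 0)],
  [.ofNat (nat_lit 0), .ofNat (nat_lit 1984761960645569992704), .ofNat (nat_lit 0)],
  [],
  [],
  []],
  [[],
  [],
  [],
  [],
  [.ofNat (nat_lit 0), .ofNat (nat_lit 195462531966475749888), .ofNat (nat_lit 0)],
  [.ofNat (nat_lit 0), .negSucc (nat_lit 546692853362963088383), .ofNat (nat_lit 0)],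
  [],
  [],
  []],
  [[],
  [],
  [],
  [],
  [],
  [.ofNat (nat_lit 0), .ofNat (nat_lit 528133066310173192704), .ofNat (nat_lit 0)],
  [.ofNat (nat_lit 0), .negSucc (nat_lit 739260380065340128895), .ofNat (nat_lit 0)],
  [],
  []],
  [[],
  [],
  [],
  [],
  [],
  [],
  [.ofNat (nat_lit 0), .ofNat (nat_lit 529131681177114403584), .ofNat (nat_lit 0)],
  [.ofNat (nat_lit 0), .negSucc (nat_lit 1241269891958516843519), .ofNat (nat_lit 0)],
  []],
  [[],
  [],
  [],
  [],
  [],
  [],
  [.ofNat (nat_lit 0), .negSucc (nat_lit 523406664646047111167), .ofNat (nat_lit 0)],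
  [.ofNat (nat_lit 0), .ofNat (nat_lit 1446552967669029384192), .ofNat (nat_lit 0)],
  []],
  [[],
  [],
  [],
  [],
  [],
  [],
  [],
  [.ofNat (nat_lit 0), .negSucc (nat_lit 38883413513602891007), .ofNat (nat_lit 0)],
  [.ofNat (nat_lit 0), .negSucc (nat_lit 40405243319091947519), .ofNat (nat_lit 0)]],
  [[],
  [],
  [],
  [],
  [],
  [],
  [],
  [.ofNat (nat_lit 0), .ofNat (nat_lit 67447133865127236096), .ofNat (nat_lit 0)],
  []]],
  [],
  [],
  [],
  [],
  [],
  [],
  [],
  [],
  []],
  [[],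
  [],
  [],
  [[[.ofNat (nat_lit 0), .negSucc (nat_lit 34535493443071300607), .negSucc (nat_lit 5470249687311873023)],
  [.ofNat (nat_lit 0), .ofNat (nat_lit 70762184466101508096), .ofNat (nat_lit 0)],
  [],
  [],
  [],
  [],
  [],
  [],
  []],
  [[.ofNat (nat_lit 77076374798999116800), .negSucc (nat_lit 52776998081248467455), .ofNat (nat_lit 0)],
  [.negSucc (nat_lit 170124805255828985855), .ofNat (nat_lit 110343658637433786624), .ofNat (nat_lit 0)],
  [],
  [],
  [],
  [],
  [],
  [],
  []],
  [[],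
  [.ofNat (nat_lit 0), .negSucc (nat_lit 194891714388235706111), .ofNat (nat_lit 0)],
  [.ofNat (nat_lit 0), .ofNat (nat_lit 529381168872610553856), .ofNat (nat_lit 0)],
  [],
  [],
  [],
  [],
  [],
  []],
  [[],
  [],
  [.ofNat (nat_lit 0), .negSucc (nat_lit 357696175691064403583), .ofNat (nat_lit 0)],
  [.ofNat (nat_lit 0), .ofNat (nat_lit 1043289919972427145984), .ofNat (nat_lit 0)],
  [],
  [],
  [],
  [],
  []],
  [[],
  [],
  [],
  [.ofNat (nat_lit 0), .negSucc (nat_lit 1116453969395297971199), .ofNat (nat_lit 0)],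
  [.ofNat (nat_lit 0), .ofNat (nat_lit 1921057076652939247104), .ofNat (nat_lit 0)],
  [],
  [],
  [],
  []],
  [[],
  [],
  [],
  [],
  [.ofNat (nat_lit 0), .ofNat (nat_lit 617932712577007172736), .ofNat (nat_lit 0)],
  [.ofNat (nat_lit 0), .negSucc (nat_lit 2071836443367883696319), .ofNat (nat_lit 0)],
  [],
  [],
  []],
  [[],
  [],
  [],
  [],
  [.ofNat (nat_lit 0), .negSucc (nat_lit 1871982640093388057855), .ofNat (nat_lit 0)],
  [.ofNat (nat_lit 0), .ofNat (nat_lit 3782455430804812887552), .ofNat (nat_lit 0)],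
  [],
  [],
  []],
  [[],
  [],
  [],
  [],
  [],
  [.ofNat (nat_lit 0), .ofNat (nat_lit 936468615104797335552), .ofNat (nat_lit 0)],
  [.ofNat (nat_lit 0), .negSucc (nat_lit 1986150713966041375871), .ofNat (nat_lit 0)],
  [],
  []],
  [[],
  [],
  [],
  [],
  [],
  [],
  [.ofNat (nat_lit 0), .ofNat (nat_lit 303314327769093147936), .ofNat (nat_lit 0)],
  [.ofNat (nat_lit 0), .negSucc (nat_lit 234121339072482753023), .ofNat (nat_lit 0)],
  []],
  [[],
  [],
  [],
  [],
  [],
  [],
  [.ofNat (nat_lit 0), .negSucc (nat_lit 72027447442408127231), .ofNat (nat_lit 0)],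
  [.ofNat (nat_lit 0), .ofNat (nat_lit 455584979208637347840), .ofNat (nat_lit 0)],
  []],
  [[],
  [],
  [],
  [],
  [],
  [],
  [],
  [.ofNat (nat_lit 0), .negSucc (nat_lit 176237487937186648703), .ofNat (nat_lit 0)],
  [.ofNat (nat_lit 0), .ofNat (nat_lit 580866621590830675968), .ofNat (nat_lit 0)]],
  [[],
  [],
  [],
  [],
  [],
  [],
  [],
  [.ofNat (nat_lit 0), .ofNat (nat_lit 85158624383803164672), .ofNat (nat_lit 0)],
  []]],
  [],
  [],
  [],
  [],
  [],
  [],
  [],
  []],
  [[],
  [],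
  [],
  [],
  [[[.ofNat (nat_lit 0), .ofNat (nat_lit 58926687548454964224), .ofNat (nat_lit 8445926402857764864)],
  [.ofNat (nat_lit 0), .negSucc (nat_lit 127657685136533170175), .ofNat (nat_lit 0)],
  [],
  [],
  [],
  [],
  [],
  [],
  []],
  [[.negSucc (nat_lit 73003750132037704703), .negSucc (nat_lit 233634535663353500159), .ofNat (nat_lit 0)],
  [.ofNat (nat_lit 165960916334885025792), .ofNat (nat_lit 320557021550681089536), .ofNat (nat_lit 0)],
  [],
  [],
  [],
  [],
  [],
  [],
  []],
  [[],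
  [.ofNat (nat_lit 0), .negSucc (nat_lit 1600805593465983007487), .ofNat (nat_lit 0)],
  [.ofNat (nat_lit 0), .ofNat (nat_lit 3009666837984836421888), .ofNat (nat_lit 0)],
  [],
  [],
  [],
  [],
  [],
  []],
  [[],
  [],
  [.ofNat (nat_lit 0), .ofNat (nat_lit 1116453969395297971200), .ofNat (nat_lit 0)],
  [.ofNat (nat_lit 0), .negSucc (nat_lit 1921057076652939247103), .ofNat (nat_lit 0)],
  [],
  [],
  [],
  [],
  []],
  [[],
  [],
  [],
  [.ofNat (nat_lit 0), .ofNat (nat_lit 4740704506350964391040), .ofNat (nat_lit 0)],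
  [.ofNat (nat_lit 0), .negSucc (nat_lit 8323192809234278906111), .ofNat (nat_lit 0)],
  [],
  [],
  [],
  []],
  [[],
  [],
  [],
  [],
  [.ofNat (nat_lit 0), .ofNat (nat_lit 390791847433078558656), .ofNat (nat_lit 0)],
  [.ofNat (nat_lit 0), .negSucc (nat_lit 1236451154428274009471), .ofNat (nat_lit 0)],
  [],
  [],
  []],
  [[],
  [],
  [],
  [],
  [.ofNat (nat_lit 0), .negSucc (nat_lit 1775234276473715822591), .ofNat (nat_lit 0)],
  [.ofNat (nat_lit 0), .ofNat (nat_lit 4105961251319362033152), .ofNat (nat_lit 0)],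
  [],
  [],
  []],
  [[],
  [],
  [],
  [],
  [],
  [.ofNat (nat_lit 0), .negSucc (nat_lit 1940612726031837723071), .ofNat (nat_lit 0)],
  [.ofNat (nat_lit 0), .ofNat (nat_lit 2334581240972950800576), .ofNat (nat_lit 0)],
  [],
  []],
  [[],
  [],
  [],
  [],
  [],
  [],
  [.ofNat (nat_lit 0), .ofNat (nat_lit 105323243326992387648), .ofNat (nat_lit 0)],
  [.ofNat (nat_lit 0), .ofNat (nat_lit 250447093986712859136), .ofNat (nat_lit 0)],
  []],
  [[],
  [],
  [],
  [],
  [],
  [],
  [.ofNat (nat_lit 0), .ofNat (nat_lit 433227108425452085376), .ofNat (nat_lit 0)],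
  [.ofNat (nat_lit 0), .negSucc (nat_lit 2301128599847134390271), .ofNat (nat_lit 0)],
  []],
  [[],
  [],
  [],
  [],
  [],
  [],
  [],
  [.ofNat (nat_lit 0), .ofNat (nat_lit 307309860083717808480), .ofNat (nat_lit 0)],
  [.ofNat (nat_lit 0), .negSucc (nat_lit 301091222351410831871), .ofNat (nat_lit 0)]],
  [[],
  [],
  [],
  [],
  [],
  [],
  [],
  [.ofNat (nat_lit 0), .negSucc (nat_lit 231722321680562185727), .ofNat (nat_lit 0)],
  [.ofNat (nat_lit 0), .ofNat (nat_lit 267141885889056288768), .ofNat (nat_lit 0)]]],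
  [],
  [],
  [],
  [],
  [],
  [],
  []],
  [[],
  [],
  [],
  [],
  [],
  [[[.ofNat (nat_lit 0), .ofNat (nat_lit 12442971960751712256), .ofNat (nat_lit 31530022315874565120)],
  [.ofNat (nat_lit 0), .negSucc (nat_lit 30347604197743712255), .ofNat (nat_lit 0)],
  [],
  [],
  [],
  [],
  [],
  [],
  []],
  [[.ofNat (nat_lit 45970399406522456064), .negSucc (nat_lit 214019856990577877759), .ofNat (nat_lit 0)],
  [.negSucc (nat_lit 88522391621049311231), .ofNat (nat_lit 554226572116405245312), .ofNat (nat_lit 0)],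
  [],
  [],
  [],
  [],
  [],
  [],
  []],
  [[],
  [.ofNat (nat_lit 0), .ofNat (nat_lit 881762452165292933376), .ofNat (nat_lit 0)],
  [.ofNat (nat_lit 0), .negSucc (nat_lit 1984761960645569992703), .ofNat (nat_lit 0)],
  [],
  [],
  [],
  [],
  [],
  []],
  [[],
  [],
  [.ofNat (nat_lit 0), .ofNat (nat_lit 617932712577007172736), .ofNat (nat_lit 0)],
  [.ofNat (nat_lit 0), .negSucc (nat_lit 2071836443367883696319), .ofNat (nat_lit 0)],
  [],
  [],
  [],
  [],
  []],
  [[],
  [],
  [],
  [.ofNat (nat_lit 0), .negSucc (nat_lit 390791847433078558655), .ofNat (nat_lit 0)],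
  [.ofNat (nat_lit 0), .ofNat (nat_lit 1236451154428274009472), .ofNat (nat_lit 0)],
  [],
  [],
  [],
  []],
  [[],
  [],
  [],
  [],
  [.ofNat (nat_lit 0), .negSucc (nat_lit 551151552036421312703), .ofNat (nat_lit 0)],
  [.ofNat (nat_lit 0), .ofNat (nat_lit 2909313102913647038208), .ofNat (nat_lit 0)],
  [],
  [],
  []],
  [[],
  [],
  [],
  [],
  [.ofNat (nat_lit 0), .ofNat (nat_lit 1278087027097542701184), .ofNat (nat_lit 0)],
  [.ofNat (nat_lit 0), .negSucc (nat_lit 2726771945964142974335), .ofNat (nat_lit 0)],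
  [],
  [],
  []],
  [[],
  [],
  [],
  [],
  [],
  [.ofNat (nat_lit 0), .ofNat (nat_lit 463885960390662772512), .ofNat (nat_lit 0)],
  [.ofNat (nat_lit 0), .negSucc (nat_lit 812951760769579293695), .ofNat (nat_lit 0)],
  [],
  []],
  [[],
  [],
  [],
  [],
  [],
  [],
  [.ofNat (nat_lit 0), .negSucc (nat_lit 349814182211634548447), .ofNat (nat_lit 0)],
  [.ofNat (nat_lit 0), .negSucc (nat_lit 355714222604816938751), .ofNat (nat_lit 0)],
  []],
  [[],
  [],
  [],
  [],
  [],
  [],
  [.ofNat (nat_lit 0), .ofNat (nat_lit 238025416717546456896), .ofNat (nat_lit 0)],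
  [.ofNat (nat_lit 0), .negSucc (nat_lit 809816435776935042047), .ofNat (nat_lit 0)],
  []],
  [[],
  [],
  [],
  [],
  [],
  [],
  [],
  [.ofNat (nat_lit 0), .negSucc (nat_lit 618586713710650734335), .ofNat (nat_lit 0)],
  [.ofNat (nat_lit 0), .ofNat (nat_lit 510992346871753528320), .ofNat (nat_lit 0)]],
  [[],
  [],
  [],
  [],
  [],
  [],
  [],
  [.ofNat (nat_lit 0), .ofNat (nat_lit 67980633104102136192), .ofNat (nat_lit 0)],
  []]],
  [[[.ofNat (nat_lit 0), .negSucc (nat_lit 74389006438147759103), .negSucc (nat_lit 3707309991285540863)],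
  [.ofNat (nat_lit 0), .ofNat (nat_lit 155326328719031098368), .ofNat (nat_lit 0)],
  [],
  [],
  [],
  [],
  [],
  [],
  []],
  [[.negSucc (nat_lit 84880300795583321087), .ofNat (nat_lit 1073710480267456063488), .ofNat (nat_lit 0)],
  [.ofNat (nat_lit 166692121444781687808), .negSucc (nat_lit 2074870645262768858111), .ofNat (nat_lit 0)],
  [],
  [],
  [],
  [],
  [],
  [],
  []],
  [[],
  [.ofNat (nat_lit 0), .negSucc (nat_lit 195462531966475749887), .ofNat (nat_lit 0)],
  [.ofNat (nat_lit 0), .ofNat (nat_lit 546692853362963088384), .ofNat (nat_lit 0)],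
  [],
  [],
  [],
  [],
  [],
  []],
  [[],
  [],
  [.ofNat (nat_lit 0), .negSucc (nat_lit 1871982640093388057855), .ofNat (nat_lit 0)],
  [.ofNat (nat_lit 0), .ofNat (nat_lit 3782455430804812887552), .ofNat (nat_lit 0)],
  [],
  [],
  [],
  [],
  []],
  [[],
  [],
  [],
  [.ofNat (nat_lit 0), .ofNat (nat_lit 1775234276473715822592), .ofNat (nat_lit 0)],
  [.ofNat (nat_lit 0), .negSucc (nat_lit 4105961251319362033151), .ofNat (nat_lit 0)],
  [],
  [],
  [],
  []],
  [[],
  [],
  [],
  [],
  [.ofNat (nat_lit 0), .ofNat (nat_lit 1278087027097542701184), .ofNat (nat_lit 0)],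
  [.ofNat (nat_lit 0), .negSucc (nat_lit 2726771945964142974335), .ofNat (nat_lit 0)],
  [],
  [],
  []],
  [[],
  [],
  [],
  [],
  [.ofNat (nat_lit 0), .negSucc (nat_lit 169809912195671310335), .ofNat (nat_lit 0)],
  [.ofNat (nat_lit 0), .ofNat (nat_lit 435989308640026498560), .ofNat (nat_lit 0)],
  [],
  [],
  []],
  [[],
  [],
  [],
  [],
  [],
  [.ofNat (nat_lit 0), .negSucc (nat_lit 1473104443875505522559), .ofNat (nat_lit 0)],
  [.ofNat (nat_lit 0), .ofNat (nat_lit 3166974790367486600448), .ofNat (nat_lit 0)],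
  [],
  []],
  [[],
  [],
  [],
  [],
  [],
  [],
  [.ofNat (nat_lit 0), .negSucc (nat_lit 425302635707991832319), .ofNat (nat_lit 0)],
  [.ofNat (nat_lit 0), .ofNat (nat_lit 993947894700417414144), .ofNat (nat_lit 0)],
  []],
  [[],
  [],
  [],
  [],
  [],
  [],
  [.ofNat (nat_lit 0), .ofNat (nat_lit 266568813403506904320), .ofNat (nat_lit 0)],
  [.ofNat (nat_lit 0), .negSucc (nat_lit 1035004431117160452095), .ofNat (nat_lit 0)],
  []],
  [[],
  [],
  [],
  [],
  [],
  [],
  [],
  [.ofNat (nat_lit 0), .ofNat (nat_lit 299268442145216231424), .ofNat (nat_lit 0)],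
  [.ofNat (nat_lit 0), .negSucc (nat_lit 441118072152676380671), .ofNat (nat_lit 0)]],
  [[],
  [],
  [],
  [],
  [],
  [],
  [],
  [.ofNat (nat_lit 0), .negSucc (nat_lit 284939911048159166975), .ofNat (nat_lit 0)],
  []]],
  [],
  [],
  [],
  [],
  []],
  [[],
  [],
  [],
  [],
  [],
  [],
  [],
  [[[.ofNat (nat_lit 0), .ofNat (nat_lit 45349727345552148480), .negSucc (nat_lit 63003131311738420223)],
  [.ofNat (nat_lit 0), .negSucc (nat_lit 76185989570686491647), .ofNat (nat_lit 0)],
  [],
  [],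
  [],
  [],
  [],
  [],
  []],
  [[.negSucc (nat_lit 19517007864645734399), .negSucc (nat_lit 39712044192056216063), .ofNat (nat_lit 0)],
  [.ofNat (nat_lit 22984145073261665280), .ofNat (nat_lit 173880638762892240384), .ofNat (nat_lit 0)],
  [],
  [],
  [],
  [],
  [],
  [],
  []],
  [[],
  [.ofNat (nat_lit 0), .ofNat (nat_lit 528133066310173192704), .ofNat (nat_lit 0)],
  [.ofNat (nat_lit 0), .negSucc (nat_lit 739260380065340128895), .ofNat (nat_lit 0)],
  [],
  [],
  [],
  [],
  [],
  []],
  [[],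
  [],
  [.ofNat (nat_lit 0), .negSucc (nat_lit 936468615104797335551), .ofNat (nat_lit 0)],
  [.ofNat (nat_lit 0), .ofNat (nat_lit 1986150713966041375872), .ofNat (nat_lit 0)],
  [],
  [],
  [],
  [],
  []],
  [[],
  [],
  [],
  [.ofNat (nat_lit 0), .negSucc (nat_lit 1940612726031837723071), .ofNat (nat_lit 0)],
  [.ofNat (nat_lit 0), .ofNat (nat_lit 2334581240972950800576), .ofNat (nat_lit 0)],
  [],
  [],
  [],
  []],
  [[],
  [],
  [],
  [],
  [.ofNat (nat_lit 0), .negSucc (nat_lit 463885960390662772511), .ofNat (nat_lit 0)],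
  [.ofNat (nat_lit 0), .ofNat (nat_lit 812951760769579293696), .ofNat (nat_lit 0)],
  [],
  [],
  []],
  [[],
  [],
  [],
  [],
  [.ofNat (nat_lit 0), .ofNat (nat_lit 1473104443875505522560), .ofNat (nat_lit 0)],
  [.ofNat (nat_lit 0), .negSucc (nat_lit 3166974790367486600447), .ofNat (nat_lit 0)],
  [],
  [],
  []],
  [[],
  [],
  [],
  [],
  [],
  [.ofNat (nat_lit 0), .negSucc (nat_lit 44077800889531139327), .ofNat (nat_lit 0)],
  [.ofNat (nat_lit 0), .ofNat (nat_lit 1916508628140226018560), .ofNat (nat_lit 0)],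
  [],
  []],
  [[],
  [],
  [],
  [],
  [],
  [],
  [.ofNat (nat_lit 0), .ofNat (nat_lit 26881039976043021120), .ofNat (nat_lit 0)],
  [.ofNat (nat_lit 0), .negSucc (nat_lit 248183388690949147391), .ofNat (nat_lit 0)],
  []],
  [[],
  [],
  [],
  [],
  [],
  [],
  [.ofNat (nat_lit 0), .ofNat (nat_lit 606239551792773980352), .ofNat (nat_lit 0)],
  [.ofNat (nat_lit 0), .ofNat (nat_lit 139603287824637806592), .ofNat (nat_lit 0)],
  []],
  [[],
  [],
  [],
  [],
  [],
  [],
  [],
  [.ofNat (nat_lit 0), .ofNat (nat_lit 30139574877509408352), .ofNat (nat_lit 0)],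
  [.ofNat (nat_lit 0), .negSucc (nat_lit 10101310829772986879), .ofNat (nat_lit 0)]],
  [[],
  [],
  [],
  [],
  [],
  [],
  [],
  [.ofNat (nat_lit 0), .negSucc (nat_lit 33222291117684544511), .ofNat (nat_lit 0)],
  []]],
  [],
  [],
  [],
  []],
  [[],
  [],
  [],
  [],
  [],
  [],
  [],
  [],
  [[[.ofNat (nat_lit 0), .negSucc (nat_lit 27529008730262378495), .ofNat (nat_lit 4208543301645914112)],
  [.ofNat (nat_lit 0), .ofNat (nat_lit 55904008174338898944), .ofNat (nat_lit 0)],
  [],
  [],
  [],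
  [],
  [],
  [],
  []],
  [[.ofNat (nat_lit 9354429316116246528), .ofNat (nat_lit 75123964423975534848), .ofNat (nat_lit 0)],
  [.negSucc (nat_lit 18889341201473080319), .negSucc (nat_lit 249665788382441942015), .ofNat (nat_lit 0)],
  [],
  [],
  [],
  [],
  [],
  [],
  []],
  [[],
  [.ofNat (nat_lit 0), .negSucc (nat_lit 529131681177114403583), .ofNat (nat_lit 0)],
  [.ofNat (nat_lit 0), .ofNat (nat_lit 1241269891958516843520), .ofNat (nat_lit 0)],
  [],
  [],
  [],
  [],
  [],
  []],
  [[],
  [],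
  [.ofNat (nat_lit 0), .ofNat (nat_lit 303314327769093147936), .ofNat (nat_lit 0)],
  [.ofNat (nat_lit 0), .negSucc (nat_lit 234121339072482753023), .ofNat (nat_lit 0)],
  [],
  [],
  [],
  [],
  []],
  [[],
  [],
  [],
  [.ofNat (nat_lit 0), .negSucc (nat_lit 105323243326992387647), .ofNat (nat_lit 0)],
  [.ofNat (nat_lit 0), .negSucc (nat_lit 250447093986712859135), .ofNat (nat_lit 0)],
  [],
  [],
  [],
  []],
  [[],
  [],
  [],
  [],
  [.ofNat (nat_lit 0), .negSucc (nat_lit 349814182211634548447), .ofNat (nat_lit 0)],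
  [.ofNat (nat_lit 0), .negSucc (nat_lit 355714222604816938751), .ofNat (nat_lit 0)],
  [],
  [],
  []],
  [[],
  [],
  [],
  [],
  [.ofNat (nat_lit 0), .negSucc (nat_lit 425302635707991832319), .ofNat (nat_lit 0)],
  [.ofNat (nat_lit 0), .ofNat (nat_lit 993947894700417414144), .ofNat (nat_lit 0)],
  [],
  [],
  []],
  [[],
  [],
  [],
  [],
  [],
  [.ofNat (nat_lit 0), .negSucc (nat_lit 26881039976043021119), .ofNat (nat_lit 0)],
  [.ofNat (nat_lit 0), .ofNat (nat_lit 248183388690949147392), .ofNat (nat_lit 0)],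
  [],
  []],
  [[],
  [],
  [],
  [],
  [],
  [],
  [.ofNat (nat_lit 0), .ofNat (nat_lit 543806545130681152896), .ofNat (nat_lit 0)],
  [.ofNat (nat_lit 0), .negSucc (nat_lit 96589905147531221183), .ofNat (nat_lit 0)],
  []],
  [[],
  [],
  [],
  [],
  [],
  [],
  [.ofNat (nat_lit 0), .negSucc (nat_lit 4079311879754648159), .ofNat (nat_lit 0)],
  [.ofNat (nat_lit 0), .negSucc (nat_lit 145538955778263975935), .ofNat (nat_lit 0)],
  []],
  [[],
  [],
  [],
  [],
  [],
  [],
  [],
  [.ofNat (nat_lit 0), .ofNat (nat_lit 357127067431049725080), .ofNat (nat_lit 0)],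
  [.ofNat (nat_lit 0), .ofNat (nat_lit 43895546977862426112), .ofNat (nat_lit 0)]],
  [[],
  [],
  [],
  [],
  [],
  [],
  [],
  [.ofNat (nat_lit 0), .negSucc (nat_lit 174290190583386271103), .ofNat (nat_lit 0)],
  [.ofNat (nat_lit 0), .ofNat (nat_lit 21005622483460780032), .ofNat (nat_lit 0)]]],
  [[[.ofNat (nat_lit 0), .ofNat (nat_lit 22129407381845458944), .ofNat (nat_lit 23865955082055300096)],
  [.ofNat (nat_lit 0), .negSucc (nat_lit 54761754629191827455), .ofNat (nat_lit 0)],
  [],
  [],
  [],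
  [],
  [],
  [],
  []],
  [[.ofNat (nat_lit 5848461572594872320), .negSucc (nat_lit 504185304078305975807), .ofNat (nat_lit 0)],
  [.negSucc (nat_lit 1904568924985565183), .ofNat (nat_lit 823328634282717487104), .ofNat (nat_lit 0)],
  [],
  [],
  [],
  [],
  [],
  [],
  []],
  [[],
  [.ofNat (nat_lit 0), .ofNat (nat_lit 523406664646047111168), .ofNat (nat_lit 0)],
  [.ofNat (nat_lit 0), .negSucc (nat_lit 1446552967669029384191), .ofNat (nat_lit 0)],
  [],
  [],
  [],
  [],
  [],
  []],
  [[],
  [],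
  [.ofNat (nat_lit 0), .negSucc (nat_lit 72027447442408127231), .ofNat (nat_lit 0)],
  [.ofNat (nat_lit 0), .ofNat (nat_lit 455584979208637347840), .ofNat (nat_lit 0)],
  [],
  [],
  [],
  [],
  []],
  [[],
  [],
  [],
  [.ofNat (nat_lit 0), .negSucc (nat_lit 433227108425452085375), .ofNat (nat_lit 0)],
  [.ofNat (nat_lit 0), .ofNat (nat_lit 2301128599847134390272), .ofNat (nat_lit 0)],
  [],
  [],
  [],
  []],
  [[],
  [],
  [],
  [],
  [.ofNat (nat_lit 0), .ofNat (nat_lit 238025416717546456896), .ofNat (nat_lit 0)],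
  [.ofNat (nat_lit 0), .negSucc (nat_lit 809816435776935042047), .ofNat (nat_lit 0)],
  [],
  [],
  []],
  [[],
  [],
  [],
  [],
  [.ofNat (nat_lit 0), .ofNat (nat_lit 266568813403506904320), .ofNat (nat_lit 0)],
  [.ofNat (nat_lit 0), .negSucc (nat_lit 1035004431117160452095), .ofNat (nat_lit 0)],
  [],
  [],
  []],
  [[],
  [],
  [],
  [],
  [],
  [.ofNat (nat_lit 0), .negSucc (nat_lit 606239551792773980351), .ofNat (nat_lit 0)],
  [.ofNat (nat_lit 0), .negSucc (nat_lit 139603287824637806591), .ofNat (nat_lit 0)],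
  [],
  []],
  [[],
  [],
  [],
  [],
  [],
  [],
  [.ofNat (nat_lit 0), .negSucc (nat_lit 4079311879754648159), .ofNat (nat_lit 0)],
  [.ofNat (nat_lit 0), .negSucc (nat_lit 145538955778263975935), .ofNat (nat_lit 0)],
  []],
  [[],
  [],
  [],
  [],
  [],
  [],
  [.ofNat (nat_lit 0), .ofNat (nat_lit 205681425980711042304), .ofNat (nat_lit 0)],
  [.ofNat (nat_lit 0), .ofNat (nat_lit 582155823113055903744), .ofNat (nat_lit 0)],
  []],
  [[],
  [],
  [],
  [],
  [],
  [],
  [],
  [.ofNat (nat_lit 0), .ofNat (nat_lit 13407207651181278720), .ofNat (nat_lit 0)],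
  [.ofNat (nat_lit 0), .negSucc (nat_lit 42011244966921560063), .ofNat (nat_lit 0)]],
  [[],
  [],
  [],
  [],
  [],
  [],
  [],
  [.ofNat (nat_lit 0), .ofNat (nat_lit 647905659916319705088), .ofNat (nat_lit 0)],
  [.ofNat (nat_lit 0), .negSucc (nat_lit 84022489933843120127), .ofNat (nat_lit 0)]]],
  [],
  []],
  [[],
  [],
  [],
  [],
  [],
  [],
  [],
  [],
  [],
  [],
  [[[],
  [],
  [],
  [],
  [],
  [],
  [],
  [],
  []],
  [[.ofNat (nat_lit 0), .ofNat (nat_lit 120025282594292858880), .ofNat (nat_lit 0)],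
  [.ofNat (nat_lit 0), .negSucc (nat_lit 183119395955213168639), .ofNat (nat_lit 0)],
  [],
  [],
  [],
  [],
  [],
  [],
  []],
  [[],
  [.ofNat (nat_lit 0), .negSucc (nat_lit 38883413513602891007), .ofNat (nat_lit 0)],
  [.ofNat (nat_lit 0), .negSucc (nat_lit 40405243319091947519), .ofNat (nat_lit 0)],
  [],
  [],
  [],
  [],
  [],
  []],
  [[],
  [],
  [.ofNat (nat_lit 0), .ofNat (nat_lit 176237487937186648704), .ofNat (nat_lit 0)],
  [.ofNat (nat_lit 0), .negSucc (nat_lit 580866621590830675967), .ofNat (nat_lit 0)],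
  [],
  [],
  [],
  [],
  []],
  [[],
  [],
  [],
  [.ofNat (nat_lit 0), .ofNat (nat_lit 307309860083717808480), .ofNat (nat_lit 0)],
  [.ofNat (nat_lit 0), .negSucc (nat_lit 301091222351410831871), .ofNat (nat_lit 0)],
  [],
  [],
  [],
  []],
  [[],
  [],
  [],
  [],
  [.ofNat (nat_lit 0), .ofNat (nat_lit 618586713710650734336), .ofNat (nat_lit 0)],
  [.ofNat (nat_lit 0), .negSucc (nat_lit 510992346871753528319), .ofNat (nat_lit 0)],
  [],
  [],
  []],
  [[],
  [],
  [],
  [],
  [.ofNat (nat_lit 0), .negSucc (nat_lit 299268442145216231423), .ofNat (nat_lit 0)],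
  [.ofNat (nat_lit 0), .ofNat (nat_lit 441118072152676380672), .ofNat (nat_lit 0)],
  [],
  [],
  []],
  [[],
  [],
  [],
  [],
  [],
  [.ofNat (nat_lit 0), .ofNat (nat_lit 30139574877509408352), .ofNat (nat_lit 0)],
  [.ofNat (nat_lit 0), .negSucc (nat_lit 10101310829772986879), .ofNat (nat_lit 0)],
  [],
  []],
  [[],
  [],
  [],
  [],
  [],
  [],
  [.ofNat (nat_lit 0), .negSucc (nat_lit 357127067431049725079), .ofNat (nat_lit 0)],
  [.ofNat (nat_lit 0), .negSucc (nat_lit 43895546977862426111), .ofNat (nat_lit 0)],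
  []],
  [[],
  [],
  [],
  [],
  [],
  [],
  [.ofNat (nat_lit 0), .negSucc (nat_lit 13407207651181278719), .ofNat (nat_lit 0)],
  [.ofNat (nat_lit 0), .ofNat (nat_lit 42011244966921560064), .ofNat (nat_lit 0)],
  []],
  [[],
  [],
  [],
  [],
  [],
  [],
  [],
  [.ofNat (nat_lit 0), .negSucc (nat_lit 304170710656774348439), .ofNat (nat_lit 0)],
  []],
  [[],
  [],
  [],
  [],
  [],
  [],
  [],
  [.ofNat (nat_lit 0), .ofNat (nat_lit 132778786869536531904), .ofNat (nat_lit 0)],
  []]],
  [[[],
  [],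
  [],
  [],
  [],
  [],
  [],
  [],
  []],
  [[.ofNat (nat_lit 0), .negSucc (nat_lit 39725248954284730367), .ofNat (nat_lit 0)],
  [.ofNat (nat_lit 0), .ofNat (nat_lit 168044979867686240256), .ofNat (nat_lit 0)],
  [],
  [],
  [],
  [],
  [],
  [],
  []],
  [[],
  [.ofNat (nat_lit 0), .ofNat (nat_lit 67447133865127236096), .ofNat (nat_lit 0)],
  [],
  [],
  [],
  [],
  [],
  [],
  []],
  [[],
  [],
  [.ofNat (nat_lit 0), .negSucc (nat_lit 85158624383803164671), .ofNat (nat_lit 0)],
  [],
  [],
  [],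
  [],
  [],
  []],
  [[],
  [],
  [],
  [.ofNat (nat_lit 0), .negSucc (nat_lit 231722321680562185727), .ofNat (nat_lit 0)],
  [.ofNat (nat_lit 0), .ofNat (nat_lit 267141885889056288768), .ofNat (nat_lit 0)],
  [],
  [],
  [],
  []],
  [[],
  [],
  [],
  [],
  [.ofNat (nat_lit 0), .negSucc (nat_lit 67980633104102136191), .ofNat (nat_lit 0)],
  [],
  [],
  [],
  []],
  [[],
  [],
  [],
  [],
  [.ofNat (nat_lit 0), .ofNat (nat_lit 284939911048159166976), .ofNat (nat_lit 0)],
  [],
  [],
  [],
  []],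
  [[],
  [],
  [],
  [],
  [],
  [.ofNat (nat_lit 0), .negSucc (nat_lit 33222291117684544511), .ofNat (nat_lit 0)],
  [],
  [],
  []],
  [[],
  [],
  [],
  [],
  [],
  [],
  [.ofNat (nat_lit 0), .ofNat (nat_lit 174290190583386271104), .ofNat (nat_lit 0)],
  [.ofNat (nat_lit 0), .negSucc (nat_lit 21005622483460780031), .ofNat (nat_lit 0)],
  []],
  [[],
  [],
  [],
  [],
  [],
  [],
  [.ofNat (nat_lit 0), .negSucc (nat_lit 647905659916319705087), .ofNat (nat_lit 0)],
  [.ofNat (nat_lit 0), .ofNat (nat_lit 84022489933843120128), .ofNat (nat_lit 0)],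
  []],
  [[],
  [],
  [],
  [],
  [],
  [],
  [],
  [.ofNat (nat_lit 0), .ofNat (nat_lit 132778786869536531904), .ofNat (nat_lit 0)],
  []],
  [[],
  [],
  [],
  [],
  [],
  [],
  [],
  [.ofNat (nat_lit 0), .negSucc (nat_lit 426574357379774728703), .ofNat (nat_lit 0)],
  []]]]],
  [[[[[.ofNat (nat_lit 0), .ofNat (nat_lit 0), .ofNat (nat_lit 1934822162586249216)],
  [.ofNat (nat_lit 0), .ofNat (nat_lit 0), .negSucc (nat_lit 3922001942131869695)],
  [],
  [],
  [],
  [],
  [],
  [],
  []],
  [[.ofNat (nat_lit 0), .ofNat (nat_lit 701795078636156928), .ofNat (nat_lit 0)],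
  [.ofNat (nat_lit 0), .negSucc (nat_lit 852100328670676991), .ofNat (nat_lit 0)],
  [],
  [],
  [],
  [],
  [],
  [],
  []],
  [[],
  [.ofNat (nat_lit 0), .negSucc (nat_lit 14209774338846394367), .ofNat (nat_lit 0)],
  [.ofNat (nat_lit 0), .ofNat (nat_lit 32534980490102206464), .ofNat (nat_lit 0)],
  [],
  [],
  [],
  [],
  [],
  []],
  [[],
  [],
  [.ofNat (nat_lit 0), .negSucc (nat_lit 21270440677963908095), .ofNat (nat_lit 0)],
  [.ofNat (nat_lit 0), .ofNat (nat_lit 49681310394863738880), .ofNat (nat_lit 0)],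
  [],
  [],
  [],
  [],
  []],
  [[],
  [],
  [],
  [.ofNat (nat_lit 0), .negSucc (nat_lit 7038531291791370239), .ofNat (nat_lit 0)],
  [.ofNat (nat_lit 0), .ofNat (nat_lit 19151615599175927808), .ofNat (nat_lit 0)],
  [],
  [],
  [],
  []],
  [[],
  [],
  [],
  [],
  [.ofNat (nat_lit 0), .negSucc (nat_lit 29206685683637084159), .ofNat (nat_lit 0)],
  [.ofNat (nat_lit 0), .ofNat (nat_lit 59434997909396511744), .ofNat (nat_lit 0)],
  [],
  [],
  []],
  [[],
  [],
  [],
  [],
  [.ofNat (nat_lit 0), .ofNat (nat_lit 79634653616865540096), .ofNat (nat_lit 0)],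
  [.ofNat (nat_lit 0), .negSucc (nat_lit 161009225081906393087), .ofNat (nat_lit 0)],
  [],
  [],
  []],
  [[],
  [],
  [],
  [],
  [],
  [.ofNat (nat_lit 0), .ofNat (nat_lit 12916359740453207040), .ofNat (nat_lit 0)],
  [.ofNat (nat_lit 0), .negSucc (nat_lit 26600922248712413183), .ofNat (nat_lit 0)],
  [],
  []],
  [[],
  [],
  [],
  [],
  [],
  [],
  [.ofNat (nat_lit 0), .ofNat (nat_lit 9087289707073065984), .ofNat (nat_lit 0)],
  [.ofNat (nat_lit 0), .negSucc (nat_lit 18507333486432909311), .ofNat (nat_lit 0)],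
  []],
  [[],
  [],
  [],
  [],
  [],
  [],
  [.ofNat (nat_lit 0), .negSucc (nat_lit 13988934477220165631), .ofNat (nat_lit 0)],
  [.ofNat (nat_lit 0), .ofNat (nat_lit 28333161777088696320), .ofNat (nat_lit 0)],
  []],
  [[],
  [],
  [],
  [],
  [],
  [],
  [],
  [],
  []],
  [[],
  [],
  [],
  [],
  [],
  [],
  [],
  [],
  []]],
  [],
  [],
  [],
  [],
  [],
  [],
  [],
  [],
  [],
  [],
  []],
  [[],
  [],
  [],
  [],
  [],
  [],
  [],
  [],
  [],
  [],
  [],
  []],
  [[],
  [[[.ofNat (nat_lit 0), .negSucc (nat_lit 8589191650582118399), .ofNat (nat_lit 993604275730879488)],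
  [.ofNat (nat_lit 0), .ofNat (nat_lit 16961167151411484672), .ofNat (nat_lit 0)],
  [],
  [],
  [],
  [],
  [],
  [],
  []],
  [[.ofNat (nat_lit 8589191650582118400), .negSucc (nat_lit 47590145967081544703), .ofNat (nat_lit 0)],
  [.negSucc (nat_lit 16961167151411484671), .ofNat (nat_lit 111163943750569491456), .ofNat (nat_lit 0)],
  [],
  [],
  [],
  [],
  [],
  [],
  []],
  [[],
  [.ofNat (nat_lit 0), .ofNat (nat_lit 107845164553297766400), .ofNat (nat_lit 0)],
  [.ofNat (nat_lit 0), .negSucc (nat_lit 239811007935900174335), .ofNat (nat_lit 0)],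
  [],
  [],
  [],
  [],
  [],
  []],
  [[],
  [],
  [.ofNat (nat_lit 0), .ofNat (nat_lit 22316088439547970048), .ofNat (nat_lit 0)],
  [.ofNat (nat_lit 0), .negSucc (nat_lit 92188239689077991423), .ofNat (nat_lit 0)],
  [],
  [],
  [],
  [],
  []],
  [[],
  [],
  [],
  [.ofNat (nat_lit 0), .negSucc (nat_lit 427834431102363577343), .ofNat (nat_lit 0)],
  [.ofNat (nat_lit 0), .ofNat (nat_lit 856242603535909865472), .ofNat (nat_lit 0)],
  [],
  [],
  [],
  []],
  [[],
  [],
  [],
  [],
  [.ofNat (nat_lit 0), .ofNat (nat_lit 372817886197133825280), .ofNat (nat_lit 0)],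
  [.ofNat (nat_lit 0), .negSucc (nat_lit 740707431014345545727), .ofNat (nat_lit 0)],
  [],
  [],
  []],
  [[],
  [],
  [],
  [],
  [.ofNat (nat_lit 0), .negSucc (nat_lit 1372261909722502569983), .ofNat (nat_lit 0)],
  [.ofNat (nat_lit 0), .ofNat (nat_lit 2796480660059770134528), .ofNat (nat_lit 0)],
  [],
  [],
  []],
  [[],
  [],
  [],
  [],
  [],
  [.ofNat (nat_lit 0), .negSucc (nat_lit 34779673070936875007), .ofNat (nat_lit 0)],
  [.ofNat (nat_lit 0), .ofNat (nat_lit 86249370858474673152), .ofNat (nat_lit 0)],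
  [],
  []],
  [[],
  [],
  [],
  [],
  [],
  [],
  [.ofNat (nat_lit 0), .negSucc (nat_lit 139359726596294574335), .ofNat (nat_lit 0)],
  [.ofNat (nat_lit 0), .ofNat (nat_lit 282317326608677110272), .ofNat (nat_lit 0)],
  []],
  [[],
  [],
  [],
  [],
  [],
  [],
  [.ofNat (nat_lit 0), .ofNat (nat_lit 497725211577332542464), .ofNat (nat_lit 0)],
  [.ofNat (nat_lit 0), .negSucc (nat_lit 1013373530523222018047), .ofNat (nat_lit 0)],
  []],
  [[],
  [],
  [],
  [],
  [],
  [],
  [],
  [.ofNat (nat_lit 0), .ofNat (nat_lit 107560299787234108416), .ofNat (nat_lit 0)],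
  [.ofNat (nat_lit 0), .negSucc (nat_lit 220707138960690149375), .ofNat (nat_lit 0)]],
  [[],
  [],
  [],
  [],
  [],
  [],
  [],
  [.ofNat (nat_lit 0), .negSucc (nat_lit 97922541340541159423), .ofNat (nat_lit 0)],
  [.ofNat (nat_lit 0), .ofNat (nat_lit 198332132439620874240), .ofNat (nat_lit 0)]]],
  [],
  [],
  [],
  [],
  [],
  [],
  [],
  [],
  [],
  []],
  [[],
  [],
  [[[.ofNat (nat_lit 0), .negSucc (nat_lit 6819604496785760255), .ofNat (nat_lit 7629552370232819712)],
  [.ofNat (nat_lit 0), .ofNat (nat_lit 9623908362832404480), .ofNat (nat_lit 0)],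
  [],
  [],
  [],
  [],
  [],
  [],
  []],
  [[.ofNat (nat_lit 6819604496785760256), .negSucc (nat_lit 115474716923530586111), .ofNat (nat_lit 0)],
  [.negSucc (nat_lit 9623908362832404479), .ofNat (nat_lit 239811007935900174336), .ofNat (nat_lit 0)],
  [],
  [],
  [],
  [],
  [],
  [],
  []],
  [[],
  [.ofNat (nat_lit 0), .negSucc (nat_lit 851031403327071839231), .ofNat (nat_lit 0)],
  [.ofNat (nat_lit 0), .ofNat (nat_lit 1763901288893218424832), .ofNat (nat_lit 0)],
  [],
  [],
  [],
  [],
  [],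
  []],
  [[],
  [],
  [.ofNat (nat_lit 0), .negSucc (nat_lit 125944153432929681407), .ofNat (nat_lit 0)],
  [.ofNat (nat_lit 0), .ofNat (nat_lit 236288958377054367744), .ofNat (nat_lit 0)],
  [],
  [],
  [],
  [],
  []],
  [[],
  [],
  [],
  [.ofNat (nat_lit 0), .ofNat (nat_lit 1894576053472762627584), .ofNat (nat_lit 0)],
  [.ofNat (nat_lit 0), .negSucc (nat_lit 3885878056464868432895), .ofNat (nat_lit 0)],
  [],
  [],
  [],
  []],
  [[],
  [],
  [],
  [],
  [.ofNat (nat_lit 0), .ofNat (nat_lit 1178198084301876375552), .ofNat (nat_lit 0)],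
  [.ofNat (nat_lit 0), .negSucc (nat_lit 2385838333703349439487), .ofNat (nat_lit 0)],
  [],
  [],
  []],
  [[],
  [],
  [],
  [],
  [.ofNat (nat_lit 0), .negSucc (nat_lit 305126993658399860735), .ofNat (nat_lit 0)],
  [.ofNat (nat_lit 0), .ofNat (nat_lit 618525319377117450240), .ofNat (nat_lit 0)],
  [],
  [],
  []],
  [[],
  [],
  [],
  [],
  [],
  [.ofNat (nat_lit 0), .negSucc (nat_lit 342704659130908768511), .ofNat (nat_lit 0)],
  [.ofNat (nat_lit 0), .ofNat (nat_lit 722558659580616457728), .ofNat (nat_lit 0)],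
  [],
  []],
  [[],
  [],
  [],
  [],
  [],
  [],
  [.ofNat (nat_lit 0), .negSucc (nat_lit 706641685368757809407), .ofNat (nat_lit 0)],
  [.ofNat (nat_lit 0), .ofNat (nat_lit 1437115357077127285248), .ofNat (nat_lit 0)],
  []],
  [[],
  [],
  [],
  [],
  [],
  [],
  [.ofNat (nat_lit 0), .ofNat (nat_lit 852396845230795751424), .ofNat (nat_lit 0)],
  [.ofNat (nat_lit 0), .negSucc (nat_lit 1730715149244192362495), .ofNat (nat_lit 0)],
  []],
  [[],
  [],
  [],
  [],
  [],
  [],
  [],
  [.ofNat (nat_lit 0), .negSucc (nat_lit 22264315332663511295), .ofNat (nat_lit 0)],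
  [.ofNat (nat_lit 0), .ofNat (nat_lit 40812039883253915136), .ofNat (nat_lit 0)]],
  [[],
  [],
  [],
  [],
  [],
  [],
  [],
  [],
  []]],
  [],
  [],
  [],
  [],
  [],
  [],
  [],
  [],
  []],
  [[],
  [],
  [],
  [[[.ofNat (nat_lit 0), .ofNat (nat_lit 17156645408910716928), .ofNat (nat_lit 10021750954803053568)],
  [.ofNat (nat_lit 0), .negSucc (nat_lit 35276632462437129215), .ofNat (nat_lit 0)],
  [],
  [],
  [],
  [],
  [],
  [],
  []],
  [[.negSucc (nat_lit 17156645408910716927), .ofNat (nat_lit 12294337484744916480), .ofNat (nat_lit 0)],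
  [.ofNat (nat_lit 35276632462437129216), .negSucc (nat_lit 92188239689077991423), .ofNat (nat_lit 0)],
  [],
  [],
  [],
  [],
  [],
  [],
  []],
  [[],
  [.ofNat (nat_lit 0), .ofNat (nat_lit 125944153432929681408), .ofNat (nat_lit 0)],
  [.ofNat (nat_lit 0), .negSucc (nat_lit 236288958377054367743), .ofNat (nat_lit 0)],
  [],
  [],
  [],
  [],
  [],
  []],
  [[],
  [],
  [.ofNat (nat_lit 0), .ofNat (nat_lit 935183558450822572800), .ofNat (nat_lit 0)],
  [.ofNat (nat_lit 0), .negSucc (nat_lit 1826007945666470673407), .ofNat (nat_lit 0)],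
  [],
  [],
  [],
  [],
  []],
  [[],
  [],
  [],
  [.ofNat (nat_lit 0), .ofNat (nat_lit 1512712556760342504960), .ofNat (nat_lit 0)],
  [.ofNat (nat_lit 0), .negSucc (nat_lit 3089902861083460267007), .ofNat (nat_lit 0)],
  [],
  [],
  [],
  []],
  [[],
  [],
  [],
  [],
  [.ofNat (nat_lit 0), .negSucc (nat_lit 1412225005306321213055), .ofNat (nat_lit 0)],
  [.ofNat (nat_lit 0), .ofNat (nat_lit 2834738502760892782080), .ofNat (nat_lit 0)],
  [],
  [],
  []],
  [[],
  [],
  [],
  [],
  [.ofNat (nat_lit 0), .ofNat (nat_lit 2216270282991928160256), .ofNat (nat_lit 0)],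
  [.ofNat (nat_lit 0), .negSucc (nat_lit 4528200507718219020287), .ofNat (nat_lit 0)],
  [],
  [],
  []],
  [[],
  [],
  [],
  [],
  [],
  [.ofNat (nat_lit 0), .negSucc (nat_lit 1263098838259441545983), .ofNat (nat_lit 0)],
  [.ofNat (nat_lit 0), .ofNat (nat_lit 2579955099669357520896), .ofNat (nat_lit 0)],
  [],
  []],
  [[],
  [],
  [],
  [],
  [],
  [],
  [.ofNat (nat_lit 0), .negSucc (nat_lit 123157508660379480959), .ofNat (nat_lit 0)],
  [.ofNat (nat_lit 0), .ofNat (nat_lit 256419889153784181504), .ofNat (nat_lit 0)],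
  []],
  [[],
  [],
  [],
  [],
  [],
  [],
  [.ofNat (nat_lit 0), .ofNat (nat_lit 282802657437452150784), .ofNat (nat_lit 0)],
  [.ofNat (nat_lit 0), .negSucc (nat_lit 562261993263701858303), .ofNat (nat_lit 0)],
  []],
  [[],
  [],
  [],
  [],
  [],
  [],
  [],
  [.ofNat (nat_lit 0), .ofNat (nat_lit 341041375863053792640), .ofNat (nat_lit 0)],
  [.ofNat (nat_lit 0), .negSucc (nat_lit 699308691714499362047), .ofNat (nat_lit 0)]],
  [[],
  [],
  [],
  [],
  [],
  [],
  [],
  [],
  []]],
  [],
  [],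
  [],
  [],
  [],
  [],
  [],
  []],
  [[],
  [],
  [],
  [],
  [[[.ofNat (nat_lit 0), .negSucc (nat_lit 5641055828924046335), .negSucc (nat_lit 32613027405392157695)],
  [.ofNat (nat_lit 0), .ofNat (nat_lit 30722171906080355328), .ofNat (nat_lit 0)],
  [],
  [],
  [],
  [],
  [],
  [],
  []],
  [[.ofNat (nat_lit 5641055828924046336), .ofNat (nat_lit 460447458507755735040), .ofNat (nat_lit 0)],
  [.negSucc (nat_lit 30722171906080355327), .negSucc (nat_lit 856242603535909865471), .ofNat (nat_lit 0)],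
  [],
  [],
  [],
  [],
  [],
  [],
  []],
  [[],
  [.ofNat (nat_lit 0), .ofNat (nat_lit 1894576053472762627584), .ofNat (nat_lit 0)],
  [.ofNat (nat_lit 0), .negSucc (nat_lit 3885878056464868432895), .ofNat (nat_lit 0)],
  [],
  [],
  [],
  [],
  [],
  []],
  [[],
  [],
  [.ofNat (nat_lit 0), .negSucc (nat_lit 1512712556760342504959), .ofNat (nat_lit 0)],
  [.ofNat (nat_lit 0), .ofNat (nat_lit 3089902861083460267008), .ofNat (nat_lit 0)],
  [],
  [],
  [],
  [],
  []],
  [[],
  [],
  [],
  [.ofNat (nat_lit 0), .negSucc (nat_lit 4968828243705187256831), .ofNat (nat_lit 0)],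
  [.ofNat (nat_lit 0), .ofNat (nat_lit 10153976842451544417792), .ofNat (nat_lit 0)],
  [],
  [],
  [],
  []],
  [[],
  [],
  [],
  [],
  [.ofNat (nat_lit 0), .negSucc (nat_lit 812006149470101229311), .ofNat (nat_lit 0)],
  [.ofNat (nat_lit 0), .ofNat (nat_lit 1610198902147988537856), .ofNat (nat_lit 0)],
  [],
  [],
  []],
  [[],
  [],
  [],
  [],
  [.ofNat (nat_lit 0), .ofNat (nat_lit 2420585172770569731072), .ofNat (nat_lit 0)],
  [.ofNat (nat_lit 0), .negSucc (nat_lit 4922686493318078281727), .ofNat (nat_lit 0)],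
  [],
  [],
  []],
  [[],
  [],
  [],
  [],
  [],
  [.ofNat (nat_lit 0), .ofNat (nat_lit 1295907189939248916096), .ofNat (nat_lit 0)],
  [.ofNat (nat_lit 0), .negSucc (nat_lit 2658368167772873571071), .ofNat (nat_lit 0)],
  [],
  []],
  [[],
  [],
  [],
  [],
  [],
  [],
  [.ofNat (nat_lit 0), .ofNat (nat_lit 157165728674031876096), .ofNat (nat_lit 0)],
  [.ofNat (nat_lit 0), .negSucc (nat_lit 304515362711411154431), .ofNat (nat_lit 0)],
  []],
  [[],
  [],
  [],
  [],
  [],
  [],
  [.ofNat (nat_lit 0), .negSucc (nat_lit 1326749859766104579071), .ofNat (nat_lit 0)],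
  [.ofNat (nat_lit 0), .ofNat (nat_lit 2708325873737033785344), .ofNat (nat_lit 0)],
  []],
  [[],
  [],
  [],
  [],
  [],
  [],
  [],
  [.ofNat (nat_lit 0), .negSucc (nat_lit 174063566371422454271), .ofNat (nat_lit 0)],
  [.ofNat (nat_lit 0), .ofNat (nat_lit 347909121005027871744), .ofNat (nat_lit 0)]],
  [[],
  [],
  [],
  [],
  [],
  [],
  [],
  [.ofNat (nat_lit 0), .ofNat (nat_lit 156521570457504688128), .ofNat (nat_lit 0)],
  [.ofNat (nat_lit 0), .negSucc (nat_lit 319873205180500586495), .ofNat (nat_lit 0)]]],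
  [],
  [],
  [],
  [],
  [],
  [],
  []],
  [[],
  [],
  [],
  [],
  [],
  [[[.ofNat (nat_lit 0), .ofNat (nat_lit 25620731108844659712), .negSucc (nat_lit 29948399562005968895)],
  [.ofNat (nat_lit 0), .negSucc (nat_lit 52149904749202738175), .ofNat (nat_lit 0)],
  [],
  [],
  [],
  [],
  [],
  [],
  []],
  [[.negSucc (nat_lit 25620731108844659711), .ofNat (nat_lit 402766285759139794176), .ofNat (nat_lit 0)],
  [.ofNat (nat_lit 52149904749202738176), .negSucc (nat_lit 740707431014345545727), .ofNat (nat_lit 0)],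
  [],
  [],
  [],
  [],
  [],
  [],
  []],
  [[],
  [.ofNat (nat_lit 0), .negSucc (nat_lit 1178198084301876375551), .ofNat (nat_lit 0)],
  [.ofNat (nat_lit 0), .ofNat (nat_lit 2385838333703349439488), .ofNat (nat_lit 0)],
  [],
  [],
  [],
  [],
  [],
  []],
  [[],
  [],
  [.ofNat (nat_lit 0), .negSucc (nat_lit 1412225005306321213055), .ofNat (nat_lit 0)],
  [.ofNat (nat_lit 0), .ofNat (nat_lit 2834738502760892782080), .ofNat (nat_lit 0)],
  [],
  [],
  [],
  [],
  []],
  [[],
  [],
  [],
  [.ofNat (nat_lit 0), .ofNat (nat_lit 812006149470101229312), .ofNat (nat_lit 0)],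
  [.ofNat (nat_lit 0), .negSucc (nat_lit 1610198902147988537855), .ofNat (nat_lit 0)],
  [],
  [],
  [],
  []],
  [[],
  [],
  [],
  [],
  [.ofNat (nat_lit 0), .ofNat (nat_lit 1765751359140413996544), .ofNat (nat_lit 0)],
  [.ofNat (nat_lit 0), .negSucc (nat_lit 3581760559930285910399), .ofNat (nat_lit 0)],
  [],
  [],
  []],
  [[],
  [],
  [],
  [],
  [.ofNat (nat_lit 0), .negSucc (nat_lit 1554886698291331326719), .ofNat (nat_lit 0)],
  [.ofNat (nat_lit 0), .ofNat (nat_lit 3171064542097089351168), .ofNat (nat_lit 0)],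
  [],
  [],
  []],
  [[],
  [],
  [],
  [],
  [],
  [.ofNat (nat_lit 0), .negSucc (nat_lit 529280851142722193279), .ofNat (nat_lit 0)],
  [.ofNat (nat_lit 0), .ofNat (nat_lit 1042699317981690640896), .ofNat (nat_lit 0)],
  [],
  []],
  [[],
  [],
  [],
  [],
  [],
  [],
  [.ofNat (nat_lit 0), .negSucc (nat_lit 204247533753978284159), .ofNat (nat_lit 0)],
  [.ofNat (nat_lit 0), .ofNat (nat_lit 422368198637849183232), .ofNat (nat_lit 0)],
  []],
  [[],
  [],
  [],
  [],
  [],
  [],
  [.ofNat (nat_lit 0), .negSucc (nat_lit 476698933315626230015), .ofNat (nat_lit 0)],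
  [.ofNat (nat_lit 0), .ofNat (nat_lit 974729482359617769984), .ofNat (nat_lit 0)],
  []],
  [[],
  [],
  [],
  [],
  [],
  [],
  [],
  [.ofNat (nat_lit 0), .ofNat (nat_lit 299044023440987168064), .ofNat (nat_lit 0)],
  [.ofNat (nat_lit 0), .negSucc (nat_lit 609965269684252078463), .ofNat (nat_lit 0)]],
  [[],
  [],
  [],
  [],
  [],
  [],
  [],
  [],
  []]],
  [[[.ofNat (nat_lit 0), .ofNat (nat_lit 44082373068397716480), .ofNat (nat_lit 4865810747360652288)],
  [.ofNat (nat_lit 0), .negSucc (nat_lit 90674836122154659839), .ofNat (nat_lit 0)],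
  [],
  [],
  [],
  [],
  [],
  [],
  []],
  [[.negSucc (nat_lit 44082373068397716479), .negSucc (nat_lit 1377127720469863222271), .ofNat (nat_lit 0)],
  [.ofNat (nat_lit 90674836122154659840), .ofNat (nat_lit 2796480660059770134528), .ofNat (nat_lit 0)],
  [],
  [],
  [],
  [],
  [],
  [],
  []],
  [[],
  [.ofNat (nat_lit 0), .ofNat (nat_lit 305126993658399860736), .ofNat (nat_lit 0)],
  [.ofNat (nat_lit 0), .negSucc (nat_lit 618525319377117450239), .ofNat (nat_lit 0)],
  [],
  [],
  [],
  [],
  [],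
  []],
  [[],
  [],
  [.ofNat (nat_lit 0), .ofNat (nat_lit 2216270282991928160256), .ofNat (nat_lit 0)],
  [.ofNat (nat_lit 0), .negSucc (nat_lit 4528200507718219020287), .ofNat (nat_lit 0)],
  [],
  [],
  [],
  [],
  []],
  [[],
  [],
  [],
  [.ofNat (nat_lit 0), .negSucc (nat_lit 2420585172770569731071), .ofNat (nat_lit 0)],
  [.ofNat (nat_lit 0), .ofNat (nat_lit 4922686493318078281728), .ofNat (nat_lit 0)],
  [],
  [],
  [],
  []],
  [[],
  [],
  [],
  [],
  [.ofNat (nat_lit 0), .negSucc (nat_lit 1554886698291331326719), .ofNat (nat_lit 0)],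
  [.ofNat (nat_lit 0), .ofNat (nat_lit 3171064542097089351168), .ofNat (nat_lit 0)],
  [],
  [],
  []],
  [[],
  [],
  [],
  [],
  [.ofNat (nat_lit 0), .ofNat (nat_lit 256474580059485121536), .ofNat (nat_lit 0)],
  [.ofNat (nat_lit 0), .negSucc (nat_lit 522454989569818834943), .ofNat (nat_lit 0)],
  [],
  [],
  []],
  [[],
  [],
  [],
  [],
  [],
  [.ofNat (nat_lit 0), .ofNat (nat_lit 1862839910345111691264), .ofNat (nat_lit 0)],
  [.ofNat (nat_lit 0), .negSucc (nat_lit 3792984488091499272191), .ofNat (nat_lit 0)],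
  [],
  []],
  [[],
  [],
  [],
  [],
  [],
  [],
  [.ofNat (nat_lit 0), .ofNat (nat_lit 577798466879260094976), .ofNat (nat_lit 0)],
  [.ofNat (nat_lit 0), .negSucc (nat_lit 1172466417785725900799), .ofNat (nat_lit 0)],
  []],
  [[],
  [],
  [],
  [],
  [],
  [],
  [.ofNat (nat_lit 0), .negSucc (nat_lit 597549394057570089983), .ofNat (nat_lit 0)],
  [.ofNat (nat_lit 0), .ofNat (nat_lit 1219053353449538304000), .ofNat (nat_lit 0)],
  []],
  [[],
  [],
  [],
  [],
  [],
  [],
  [],
  [.ofNat (nat_lit 0), .negSucc (nat_lit 257046671018920543487), .ofNat (nat_lit 0)],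
  [.ofNat (nat_lit 0), .ofNat (nat_lit 520621847654004794880), .ofNat (nat_lit 0)]],
  [[],
  [],
  [],
  [],
  [],
  [],
  [],
  [],
  []]],
  [],
  [],
  [],
  [],
  []],
  [[],
  [],
  [],
  [],
  [],
  [],
  [],
  [[[.ofNat (nat_lit 0), .negSucc (nat_lit 107323000557673236479), .ofNat (nat_lit 75240883544965198848)],
  [.ofNat (nat_lit 0), .ofNat (nat_lit 195314517078324655104), .ofNat (nat_lit 0)],
  [],
  [],
  [],
  [],
  [],
  [],
  []],
  [[.ofNat (nat_lit 107323000557673236480), .negSucc (nat_lit 40461210474028323839), .ofNat (nat_lit 0)],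
  [.negSucc (nat_lit 195314517078324655103), .negSucc (nat_lit 86249370858474673151), .ofNat (nat_lit 0)],
  [],
  [],
  [],
  [],
  [],
  [],
  []],
  [[],
  [.ofNat (nat_lit 0), .negSucc (nat_lit 342704659130908768511), .ofNat (nat_lit 0)],
  [.ofNat (nat_lit 0), .ofNat (nat_lit 722558659580616457728), .ofNat (nat_lit 0)],
  [],
  [],
  [],
  [],
  [],
  []],
  [[],
  [],
  [.ofNat (nat_lit 0), .ofNat (nat_lit 1263098838259441545984), .ofNat (nat_lit 0)],
  [.ofNat (nat_lit 0), .negSucc (nat_lit 2579955099669357520895), .ofNat (nat_lit 0)],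
  [],
  [],
  [],
  [],
  []],
  [[],
  [],
  [],
  [.ofNat (nat_lit 0), .ofNat (nat_lit 1295907189939248916096), .ofNat (nat_lit 0)],
  [.ofNat (nat_lit 0), .negSucc (nat_lit 2658368167772873571071), .ofNat (nat_lit 0)],
  [],
  [],
  [],
  []],
  [[],
  [],
  [],
  [],
  [.ofNat (nat_lit 0), .ofNat (nat_lit 529280851142722193280), .ofNat (nat_lit 0)],
  [.ofNat (nat_lit 0), .negSucc (nat_lit 1042699317981690640895), .ofNat (nat_lit 0)],
  [],
  [],
  []],
  [[],
  [],
  [],
  [],
  [.ofNat (nat_lit 0), .negSucc (nat_lit 1862839910345111691263), .ofNat (nat_lit 0)],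
  [.ofNat (nat_lit 0), .ofNat (nat_lit 3792984488091499272192), .ofNat (nat_lit 0)],
  [],
  [],
  []],
  [[],
  [],
  [],
  [],
  [],
  [.ofNat (nat_lit 0), .ofNat (nat_lit 1108422322791077969280), .ofNat (nat_lit 0)],
  [.ofNat (nat_lit 0), .negSucc (nat_lit 2284940220170531973119), .ofNat (nat_lit 0)],
  [],
  []],
  [[],
  [],
  [],
  [],
  [],
  [],
  [.ofNat (nat_lit 0), .negSucc (nat_lit 144857625557185282751), .ofNat (nat_lit 0)],
  [.ofNat (nat_lit 0), .ofNat (nat_lit 299322288385821258624), .ofNat (nat_lit 0)],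
  []],
  [[],
  [],
  [],
  [],
  [],
  [],
  [.ofNat (nat_lit 0), .ofNat (nat_lit 83277709886686643712), .ofNat (nat_lit 0)],
  [.ofNat (nat_lit 0), .negSucc (nat_lit 161426846512645069823), .ofNat (nat_lit 0)],
  []],
  [[],
  [],
  [],
  [],
  [],
  [],
  [],
  [.ofNat (nat_lit 0), .negSucc (nat_lit 5566078833165877823), .ofNat (nat_lit 0)],
  [.ofNat (nat_lit 0), .ofNat (nat_lit 10203009970813478784), .ofNat (nat_lit 0)]],
  [[],
  [],
  [],
  [],
  [],
  [],
  [],
  [],
  []]],
  [],
  [],
  [],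
  []],
  [[],
  [],
  [],
  [],
  [],
  [],
  [],
  [],
  [[[.ofNat (nat_lit 0), .ofNat (nat_lit 20473313942178865152), .negSucc (nat_lit 7186738931414913023)],
  [.ofNat (nat_lit 0), .negSucc (nat_lit 37030941001658179583), .ofNat (nat_lit 0)],
  [],
  [],
  [],
  [],
  [],
  [],
  []],
  [[.negSucc (nat_lit 20473313942178865151), .negSucc (nat_lit 132172987664879661311), .ofNat (nat_lit 0)],
  [.ofNat (nat_lit 37030941001658179584), .ofNat (nat_lit 282317326608677110272), .ofNat (nat_lit 0)],
  [],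
  [],
  [],
  [],
  [],
  [],
  []],
  [[],
  [.ofNat (nat_lit 0), .ofNat (nat_lit 706641685368757809408), .ofNat (nat_lit 0)],
  [.ofNat (nat_lit 0), .negSucc (nat_lit 1437115357077127285247), .ofNat (nat_lit 0)],
  [],
  [],
  [],
  [],
  [],
  []],
  [[],
  [],
  [.ofNat (nat_lit 0), .negSucc (nat_lit 123157508660379480959), .ofNat (nat_lit 0)],
  [.ofNat (nat_lit 0), .ofNat (nat_lit 256419889153784181504), .ofNat (nat_lit 0)],
  [],
  [],
  [],
  [],
  []],
  [[],
  [],
  [],
  [.ofNat (nat_lit 0), .negSucc (nat_lit 157165728674031876095), .ofNat (nat_lit 0)],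
  [.ofNat (nat_lit 0), .ofNat (nat_lit 304515362711411154432), .ofNat (nat_lit 0)],
  [],
  [],
  [],
  []],
  [[],
  [],
  [],
  [],
  [.ofNat (nat_lit 0), .negSucc (nat_lit 204247533753978284159), .ofNat (nat_lit 0)],
  [.ofNat (nat_lit 0), .ofNat (nat_lit 422368198637849183232), .ofNat (nat_lit 0)],
  [],
  [],
  []],
  [[],
  [],
  [],
  [],
  [.ofNat (nat_lit 0), .ofNat (nat_lit 577798466879260094976), .ofNat (nat_lit 0)],
  [.ofNat (nat_lit 0), .negSucc (nat_lit 1172466417785725900799), .ofNat (nat_lit 0)],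
  [],
  [],
  []],
  [[],
  [],
  [],
  [],
  [],
  [.ofNat (nat_lit 0), .ofNat (nat_lit 144857625557185282752), .ofNat (nat_lit 0)],
  [.ofNat (nat_lit 0), .negSucc (nat_lit 299322288385821258623), .ofNat (nat_lit 0)],
  [],
  []],
  [[],
  [],
  [],
  [],
  [],
  [],
  [.ofNat (nat_lit 0), .negSucc (nat_lit 56709427906230028991), .ofNat (nat_lit 0)],
  [.ofNat (nat_lit 0), .ofNat (nat_lit 116280151581715191936), .ofNat (nat_lit 0)],
  []],
  [[],
  [],
  [],
  [],
  [],
  [],
  [.ofNat (nat_lit 0), .negSucc (nat_lit 84807915268147254143), .ofNat (nat_lit 0)],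
  [.ofNat (nat_lit 0), .ofNat (nat_lit 171769793273600221440), .ofNat (nat_lit 0)],
  []],
  [[],
  [],
  [],
  [],
  [],
  [],
  [],
  [.ofNat (nat_lit 0), .ofNat (nat_lit 25685355140971908480), .ofNat (nat_lit 0)],
  [.ofNat (nat_lit 0), .negSucc (nat_lit 52379908925038877951), .ofNat (nat_lit 0)]],
  [[],
  [],
  [],
  [],
  [],
  [],
  [],
  [.ofNat (nat_lit 0), .ofNat (nat_lit 12240317667567644928), .ofNat (nat_lit 0)],
  [.ofNat (nat_lit 0), .negSucc (nat_lit 24791516554952609279), .ofNat (nat_lit 0)]]],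
  [[[.ofNat (nat_lit 0), .ofNat (nat_lit 17857343629797414912), .negSucc (nat_lit 24246428953127251967)],
  [.ofNat (nat_lit 0), .negSucc (nat_lit 30164264352626946047), .ofNat (nat_lit 0)],
  [],
  [],
  [],
  [],
  [],
  [],
  []],
  [[.negSucc (nat_lit 17857343629797414911), .ofNat (nat_lit 521971640530459794432), .ofNat (nat_lit 0)],
  [.ofNat (nat_lit 30164264352626946048), .negSucc (nat_lit 1013373530523222018047), .ofNat (nat_lit 0)],
  [],
  [],
  [],
  [],
  [],
  [],
  []],
  [[],
  [.ofNat (nat_lit 0), .negSucc (nat_lit 852396845230795751423), .ofNat (nat_lit 0)],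
  [.ofNat (nat_lit 0), .ofNat (nat_lit 1730715149244192362496), .ofNat (nat_lit 0)],
  [],
  [],
  [],
  [],
  [],
  []],
  [[],
  [],
  [.ofNat (nat_lit 0), .ofNat (nat_lit 282802657437452150784), .ofNat (nat_lit 0)],
  [.ofNat (nat_lit 0), .negSucc (nat_lit 562261993263701858303), .ofNat (nat_lit 0)],
  [],
  [],
  [],
  [],
  []],
  [[],
  [],
  [],
  [.ofNat (nat_lit 0), .ofNat (nat_lit 1326749859766104579072), .ofNat (nat_lit 0)],
  [.ofNat (nat_lit 0), .negSucc (nat_lit 2708325873737033785343), .ofNat (nat_lit 0)],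
  [],
  [],
  [],
  []],
  [[],
  [],
  [],
  [],
  [.ofNat (nat_lit 0), .negSucc (nat_lit 476698933315626230015), .ofNat (nat_lit 0)],
  [.ofNat (nat_lit 0), .ofNat (nat_lit 974729482359617769984), .ofNat (nat_lit 0)],
  [],
  [],
  []],
  [[],
  [],
  [],
  [],
  [.ofNat (nat_lit 0), .negSucc (nat_lit 597549394057570089983), .ofNat (nat_lit 0)],
  [.ofNat (nat_lit 0), .ofNat (nat_lit 1219053353449538304000), .ofNat (nat_lit 0)],
  [],
  [],
  []],
  [[],
  [],
  [],
  [],
  [],
  [.ofNat (nat_lit 0), .negSucc (nat_lit 83277709886686643711), .ofNat (nat_lit 0)],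
  [.ofNat (nat_lit 0), .ofNat (nat_lit 161426846512645069824), .ofNat (nat_lit 0)],
  [],
  []],
  [[],
  [],
  [],
  [],
  [],
  [],
  [.ofNat (nat_lit 0), .negSucc (nat_lit 84807915268147254143), .ofNat (nat_lit 0)],
  [.ofNat (nat_lit 0), .ofNat (nat_lit 171769793273600221440), .ofNat (nat_lit 0)],
  []],
  [[],
  [],
  [],
  [],
  [],
  [],
  [.ofNat (nat_lit 0), .ofNat (nat_lit 339231661072589016576), .ofNat (nat_lit 0)],
  [.ofNat (nat_lit 0), .negSucc (nat_lit 687079173094400885759), .ofNat (nat_lit 0)],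
  []],
  [[],
  [],
  [],
  [],
  [],
  [],
  [],
  [.ofNat (nat_lit 0), .negSucc (nat_lit 24480635335135289855), .ofNat (nat_lit 0)],
  [.ofNat (nat_lit 0), .ofNat (nat_lit 49583033109905218560), .ofNat (nat_lit 0)]],
  [[],
  [],
  [],
  [],
  [],
  [],
  [],
  [.ofNat (nat_lit 0), .negSucc (nat_lit 48961270670270579711), .ofNat (nat_lit 0)],
  [.ofNat (nat_lit 0), .ofNat (nat_lit 99166066219810437120), .ofNat (nat_lit 0)]]],
  [],
  []],
  [[],
  [],
  [],
  [],
  [],
  [],
  [],
  [],
  [],
  [],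
  [[[],
  [],
  [],
  [],
  [],
  [],
  [],
  [],
  []],
  [[.ofNat (nat_lit 0), .negSucc (nat_lit 107560299787234108415), .ofNat (nat_lit 0)],
  [.ofNat (nat_lit 0), .ofNat (nat_lit 220707138960690149376), .ofNat (nat_lit 0)],
  [],
  [],
  [],
  [],
  [],
  [],
  []],
  [[],
  [.ofNat (nat_lit 0), .negSucc (nat_lit 22264315332663511295), .ofNat (nat_lit 0)],
  [.ofNat (nat_lit 0), .ofNat (nat_lit 40812039883253915136), .ofNat (nat_lit 0)],
  [],
  [],
  [],
  [],
  [],
  []],
  [[],
  [],
  [.ofNat (nat_lit 0), .negSucc (nat_lit 341041375863053792639), .ofNat (nat_lit 0)],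
  [.ofNat (nat_lit 0), .ofNat (nat_lit 699308691714499362048), .ofNat (nat_lit 0)],
  [],
  [],
  [],
  [],
  []],
  [[],
  [],
  [],
  [.ofNat (nat_lit 0), .negSucc (nat_lit 174063566371422454271), .ofNat (nat_lit 0)],
  [.ofNat (nat_lit 0), .ofNat (nat_lit 347909121005027871744), .ofNat (nat_lit 0)],
  [],
  [],
  [],
  []],
  [[],
  [],
  [],
  [],
  [.ofNat (nat_lit 0), .negSucc (nat_lit 299044023440987168063), .ofNat (nat_lit 0)],
  [.ofNat (nat_lit 0), .ofNat (nat_lit 609965269684252078464), .ofNat (nat_lit 0)],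
  [],
  [],
  []],
  [[],
  [],
  [],
  [],
  [.ofNat (nat_lit 0), .ofNat (nat_lit 257046671018920543488), .ofNat (nat_lit 0)],
  [.ofNat (nat_lit 0), .negSucc (nat_lit 520621847654004794879), .ofNat (nat_lit 0)],
  [],
  [],
  []],
  [[],
  [],
  [],
  [],
  [],
  [.ofNat (nat_lit 0), .negSucc (nat_lit 5566078833165877823), .ofNat (nat_lit 0)],
  [.ofNat (nat_lit 0), .ofNat (nat_lit 10203009970813478784), .ofNat (nat_lit 0)],
  [],
  []],
  [[],
  [],
  [],
  [],
  [],
  [],
  [.ofNat (nat_lit 0), .negSucc (nat_lit 25685355140971908479), .ofNat (nat_lit 0)],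
  [.ofNat (nat_lit 0), .ofNat (nat_lit 52379908925038877952), .ofNat (nat_lit 0)],
  []],
  [[],
  [],
  [],
  [],
  [],
  [],
  [.ofNat (nat_lit 0), .ofNat (nat_lit 24480635335135289856), .ofNat (nat_lit 0)],
  [.ofNat (nat_lit 0), .negSucc (nat_lit 49583033109905218559), .ofNat (nat_lit 0)],
  []],
  [[],
  [],
  [],
  [],
  [],
  [],
  [],
  [],
  []],
  [[],
  [],
  [],
  [],
  [],
  [],
  [],
  [],
  []]],
  [[[],
  [],
  [],
  [],
  [],
  [],
  [],
  [],
  []],
  [[.ofNat (nat_lit 0), .ofNat (nat_lit 97922541340541159424), .ofNat (nat_lit 0)],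
  [.ofNat (nat_lit 0), .negSucc (nat_lit 198332132439620874239), .ofNat (nat_lit 0)],
  [],
  [],
  [],
  [],
  [],
  [],
  []],
  [[],
  [],
  [],
  [],
  [],
  [],
  [],
  [],
  []],
  [[],
  [],
  [],
  [],
  [],
  [],
  [],
  [],
  []],
  [[],
  [],
  [],
  [.ofNat (nat_lit 0), .ofNat (nat_lit 156521570457504688128), .ofNat (nat_lit 0)],
  [.ofNat (nat_lit 0), .negSucc (nat_lit 319873205180500586495), .ofNat (nat_lit 0)],
  [],
  [],
  [],
  []],
  [[],
  [],
  [],
  [],
  [],
  [],
  [],
  [],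
  []],
  [[],
  [],
  [],
  [],
  [],
  [],
  [],
  [],
  []],
  [[],
  [],
  [],
  [],
  [],
  [],
  [],
  [],
  []],
  [[],
  [],
  [],
  [],
  [],
  [],
  [.ofNat (nat_lit 0), .negSucc (nat_lit 12240317667567644927), .ofNat (nat_lit 0)],
  [.ofNat (nat_lit 0), .ofNat (nat_lit 24791516554952609280), .ofNat (nat_lit 0)],
  []],
  [[],
  [],
  [],
  [],
  [],
  [],
  [.ofNat (nat_lit 0), .ofNat (nat_lit 48961270670270579712), .ofNat (nat_lit 0)],
  [.ofNat (nat_lit 0), .negSucc (nat_lit 99166066219810437119), .ofNat (nat_lit 0)],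
  []],
  [[],
  [],
  [],
  [],
  [],
  [],
  [],
  [],
  []],
  [[],
  [],
  [],
  [],
  [],
  [],
  [],
  [],
  []]]]]]

noncomputable def BP6_E : L5 := [[[[[],
  []],
  [[],
  []],
  [[],
  []]],
  [[[.ofNat (nat_lit 619412051956042080), .ofNat (nat_lit 61245138140714592), .ofNat (nat_lit 0)],
  []],
  [[.ofNat (nat_lit 0), .ofNat (nat_lit 1218984588026552736), .ofNat (nat_lit 0)],
  []],
  [[],
  []]],
  [[[.negSucc (nat_lit 5367196962194071391), .ofNat (nat_lit 1550538301813014240), .ofNat (nat_lit 0)],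
  []],
  [[.ofNat (nat_lit 0), .ofNat (nat_lit 6626023853011434720), .ofNat (nat_lit 0)],
  []],
  [[],
  []]],
  [[[.ofNat (nat_lit 20208463574243265792), .negSucc (nat_lit 12471260493330889055), .ofNat (nat_lit 0)],
  []],
  [[.ofNat (nat_lit 0), .negSucc (nat_lit 88923969208706651423), .ofNat (nat_lit 0)],
  []],
  [[],
  []]],
  [[[.negSucc (nat_lit 41872899937924378079), .ofNat (nat_lit 33457472195816252448), .ofNat (nat_lit 0)],
  []],
  [[.ofNat (nat_lit 0), .ofNat (nat_lit 330436248576283936512), .ofNat (nat_lit 0)],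
  []],
  [[],
  []]],
  [[[.ofNat (nat_lit 50814943313784788736), .negSucc (nat_lit 39118745071398513599), .ofNat (nat_lit 0)],
  []],
  [[.ofNat (nat_lit 0), .negSucc (nat_lit 635568026222081377439), .ofNat (nat_lit 0)],
  []],
  [[],
  []]],
  [[[.negSucc (nat_lit 35687434869431305343), .ofNat (nat_lit 14233634390649646944), .ofNat (nat_lit 0)],
  []],
  [[.ofNat (nat_lit 0), .ofNat (nat_lit 715307908056000035328), .ofNat (nat_lit 0)],
  []],
  [[],
  []]],
  [[[.ofNat (nat_lit 13194602146956263904), .ofNat (nat_lit 10022090414347201536), .ofNat (nat_lit 0)],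
  []],
  [[.ofNat (nat_lit 0), .negSucc (nat_lit 475986818277848825279), .ofNat (nat_lit 0)],
  []],
  [[],
  []]],
  [[[.negSucc (nat_lit 1857872376885307967), .negSucc (nat_lit 10073630951962033823), .ofNat (nat_lit 0)],
  []],
  [[.ofNat (nat_lit 0), .ofNat (nat_lit 173550545971550815392), .ofNat (nat_lit 0)],
  []],
  [[],
  []]],
  [[[.negSucc (nat_lit 52016940505297727), .ofNat (nat_lit 2338656075924606720), .ofNat (nat_lit 0)],
  []],
  [[.ofNat (nat_lit 0), .negSucc (nat_lit 26660897336235920543), .ofNat (nat_lit 0)],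
  []],
  [[],
  []]]],
  [[[[],
  []],
  [[],
  []],
  [[],
  []]],
  [[[.negSucc (nat_lit 230844665274826751), .ofNat (nat_lit 0), .ofNat (nat_lit 0)],
  []],
  [[.ofNat (nat_lit 0), .negSucc (nat_lit 96595330834370879), .ofNat (nat_lit 0)],
  [.ofNat (nat_lit 0), .ofNat (nat_lit 283028281364288160), .ofNat (nat_lit 0)]],
  [[.ofNat (nat_lit 0), .ofNat (nat_lit 259006374752138496), .ofNat (nat_lit 0)],
  [.ofNat (nat_lit 0), .negSucc (nat_lit 627727727588822207), .ofNat (nat_lit 0)]]],
  [[[.ofNat (nat_lit 2489093026202911680), .ofNat (nat_lit 13369868012911392), .ofNat (nat_lit 0)],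
  []],
  [[.ofNat (nat_lit 0), .negSucc (nat_lit 7455753188051881823), .ofNat (nat_lit 0)],
  [.ofNat (nat_lit 0), .negSucc (nat_lit 566056562728576319), .ofNat (nat_lit 0)]],
  [[.ofNat (nat_lit 0), .negSucc (nat_lit 518012749504276991), .ofNat (nat_lit 0)],
  [.ofNat (nat_lit 0), .ofNat (nat_lit 1255455455177644416), .ofNat (nat_lit 0)]]],
  [[[.negSucc (nat_lit 11020207388101527743), .ofNat (nat_lit 3893257941521812704), .ofNat (nat_lit 0)],
  []],
  [[.ofNat (nat_lit 0), .ofNat (nat_lit 86615103982527294336), .ofNat (nat_lit 0)],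
  [.ofNat (nat_lit 0), .ofNat (nat_lit 283028281364288160), .ofNat (nat_lit 0)]],
  [[.ofNat (nat_lit 0), .ofNat (nat_lit 259006374752138496), .ofNat (nat_lit 0)],
  [.ofNat (nat_lit 0), .negSucc (nat_lit 627727727588822207), .ofNat (nat_lit 0)]]],
  [[[.ofNat (nat_lit 23883421586997218976), .negSucc (nat_lit 14635553359346535743), .ofNat (nat_lit 0)],
  []],
  [[.ofNat (nat_lit 0), .negSucc (nat_lit 347690352602328388991), .ofNat (nat_lit 0)],
  []],
  [[],
  []]],
  [[[.negSucc (nat_lit 24208481973315596831), .ofNat (nat_lit 11760138793676771712), .ofNat (nat_lit 0)],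
  []],
  [[.ofNat (nat_lit 0), .ofNat (nat_lit 722643866762513698656), .ofNat (nat_lit 0)],
  []],
  [[],
  []]],
  [[[.ofNat (nat_lit 5057866487100538080), .ofNat (nat_lit 17487579770947827936), .ofNat (nat_lit 0)],
  []],
  [[.ofNat (nat_lit 0), .negSucc (nat_lit 876130043813206072991), .ofNat (nat_lit 0)],
  []],
  [[],
  []]],
  [[[.ofNat (nat_lit 10451371181949804960), .negSucc (nat_lit 34202079227847614399), .ofNat (nat_lit 0)],
  []],
  [[.ofNat (nat_lit 0), .ofNat (nat_lit 626677753994648605152), .ofNat (nat_lit 0)],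
  []],
  [[],
  []]],
  [[[.negSucc (nat_lit 8115171399537532991), .ofNat (nat_lit 18625494039656080896), .ofNat (nat_lit 0)],
  []],
  [[.ofNat (nat_lit 0), .negSucc (nat_lit 243816669520217467199), .ofNat (nat_lit 0)],
  []],
  [[],
  []]],
  [[[.ofNat (nat_lit 1692953143979010624), .negSucc (nat_lit 2942207826621254495), .ofNat (nat_lit 0)],
  []],
  [[.ofNat (nat_lit 0), .ofNat (nat_lit 39252689714948583744), .ofNat (nat_lit 0)],
  []],
  [[],
  []]]],
  [[[[],
  []],
  [[],
  []],
  [[],
  []]],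
  [[[.ofNat (nat_lit 0), .negSucc (nat_lit 34440387641010431), .ofNat (nat_lit 0)],
  []],
  [[.ofNat (nat_lit 0), .negSucc (nat_lit 155526983487723743), .ofNat (nat_lit 0)],
  [.ofNat (nat_lit 0), .ofNat (nat_lit 708995752910216928), .ofNat (nat_lit 0)]],
  [[.ofNat (nat_lit 0), .ofNat (nat_lit 444055448088949824), .ofNat (nat_lit 0)],
  [.ofNat (nat_lit 0), .negSucc (nat_lit 1016718140315693951), .ofNat (nat_lit 0)]]],
  [[[],
  []],
  [[],
  []],
  [[],
  []]],
  [[[.ofNat (nat_lit 992345572095903360), .ofNat (nat_lit 1839763610198626176), .ofNat (nat_lit 0)],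
  []],
  [[.ofNat (nat_lit 0), .negSucc (nat_lit 29199297601200888863), .ofNat (nat_lit 0)],
  [.ofNat (nat_lit 0), .negSucc (nat_lit 2126987258730650783), .ofNat (nat_lit 0)]],
  [[.ofNat (nat_lit 0), .negSucc (nat_lit 1332166344266849471), .ofNat (nat_lit 0)],
  [.ofNat (nat_lit 0), .ofNat (nat_lit 3050154420947081856), .ofNat (nat_lit 0)]]],
  [[[.negSucc (nat_lit 5446611275617082015), .negSucc (nat_lit 2260429027623828287), .ofNat (nat_lit 0)],
  []],
  [[.ofNat (nat_lit 0), .ofNat (nat_lit 157939327997186682816), .ofNat (nat_lit 0)],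
  [.ofNat (nat_lit 0), .ofNat (nat_lit 1417991505820433856), .ofNat (nat_lit 0)]],
  [[.ofNat (nat_lit 0), .ofNat (nat_lit 888110896177899648), .ofNat (nat_lit 0)],
  [.ofNat (nat_lit 0), .negSucc (nat_lit 2033436280631387903), .ofNat (nat_lit 0)]]],
  [[[.ofNat (nat_lit 10836313343578892160), .negSucc (nat_lit 9975834076218828191), .ofNat (nat_lit 0)],
  []],
  [[.ofNat (nat_lit 0), .negSucc (nat_lit 362843381395435657247), .ofNat (nat_lit 0)],
  []],
  [[],
  []]],
  [[[.negSucc (nat_lit 9104873322071362175), .ofNat (nat_lit 28593462503615771808), .ofNat (nat_lit 0)],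
  []],
  [[.ofNat (nat_lit 0), .ofNat (nat_lit 454453021273551830496), .ofNat (nat_lit 0)],
  []],
  [[],
  []]],
  [[[.ofNat (nat_lit 1998480415948518528), .negSucc (nat_lit 30398766218578625759), .ofNat (nat_lit 0)],
  []],
  [[.ofNat (nat_lit 0), .negSucc (nat_lit 322856777899634857919), .ofNat (nat_lit 0)],
  []],
  [[],
  []]],
  [[[.ofNat (nat_lit 1251388705511470752), .ofNat (nat_lit 15459567809240716704), .ofNat (nat_lit 0)],
  []],
  [[.ofNat (nat_lit 0), .ofNat (nat_lit 120471379049530562400), .ofNat (nat_lit 0)],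
  []],
  [[],
  []]],
  [[[.negSucc (nat_lit 527043439446340607), .negSucc (nat_lit 3223324212992822015), .ofNat (nat_lit 0)],
  []],
  [[.ofNat (nat_lit 0), .negSucc (nat_lit 17808744440509947935), .ofNat (nat_lit 0)],
  []],
  [[],
  []]]],
  [[[[],
  []],
  [[],
  []],
  [[],
  []]],
  [[[.negSucc (nat_lit 21127886633972735), .negSucc (nat_lit 25539595194712607), .ofNat (nat_lit 0)],
  [.ofNat (nat_lit 26636270792545728), .ofNat (nat_lit 0), .ofNat (nat_lit 0)]],
  [[.ofNat (nat_lit 0), .ofNat (nat_lit 320496050680522848), .ofNat (nat_lit 0)],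
  [.ofNat (nat_lit 0), .negSucc (nat_lit 973950677909275103), .ofNat (nat_lit 0)]],
  [[.ofNat (nat_lit 0), .negSucc (nat_lit 664701271186372127), .ofNat (nat_lit 0)],
  [.ofNat (nat_lit 0), .ofNat (nat_lit 1552540949839491840), .ofNat (nat_lit 0)]]],
  [[[],
  []],
  [[],
  []],
  [[],
  []]],
  [[[],
  []],
  [[],
  []],
  [[],
  []]],
  [[[.ofNat (nat_lit 1763959867475015808), .negSucc (nat_lit 1304420680471610591), .ofNat (nat_lit 0)],
  [.negSucc (nat_lit 106545083170182911), .ofNat (nat_lit 0), .ofNat (nat_lit 0)]],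
  [[.ofNat (nat_lit 0), .negSucc (nat_lit 181331346416271263), .ofNat (nat_lit 0)],
  [.ofNat (nat_lit 0), .ofNat (nat_lit 3895802711637100416), .ofNat (nat_lit 0)]],
  [[.ofNat (nat_lit 0), .ofNat (nat_lit 2658805084745488512), .ofNat (nat_lit 0)],
  [.ofNat (nat_lit 0), .negSucc (nat_lit 6210163799357967359), .ofNat (nat_lit 0)]]],
  [[[.negSucc (nat_lit 9540150025438113695), .ofNat (nat_lit 13498006742071317216), .ofNat (nat_lit 0)],
  [.ofNat (nat_lit 79908812377637184), .ofNat (nat_lit 0), .ofNat (nat_lit 0)]],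
  [[.ofNat (nat_lit 0), .negSucc (nat_lit 7608985850913172703), .ofNat (nat_lit 0)],
  [.ofNat (nat_lit 0), .negSucc (nat_lit 2921852033727825311), .ofNat (nat_lit 0)]],
  [[.ofNat (nat_lit 0), .negSucc (nat_lit 1994103813559116383), .ofNat (nat_lit 0)],
  [.ofNat (nat_lit 0), .ofNat (nat_lit 4657622849518475520), .ofNat (nat_lit 0)]]],
  [[[.ofNat (nat_lit 20128250677952143584), .negSucc (nat_lit 32828016424674545855), .ofNat (nat_lit 0)],
  []],
  [[.ofNat (nat_lit 0), .ofNat (nat_lit 32369047786523399328), .ofNat (nat_lit 0)],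
  []],
  [[],
  []]],
  [[[.negSucc (nat_lit 19722108304043899199), .ofNat (nat_lit 29283294767809384512), .ofNat (nat_lit 0)],
  []],
  [[.ofNat (nat_lit 0), .negSucc (nat_lit 48166885196254988351), .ofNat (nat_lit 0)],
  []],
  [[],
  []]],
  [[[.ofNat (nat_lit 8569288431680525280), .negSucc (nat_lit 7348147065964646495), .ofNat (nat_lit 0)],
  []],
  [[.ofNat (nat_lit 0), .ofNat (nat_lit 28005258763229643072), .ofNat (nat_lit 0)],
  []],
  [[],
  []]],
  [[[.negSucc (nat_lit 1178112760991699039), .negSucc (nat_lit 1275177743575186175), .ofNat (nat_lit 0)],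
  []],
  [[.ofNat (nat_lit 0), .negSucc (nat_lit 4737600206849132927), .ofNat (nat_lit 0)],
  []],
  [[],
  []]]],
  [[[[],
  []],
  [[],
  []],
  [[],
  []]],
  [[[.ofNat (nat_lit 35599827559303296), .negSucc (nat_lit 13700875972681727), .ofNat (nat_lit 0)],
  [.negSucc (nat_lit 68994090821314655), .ofNat (nat_lit 0), .ofNat (nat_lit 0)]],
  [[.ofNat (nat_lit 0), .negSucc (nat_lit 234082959758847359), .ofNat (nat_lit 0)],
  [.ofNat (nat_lit 0), .ofNat (nat_lit 1060699352834388960), .ofNat (nat_lit 0)]],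
  [[.ofNat (nat_lit 0), .ofNat (nat_lit 219954102868480320), .ofNat (nat_lit 0)],
  [.ofNat (nat_lit 0), .negSucc (nat_lit 598487987474247743), .ofNat (nat_lit 0)]]],
  [[[],
  []],
  [[],
  []],
  [[],
  []]],
  [[[],
  []],
  [[],
  []],
  [[],
  []]],
  [[[],
  []],
  [[],
  []],
  [[],
  []]],
  [[[.ofNat (nat_lit 2143879705890435456), .negSucc (nat_lit 1005196640822199647), .ofNat (nat_lit 0)],
  [.ofNat (nat_lit 344970454106573280), .ofNat (nat_lit 0), .ofNat (nat_lit 0)]],
  [[.ofNat (nat_lit 0), .ofNat (nat_lit 3337573635867038112), .ofNat (nat_lit 0)],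
  [.ofNat (nat_lit 0), .negSucc (nat_lit 5303496764171944799), .ofNat (nat_lit 0)]],
  [[.ofNat (nat_lit 0), .negSucc (nat_lit 1099770514342401599), .ofNat (nat_lit 0)],
  [.ofNat (nat_lit 0), .ofNat (nat_lit 2992439937371238720), .ofNat (nat_lit 0)]]],
  [[[.negSucc (nat_lit 8741382082211484575), .negSucc (nat_lit 775395080445626783), .ofNat (nat_lit 0)],
  [.negSucc (nat_lit 275976363285258623), .ofNat (nat_lit 0), .ofNat (nat_lit 0)]],
  [[.ofNat (nat_lit 0), .negSucc (nat_lit 14525752621382700191), .ofNat (nat_lit 0)],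
  [.ofNat (nat_lit 0), .ofNat (nat_lit 4242797411337555840), .ofNat (nat_lit 0)]],
  [[.ofNat (nat_lit 0), .ofNat (nat_lit 879816411473921280), .ofNat (nat_lit 0)],
  [.ofNat (nat_lit 0), .negSucc (nat_lit 2393951949896990975), .ofNat (nat_lit 0)]]],
  [[[.ofNat (nat_lit 12249791005968256608), .ofNat (nat_lit 9230598939775851648), .ofNat (nat_lit 0)],
  []],
  [[.ofNat (nat_lit 0), .ofNat (nat_lit 17598921152399631360), .ofNat (nat_lit 0)],
  []],
  [[],
  []]],
  [[[.negSucc (nat_lit 7135753209338227679), .negSucc (nat_lit 12004619067144570527), .ofNat (nat_lit 0)],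
  []],
  [[.ofNat (nat_lit 0), .negSucc (nat_lit 3098215306048535711), .ofNat (nat_lit 0)],
  []],
  [[],
  []]],
  [[[.ofNat (nat_lit 1447864752131716896), .ofNat (nat_lit 4568312724609227040), .ofNat (nat_lit 0)],
  []],
  [[.ofNat (nat_lit 0), .negSucc (nat_lit 3078443901076586207), .ofNat (nat_lit 0)],
  []],
  [[],
  []]]],
  [[[[],
  []],
  [[],
  []],
  [[],
  []]],
  [[[.ofNat (nat_lit 10629749306548512), .negSucc (nat_lit 14603524755770303), .ofNat (nat_lit 0)],
  [.negSucc (nat_lit 9863148415259519), .ofNat (nat_lit 0), .ofNat (nat_lit 0)]],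
  [[.ofNat (nat_lit 0), .ofNat (nat_lit 385040009766875328), .ofNat (nat_lit 0)],
  [.ofNat (nat_lit 0), .negSucc (nat_lit 1520292950475753599), .ofNat (nat_lit 0)]],
  [[.ofNat (nat_lit 0), .negSucc (nat_lit 912708927613658879), .ofNat (nat_lit 0)],
  [.ofNat (nat_lit 0), .ofNat (nat_lit 1857343684668640992), .ofNat (nat_lit 0)]]],
  [[[],
  []],
  [[],
  []],
  [[],
  []]],
  [[[],
  []],
  [[],
  []],
  [[],
  []]],
  [[[],
  []],
  [[],
  []],
  [[],
  []]],
  [[[],
  []],
  [[],
  []],
  [[],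
  []]],
  [[[.ofNat (nat_lit 230487862406373504), .negSucc (nat_lit 462627454854787487), .ofNat (nat_lit 0)],
  [.ofNat (nat_lit 59178890491557120), .ofNat (nat_lit 0), .ofNat (nat_lit 0)]],
  [[.ofNat (nat_lit 0), .negSucc (nat_lit 3355617508367217983), .ofNat (nat_lit 0)],
  [.ofNat (nat_lit 0), .ofNat (nat_lit 9121757702854521600), .ofNat (nat_lit 0)]],
  [[.ofNat (nat_lit 0), .ofNat (nat_lit 5476253565681953280), .ofNat (nat_lit 0)],
  [.ofNat (nat_lit 0), .negSucc (nat_lit 11144062108011845951), .ofNat (nat_lit 0)]]],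
  [[[.negSucc (nat_lit 1243870314592800959), .ofNat (nat_lit 3739222008726124608), .ofNat (nat_lit 0)],
  [.negSucc (nat_lit 49315742076297599), .ofNat (nat_lit 0), .ofNat (nat_lit 0)]],
  [[.ofNat (nat_lit 0), .ofNat (nat_lit 2860395211163143872), .ofNat (nat_lit 0)],
  [.ofNat (nat_lit 0), .negSucc (nat_lit 7601464752378767999), .ofNat (nat_lit 0)]],
  [[.ofNat (nat_lit 0), .negSucc (nat_lit 4563544638068294399), .ofNat (nat_lit 0)],
  [.ofNat (nat_lit 0), .ofNat (nat_lit 9286718423343204960), .ofNat (nat_lit 0)]]],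
  [[[.ofNat (nat_lit 1711239047514093312), .negSucc (nat_lit 5973733454841724319), .ofNat (nat_lit 0)],
  []],
  [[.ofNat (nat_lit 0), .ofNat (nat_lit 1265742024640363584), .ofNat (nat_lit 0)],
  []],
  [[],
  []]],
  [[[.negSucc (nat_lit 708486344634214367), .ofNat (nat_lit 2711742425726157504), .ofNat (nat_lit 0)],
  []],
  [[.ofNat (nat_lit 0), .negSucc (nat_lit 1155559737203164799), .ofNat (nat_lit 0)],
  []],
  [[],
  []]]],
  [[[[],
  []],
  [[],
  []],
  [[],
  []]],
  [[[.ofNat (nat_lit 8270591446872864), .negSucc (nat_lit 22003067810716703), .ofNat (nat_lit 0)],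
  [.negSucc (nat_lit 27420621727154399), .ofNat (nat_lit 0), .ofNat (nat_lit 0)]],
  [[.ofNat (nat_lit 0), .negSucc (nat_lit 1859960939140228031), .ofNat (nat_lit 0)],
  [.ofNat (nat_lit 0), .ofNat (nat_lit 3526386972188213088), .ofNat (nat_lit 0)]],
  [[.ofNat (nat_lit 0), .ofNat (nat_lit 2488582925527048128), .ofNat (nat_lit 0)],
  [.ofNat (nat_lit 0), .negSucc (nat_lit 5031538283809574783), .ofNat (nat_lit 0)]]],
  [[[],
  []],
  [[],
  []],
  [[],
  []]],
  [[[],
  []],
  [[],
  []],
  [[],
  []]],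
  [[[],
  []],
  [[],
  []],
  [[],
  []]],
  [[[],
  []],
  [[],
  []],
  [[],
  []]],
  [[[.ofNat (nat_lit 439582533018207840), .ofNat (nat_lit 3958986961246154688), .ofNat (nat_lit 0)],
  [.ofNat (nat_lit 164523730362926400), .ofNat (nat_lit 0), .ofNat (nat_lit 0)]],
  [[.ofNat (nat_lit 0), .ofNat (nat_lit 8111746180766071872), .ofNat (nat_lit 0)],
  [.ofNat (nat_lit 0), .negSucc (nat_lit 21158321833129278527), .ofNat (nat_lit 0)]],
  [[.ofNat (nat_lit 0), .negSucc (nat_lit 14931497553162288767), .ofNat (nat_lit 0)],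
  [.ofNat (nat_lit 0), .ofNat (nat_lit 30189229702857448704), .ofNat (nat_lit 0)]]],
  [[[.negSucc (nat_lit 1232919704971560095), .negSucc (nat_lit 10575740047976153279), .ofNat (nat_lit 0)],
  [.negSucc (nat_lit 137103108635771999), .ofNat (nat_lit 0), .ofNat (nat_lit 0)]],
  [[.ofNat (nat_lit 0), .ofNat (nat_lit 1011680079019904736), .ofNat (nat_lit 0)],
  [.ofNat (nat_lit 0), .ofNat (nat_lit 17631934860941065440), .ofNat (nat_lit 0)]],
  [[.ofNat (nat_lit 0), .ofNat (nat_lit 12442914627635240640), .ofNat (nat_lit 0)],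
  [.ofNat (nat_lit 0), .negSucc (nat_lit 25157691419047873919), .ofNat (nat_lit 0)]]],
  [[[.ofNat (nat_lit 1080927079313513760), .ofNat (nat_lit 9450543754699576128), .ofNat (nat_lit 0)],
  []],
  [[.ofNat (nat_lit 0), .negSucc (nat_lit 11478911187216200831), .ofNat (nat_lit 0)],
  []],
  [[],
  []]],
  [[[.negSucc (nat_lit 295860498807034367), .negSucc (nat_lit 2811787600158860831), .ofNat (nat_lit 0)],
  []],
  [[.ofNat (nat_lit 0), .ofNat (nat_lit 4215445866570452256), .ofNat (nat_lit 0)],
  []],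
  [[],
  []]]],
  [[[[],
  []],
  [[],
  []],
  [[],
  []]],
  [[[.negSucc (nat_lit 26733022909510175), .negSucc (nat_lit 19811681596549151), .ofNat (nat_lit 0)],
  [.ofNat (nat_lit 46932594280399584), .ofNat (nat_lit 0), .ofNat (nat_lit 0)]],
  [[.ofNat (nat_lit 0), .ofNat (nat_lit 840109778792530272), .ofNat (nat_lit 0)],
  [.ofNat (nat_lit 0), .negSucc (nat_lit 612425012358894911), .ofNat (nat_lit 0)]],
  [[.ofNat (nat_lit 0), .negSucc (nat_lit 403636241889162719), .ofNat (nat_lit 0)],
  [.ofNat (nat_lit 0), .ofNat (nat_lit 831278820272262912), .ofNat (nat_lit 0)]]],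
  [[[],
  []],
  [[],
  []],
  [[],
  []]],
  [[[],
  []],
  [[],
  []],
  [[],
  []]],
  [[[],
  []],
  [[],
  []],
  [[],
  []]],
  [[[],
  []],
  [[],
  []],
  [[],
  []]],
  [[[],
  []],
  [[],
  []],
  [[],
  []]],
  [[[.ofNat (nat_lit 631033090247849472), .negSucc (nat_lit 1648726474653535391), .ofNat (nat_lit 0)],
  [.negSucc (nat_lit 328528159962797087), .ofNat (nat_lit 0), .ofNat (nat_lit 0)]],
  [[.ofNat (nat_lit 0), .negSucc (nat_lit 3219561439553863007), .ofNat (nat_lit 0)],
  [.ofNat (nat_lit 0), .ofNat (nat_lit 4286975086512264384), .ofNat (nat_lit 0)]],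
  [[.ofNat (nat_lit 0), .ofNat (nat_lit 2825453693224139040), .ofNat (nat_lit 0)],
  [.ofNat (nat_lit 0), .negSucc (nat_lit 5818951741905840383), .ofNat (nat_lit 0)]]],
  [[[.negSucc (nat_lit 1048201997219617535), .ofNat (nat_lit 3455946402079464000), .ofNat (nat_lit 0)],
  [.ofNat (nat_lit 281595565682397504), .ofNat (nat_lit 0), .ofNat (nat_lit 0)]],
  [[.ofNat (nat_lit 0), .negSucc (nat_lit 281755351232516159), .ofNat (nat_lit 0)],
  [.ofNat (nat_lit 0), .negSucc (nat_lit 3674550074153369471), .ofNat (nat_lit 0)]],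
  [[.ofNat (nat_lit 0), .negSucc (nat_lit 2421817451334976319), .ofNat (nat_lit 0)],
  [.ofNat (nat_lit 0), .ofNat (nat_lit 4987672921633577472), .ofNat (nat_lit 0)]]],
  [[[.ofNat (nat_lit 443901929881278240), .negSucc (nat_lit 1787408245829379455), .ofNat (nat_lit 0)],
  []],
  [[.ofNat (nat_lit 0), .ofNat (nat_lit 2661207011993848896), .ofNat (nat_lit 0)],
  []],
  [[],
  []]]],
  [[[[],
  []],
  [[],
  []],
  [[],
  []]],
  [[[.ofNat (nat_lit 1382600561074272), .negSucc (nat_lit 3990336248200895), .ofNat (nat_lit 0)],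
  [.negSucc (nat_lit 2977007669315135), .ofNat (nat_lit 0), .ofNat (nat_lit 0)]],
  [[.ofNat (nat_lit 0), .negSucc (nat_lit 247982665421452607), .ofNat (nat_lit 0)],
  [.ofNat (nat_lit 0), .ofNat (nat_lit 485699626960650144), .ofNat (nat_lit 0)]],
  [[.ofNat (nat_lit 0), .ofNat (nat_lit 283977803346033312), .ofNat (nat_lit 0)],
  [.ofNat (nat_lit 0), .negSucc (nat_lit 578354171451028415), .ofNat (nat_lit 0)]]],
  [[[],
  []],
  [[],
  []],
  [[],
  []]],
  [[[],
  []],
  [[],
  []],
  [[],
  []]],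
  [[[],
  []],
  [[],
  []],
  [[],
  []]],
  [[[],
  []],
  [[],
  []],
  [[],
  []]],
  [[[],
  []],
  [[],
  []],
  [[],
  []]],
  [[[],
  []],
  [[],
  []],
  [[],
  []]],
  [[[.negSucc (nat_lit 11060804488594175), .ofNat (nat_lit 31922689985607168), .ofNat (nat_lit 0)],
  [.ofNat (nat_lit 23816061354521088), .ofNat (nat_lit 0), .ofNat (nat_lit 0)]],
  [[.ofNat (nat_lit 0), .ofNat (nat_lit 1983861323371620864), .ofNat (nat_lit 0)],
  [.ofNat (nat_lit 0), .negSucc (nat_lit 3885597015685201151), .ofNat (nat_lit 0)]],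
  [[.ofNat (nat_lit 0), .negSucc (nat_lit 2271822426768266495), .ofNat (nat_lit 0)],
  [.ofNat (nat_lit 0), .ofNat (nat_lit 4626833371608227328), .ofNat (nat_lit 0)]]],
  [[[.ofNat (nat_lit 9678203927519904), .negSucc (nat_lit 27932353737406271), .ofNat (nat_lit 0)],
  [.negSucc (nat_lit 20839053685205951), .ofNat (nat_lit 0), .ofNat (nat_lit 0)]],
  [[.ofNat (nat_lit 0), .negSucc (nat_lit 1735878657950168255), .ofNat (nat_lit 0)],
  [.ofNat (nat_lit 0), .ofNat (nat_lit 3399897388724551008), .ofNat (nat_lit 0)]],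
  [[.ofNat (nat_lit 0), .ofNat (nat_lit 1987844623422233184), .ofNat (nat_lit 0)],
  [.ofNat (nat_lit 0), .negSucc (nat_lit 4048479200157198911), .ofNat (nat_lit 0)]]]],
  [[[[],
  []],
  [[],
  []],
  [[],
  []]],
  [[[.ofNat (nat_lit 773566459765056), .ofNat (nat_lit 26199059888613888), .ofNat (nat_lit 0)],
  [.negSucc (nat_lit 9138248149689791), .ofNat (nat_lit 0), .ofNat (nat_lit 0)]],
  [[.ofNat (nat_lit 0), .ofNat (nat_lit 177344861403056832), .ofNat (nat_lit 0)],
  [.ofNat (nat_lit 0), .negSucc (nat_lit 750200802980742143), .ofNat (nat_lit 0)]],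
  [[.ofNat (nat_lit 0), .negSucc (nat_lit 437154202413130175), .ofNat (nat_lit 0)],
  [.ofNat (nat_lit 0), .ofNat (nat_lit 885411305534021760), .ofNat (nat_lit 0)]]],
  [[[],
  []],
  [[],
  []],
  [[],
  []]],
  [[[],
  []],
  [[],
  []],
  [[],
  []]],
  [[[],
  []],
  [[],
  []],
  [[],
  []]],
  [[[],
  []],
  [[],
  []],
  [[],
  []]],
  [[[],
  []],
  [[],
  []],
  [[],
  []]],
  [[[],
  []],
  [[],
  []],
  [[],
  []]],
  [[[.negSucc (nat_lit 6188531678120447), .negSucc (nat_lit 209592479108911103), .ofNat (nat_lit 0)],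
  [.ofNat (nat_lit 73105985197518336), .ofNat (nat_lit 0), .ofNat (nat_lit 0)]],
  [[.ofNat (nat_lit 0), .negSucc (nat_lit 1418758891224454655), .ofNat (nat_lit 0)],
  [.ofNat (nat_lit 0), .ofNat (nat_lit 6001606423845937152), .ofNat (nat_lit 0)]],
  [[.ofNat (nat_lit 0), .ofNat (nat_lit 3497233619305041408), .ofNat (nat_lit 0)],
  [.ofNat (nat_lit 0), .negSucc (nat_lit 7083290444272174079), .ofNat (nat_lit 0)]]],
  [[[.ofNat (nat_lit 5414965218355392), .ofNat (nat_lit 183393419220297216), .ofNat (nat_lit 0)],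
  [.negSucc (nat_lit 63967737047828543), .ofNat (nat_lit 0), .ofNat (nat_lit 0)]],
  [[.ofNat (nat_lit 0), .ofNat (nat_lit 1241414029821397824), .ofNat (nat_lit 0)],
  [.ofNat (nat_lit 0), .negSucc (nat_lit 5251405620865195007), .ofNat (nat_lit 0)]],
  [[.ofNat (nat_lit 0), .negSucc (nat_lit 3060079416891911231), .ofNat (nat_lit 0)],
  [.ofNat (nat_lit 0), .ofNat (nat_lit 6197879138738152320), .ofNat (nat_lit 0)]]]],
  [[[[],
  []],
  [[],
  []],
  [[],
  []]],
  [[[],
  []],
  [[],
  []],
  [[],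
  []]],
  [[[],
  []],
  [[],
  []],
  [[],
  []]],
  [[[],
  []],
  [[],
  []],
  [[],
  []]],
  [[[],
  []],
  [[],
  []],
  [[],
  []]],
  [[[],
  []],
  [[],
  []],
  [[],
  []]],
  [[[],
  []],
  [[],
  []],
  [[],
  []]],
  [[[],
  []],
  [[],
  []],
  [[],
  []]],
  [[[],
  []],
  [[],
  []],
  [[],
  []]],
  [[[],
  []],
  [[],
  []],
  [[],
  []]]],
  [[[[],
  []],
  [[],
  []],
  [[],
  []]],
  [[[],
  []],
  [[],
  []],
  [[],
  []]],
  [[[],
  []],
  [[],
  []],
  [[],
  []]],
  [[[],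
  []],
  [[],
  []],
  [[],
  []]],
  [[[],
  []],
  [[],
  []],
  [[],
  []]],
  [[[],
  []],
  [[],
  []],
  [[],
  []]],
  [[[],
  []],
  [[],
  []],
  [[],
  []]],
  [[[],
  []],
  [[],
  []],
  [[],
  []]],
  [[[],
  []],
  [[],
  []],
  [[],
  []]],
  [[[],
  []],
  [[],
  []],
  [[],
  []]]]]

noncomputable def BP6_tn : List (List ℕ) := [[nat_lit 16384, nat_lit 0, nat_lit 0],
  [nat_lit 32768, nat_lit 16384, nat_lit 0],
  [nat_lit 16384, nat_lit 16384, nat_lit 16384]]

noncomputable def BP6_zn : List (List ℕ) := [[nat_lit 18014398509481984, nat_lit 0, nat_lit 0, nat_lit 0, nat_lit 0, nat_lit 0, nat_lit 0, nat_lit 0, nat_lit 0, nat_lit 0],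
  [nat_lit 162129586585337856, nat_lit 9007199254740992, nat_lit 0, nat_lit 0, nat_lit 0, nat_lit 0, nat_lit 0, nat_lit 0, nat_lit 0, nat_lit 0],
  [nat_lit 648518346341351424, nat_lit 72057594037927936, nat_lit 4503599627370496, nat_lit 0, nat_lit 0, nat_lit 0, nat_lit 0, nat_lit 0, nat_lit 0, nat_lit 0],
  [nat_lit 1513209474796486656, nat_lit 252201579132747776, nat_lit 31525197391593472, nat_lit 2251799813685248, nat_lit 0, nat_lit 0, nat_lit 0, nat_lit 0, nat_lit 0, nat_lit 0],
  [nat_lit 2269814212194729984, nat_lit 504403158265495552, nat_lit 94575592174780416, nat_lit 13510798882111488, nat_lit 1125899906842624, nat_lit 0, nat_lit 0, nat_lit 0, nat_lit 0, nat_lit 0],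
  [nat_lit 2269814212194729984, nat_lit 630503947831869440, nat_lit 157625986957967360, nat_lit 33776997205278720, nat_lit 5629499534213120, nat_lit 562949953421312, nat_lit 0, nat_lit 0, nat_lit 0, nat_lit 0],
  [nat_lit 1513209474796486656, nat_lit 504403158265495552, nat_lit 157625986957967360, nat_lit 45035996273704960, nat_lit 11258999068426240, nat_lit 2251799813685248, nat_lit 281474976710656, nat_lit 0, nat_lit 0, nat_lit 0],
  [nat_lit 648518346341351424, nat_lit 252201579132747776, nat_lit 94575592174780416, nat_lit 33776997205278720, nat_lit 11258999068426240, nat_lit 3377699720527872, nat_lit 844424930131968, nat_lit 140737488355328, nat_lit 0, nat_lit 0],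
  [nat_lit 162129586585337856, nat_lit 72057594037927936, nat_lit 31525197391593472, nat_lit 13510798882111488, nat_lit 5629499534213120, nat_lit 2251799813685248, nat_lit 844424930131968, nat_lit 281474976710656, nat_lit 70368744177664, nat_lit 0],
  [nat_lit 18014398509481984, nat_lit 9007199254740992, nat_lit 4503599627370496, nat_lit 2251799813685248, nat_lit 1125899906842624, nat_lit 562949953421312, nat_lit 281474976710656, nat_lit 140737488355328, nat_lit 70368744177664, nat_lit 35184372088832],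
  [nat_lit 18014398509481984, nat_lit 9007199254740992, nat_lit 4503599627370496, nat_lit 2251799813685248, nat_lit 1125899906842624, nat_lit 562949953421312, nat_lit 281474976710656, nat_lit 140737488355328, nat_lit 70368744177664, nat_lit 35184372088832],
  [nat_lit 162129586585337856, nat_lit 90071992547409920, nat_lit 49539595901075456, nat_lit 27021597764222976, nat_lit 14636698788954112, nat_lit 7881299347898368, nat_lit 4222124650659840, nat_lit 2251799813685248, nat_lit 1196268651020288, nat_lit 633318697598976],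
  [nat_lit 648518346341351424, nat_lit 396316767208603648, nat_lit 238690780250636288, nat_lit 141863388262170624, nat_lit 83316593106354176, nat_lit 48413695994232832, nat_lit 27866022694354944, nat_lit 15903336184152064, nat_lit 9007199254740992, nat_lit 5066549580791808],
  [nat_lit 1513209474796486656, nat_lit 1008806316530991104, nat_lit 662029145223462912, nat_lit 427841964600197120, nat_lit 272467777455915008, nat_lit 171136785840078848, nat_lit 106116066219917312, nat_lit 65020719620161536, nat_lit 39406496739491840, nat_lit 23643898043695104],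
  [nat_lit 2269814212194729984, nat_lit 1639310264362860544, nat_lit 1166432303488958464, nat_lit 817403332367745024, nat_lit 564075853328154624, nat_lit 383368918279913472, nat_lit 256705178760118272, nat_lit 169447935979814912, nat_lit 110338190870577152, nat_lit 70931694131085312],
  [nat_lit 2269814212194729984, nat_lit 1765411053929234432, nat_lit 1355583487838519296, nat_lit 1026820715040473088, nat_lit 766737836559826944, nat_lit 564075853328154624, nat_lit 408701666183872512, nat_lit 291608075872239616, nat_lit 204913783045357568, nat_lit 141863388262170624],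
  [nat_lit 1513209474796486656, nat_lit 1261007895663738880, nat_lit 1040331513922584576, nat_lit 848928529759338496, nat_lit 684547143360315392, nat_lit 544935554911830016, nat_lit 427841964600197120, nat_lit 331014572611731456, nat_lit 252201579132747776, nat_lit 189151184349560832],
  [nat_lit 648518346341351424, nat_lit 576460752303423488, nat_lit 508906757892866048, nat_lit 445856363109679104, nat_lit 387309567953862656, nat_lit 333266372425416704, nat_lit 283726776524341248, nat_lit 238690780250636288, nat_lit 198158383604301824, nat_lit 162129586585337856],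
  [nat_lit 162129586585337856, nat_lit 153122387330596864, nat_lit 144115188075855872, nat_lit 135107988821114880, nat_lit 126100789566373888, nat_lit 117093590311632896, nat_lit 108086391056891904, nat_lit 99079191802150912, nat_lit 90071992547409920, nat_lit 81064793292668928],
  [nat_lit 18014398509481984, nat_lit 18014398509481984, nat_lit 18014398509481984, nat_lit 18014398509481984, nat_lit 18014398509481984, nat_lit 18014398509481984, nat_lit 18014398509481984, nat_lit 18014398509481984, nat_lit 18014398509481984, nat_lit 18014398509481984],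
  [nat_lit 18014398509481984, nat_lit 18014398509481984, nat_lit 18014398509481984, nat_lit 18014398509481984, nat_lit 18014398509481984, nat_lit 18014398509481984, nat_lit 18014398509481984, nat_lit 18014398509481984, nat_lit 18014398509481984, nat_lit 18014398509481984],
  [nat_lit 162129586585337856, nat_lit 171136785840078848, nat_lit 180143985094819840, nat_lit 189151184349560832, nat_lit 198158383604301824, nat_lit 207165582859042816, nat_lit 216172782113783808, nat_lit 225179981368524800, nat_lit 234187180623265792, nat_lit 243194379878006784],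
  [nat_lit 648518346341351424, nat_lit 720575940379279360, nat_lit 797137134044577792, nat_lit 878201927337246720, nat_lit 963770320257286144, nat_lit 1053842312804696064, nat_lit 1148417904979476480, nat_lit 1247497096781627392, nat_lit 1351079888211148800, nat_lit 1459166279268040704],
  [nat_lit 1513209474796486656, nat_lit 1765411053929234432, nat_lit 2049137830453575680, nat_lit 2366641604183195648, nat_lit 2720174174931779584, nat_lit 3111987342513012736, nat_lit 3544332906740580352, nat_lit 4019462667428167680, nat_lit 4539628424389459968, nat_lit 5107081977438142464],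
  [nat_lit 2269814212194729984, nat_lit 2774217370460225536, nat_lit 3373196120900501504, nat_lit 4080261262397669376, nat_lit 4910049493740683264, nat_lit 5878323413625339904, nat_lit 7001971520654278656, nat_lit 8299008213336981504, nat_lit 9788573790089773056, nat_lit 11490934449235820544],
  [nat_lit 2269814212194729984, nat_lit 2900318160026599424, nat_lit 3688448094816436224, nat_lit 4667981013769519104, nat_lit 5878323413625339904, nat_lit 7365074240611024896, nat_lit 9180587840394756096, nat_lit 11384536908039192576, nat_lit 14044475437954891776, nat_lit 17236401673853730816],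
  [nat_lit 1513209474796486656, nat_lit 2017612633061982208, nat_lit 2679641778285445120, nat_lit 3544332906740580352, nat_lit 4667981013769519104, nat_lit 6120391893596504064, nat_lit 7987415414118285312, nat_lit 10373760266671226880, nat_lit 13406090190775123968, nat_lit 17236401673853730816],
  [nat_lit 648518346341351424, nat_lit 900719925474099200, nat_lit 1247497096781627392, nat_lit 1722626857469214720, nat_lit 2371145203810566144, nat_lit 3252724830868340736, nat_lit 4445897257144811520, nat_lit 6053260111651012608, nat_lit 8207810320882728960, nat_lit 11080543933191684096],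
  [nat_lit 162129586585337856, nat_lit 234187180623265792, nat_lit 337769972052787200, nat_lit 486388759756013568, nat_lit 699183842149269504, nat_lit 1003176816996777984, nat_lit 1436366806154477568, nat_lit 2051952580220682240, nat_lit 2924032426814472192, nat_lit 4155203974946881536],
  [nat_lit 18014398509481984, nat_lit 27021597764222976, nat_lit 40532396646334464, nat_lit 60798594969501696, nat_lit 91197892454252544, nat_lit 136796838681378816, nat_lit 205195258022068224, nat_lit 307792887033102336, nat_lit 461689330549653504, nat_lit 692533995824480256]]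

noncomputable def BP6_sn : List (List ℕ) := [[nat_lit 4096, nat_lit 0, nat_lit 0],
  [nat_lit 8192, nat_lit 1024, nat_lit 0],
  [nat_lit 4096, nat_lit 1024, nat_lit 256]]

noncomputable def BP6_en : List (List ℕ) := [[nat_lit 18446744073709551616, nat_lit 8646911284551352320, nat_lit 4053239664633446400, nat_lit 1899956092796928000, nat_lit 890604418498560000, nat_lit 417470821171200000, nat_lit 195689447424000000, nat_lit 91729428480000000, nat_lit 42998169600000000],
  [nat_lit 147573952589676412928, nat_lit 69751751028714242048, nat_lit 32966349272352030720, nat_lit 15579639960934809600, nat_lit 7362329859588096000, nat_lit 3478923509760000000, nat_lit 1643791358361600000, nat_lit 776642494464000000, nat_lit 366917713920000000],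
  [nat_lit 516508834063867445248, nat_lit 246148741233561829376, nat_lit 117291748695237197824, nat_lit 55884041876133642240, nat_lit 26623134750316953600, nat_lit 12681835834245120000, nat_lit 6040280943820800000, nat_lit 2876634877132800000, nat_lit 1369826131968000000],
  [nat_lit 1033017668127734890496, nat_lit 496332707733247623168, nat_lit 238438578671503540224, nat_lit 114529916223752241152, nat_lit 55004784417633730560, nat_lit 26413224236679168000, nat_lit 12681835834245120000, nat_lit 6088116142080000000, nat_lit 2922295748198400000],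
  [nat_lit 1291272085159668613120, nat_lit 625459916249214484480, nat_lit 302912110936939560960, nat_lit 146679425113689948160, nat_lit 71016154216284553216, nat_lit 34377990261021081600, nat_lit 16639459218948096000, nat_lit 8052548283924480000, nat_lit 3896394330931200000],
  [nat_lit 1033017668127734890496, nat_lit 504403158265495552000, nat_lit 246256827624618721280, nat_lit 120209518303819857920, nat_lit 58671770045475979264, nat_lit 28632479055938060288, nat_lit 13971010469033410560, nat_lit 6816092482908979200, nat_lit 3324923162394624000],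
  [nat_lit 516508834063867445248, nat_lit 254219191765809758208, nat_lit 125109997648352378880, nat_lit 61564206906154680320, nat_lit 30291211093693956096, nat_lit 14902411166968971264, nat_lit 7330734293452324864, nat_lit 3605694451663503360, nat_lit 1773292353277132800],
  [nat_lit 147573952589676412928, nat_lit 73210515542534782976, nat_lit 36317027395115679744, nat_lit 18014398509481984000, nat_lit 8935141660703064064, nat_lit 4431542033332568064, nat_lit 2197756618156802048, nat_lit 1089871109823660032, nat_lit 540431955284459520],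
  [nat_lit 18446744073709551616, nat_lit 9223372036854775808, nat_lit 4611686018427387904, nat_lit 2305843009213693952, nat_lit 1152921504606846976, nat_lit 576460752303423488, nat_lit 288230376151711744, nat_lit 144115188075855872, nat_lit 72057594037927936]]

noncomputable def BP6_en1 : List (List ℕ) := [[nat_lit 256, nat_lit 120],
  [nat_lit 256, nat_lit 128]]


end Crest.Agent.R163.Ck
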