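import Crest.Agent.R163.BR4D

/-! Row 163: Bellman certificate, kernel checks (generated). -/

set_option autoImplicit false
set_option Elab.async false
set_option maxRecDepth 100000

namespace Crest.Agent.R163.Ck

theorem BR4_p0_0_0 : pcAll 256 BR4_A B8m1b_256_degs B8m1b_256_rp 10 B8m1b_256_cp B8m1b_256_rw BR4_tn (chunk 10 0 B8m1b_256_sw)
    (chunk 1 0 BR4_en) (chunk 1 0 BR4_sn) = true := by decide +kernel

theorem BR4_p1_0_0 : pcAll 256 BR4_A B8m1b_256_degs B8m1b_256_rp 10 B8m1b_256_cp B8m1b_256_rw BR4_tn (chunk 10 0 B8m1b_256_sw)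
    (chunk 1 0 BR4_en) (chunk 1 1 BR4_sn) = true := by decide +kernel

theorem BR4_p2_0_0 : pcAll 256 BR4_A B8m1b_256_degs B8m1b_256_rp 10 B8m1b_256_cp B8m1b_256_rw BR4_tn (chunk 10 0 B8m1b_256_sw)
    (chunk 1 0 BR4_en) (chunk 1 2 BR4_sn) = true := by decide +kernel

theorem BR4_e0_0 : ecAll 256 BR4_E B8m1b_256_degs B8m1b_256_re 15 B8m1b_256_ce BR4_zn (chunk 1 0 BR4_tn) BR4_en1
    (chunk 1 0 BR4_sn) = true := by decide +kernel

theorem BR4_e0_1 : ecAll 256 BR4_E B8m1b_256_degs B8m1b_256_re 15 B8m1b_256_ce BR4_zn (chunk 1 1 BR4_tn) BR4_en1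
    (chunk 1 0 BR4_sn) = true := by decide +kernel

theorem BR4_e0_2 : ecAll 256 BR4_E B8m1b_256_degs B8m1b_256_re 15 B8m1b_256_ce BR4_zn (chunk 1 2 BR4_tn) BR4_en1
    (chunk 1 0 BR4_sn) = true := by decide +kernel

theorem BR4_e1_0 : ecAll 256 BR4_E B8m1b_256_degs B8m1b_256_re 15 B8m1b_256_ce BR4_zn (chunk 1 0 BR4_tn) BR4_en1
    (chunk 1 1 BR4_sn) = true := by decide +kernel

theorem BR4_e1_1 : ecAll 256 BR4_E B8m1b_256_degs B8m1b_256_re 15 B8m1b_256_ce BR4_zn (chunk 1 1 BR4_tn) BR4_en1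
    (chunk 1 1 BR4_sn) = true := by decide +kernel

theorem BR4_e1_2 : ecAll 256 BR4_E B8m1b_256_degs B8m1b_256_re 15 B8m1b_256_ce BR4_zn (chunk 1 2 BR4_tn) BR4_en1
    (chunk 1 1 BR4_sn) = true := by decide +kernel

theorem BR4_e2_0 : ecAll 256 BR4_E B8m1b_256_degs B8m1b_256_re 15 B8m1b_256_ce BR4_zn (chunk 1 0 BR4_tn) BR4_en1
    (chunk 1 2 BR4_sn) = true := by decide +kernel

theorem BR4_e2_1 : ecAll 256 BR4_E B8m1b_256_degs B8m1b_256_re 15 B8m1b_256_ce BR4_zn (chunk 1 1 BR4_tn) BR4_en1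
    (chunk 1 2 BR4_sn) = true := by decide +kernel

theorem BR4_e2_2 : ecAll 256 BR4_E B8m1b_256_degs B8m1b_256_re 15 B8m1b_256_ce BR4_zn (chunk 1 2 BR4_tn) BR4_en1
    (chunk 1 2 BR4_sn) = true := by decide +kernel

theorem BR4_A_eq : BR4.arrP = BR4_A := by decide +kernel

theorem BR4_E_eq : BR4.arrE = BR4_E := by decide +kernel

theorem BR4_G : sc BR4.arrG BR4_en1 BR4_sn = true := by decide +kernel


end Crest.Agent.R163.Ck
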