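import Crest.Agent.R163.B8m1b_256D

/-! Row 163: Bellman certificate, data (generated). -/

set_option autoImplicit false
set_option Elab.async false
set_option maxRecDepth 100000

namespace Crest.Agent.R163.Ck

noncomputable def BR4 : Bell := ⟨true, 8, 3, 3, 1, 7, 32, fs3_8, lams3_8, TT3_8,
  [[[[.ofNat (nat_lit 9916417504514016), .negSucc (nat_lit 9784435043747897), .negSucc (nat_lit 48594310359193871), .ofNat (nat_lit 9597417516054594), .ofNat (nat_lit 90746306201240874), .ofNat (nat_lit 54366643441341126), .negSucc (nat_lit 5211852120629909), .negSucc (nat_lit 48881588586139619), .negSucc (nat_lit 33604659766485719), .negSucc (nat_lit 145947902214236255), .ofNat (nat_lit 1689538768297353), .ofNat (nat_lit 15453241526114946), .ofNat (nat_lit 24144531672200724), .ofNat (nat_lit 65383279387006338), .ofNat (nat_lit 100988274848477850), .negSucc (nat_lit 326610899075861), .negSucc (nat_lit 2669092826669711), .negSucc (nat_lit 4784334990469523), .negSucc (nat_lit 15397316806988771), .negSucc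 (nat_lit 1965503874016079), .negSucc (nat_lit 61349904256219235), .negSucc (nat_lit 14150635589416463), .ofNat (nat_lit 34838396759631), .ofNat (nat_lit 202285566964572), .ofNat (nat_lit 475604693754822), .ofNat (nat_lit 1638041384122956), .ofNat (nat_lit 69912013247400), .ofNat (nat_lit 8683125070230954), .ofNat (nat_lit 4698387307300326), .ofNat (nat_lit 4397730289874568), .negSucc (nat_lit 1580877546835), .negSucc (nat_lit 2029820498515), .negSucc (nat_lit 14362003867131), .negSucc (nat_lit 39742051708851), .ofNat (nat_lit 20838816115684), .negSucc (nat_lit 418811777218067), .ofNat (nat_lit 36332754577972), .negSucc (nat_lit 369533547871359), .ofNat (nat_lit 123489579886080), .ofNat (nat_lit 847970673916904)]],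
  [[.negSucc (nat_lit 8899799475059567), .ofNat (nat_lit 27029486979642807), .ofNat (nat_lit 145830936263160420), .negSucc (nat_lit 26226252507468086), .negSucc (nat_lit 535599495545066459), .negSucc (nat_lit 333237470616031661), .ofNat (nat_lit 14059595165974650), .ofNat (nat_lit 387322999094801718), .ofNat (nat_lit 394069496290069626), .ofNat (nat_lit 1363631962632466428), .negSucc (nat_lit 4489100746258427), .negSucc (nat_lit 146963142188898173), .negSucc (nat_lit 451063571481350189), .negSucc (nat_lit 771772285826393111), .negSucc (nat_lit 1456056480137725601), .ofNat (nat_lit 852754899849642), .ofNat (nat_lit 30675743866184904), .ofNat (nat_lit 128522315632210218), .ofNat (nat_lit 218562661075224258), .ofNat (nat_lit 94015080971944542), .ofNat (nat_lit 1229755018316649408), .ofNat (nat_lit 378377386909741314), .negSucc (nat_lit 89200382791742), .negSucc (nat_lit 3273445967154137), .negSucc (nat_lit 18339264182830877), .negSucc (nat_lit 30457015711499069), .negSucc (nat_lit 34378552196540369),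 .negSucc (nat_lit 233276898981254381), .negSucc (nat_lit 170714335138406891), .negSucc (nat_lit 315843532163075609), .ofNat (nat_lit 3964386214191), .ofNat (nat_lit 134268635855946), .ofNat (nat_lit 1040455109983002), .ofNat (nat_lit 1626870614145972), .ofNat (nat_lit 2381776094860590), .ofNat (nat_lit 16600583578063284), .ofNat (nat_lit 1467660848305152), .ofNat (nat_lit 31840767967351722), .ofNat (nat_lit 29801673810252954), .ofNat (nat_lit 43076384104851618)]],
  [[]]],
  [[[]],
  [[.ofNat (nat_lit 27286813539773775), .negSucc (nat_lit 51867502118338850), .negSucc (nat_lit 152587646751150089), .ofNat (nat_lit 32676180528800349), .ofNat (nat_lit 537115872762063216), .ofNat (nat_lit 121920452243682120), .negSucc (nat_lit 7837034168670713), .negSucc (nat_lit 417511846605894965), .negSucc (nat_lit 358788575718112661), .negSucc (nat_lit 493398245560870457), .negSucc (nat_lit 265840735056938), .ofNat (nat_lit 180269955973072116), .ofNat (nat_lit 424993108871498562), .ofNat (nat_lit 271107398706107544),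 .ofNat (nat_lit 439748216737327584), .ofNat (nat_lit 427621357701954), .negSucc (nat_lit 44374758382260935), .negSucc (nat_lit 138251416754846267), .negSucc (nat_lit 77907828982193819), .negSucc (nat_lit 81441293636593367), .negSucc (nat_lit 308185878322773611), .negSucc (nat_lit 52413804340691075), .negSucc (nat_lit 59057974263764), .ofNat (nat_lit 5804004684003852), .ofNat (nat_lit 23827284863752248), .ofNat (nat_lit 9732959664355512), .ofNat (nat_lit 30367309403469966), .ofNat (nat_lit 62661393600051996), .ofNat (nat_lit 17810758124421384), .negSucc (nat_lit 6104973921339545), .ofNat (nat_lit 1771706347849), .negSucc (nat_lit 313138779217489), .negSucc (nat_lit 1667511609509859), .negSucc (nat_lit 147978183931881), .negSucc (nat_lit 2413871677514893), .negSucc (nat_lit 5796323766161123), .negSucc (nat_lit 1063042259918221), .negSucc (nat_lit 735918186594453), .ofNat (nat_lit 1753855907165142), .ofNat (nat_lit 15628529762309828)]],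
  [[.ofNat (nat_lit 153200867397462), .ofNat (nat_lit 0), .ofNat (nat_lit 0), .ofNat (nat_lit 0), .ofNat (nat_lit 0), .ofNat (nat_lit 0), .ofNat (nat_lit 0), .ofNat (nat_lit 0), .ofNat (nat_lit 0), .ofNat (nat_lit 0), .ofNat (nat_lit 0), .ofNat (nat_lit 0), .ofNat (nat_lit 0), .ofNat (nat_lit 0), .ofNat (nat_lit 0), .ofNat (nat_lit 0), .ofNat (nat_lit 0), .ofNat (nat_lit 0), .ofNat (nat_lit 0), .ofNat (nat_lit 0), .ofNat (nat_lit 0), .ofNat (nat_lit 0), .ofNat (nat_lit 0), .ofNat (nat_lit 0), .ofNat (nat_lit 0), .ofNat (nat_lit 0), .ofNat (nat_lit 0), .ofNat (nat_lit 0), .ofNat (nat_lit 0), .ofNat (nat_lit 0), .ofNat (nat_lit 0), .ofNat (nat_lit 0), .ofNat (nat_lit 0), .ofNat (nat_lit 0), .ofNat (nat_lit 0), .ofNat (nat_lit 0), .ofNat (nat_lit 0), .ofNat (nat_lit 0), .ofNat (nat_lit 0), .ofNat (nat_lit 0)]]],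
  [[[]],
  [[.ofNat (nat_lit 0), .ofNat (nat_lit 2589377925737772), .negSucc (nat_lit 2589377925737771), .ofNat (nat_lit 829841828980734), .negSucc (nat_lit 3784214449811087), .ofNat (nat_lit 2954372620830354), .negSucc (nat_lit 2316183553098143), .ofNat (nat_lit 8423797667990112), .negSucc (nat_lit 5266677570489503), .negSucc (nat_lit 840936544402463), .ofNat (nat_lit 675763552259424), .negSucc (nat_lit 1851914232574127), .ofNat (nat_lit 1351527104518848), .negSucc (nat_lit 701505696816575), .ofNat (nat_lit 526129272612432), .ofNat (nat_lit 152995600873872), .negSucc (nat_lit 1051410172724639), .ofNat (nat_lit 795825613772856), .ofNat (nat_lit 2166291236742264), .ofNat (nat_lit 236025525559320), .negSucc (nat_lit 4866328743410159), .ofNat (nat_lit 2566600939186488), .negSucc (nat_lit 89389775800007), .ofNat (nat_lit 461166383349216), .negSucc (nat_lit 165694703249051), .negSucc (nat_lit 724118305046075), .negSucc (nat_lit 191864399950979), .ofNat (nat_lit 852075844188660), .ofNat (nat_lit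 496638235459260), .negSucc (nat_lit 638813278951019), .ofNat (nat_lit 9867360014208), .negSucc (nat_lit 49336800071039), .ofNat (nat_lit 19734720028416), .ofNat (nat_lit 49336800071040), .ofNat (nat_lit 39469440056832), .ofNat (nat_lit 29602080042624), .negSucc (nat_lit 49336800071039), .ofNat (nat_lit 49336800071040), .negSucc (nat_lit 296020800426239), .ofNat (nat_lit 197347200284160)]],
  [[.negSucc (nat_lit 638085303388205), .ofNat (nat_lit 0), .ofNat (nat_lit 0), .ofNat (nat_lit 0), .ofNat (nat_lit 0), .ofNat (nat_lit 0), .ofNat (nat_lit 0), .ofNat (nat_lit 0), .ofNat (nat_lit 0), .ofNat (nat_lit 0), .ofNat (nat_lit 0), .ofNat (nat_lit 0), .ofNat (nat_lit 0), .ofNat (nat_lit 0), .ofNat (nat_lit 0), .ofNat (nat_lit 0), .ofNat (nat_lit 0), .ofNat (nat_lit 0), .ofNat (nat_lit 0), .ofNat (nat_lit 0), .ofNat (nat_lit 0), .ofNat (nat_lit 0), .ofNat (nat_lit 0), .ofNat (nat_lit 0), .ofNat (nat_lit 0), .ofNat (nat_lit 0), .ofNat (nat_lit 0), .ofNat (nat_lit 0), .ofNat (nat_lit 0), .ofNat (nat_lit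 0), .ofNat (nat_lit 0), .ofNat (nat_lit 0), .ofNat (nat_lit 0), .ofNat (nat_lit 0), .ofNat (nat_lit 0), .ofNat (nat_lit 0), .ofNat (nat_lit 0), .ofNat (nat_lit 0), .ofNat (nat_lit 0), .ofNat (nat_lit 0)]]]],
  [[.ofNat (nat_lit 0)],
  [.ofNat (nat_lit 0)],
  [.ofNat (nat_lit 482969498810427)]],
  [[[[.ofNat (nat_lit 0), .negSucc (nat_lit 817357075115268095), .negSucc (nat_lit 1569354443596984319), .ofNat (nat_lit 3053750606427303936), .negSucc (nat_lit 4896557616892584959), .ofNat (nat_lit 2564942503788389376), .ofNat (nat_lit 2519797726966763520), .negSucc (nat_lit 3249881336762191871), .ofNat (nat_lit 431483157894408192), .negSucc (nat_lit 224100979426418687)]],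
  [[.ofNat (nat_lit 19612480314470400), .ofNat (nat_lit 19725787525598208), .ofNat (nat_lit 693826776803008512), .negSucc (nat_lit 259218269492861951), .negSucc (nat_lit 3337211243763726335), .ofNat (nat_lit 1885170371569698816), .negSucc (nat_lit 96050224477615103), .ofNat (nat_lit 2071596629503872000), .negSucc (nat_lit 1262190560461092863), .ofNat (nat_lit 234576813396888576)]]],
  [[[.ofNat (nat_lit 0), .ofNat (nat_lit 2938065919822061568), .ofNat (nat_lit 2549209994541914112), .negSucc (nat_lit 3789706075761844223), .ofNat (nat_lit 2593984183885734912), .negSucc (nat_lit 1700327639122172927), .ofNat (nat_lit 458016182881090560), .negSucc (nat_lit 604537339609608191), .negSucc (nat_lit 431630423286211583), .ofNat (nat_lit 2186880073516274688)]],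
  [[.negSucc (nat_lit 980633338340308991), .ofNat (nat_lit 3045710490150878208), .negSucc (nat_lit 5100532353485853695), .negSucc (nat_lit 12386286886352569343), .ofNat (nat_lit 42161375094570805248), .ofNat (nat_lit 4664308974275432448), .ofNat (nat_lit 2179307453378678784), .negSucc (nat_lit 55826100625269408767), .ofNat (nat_lit 8954996107620289536), .ofNat (nat_lit 18262181967979262976)]]],
  [[[.ofNat (nat_lit 0), .ofNat (nat_lit 951222338852843520), .ofNat (nat_lit 2572531755591112704), .negSucc (nat_lit 4931714373993529343), .negSucc (nat_lit 10272492772394388479), .ofNat (nat_lit 5833484039361558528), .ofNat (nat_lit 3404823606322458624), .ofNat (nat_lit 8210974417688429568), .negSucc (nat_lit 475291429980512255), .negSucc (nat_lit 7878827424879304703)]],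
  [[.ofNat (nat_lit 1548439479366147072), .negSucc (nat_lit 2831422420500221951), .ofNat (nat_lit 1476358515210940416), .ofNat (nat_lit 15000128005842745344), .negSucc (nat_lit 27164226112241845247), .negSucc (nat_lit 5552087702717104127), .negSucc (nat_lit 13856030960925625343), .ofNat (nat_lit 47492537432730955776), .negSucc (nat_lit 15284031332531816447), .ofNat (nat_lit 1746453431224949760)]]]]⟩

noncomputable def BR4_A : L6 := [[[[[[.ofNat (nat_lit 0), .ofNat (nat_lit 0), .ofNat (nat_lit 137265207900530688)],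
  [],
  [.ofNat (nat_lit 0), .ofNat (nat_lit 0), .negSucc (nat_lit 653399350669522943)],
  [],
  [.ofNat (nat_lit 0), .ofNat (nat_lit 0), .ofNat (nat_lit 494560766781877248)],
  [],
  []],
  [[.ofNat (nat_lit 0), .ofNat (nat_lit 19612480314470400), .ofNat (nat_lit 0)],
  [],
  [],
  [],
  [],
  [],
  []],
  [[.ofNat (nat_lit 0), .ofNat (nat_lit 112465199507447808), .ofNat (nat_lit 0)],
  [.ofNat (nat_lit 0), .ofNat (nat_lit 112465199507447808), .ofNat (nat_lit 0)],
  [],
  [],
  [],
  [],
  []],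
  [[.ofNat (nat_lit 51842408788482048), .ofNat (nat_lit 170104922692227072), .ofNat (nat_lit 0)],
  [],
  [.negSucc (nat_lit 51842408788482047), .negSucc (nat_lit 170104922692227071), .ofNat (nat_lit 0)],
  [],
  [],
  [],
  []],
  [[.ofNat (nat_lit 125209630851305472), .negSucc (nat_lit 24824267541586943), .ofNat (nat_lit 0)],
  [],
  [],
  [.ofNat (nat_lit 125209630851305472), .negSucc (nat_lit 24824267541586943), .ofNat (nat_lit 0)],
  [],
  [],
  []],
  [[.ofNat (nat_lit 22749066285106176), .ofNat (nat_lit 103878625419260928), .ofNat (nat_lit 0)],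
  [],
  [],
  [],
  [.negSucc (nat_lit 22749066285106175), .negSucc (nat_lit 103878625419260927), .ofNat (nat_lit 0)],
  [],
  []],
  [[.ofNat (nat_lit 100091269029196800), .negSucc (nat_lit 113847140912670719), .ofNat (nat_lit 0)],
  [],
  [],
  [],
  [.negSucc (nat_lit 100091269029196799), .ofNat (nat_lit 113847140912670720), .ofNat (nat_lit 0)],
  [],
  []],
  [[.negSucc (nat_lit 54235574974328831), .ofNat (nat_lit 237155157873792000), .ofNat (nat_lit 0)],
  [],
  [],
  [],
  [],
  [.negSucc (nat_lit 54235574974328831), .ofNat (nat_lit 237155157873792000), .ofNat (nat_lit 0)],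
  []],
  [[],
  [],
  [],
  [],
  [],
  [],
  []],
  [[],
  [],
  [],
  [],
  [],
  [],
  []]],
  [],
  [],
  [],
  [],
  [],
  [],
  [],
  [],
  []],
  [[],
  [],
  [],
  [],
  [],
  [],
  [],
  [],
  [],
  []],
  [[],
  [[[.ofNat (nat_lit 0), .negSucc (nat_lit 472527169923833855), .negSucc (nat_lit 19725787525598207)],
  [],
  [.ofNat (nat_lit 0), .ofNat (nat_lit 1988642246966608896), .ofNat (nat_lit 0)],
  [],
  [],
  [],
  []],
  [[.ofNat (nat_lit 142730853596628480), .negSucc (nat_lit 798364758053749247), .ofNat (nat_lit 0)],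
  [],
  [],
  [],
  [],
  [],
  []],
  [[],
  [.negSucc (nat_lit 1754134937705668607), .ofNat (nat_lit 243727022080217088), .ofNat (nat_lit 0)],
  [],
  [],
  [],
  [],
  []],
  [[],
  [],
  [.negSucc (nat_lit 1848044019111383807), .negSucc (nat_lit 1192963204695739391), .ofNat (nat_lit 0)],
  [],
  [],
  [],
  []],
  [[],
  [],
  [],
  [.negSucc (nat_lit 55905229457367551), .negSucc (nat_lit 1513435515999975935), .ofNat (nat_lit 0)],
  [],
  [],
  []],
  [[],
  [],
  [],
  [],
  [.negSucc (nat_lit 319203019897395839), .ofNat (nat_lit 1454002820611349760), .ofNat (nat_lit 0)],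
  [],
  []],
  [[],
  [],
  [],
  [],
  [.ofNat (nat_lit 2219149858740489216), .negSucc (nat_lit 2755624815351576575), .ofNat (nat_lit 0)],
  [],
  []],
  [[],
  [],
  [],
  [],
  [],
  [.negSucc (nat_lit 820954382103926783), .ofNat (nat_lit 214103160390412800), .ofNat (nat_lit 0)],
  []],
  [[],
  [],
  [],
  [],
  [],
  [],
  [.ofNat (nat_lit 286692122121661440), .negSucc (nat_lit 1810478255327465471), .ofNat (nat_lit 0)]],
  [[],
  [],
  [],
  [],
  [],
  [],
  [.negSucc (nat_lit 1662091712601569279), .ofNat (nat_lit 3870671857737896448), .ofNat (nat_lit 0)]]],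
  [],
  [],
  [],
  [],
  [],
  [],
  [],
  []],
  [[],
  [],
  [[[.ofNat (nat_lit 0), .negSucc (nat_lit 360897661182643199), .negSucc (nat_lit 693826776803008511)],
  [],
  [.ofNat (nat_lit 0), .ofNat (nat_lit 1937517798303277056), .ofNat (nat_lit 0)],
  [],
  [],
  [],
  []],
  [[.ofNat (nat_lit 184780494108684288), .ofNat (nat_lit 450099754722791424), .ofNat (nat_lit 0)],
  [],
  [],
  [],
  [],
  [],
  []],
  [[],
  [.ofNat (nat_lit 4135020333665656320), .ofNat (nat_lit 6110520274814976), .ofNat (nat_lit 0)],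
  [],
  [],
  [],
  [],
  []],
  [[],
  [],
  [.negSucc (nat_lit 155603837571429887), .ofNat (nat_lit 1416359359808490240), .ofNat (nat_lit 0)],
  [],
  [],
  [],
  []],
  [[],
  [],
  [],
  [.negSucc (nat_lit 4478439047572442879), .ofNat (nat_lit 4831871133164251392), .ofNat (nat_lit 0)],
  [],
  [],
  []],
  [[],
  [],
  [],
  [],
  [.negSucc (nat_lit 82282063079575295), .ofNat (nat_lit 6048142095481424640), .ofNat (nat_lit 0)],
  [],
  []],
  [[],
  [],
  [],
  [],
  [.negSucc (nat_lit 765839041017928703), .negSucc (nat_lit 3872227891936103423), .ofNat (nat_lit 0)],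
  [],
  []],
  [[],
  [],
  [],
  [],
  [],
  [.ofNat (nat_lit 2729769633649904256), .negSucc (nat_lit 486274618066134527), .ofNat (nat_lit 0)],
  []],
  [[],
  [],
  [],
  [],
  [],
  [],
  [.ofNat (nat_lit 860076366364984320), .negSucc (nat_lit 5431434765982396415), .ofNat (nat_lit 0)]],
  [[],
  [],
  [],
  [],
  [],
  [],
  [.negSucc (nat_lit 89153110319832575), .ofNat (nat_lit 8023783463254628352), .ofNat (nat_lit 0)]]],
  [],
  [],
  [],
  [],
  [],
  [],
  []],
  [[],
  [],
  [],
  [[[.ofNat (nat_lit 0), .ofNat (nat_lit 731169515167580160), .ofNat (nat_lit 259218269492861952)],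
  [],
  [.ofNat (nat_lit 0), .negSucc (nat_lit 3517985730177773567), .ofNat (nat_lit 0)],
  [],
  [],
  [],
  []],
  [[.ofNat (nat_lit 1205706587315920128), .negSucc (nat_lit 1452181474188601343), .ofNat (nat_lit 0)],
  [],
  [],
  [],
  [],
  [],
  []],
  [[],
  [.ofNat (nat_lit 155603837571429888), .negSucc (nat_lit 1416359359808490239), .ofNat (nat_lit 0)],
  [],
  [],
  [],
  [],
  []],
  [[],
  [],
  [.negSucc (nat_lit 2293263254903599871), .ofNat (nat_lit 16721477562779832960), .ofNat (nat_lit 0)],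
  [],
  [],
  [],
  []],
  [[],
  [],
  [],
  [.negSucc (nat_lit 6014129363182593791), .ofNat (nat_lit 5048967194152979328), .ofNat (nat_lit 0)],
  [],
  [],
  []],
  [[],
  [],
  [],
  [],
  [.ofNat (nat_lit 7140151180421740224), .negSucc (nat_lit 28872455277219356735), .ofNat (nat_lit 0)],
  [],
  []],
  [[],
  [],
  [],
  [],
  [.negSucc (nat_lit 9636681021331345919), .ofNat (nat_lit 10214380246635876096), .ofNat (nat_lit 0)],
  [],
  []],
  [[],
  [],
  [],
  [],
  [],
  [.ofNat (nat_lit 10086885398043992448), .negSucc (nat_lit 28373745075565152383), .ofNat (nat_lit 0)],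
  []],
  [[],
  [],
  [],
  [],
  [],
  [],
  [.ofNat (nat_lit 332999500407395904), .negSucc (nat_lit 1873118840200965215), .ofNat (nat_lit 0)]],
  [[],
  [],
  [],
  [],
  [],
  [],
  [.ofNat (nat_lit 5759164580439995136), .negSucc (nat_lit 6881882542189659647), .ofNat (nat_lit 0)]]],
  [],
  [],
  [],
  [],
  [],
  []],
  [[],
  [],
  [],
  [],
  [[[.ofNat (nat_lit 0), .negSucc (nat_lit 818913316218651647), .ofNat (nat_lit 3337211243763726336)],
  [],
  [.ofNat (nat_lit 0), .ofNat (nat_lit 691735165823619072), .ofNat (nat_lit 0)],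
  [],
  [],
  [],
  []],
  [[.negSucc (nat_lit 4840652387435217407), .negSucc (nat_lit 1823775727763750399), .ofNat (nat_lit 0)],
  [],
  [],
  [],
  [],
  [],
  []],
  [[],
  [.negSucc (nat_lit 4478439047572442879), .ofNat (nat_lit 4831871133164251392), .ofNat (nat_lit 0)],
  [],
  [],
  [],
  [],
  []],
  [[],
  [],
  [.ofNat (nat_lit 6014129363182593792), .negSucc (nat_lit 5048967194152979327), .ofNat (nat_lit 0)],
  [],
  [],
  [],
  []],
  [[],
  [],
  [],
  [.ofNat (nat_lit 18643189089001565952), .negSucc (nat_lit 5809887941608188287), .ofNat (nat_lit 0)],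
  [],
  [],
  []],
  [[],
  [],
  [],
  [],
  [.negSucc (nat_lit 6437645238384033983), .ofNat (nat_lit 4552811269635402432), .ofNat (nat_lit 0)],
  [],
  []],
  [[],
  [],
  [],
  [],
  [.ofNat (nat_lit 1651449479695997184), .ofNat (nat_lit 23120450743824518400), .ofNat (nat_lit 0)],
  [],
  []],
  [[],
  [],
  [],
  [],
  [],
  [.negSucc (nat_lit 11326497825105752831), .negSucc (nat_lit 33098754035668220351), .ofNat (nat_lit 0)],
  []],
  [[],
  [],
  [],
  [],
  [],
  [],
  [.negSucc (nat_lit 50731304489361791), .ofNat (nat_lit 779957957916733248), .ofNat (nat_lit 0)]],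
  [[],
  [],
  [],
  [],
  [],
  [],
  [.negSucc (nat_lit 538673466185326079), .negSucc (nat_lit 50215943271753201023), .ofNat (nat_lit 0)]]],
  [],
  [],
  [],
  [],
  []],
  [[],
  [],
  [],
  [],
  [],
  [[[.ofNat (nat_lit 0), .ofNat (nat_lit 610658543258910720), .negSucc (nat_lit 1885170371569698815)],
  [],
  [.ofNat (nat_lit 0), .ofNat (nat_lit 368102680835696640), .ofNat (nat_lit 0)],
  [],
  [],
  [],
  []],
  [[.ofNat (nat_lit 2245739483890993536), .ofNat (nat_lit 3339173192181048576), .ofNat (nat_lit 0)],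
  [],
  [],
  [],
  [],
  [],
  []],
  [[],
  [.ofNat (nat_lit 82282063079575296), .negSucc (nat_lit 6048142095481424639), .ofNat (nat_lit 0)],
  [],
  [],
  [],
  [],
  []],
  [[],
  [],
  [.ofNat (nat_lit 7140151180421740224), .negSucc (nat_lit 28872455277219356735), .ofNat (nat_lit 0)],
  [],
  [],
  [],
  []],
  [[],
  [],
  [],
  [.ofNat (nat_lit 6437645238384033984), .negSucc (nat_lit 4552811269635402431), .ofNat (nat_lit 0)],
  [],
  [],
  []],
  [[],
  [],
  [],
  [],
  [.negSucc (nat_lit 18396760092389034335), .ofNat (nat_lit 48262651424176592736), .ofNat (nat_lit 0)],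
  [],
  []],
  [[],
  [],
  [],
  [],
  [.ofNat (nat_lit 8773319756399178240), .negSucc (nat_lit 11785728613954870655), .ofNat (nat_lit 0)],
  [],
  []],
  [[],
  [],
  [],
  [],
  [],
  [.negSucc (nat_lit 14798908283809564511), .ofNat (nat_lit 33349029089880499200), .ofNat (nat_lit 0)],
  []],
  [[],
  [],
  [],
  [],
  [],
  [],
  [.ofNat (nat_lit 874966598105927040), .ofNat (nat_lit 7869367065832965216), .ofNat (nat_lit 0)]],
  [[],
  [],
  [],
  [],
  [],
  [],
  [.negSucc (nat_lit 3249673879323955967), .negSucc (nat_lit 12962617504985180735), .ofNat (nat_lit 0)]]],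
  [[[.ofNat (nat_lit 0), .negSucc (nat_lit 396101417392558079), .ofNat (nat_lit 96050224477615104)],
  [],
  [.ofNat (nat_lit 0), .ofNat (nat_lit 1311209805404657664), .ofNat (nat_lit 0)],
  [],
  [],
  [],
  []],
  [[.ofNat (nat_lit 4738947585707252736), .negSucc (nat_lit 2851675039829191679), .ofNat (nat_lit 0)],
  [],
  [],
  [],
  [],
  [],
  []],
  [[],
  [.ofNat (nat_lit 765839041017928704), .ofNat (nat_lit 3872227891936103424), .ofNat (nat_lit 0)],
  [],
  [],
  [],
  [],
  []],
  [[],
  [],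
  [.negSucc (nat_lit 9636681021331345919), .ofNat (nat_lit 10214380246635876096), .ofNat (nat_lit 0)],
  [],
  [],
  [],
  []],
  [[],
  [],
  [],
  [.negSucc (nat_lit 1651449479695997183), .negSucc (nat_lit 23120450743824518399), .ofNat (nat_lit 0)],
  [],
  [],
  []],
  [[],
  [],
  [],
  [],
  [.ofNat (nat_lit 8773319756399178240), .negSucc (nat_lit 11785728613954870655), .ofNat (nat_lit 0)],
  [],
  []],
  [[],
  [],
  [],
  [],
  [.negSucc (nat_lit 3590747393290195967), .ofNat (nat_lit 3671842488057801216), .ofNat (nat_lit 0)],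
  [],
  []],
  [[],
  [],
  [],
  [],
  [],
  [.ofNat (nat_lit 3520756265879730816), .ofNat (nat_lit 21855655935729877248), .ofNat (nat_lit 0)],
  []],
  [[],
  [],
  [],
  [],
  [],
  [],
  [.negSucc (nat_lit 736785095562254591), .ofNat (nat_lit 32677574007320064), .ofNat (nat_lit 0)]],
  [[],
  [],
  [],
  [],
  [],
  [],
  [.ofNat (nat_lit 1452448962708950016), .ofNat (nat_lit 17381915635975831296), .ofNat (nat_lit 0)]]],
  [],
  [],
  []],
  [[],
  [],
  [],
  [],
  [],
  [],
  [],
  [[[.ofNat (nat_lit 0), .ofNat (nat_lit 446147492623838208), .negSucc (nat_lit 2071596629503871999)],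
  [],
  [.ofNat (nat_lit 0), .negSucc (nat_lit 460371548822888447), .ofNat (nat_lit 0)],
  [],
  [],
  [],
  []],
  [[.negSucc (nat_lit 2428926954658265087), .ofNat (nat_lit 1857493469113459200), .ofNat (nat_lit 0)],
  [],
  [],
  [],
  [],
  [],
  []],
  [[],
  [.ofNat (nat_lit 2729769633649904256), .negSucc (nat_lit 486274618066134527), .ofNat (nat_lit 0)],
  [],
  [],
  [],
  [],
  []],
  [[],
  [],
  [.negSucc (nat_lit 10086885398043992447), .ofNat (nat_lit 28373745075565152384), .ofNat (nat_lit 0)],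
  [],
  [],
  [],
  []],
  [[],
  [],
  [],
  [.negSucc (nat_lit 11326497825105752831), .negSucc (nat_lit 33098754035668220351), .ofNat (nat_lit 0)],
  [],
  [],
  []],
  [[],
  [],
  [],
  [],
  [.ofNat (nat_lit 14798908283809564512), .negSucc (nat_lit 33349029089880499199), .ofNat (nat_lit 0)],
  [],
  []],
  [[],
  [],
  [],
  [],
  [.negSucc (nat_lit 3520756265879730815), .negSucc (nat_lit 21855655935729877247), .ofNat (nat_lit 0)],
  [],
  []],
  [[],
  [],
  [],
  [],
  [],
  [.ofNat (nat_lit 14060961372882820320), .ofNat (nat_lit 99354350957013680544), .ofNat (nat_lit 0)],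
  []],
  [[],
  [],
  [],
  [],
  [],
  [],
  [.ofNat (nat_lit 555093391712347872), .ofNat (nat_lit 7464406581441508752), .ofNat (nat_lit 0)]],
  [[],
  [],
  [],
  [],
  [],
  [],
  [.ofNat (nat_lit 1282820631235602048), .ofNat (nat_lit 95015418342913688256), .ofNat (nat_lit 0)]]],
  [],
  []],
  [[],
  [],
  [],
  [],
  [],
  [],
  [],
  [],
  [[[.ofNat (nat_lit 0), .negSucc (nat_lit 431483157894408191), .ofNat (nat_lit 1262190560461092864)],
  [],
  [],
  [],
  [],
  [],
  []],
  [[.ofNat (nat_lit 718175280016069632), .negSucc (nat_lit 3072668815788558335), .ofNat (nat_lit 0)],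
  [],
  [],
  [],
  [],
  [],
  []],
  [[],
  [.negSucc (nat_lit 860076366364984319), .ofNat (nat_lit 5431434765982396416), .ofNat (nat_lit 0)],
  [],
  [],
  [],
  [],
  []],
  [[],
  [],
  [.ofNat (nat_lit 332999500407395904), .negSucc (nat_lit 1873118840200965215), .ofNat (nat_lit 0)],
  [],
  [],
  [],
  []],
  [[],
  [],
  [],
  [.ofNat (nat_lit 50731304489361792), .negSucc (nat_lit 779957957916733247), .ofNat (nat_lit 0)],
  [],
  [],
  []],
  [[],
  [],
  [],
  [],
  [.ofNat (nat_lit 874966598105927040), .ofNat (nat_lit 7869367065832965216), .ofNat (nat_lit 0)],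
  [],
  []],
  [[],
  [],
  [],
  [],
  [.negSucc (nat_lit 736785095562254591), .ofNat (nat_lit 32677574007320064), .ofNat (nat_lit 0)],
  [],
  []],
  [[],
  [],
  [],
  [],
  [],
  [.negSucc (nat_lit 555093391712347871), .negSucc (nat_lit 7464406581441508751), .ofNat (nat_lit 0)],
  []],
  [[],
  [],
  [],
  [],
  [],
  [],
  [.negSucc (nat_lit 100474384586176223), .negSucc (nat_lit 14696693169939999863), .ofNat (nat_lit 0)]],
  [[],
  [],
  [],
  [],
  [],
  [],
  [.ofNat (nat_lit 205042919264429760), .ofNat (nat_lit 12654843937083217440), .ofNat (nat_lit 0)]]],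
  [[[.ofNat (nat_lit 0), .ofNat (nat_lit 224100979426418688), .negSucc (nat_lit 234576813396888575)],
  [],
  [],
  [],
  [],
  [],
  []],
  [[.negSucc (nat_lit 1886192692027987967), .ofNat (nat_lit 4105248671134785024), .ofNat (nat_lit 0)],
  [],
  [],
  [],
  [],
  [],
  []],
  [[],
  [.ofNat (nat_lit 89153110319832576), .negSucc (nat_lit 8023783463254628351), .ofNat (nat_lit 0)],
  [],
  [],
  [],
  [],
  []],
  [[],
  [],
  [.ofNat (nat_lit 5759164580439995136), .negSucc (nat_lit 6881882542189659647), .ofNat (nat_lit 0)],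
  [],
  [],
  [],
  []],
  [[],
  [],
  [],
  [.ofNat (nat_lit 538673466185326080), .ofNat (nat_lit 50215943271753201024), .ofNat (nat_lit 0)],
  [],
  [],
  []],
  [[],
  [],
  [],
  [],
  [.negSucc (nat_lit 3249673879323955967), .negSucc (nat_lit 12962617504985180735), .ofNat (nat_lit 0)],
  [],
  []],
  [[],
  [],
  [],
  [],
  [.ofNat (nat_lit 1452448962708950016), .ofNat (nat_lit 17381915635975831296), .ofNat (nat_lit 0)],
  [],
  []],
  [[],
  [],
  [],
  [],
  [],
  [.negSucc (nat_lit 1282820631235602047), .negSucc (nat_lit 95015418342913688255), .ofNat (nat_lit 0)],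
  []],
  [[],
  [],
  [],
  [],
  [],
  [],
  [.ofNat (nat_lit 205042919264429760), .ofNat (nat_lit 12654843937083217440), .ofNat (nat_lit 0)]],
  [[],
  [],
  [],
  [],
  [],
  [],
  [.ofNat (nat_lit 428286724612365312), .negSucc (nat_lit 94917245130382646015), .ofNat (nat_lit 0)]]]]],
  [[[[[.ofNat (nat_lit 0), .ofNat (nat_lit 0), .negSucc (nat_lit 326165362998736895)],
  [],
  [.ofNat (nat_lit 0), .ofNat (nat_lit 0), .ofNat (nat_lit 1483682300345631744)],
  [],
  [],
  [],
  []],
  [[.ofNat (nat_lit 0), .ofNat (nat_lit 309250906698792960), .ofNat (nat_lit 0)],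
  [],
  [],
  [],
  [],
  [],
  []],
  [[],
  [.ofNat (nat_lit 0), .negSucc (nat_lit 1930252104779627519), .ofNat (nat_lit 0)],
  [],
  [],
  [],
  [],
  []],
  [[],
  [],
  [.ofNat (nat_lit 0), .negSucc (nat_lit 3784920121594884095), .ofNat (nat_lit 0)],
  [],
  [],
  [],
  []],
  [[],
  [],
  [],
  [.ofNat (nat_lit 0), .negSucc (nat_lit 5715470933111236607), .ofNat (nat_lit 0)],
  [],
  [],
  []],
  [[],
  [],
  [],
  [],
  [.ofNat (nat_lit 0), .negSucc (nat_lit 3175601047047300095), .ofNat (nat_lit 0)],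
  [],
  []],
  [[],
  [],
  [],
  [],
  [.ofNat (nat_lit 0), .negSucc (nat_lit 2123696309574205439), .ofNat (nat_lit 0)],
  [],
  []],
  [[],
  [],
  [],
  [],
  [],
  [.ofNat (nat_lit 0), .negSucc (nat_lit 2803733844138353663), .ofNat (nat_lit 0)],
  []],
  [[],
  [],
  [],
  [],
  [],
  [],
  []],
  [[],
  [],
  [],
  [],
  [],
  [],
  []]],
  [],
  [],
  [],
  [],
  [],
  [],
  [],
  [],
  []],
  [[],
  [],
  [],
  [],
  [],
  [],
  [],
  [],
  [],
  []],
  [[],
  [[[.ofNat (nat_lit 0), .ofNat (nat_lit 1039218574111156224), .negSucc (nat_lit 3045710490150878207)],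
  [],
  [],
  [],
  [],
  [],
  []],
  [[.ofNat (nat_lit 2938065919822061568), .negSucc (nat_lit 8749297008514893311), .ofNat (nat_lit 0)],
  [],
  [],
  [],
  [],
  [],
  []],
  [[],
  [.ofNat (nat_lit 0), .negSucc (nat_lit 641562686687425535), .ofNat (nat_lit 0)],
  [],
  [],
  [],
  [],
  []],
  [[],
  [],
  [.ofNat (nat_lit 0), .ofNat (nat_lit 29383217260332148224), .ofNat (nat_lit 0)],
  [],
  [],
  [],
  []],
  [[],
  [],
  [],
  [.ofNat (nat_lit 0), .ofNat (nat_lit 56329278437993845248), .ofNat (nat_lit 0)],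
  [],
  [],
  []],
  [[],
  [],
  [],
  [],
  [.ofNat (nat_lit 0), .negSucc (nat_lit 15127477119168242687), .ofNat (nat_lit 0)],
  [],
  []],
  [[],
  [],
  [],
  [],
  [.ofNat (nat_lit 0), .ofNat (nat_lit 20208496287721549824), .ofNat (nat_lit 0)],
  [],
  []],
  [[],
  [],
  [],
  [],
  [],
  [.ofNat (nat_lit 0), .negSucc (nat_lit 58069506306196836863), .ofNat (nat_lit 0)],
  []],
  [[],
  [],
  [],
  [],
  [],
  [],
  [.ofNat (nat_lit 0), .ofNat (nat_lit 3580151126378029056), .ofNat (nat_lit 0)]],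
  [[],
  [],
  [],
  [],
  [],
  [],
  [.ofNat (nat_lit 0), .negSucc (nat_lit 44717926418557645823), .ofNat (nat_lit 0)]]],
  [],
  [],
  [],
  [],
  [],
  [],
  [],
  []],
  [[],
  [],
  [[[.ofNat (nat_lit 0), .ofNat (nat_lit 1325825602064640000), .ofNat (nat_lit 5100532353485853696)],
  [],
  [],
  [],
  [],
  [],
  []],
  [[.ofNat (nat_lit 2549209994541914112), .negSucc (nat_lit 4458969666798428159), .ofNat (nat_lit 0)],
  [],
  [],
  [],
  [],
  [],
  []],
  [[],
  [.ofNat (nat_lit 0), .negSucc (nat_lit 22618050572447811071), .ofNat (nat_lit 0)],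
  [],
  [],
  [],
  [],
  []],
  [[],
  [],
  [.ofNat (nat_lit 0), .negSucc (nat_lit 32810392935601507583), .ofNat (nat_lit 0)],
  [],
  [],
  [],
  []],
  [[],
  [],
  [],
  [.ofNat (nat_lit 0), .ofNat (nat_lit 29973459463060393728), .ofNat (nat_lit 0)],
  [],
  [],
  []],
  [[],
  [],
  [],
  [],
  [.ofNat (nat_lit 0), .ofNat (nat_lit 26937900942709245696), .ofNat (nat_lit 0)],
  [],
  []],
  [[],
  [],
  [],
  [],
  [.ofNat (nat_lit 0), .ofNat (nat_lit 8970394225120478208), .ofNat (nat_lit 0)],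
  [],
  []],
  [[],
  [],
  [],
  [],
  [],
  [.ofNat (nat_lit 0), .negSucc (nat_lit 1248285905869430015), .ofNat (nat_lit 0)],
  []],
  [[],
  [],
  [],
  [],
  [],
  [],
  [.ofNat (nat_lit 0), .ofNat (nat_lit 10740453379134087168), .ofNat (nat_lit 0)]],
  [[],
  [],
  [],
  [],
  [],
  [],
  [.ofNat (nat_lit 0), .negSucc (nat_lit 31468062189165801983), .ofNat (nat_lit 0)]]],
  [],
  [],
  [],
  [],
  [],
  [],
  []],
  [[],
  [],
  [],
  [[[.ofNat (nat_lit 0), .negSucc (nat_lit 3246265384593702911), .ofNat (nat_lit 12386286886352569344)],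
  [],
  [],
  [],
  [],
  [],
  []],
  [[.negSucc (nat_lit 3789706075761844223), .ofNat (nat_lit 16996930373979578880), .ofNat (nat_lit 0)],
  [],
  [],
  [],
  [],
  [],
  []],
  [[],
  [.ofNat (nat_lit 0), .ofNat (nat_lit 32810392935601507584), .ofNat (nat_lit 0)],
  [],
  [],
  [],
  [],
  []],
  [[],
  [],
  [.ofNat (nat_lit 0), .negSucc (nat_lit 118367625753004105727), .ofNat (nat_lit 0)],
  [],
  [],
  [],
  []],
  [[],
  [],
  [],
  [.ofNat (nat_lit 0), .negSucc (nat_lit 81603823766782299263), .ofNat (nat_lit 0)],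
  [],
  [],
  []],
  [[],
  [],
  [],
  [],
  [.ofNat (nat_lit 0), .ofNat (nat_lit 119041759745864195328), .ofNat (nat_lit 0)],
  [],
  []],
  [[],
  [],
  [],
  [],
  [.ofNat (nat_lit 0), .negSucc (nat_lit 90945283067839148543), .ofNat (nat_lit 0)],
  [],
  []],
  [[],
  [],
  [],
  [],
  [],
  [.ofNat (nat_lit 0), .ofNat (nat_lit 103636429608176449920), .ofNat (nat_lit 0)],
  []],
  [[],
  [],
  [],
  [],
  [],
  [],
  [.ofNat (nat_lit 0), .negSucc (nat_lit 8661682914653286143), .ofNat (nat_lit 0)]],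
  [[],
  [],
  [],
  [],
  [],
  [],
  [.ofNat (nat_lit 0), .ofNat (nat_lit 66376585068117103872), .ofNat (nat_lit 0)]]],
  [],
  [],
  [],
  [],
  [],
  []],
  [[],
  [],
  [],
  [],
  [[[.ofNat (nat_lit 0), .negSucc (nat_lit 1210513852238496767), .negSucc (nat_lit 42161375094570805247)],
  [],
  [],
  [],
  [],
  [],
  []],
  [[.ofNat (nat_lit 2593984183885734912), .negSucc (nat_lit 14167903343423039999), .ofNat (nat_lit 0)],
  [],
  [],
  [],
  [],
  [],
  []],
  [[],
  [.ofNat (nat_lit 0), .ofNat (nat_lit 29973459463060393728), .ofNat (nat_lit 0)],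
  [],
  [],
  [],
  [],
  []],
  [[],
  [],
  [.ofNat (nat_lit 0), .ofNat (nat_lit 81603823766782299264), .ofNat (nat_lit 0)],
  [],
  [],
  [],
  []],
  [[],
  [],
  [],
  [.ofNat (nat_lit 0), .ofNat (nat_lit 159929412250418125056), .ofNat (nat_lit 0)],
  [],
  [],
  []],
  [[],
  [],
  [],
  [],
  [.ofNat (nat_lit 0), .negSucc (nat_lit 13289276862063470591), .ofNat (nat_lit 0)],
  [],
  []],
  [[],
  [],
  [],
  [],
  [.ofNat (nat_lit 0), .ofNat (nat_lit 7148694742775608320), .ofNat (nat_lit 0)],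
  [],
  []],
  [[],
  [],
  [],
  [],
  [],
  [.ofNat (nat_lit 0), .negSucc (nat_lit 211832932569416285183), .ofNat (nat_lit 0)],
  []],
  [[],
  [],
  [],
  [],
  [],
  [],
  [.ofNat (nat_lit 0), .negSucc (nat_lit 26273743645251644927), .ofNat (nat_lit 0)]],
  [[],
  [],
  [],
  [],
  [],
  [],
  [.ofNat (nat_lit 0), .negSucc (nat_lit 62283985120073549951), .ofNat (nat_lit 0)]]],
  [],
  [],
  [],
  [],
  []],
  [[],
  [],
  [],
  [],
  [],
  [[[.ofNat (nat_lit 0), .ofNat (nat_lit 2436533000793566208), .negSucc (nat_lit 4664308974275432447)],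
  [],
  [],
  [],
  [],
  [],
  []],
  [[.negSucc (nat_lit 1700327639122172927), .negSucc (nat_lit 10463168144892810239), .ofNat (nat_lit 0)],
  [],
  [],
  [],
  [],
  [],
  []],
  [[],
  [.ofNat (nat_lit 0), .negSucc (nat_lit 26937900942709245695), .ofNat (nat_lit 0)],
  [],
  [],
  [],
  [],
  []],
  [[],
  [],
  [.ofNat (nat_lit 0), .ofNat (nat_lit 119041759745864195328), .ofNat (nat_lit 0)],
  [],
  [],
  [],
  []],
  [[],
  [],
  [],
  [.ofNat (nat_lit 0), .ofNat (nat_lit 13289276862063470592), .ofNat (nat_lit 0)],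
  [],
  [],
  []],
  [[],
  [],
  [],
  [],
  [.ofNat (nat_lit 0), .negSucc (nat_lit 115258245973725125663), .ofNat (nat_lit 0)],
  [],
  []],
  [[],
  [],
  [],
  [],
  [.ofNat (nat_lit 0), .ofNat (nat_lit 120119274493239362688), .ofNat (nat_lit 0)],
  [],
  []],
  [[],
  [],
  [],
  [],
  [],
  [.ofNat (nat_lit 0), .negSucc (nat_lit 35414703588457799135), .ofNat (nat_lit 0)],
  []],
  [[],
  [],
  [],
  [],
  [],
  [],
  [.ofNat (nat_lit 0), .ofNat (nat_lit 2432305577020973904), .ofNat (nat_lit 0)]],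
  [[],
  [],
  [],
  [],
  [],
  [],
  [.ofNat (nat_lit 0), .negSucc (nat_lit 14889634147392459839), .ofNat (nat_lit 0)]]],
  [[[.ofNat (nat_lit 0), .ofNat (nat_lit 2164403427928224768), .negSucc (nat_lit 2179307453378678783)],
  [],
  [],
  [],
  [],
  [],
  []],
  [[.ofNat (nat_lit 458016182881090560), .ofNat (nat_lit 22387803741100228608), .ofNat (nat_lit 0)],
  [],
  [],
  [],
  [],
  [],
  []],
  [[],
  [.ofNat (nat_lit 0), .negSucc (nat_lit 8970394225120478207), .ofNat (nat_lit 0)],
  [],
  [],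
  [],
  [],
  []],
  [[],
  [],
  [.ofNat (nat_lit 0), .negSucc (nat_lit 90945283067839148543), .ofNat (nat_lit 0)],
  [],
  [],
  [],
  []],
  [[],
  [],
  [],
  [.ofNat (nat_lit 0), .negSucc (nat_lit 7148694742775608319), .ofNat (nat_lit 0)],
  [],
  [],
  []],
  [[],
  [],
  [],
  [],
  [.ofNat (nat_lit 0), .ofNat (nat_lit 120119274493239362688), .ofNat (nat_lit 0)],
  [],
  []],
  [[],
  [],
  [],
  [],
  [.ofNat (nat_lit 0), .negSucc (nat_lit 21047368488380563967), .ofNat (nat_lit 0)],
  [],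
  []],
  [[],
  [],
  [],
  [],
  [],
  [.ofNat (nat_lit 0), .ofNat (nat_lit 20326741919784443520), .ofNat (nat_lit 0)],
  []],
  [[],
  [],
  [],
  [],
  [],
  [],
  [.ofNat (nat_lit 0), .negSucc (nat_lit 20097631915933109183), .ofNat (nat_lit 0)]],
  [[],
  [],
  [],
  [],
  [],
  [],
  [.ofNat (nat_lit 0), .negSucc (nat_lit 2816564642199694079), .ofNat (nat_lit 0)]]],
  [],
  [],
  []],
  [[],
  [],
  [],
  [],
  [],
  [],
  [],
  [[[.ofNat (nat_lit 0), .negSucc (nat_lit 316205758036168703), .ofNat (nat_lit 55826100625269408768)],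
  [],
  [],
  [],
  [],
  [],
  []],
  [[.negSucc (nat_lit 604537339609608191), .ofNat (nat_lit 2243405680927428096), .ofNat (nat_lit 0)],
  [],
  [],
  [],
  [],
  [],
  []],
  [[],
  [.ofNat (nat_lit 0), .negSucc (nat_lit 1248285905869430015), .ofNat (nat_lit 0)],
  [],
  [],
  [],
  [],
  []],
  [[],
  [],
  [.ofNat (nat_lit 0), .negSucc (nat_lit 103636429608176449919), .ofNat (nat_lit 0)],
  [],
  [],
  [],
  []],
  [[],
  [],
  [],
  [.ofNat (nat_lit 0), .negSucc (nat_lit 211832932569416285183), .ofNat (nat_lit 0)],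
  [],
  [],
  []],
  [[],
  [],
  [],
  [],
  [.ofNat (nat_lit 0), .ofNat (nat_lit 35414703588457799136), .ofNat (nat_lit 0)],
  [],
  []],
  [[],
  [],
  [],
  [],
  [.ofNat (nat_lit 0), .negSucc (nat_lit 20326741919784443519), .ofNat (nat_lit 0)],
  [],
  []],
  [[],
  [],
  [],
  [],
  [],
  [.ofNat (nat_lit 0), .ofNat (nat_lit 121178208648056487840), .ofNat (nat_lit 0)],
  []],
  [[],
  [],
  [],
  [],
  [],
  [],
  [.ofNat (nat_lit 0), .negSucc (nat_lit 600555578835415823), .ofNat (nat_lit 0)]],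
  [[],
  [],
  [],
  [],
  [],
  [],
  [.ofNat (nat_lit 0), .ofNat (nat_lit 35951109505094049984), .ofNat (nat_lit 0)]]],
  [],
  []],
  [[],
  [],
  [],
  [],
  [],
  [],
  [],
  [],
  [[[.ofNat (nat_lit 0), .ofNat (nat_lit 431630423286211584), .negSucc (nat_lit 8954996107620289535)],
  [],
  [],
  [],
  [],
  [],
  []],
  [[.negSucc (nat_lit 431630423286211583), .ofNat (nat_lit 12535147233998318592), .ofNat (nat_lit 0)],
  [],
  [],
  [],
  [],
  [],
  []],
  [[],
  [.ofNat (nat_lit 0), .negSucc (nat_lit 10740453379134087167), .ofNat (nat_lit 0)],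
  [],
  [],
  [],
  [],
  []],
  [[],
  [],
  [.ofNat (nat_lit 0), .negSucc (nat_lit 8661682914653286143), .ofNat (nat_lit 0)],
  [],
  [],
  [],
  []],
  [[],
  [],
  [],
  [.ofNat (nat_lit 0), .ofNat (nat_lit 26273743645251644928), .ofNat (nat_lit 0)],
  [],
  [],
  []],
  [[],
  [],
  [],
  [],
  [.ofNat (nat_lit 0), .ofNat (nat_lit 2432305577020973904), .ofNat (nat_lit 0)],
  [],
  []],
  [[],
  [],
  [],
  [],
  [.ofNat (nat_lit 0), .negSucc (nat_lit 20097631915933109183), .ofNat (nat_lit 0)],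
  [],
  []],
  [[],
  [],
  [],
  [],
  [],
  [.ofNat (nat_lit 0), .ofNat (nat_lit 600555578835415824), .ofNat (nat_lit 0)],
  []],
  [[],
  [],
  [],
  [],
  [],
  [],
  [.ofNat (nat_lit 0), .ofNat (nat_lit 15893592392242608120), .ofNat (nat_lit 0)]],
  [[],
  [],
  [],
  [],
  [],
  [],
  [.ofNat (nat_lit 0), .negSucc (nat_lit 11356436481275952863), .ofNat (nat_lit 0)]]],
  [[[.ofNat (nat_lit 0), .negSucc (nat_lit 2186880073516274687), .negSucc (nat_lit 18262181967979262975)],
  [],
  [],
  [],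
  [],
  [],
  []],
  [[.ofNat (nat_lit 2186880073516274688), .negSucc (nat_lit 26455744450578382847), .ofNat (nat_lit 0)],
  [],
  [],
  [],
  [],
  [],
  []],
  [[],
  [.ofNat (nat_lit 0), .ofNat (nat_lit 31468062189165801984), .ofNat (nat_lit 0)],
  [],
  [],
  [],
  [],
  []],
  [[],
  [],
  [.ofNat (nat_lit 0), .ofNat (nat_lit 66376585068117103872), .ofNat (nat_lit 0)],
  [],
  [],
  [],
  []],
  [[],
  [],
  [],
  [.ofNat (nat_lit 0), .ofNat (nat_lit 62283985120073549952), .ofNat (nat_lit 0)],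
  [],
  [],
  []],
  [[],
  [],
  [],
  [],
  [.ofNat (nat_lit 0), .negSucc (nat_lit 14889634147392459839), .ofNat (nat_lit 0)],
  [],
  []],
  [[],
  [],
  [],
  [],
  [.ofNat (nat_lit 0), .negSucc (nat_lit 2816564642199694079), .ofNat (nat_lit 0)],
  [],
  []],
  [[],
  [],
  [],
  [],
  [],
  [.ofNat (nat_lit 0), .negSucc (nat_lit 35951109505094049983), .ofNat (nat_lit 0)],
  []],
  [[],
  [],
  [],
  [],
  [],
  [],
  [.ofNat (nat_lit 0), .negSucc (nat_lit 11356436481275952863), .ofNat (nat_lit 0)]],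
  [[],
  [],
  [],
  [],
  [],
  [],
  [.ofNat (nat_lit 0), .ofNat (nat_lit 18076019551093416960), .ofNat (nat_lit 0)]]]]],
  [[[[[.ofNat (nat_lit 0), .ofNat (nat_lit 0), .negSucc (nat_lit 64757179020515327)],
  [],
  [],
  [],
  [],
  [],
  []],
  [[.ofNat (nat_lit 0), .negSucc (nat_lit 440202767600461823), .ofNat (nat_lit 0)],
  [],
  [],
  [],
  [],
  [],
  []],
  [[],
  [.ofNat (nat_lit 0), .ofNat (nat_lit 1937517798303277056), .ofNat (nat_lit 0)],
  [],
  [],
  [],
  [],
  []],
  [[],
  [],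
  [.ofNat (nat_lit 0), .ofNat (nat_lit 3517985730177773568), .ofNat (nat_lit 0)],
  [],
  [],
  [],
  []],
  [[],
  [],
  [],
  [.ofNat (nat_lit 0), .ofNat (nat_lit 691735165823619072), .ofNat (nat_lit 0)],
  [],
  [],
  []],
  [[],
  [],
  [],
  [],
  [.ofNat (nat_lit 0), .negSucc (nat_lit 368102680835696639), .ofNat (nat_lit 0)],
  [],
  []],
  [[],
  [],
  [],
  [],
  [.ofNat (nat_lit 0), .negSucc (nat_lit 1311209805404657663), .ofNat (nat_lit 0)],
  [],
  []],
  [[],
  [],
  [],
  [],
  [],
  [.ofNat (nat_lit 0), .negSucc (nat_lit 460371548822888447), .ofNat (nat_lit 0)],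
  []],
  [[],
  [],
  [],
  [],
  [],
  [],
  []],
  [[],
  [],
  [],
  [],
  [],
  [],
  []]],
  [],
  [],
  [],
  [],
  [],
  [],
  [],
  [],
  []],
  [[],
  [],
  [],
  [],
  [],
  [],
  [],
  [],
  [],
  []],
  [[],
  [[[.ofNat (nat_lit 0), .negSucc (nat_lit 951222338852843519), .ofNat (nat_lit 2831422420500221952)],
  [],
  [],
  [],
  [],
  [],
  []],
  [[.ofNat (nat_lit 951222338852843520), .ofNat (nat_lit 6422288228784345600), .ofNat (nat_lit 0)],
  [],
  [],
  [],
  [],
  [],
  []],
  [[],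
  [.ofNat (nat_lit 0), .negSucc (nat_lit 19106197899293058047), .ofNat (nat_lit 0)],
  [],
  [],
  [],
  [],
  []],
  [[],
  [],
  [.ofNat (nat_lit 0), .negSucc (nat_lit 21579223407879642623), .ofNat (nat_lit 0)],
  [],
  [],
  [],
  []],
  [[],
  [],
  [],
  [.ofNat (nat_lit 0), .ofNat (nat_lit 29155252693026069504), .ofNat (nat_lit 0)],
  [],
  [],
  []],
  [[],
  [],
  [],
  [],
  [.ofNat (nat_lit 0), .ofNat (nat_lit 8608516554571428096), .ofNat (nat_lit 0)],
  [],
  []],
  [[],
  [],
  [],
  [],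
  [.ofNat (nat_lit 0), .ofNat (nat_lit 24276573939655895040), .ofNat (nat_lit 0)],
  [],
  []],
  [[],
  [],
  [],
  [],
  [],
  [.ofNat (nat_lit 0), .negSucc (nat_lit 7989668971904166911), .ofNat (nat_lit 0)],
  []],
  [[],
  [],
  [],
  [],
  [],
  [],
  [.ofNat (nat_lit 0), .negSucc (nat_lit 2071671969702998015), .ofNat (nat_lit 0)]],
  [[],
  [],
  [],
  [],
  [],
  [],
  [.ofNat (nat_lit 0), .negSucc (nat_lit 5524458585874661375), .ofNat (nat_lit 0)]]],
  [],
  [],
  [],
  [],
  [],
  [],
  [],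
  []],
  [[],
  [],
  [[[.ofNat (nat_lit 0), .negSucc (nat_lit 2572531755591112703), .negSucc (nat_lit 1476358515210940415)],
  [],
  [],
  [],
  [],
  [],
  []],
  [[.ofNat (nat_lit 2572531755591112704), .ofNat (nat_lit 20582556414503998464), .ofNat (nat_lit 0)],
  [],
  [],
  [],
  [],
  [],
  []],
  [[],
  [.ofNat (nat_lit 0), .ofNat (nat_lit 28050859937242920960), .ofNat (nat_lit 0)],
  [],
  [],
  [],
  [],
  []],
  [[],
  [],
  [.ofNat (nat_lit 0), .negSucc (nat_lit 41006512463400410111), .ofNat (nat_lit 0)],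
  [],
  [],
  [],
  []],
  [[],
  [],
  [],
  [.ofNat (nat_lit 0), .negSucc (nat_lit 43575669289149221375), .ofNat (nat_lit 0)],
  [],
  [],
  []],
  [[],
  [],
  [],
  [],
  [.ofNat (nat_lit 0), .ofNat (nat_lit 23906777359979354112), .ofNat (nat_lit 0)],
  [],
  []],
  [[],
  [],
  [],
  [],
  [.ofNat (nat_lit 0), .negSucc (nat_lit 3704363626393221119), .ofNat (nat_lit 0)],
  [],
  []],
  [[],
  [],
  [],
  [],
  [],
  [.ofNat (nat_lit 0), .ofNat (nat_lit 2589266276787283200), .ofNat (nat_lit 0)],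
  []],
  [[],
  [],
  [],
  [],
  [],
  [],
  [.ofNat (nat_lit 0), .negSucc (nat_lit 6215015909108994047), .ofNat (nat_lit 0)]],
  [[],
  [],
  [],
  [],
  [],
  [],
  [.ofNat (nat_lit 0), .negSucc (nat_lit 2762229292937330687), .ofNat (nat_lit 0)]]],
  [],
  [],
  [],
  [],
  [],
  [],
  []],
  [[],
  [],
  [],
  [[[.ofNat (nat_lit 0), .ofNat (nat_lit 4931714373993529344), .negSucc (nat_lit 15000128005842745343)],
  [],
  [],
  [],
  [],
  [],
  []],
  [[.negSucc (nat_lit 4931714373993529343), .negSucc (nat_lit 6579095402036897279), .ofNat (nat_lit 0)],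
  [],
  [],
  [],
  [],
  [],
  []],
  [[],
  [.ofNat (nat_lit 0), .ofNat (nat_lit 41006512463400410112), .ofNat (nat_lit 0)],
  [],
  [],
  [],
  [],
  []],
  [[],
  [],
  [.ofNat (nat_lit 0), .ofNat (nat_lit 12147495256703305728), .ofNat (nat_lit 0)],
  [],
  [],
  [],
  []],
  [[],
  [],
  [],
  [.ofNat (nat_lit 0), .negSucc (nat_lit 103610085228931322879), .ofNat (nat_lit 0)],
  [],
  [],
  []],
  [[],
  [],
  [],
  [],
  [.ofNat (nat_lit 0), .ofNat (nat_lit 16663179096678407040), .ofNat (nat_lit 0)],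
  [],
  []],
  [[],
  [],
  [],
  [],
  [.ofNat (nat_lit 0), .negSucc (nat_lit 6745138963767475199), .ofNat (nat_lit 0)],
  [],
  []],
  [[],
  [],
  [],
  [],
  [],
  [.ofNat (nat_lit 0), .ofNat (nat_lit 38435791512485018880), .ofNat (nat_lit 0)],
  []],
  [[],
  [],
  [],
  [],
  [],
  [],
  [.ofNat (nat_lit 0), .negSucc (nat_lit 5179179924257495039), .ofNat (nat_lit 0)]],
  [[],
  [],
  [],
  [],
  [],
  [],
  [.ofNat (nat_lit 0), .negSucc (nat_lit 6905573232343326719), .ofNat (nat_lit 0)]]],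
  [],
  [],
  [],
  [],
  [],
  []],
  [[],
  [],
  [],
  [],
  [[[.ofNat (nat_lit 0), .ofNat (nat_lit 10272492772394388480), .ofNat (nat_lit 27164226112241845248)],
  [],
  [],
  [],
  [],
  [],
  []],
  [[.negSucc (nat_lit 10272492772394388479), .negSucc (nat_lit 56319478805267914751), .ofNat (nat_lit 0)],
  [],
  [],
  [],
  [],
  [],
  []],
  [[],
  [.ofNat (nat_lit 0), .negSucc (nat_lit 43575669289149221375), .ofNat (nat_lit 0)],
  [],
  [],
  [],
  [],
  []],
  [[],
  [],
  [.ofNat (nat_lit 0), .ofNat (nat_lit 103610085228931322880), .ofNat (nat_lit 0)],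
  [],
  [],
  [],
  []],
  [[],
  [],
  [],
  [.ofNat (nat_lit 0), .ofNat (nat_lit 4160494691721474048), .ofNat (nat_lit 0)],
  [],
  [],
  []],
  [[],
  [],
  [],
  [],
  [.ofNat (nat_lit 0), .negSucc (nat_lit 29421256422954039551), .ofNat (nat_lit 0)],
  [],
  []],
  [[],
  [],
  [],
  [],
  [.ofNat (nat_lit 0), .negSucc (nat_lit 3059810888005794815), .ofNat (nat_lit 0)],
  [],
  []],
  [[],
  [],
  [],
  [],
  [],
  [.ofNat (nat_lit 0), .ofNat (nat_lit 42728072532453601920), .ofNat (nat_lit 0)],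
  []],
  [[],
  [],
  [],
  [],
  [],
  [],
  [.ofNat (nat_lit 0), .negSucc (nat_lit 5179179924257495039), .ofNat (nat_lit 0)]],
  [[],
  [],
  [],
  [],
  [],
  [],
  [.ofNat (nat_lit 0), .negSucc (nat_lit 6905573232343326719), .ofNat (nat_lit 0)]]],
  [],
  [],
  [],
  [],
  []],
  [[],
  [],
  [],
  [],
  [],
  [[[.ofNat (nat_lit 0), .negSucc (nat_lit 5833484039361558527), .ofNat (nat_lit 5552087702717104128)],
  [],
  [],
  [],
  [],
  [],
  []],
  [[.ofNat (nat_lit 5833484039361558528), .ofNat (nat_lit 3056428851854323968), .ofNat (nat_lit 0)],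
  [],
  [],
  [],
  [],
  [],
  []],
  [[],
  [.ofNat (nat_lit 0), .negSucc (nat_lit 23906777359979354111), .ofNat (nat_lit 0)],
  [],
  [],
  [],
  [],
  []],
  [[],
  [],
  [.ofNat (nat_lit 0), .ofNat (nat_lit 16663179096678407040), .ofNat (nat_lit 0)],
  [],
  [],
  [],
  []],
  [[],
  [],
  [],
  [.ofNat (nat_lit 0), .ofNat (nat_lit 29421256422954039552), .ofNat (nat_lit 0)],
  [],
  [],
  []],
  [[],
  [],
  [],
  [],
  [.ofNat (nat_lit 0), .negSucc (nat_lit 25560875113293756671), .ofNat (nat_lit 0)],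
  [],
  []],
  [[],
  [],
  [],
  [],
  [.ofNat (nat_lit 0), .negSucc (nat_lit 14107616787833959679), .ofNat (nat_lit 0)],
  [],
  []],
  [[],
  [],
  [],
  [],
  [],
  [.ofNat (nat_lit 0), .ofNat (nat_lit 19336334643896117760), .ofNat (nat_lit 0)],
  []],
  [[],
  [],
  [],
  [],
  [],
  [],
  [.ofNat (nat_lit 0), .negSucc (nat_lit 1899032638894414847), .ofNat (nat_lit 0)]],
  [[],
  [],
  [],
  [],
  [],
  [],
  [.ofNat (nat_lit 0), .ofNat (nat_lit 690557323234332672), .ofNat (nat_lit 0)]]],
  [[[.ofNat (nat_lit 0), .negSucc (nat_lit 3404823606322458623), .ofNat (nat_lit 13856030960925625344)],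
  [],
  [],
  [],
  [],
  [],
  []],
  [[.ofNat (nat_lit 3404823606322458624), .ofNat (nat_lit 10420542978730269696), .ofNat (nat_lit 0)],
  [],
  [],
  [],
  [],
  [],
  []],
  [[],
  [.ofNat (nat_lit 0), .ofNat (nat_lit 3704363626393221120), .ofNat (nat_lit 0)],
  [],
  [],
  [],
  [],
  []],
  [[],
  [],
  [.ofNat (nat_lit 0), .negSucc (nat_lit 6745138963767475199), .ofNat (nat_lit 0)],
  [],
  [],
  [],
  []],
  [[],
  [],
  [],
  [.ofNat (nat_lit 0), .ofNat (nat_lit 3059810888005794816), .ofNat (nat_lit 0)],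
  [],
  [],
  []],
  [[],
  [],
  [],
  [],
  [.ofNat (nat_lit 0), .negSucc (nat_lit 14107616787833959679), .ofNat (nat_lit 0)],
  [],
  []],
  [[],
  [],
  [],
  [],
  [.ofNat (nat_lit 0), .ofNat (nat_lit 1185881292589224960), .ofNat (nat_lit 0)],
  [],
  []],
  [[],
  [],
  [],
  [],
  [],
  [.ofNat (nat_lit 0), .ofNat (nat_lit 8894109694419187200), .ofNat (nat_lit 0)],
  []],
  [[],
  [],
  [],
  [],
  [],
  [],
  [.ofNat (nat_lit 0), .ofNat (nat_lit 690557323234332672), .ofNat (nat_lit 0)]],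
  [[],
  [],
  [],
  [],
  [],
  [],
  [.ofNat (nat_lit 0), .negSucc (nat_lit 2762229292937330687), .ofNat (nat_lit 0)]]],
  [],
  [],
  []],
  [[],
  [],
  [],
  [],
  [],
  [],
  [],
  [[[.ofNat (nat_lit 0), .negSucc (nat_lit 8210974417688429567), .negSucc (nat_lit 47492537432730955775)],
  [],
  [],
  [],
  [],
  [],
  []],
  [[.ofNat (nat_lit 8210974417688429568), .ofNat (nat_lit 55482206404635122688), .ofNat (nat_lit 0)],
  [],
  [],
  [],
  [],
  [],
  []],
  [[],
  [.ofNat (nat_lit 0), .ofNat (nat_lit 2589266276787283200), .ofNat (nat_lit 0)],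
  [],
  [],
  [],
  [],
  []],
  [[],
  [],
  [.ofNat (nat_lit 0), .negSucc (nat_lit 38435791512485018879), .ofNat (nat_lit 0)],
  [],
  [],
  [],
  []],
  [[],
  [],
  [],
  [.ofNat (nat_lit 0), .ofNat (nat_lit 42728072532453601920), .ofNat (nat_lit 0)],
  [],
  [],
  []],
  [[],
  [],
  [],
  [],
  [.ofNat (nat_lit 0), .negSucc (nat_lit 19336334643896117759), .ofNat (nat_lit 0)],
  [],
  []],
  [[],
  [],
  [],
  [],
  [.ofNat (nat_lit 0), .negSucc (nat_lit 8894109694419187199), .ofNat (nat_lit 0)],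
  [],
  []],
  [[],
  [],
  [],
  [],
  [],
  [.ofNat (nat_lit 0), .ofNat (nat_lit 6848026788740465664), .ofNat (nat_lit 0)],
  []],
  [[],
  [],
  [],
  [],
  [],
  [],
  [.ofNat (nat_lit 0), .negSucc (nat_lit 517917992425749503), .ofNat (nat_lit 0)]],
  [[],
  [],
  [],
  [],
  [],
  [],
  [.ofNat (nat_lit 0), .negSucc (nat_lit 1381114646468665343), .ofNat (nat_lit 0)]]],
  [],
  []],
  [[],
  [],
  [],
  [],
  [],
  [],
  [],
  [],
  [[[.ofNat (nat_lit 0), .ofNat (nat_lit 475291429980512256), .ofNat (nat_lit 15284031332531816448)],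
  [],
  [],
  [],
  [],
  [],
  []],
  [[.negSucc (nat_lit 475291429980512255), .negSucc (nat_lit 17355703302234814463), .ofNat (nat_lit 0)],
  [],
  [],
  [],
  [],
  [],
  []],
  [[],
  [.ofNat (nat_lit 0), .ofNat (nat_lit 6215015909108994048), .ofNat (nat_lit 0)],
  [],
  [],
  [],
  [],
  []],
  [[],
  [],
  [.ofNat (nat_lit 0), .negSucc (nat_lit 5179179924257495039), .ofNat (nat_lit 0)],
  [],
  [],
  [],
  []],
  [[],
  [],
  [],
  [.ofNat (nat_lit 0), .ofNat (nat_lit 5179179924257495040), .ofNat (nat_lit 0)],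
  [],
  [],
  []],
  [[],
  [],
  [],
  [],
  [.ofNat (nat_lit 0), .negSucc (nat_lit 1899032638894414847), .ofNat (nat_lit 0)],
  [],
  []],
  [[],
  [],
  [],
  [],
  [.ofNat (nat_lit 0), .ofNat (nat_lit 690557323234332672), .ofNat (nat_lit 0)],
  [],
  []],
  [[],
  [],
  [],
  [],
  [],
  [.ofNat (nat_lit 0), .ofNat (nat_lit 517917992425749504), .ofNat (nat_lit 0)],
  []],
  [[],
  [],
  [],
  [],
  [],
  [],
  []],
  [[],
  [],
  [],
  [],
  [],
  [],
  []]],
  [[[.ofNat (nat_lit 0), .ofNat (nat_lit 7878827424879304704), .negSucc (nat_lit 1746453431224949759)],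
  [],
  [],
  [],
  [],
  [],
  []],
  [[.negSucc (nat_lit 7878827424879304703), .negSucc (nat_lit 3778005154649711615), .ofNat (nat_lit 0)],
  [],
  [],
  [],
  [],
  [],
  []],
  [[],
  [.ofNat (nat_lit 0), .ofNat (nat_lit 2762229292937330688), .ofNat (nat_lit 0)],
  [],
  [],
  [],
  [],
  []],
  [[],
  [],
  [.ofNat (nat_lit 0), .negSucc (nat_lit 6905573232343326719), .ofNat (nat_lit 0)],
  [],
  [],
  [],
  []],
  [[],
  [],
  [],
  [.ofNat (nat_lit 0), .ofNat (nat_lit 6905573232343326720), .ofNat (nat_lit 0)],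
  [],
  [],
  []],
  [[],
  [],
  [],
  [],
  [.ofNat (nat_lit 0), .ofNat (nat_lit 690557323234332672), .ofNat (nat_lit 0)],
  [],
  []],
  [[],
  [],
  [],
  [],
  [.ofNat (nat_lit 0), .negSucc (nat_lit 2762229292937330687), .ofNat (nat_lit 0)],
  [],
  []],
  [[],
  [],
  [],
  [],
  [],
  [.ofNat (nat_lit 0), .ofNat (nat_lit 1381114646468665344), .ofNat (nat_lit 0)],
  []],
  [[],
  [],
  [],
  [],
  [],
  [],
  []],
  [[],
  [],
  [],
  [],
  [],
  [],
  []]]]]]

noncomputable def BR4_E : L5 := [[[[[]],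
  [[]],
  [[]]],
  [[[.ofNat (nat_lit 317325360144448512), .negSucc (nat_lit 284793583201906175), .ofNat (nat_lit 0)]],
  [[.ofNat (nat_lit 0), .ofNat (nat_lit 873178033272760800), .ofNat (nat_lit 0)]],
  [[]]],
  [[[.negSucc (nat_lit 1868119852894136639), .ofNat (nat_lit 5531533543769703264), .ofNat (nat_lit 0)]],
  [[.ofNat (nat_lit 0), .negSucc (nat_lit 6542564763823646111), .ofNat (nat_lit 0)]],
  [[]]],
  [[[.ofNat (nat_lit 4950731749076371008), .negSucc (nat_lit 28642022997394118687), .ofNat (nat_lit 0)]],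
  [[.ofNat (nat_lit 0), .ofNat (nat_lit 22134800177105461920), .ofNat (nat_lit 0)]],
  [[]]],
  [[[.negSucc (nat_lit 7476672085999728191), .ofNat (nat_lit 69090689701865997504), .ofNat (nat_lit 0)]],
  [[.ofNat (nat_lit 0), .negSucc (nat_lit 40881142465713561599), .ofNat (nat_lit 0)]],
  [[]]],
  [[[.ofNat (nat_lit 6645083718467110752), .negSucc (nat_lit 90571026572180016191), .ofNat (nat_lit 0)]],
  [[.ofNat (nat_lit 0), .ofNat (nat_lit 42107290865694363744), .ofNat (nat_lit 0)]],
  [[]]],
  [[[.negSucc (nat_lit 3220588775771380799), .ofNat (nat_lit 66584350773497737152), .ofNat (nat_lit 0)]],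
  [[.ofNat (nat_lit 0), .negSucc (nat_lit 22468715489973028031), .ofNat (nat_lit 0)]],
  [[]]],
  [[[.ofNat (nat_lit 646397591112167328), .negSucc (nat_lit 25803911831153698655), .ofNat (nat_lit 0)]],
  [[.ofNat (nat_lit 0), .ofNat (nat_lit 4609269710222452704), .ofNat (nat_lit 0)]],
  [[]]],
  [[[.ofNat (nat_lit 5842295865148032), .ofNat (nat_lit 4095180964796301792), .ofNat (nat_lit 0)]],
  [[.ofNat (nat_lit 0), .ofNat (nat_lit 167883933215196576), .ofNat (nat_lit 0)]],
  [[]]]],
  [[[[]],
  [[]],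
  [[]]],
  [[[.negSucc (nat_lit 76948221758275583), .ofNat (nat_lit 0), .ofNat (nat_lit 0)]],
  [[.ofNat (nat_lit 0), .ofNat (nat_lit 40308882657471936), .ofNat (nat_lit 0)]],
  [[.ofNat (nat_lit 0), .negSucc (nat_lit 62145070217706527), .ofNat (nat_lit 0)]]],
  [[[.ofNat (nat_lit 464407044347169216), .negSucc (nat_lit 1468351396861996895), .ofNat (nat_lit 0)]],
  [[.ofNat (nat_lit 0), .ofNat (nat_lit 781642280231558208), .ofNat (nat_lit 0)]],
  [[.ofNat (nat_lit 0), .ofNat (nat_lit 124290140435413056), .ofNat (nat_lit 0)]]],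
  [[[.negSucc (nat_lit 1688246803643133023), .ofNat (nat_lit 13477678348852583424), .ofNat (nat_lit 0)]],
  [[.ofNat (nat_lit 0), .negSucc (nat_lit 2715268376931908255), .ofNat (nat_lit 0)]],
  [[.ofNat (nat_lit 0), .negSucc (nat_lit 62145070217706527), .ofNat (nat_lit 0)]]],
  [[[.ofNat (nat_lit 3658507446987695808), .negSucc (nat_lit 44163387977940773279), .ofNat (nat_lit 0)]],
  [[.ofNat (nat_lit 0), .ofNat (nat_lit 2137836589454046528), .ofNat (nat_lit 0)]],
  [[]]],
  [[[.negSucc (nat_lit 4218089725786394591), .ofNat (nat_lit 70854142575651859008), .ofNat (nat_lit 0)]],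
  [[.ofNat (nat_lit 0), .ofNat (nat_lit 4107660562736278272), .ofNat (nat_lit 0)]],
  [[]]],
  [[[.ofNat (nat_lit 2213189359152052032), .negSucc (nat_lit 60239095223765849279), .ofNat (nat_lit 0)]],
  [[.ofNat (nat_lit 0), .negSucc (nat_lit 11540930278013236799), .ofNat (nat_lit 0)]],
  [[]]],
  [[[.negSucc (nat_lit 212710024455124607), .ofNat (nat_lit 25991031269248278912), .ofNat (nat_lit 0)]],
  [[.ofNat (nat_lit 0), .ofNat (nat_lit 10811858534669341152), .ofNat (nat_lit 0)]],
  [[]]],
  [[[.negSucc (nat_lit 140109074843989247), .negSucc (nat_lit 4452017595184101887), .ofNat (nat_lit 0)]],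
  [[.ofNat (nat_lit 0), .negSucc (nat_lit 3623108194803551039), .ofNat (nat_lit 0)]],
  [[]]]],
  [[[[]],
  [[]],
  [[]]],
  [[[.ofNat (nat_lit 0), .negSucc (nat_lit 3514537484607743), .ofNat (nat_lit 0)]],
  [[.ofNat (nat_lit 0), .ofNat (nat_lit 60320378274363360), .ofNat (nat_lit 0)]],
  [[.ofNat (nat_lit 0), .negSucc (nat_lit 60547431196977407), .ofNat (nat_lit 0)]]],
  [[[]],
  [[]],
  [[]]],
  [[[.ofNat (nat_lit 594909051416809056), .negSucc (nat_lit 2933247211230928607), .ofNat (nat_lit 0)]],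
  [[.ofNat (nat_lit 0), .negSucc (nat_lit 3646761715473572447), .ofNat (nat_lit 0)]],
  [[.ofNat (nat_lit 0), .ofNat (nat_lit 181642293590932224), .ofNat (nat_lit 0)]]],
  [[[.negSucc (nat_lit 2404646299862868671), .ofNat (nat_lit 14018235237402397344), .ofNat (nat_lit 0)]],
  [[.ofNat (nat_lit 0), .ofNat (nat_lit 12850774160115823776), .ofNat (nat_lit 0)]],
  [[.ofNat (nat_lit 0), .negSucc (nat_lit 121094862393954815), .ofNat (nat_lit 0)]]],
  [[[.ofNat (nat_lit 3654858322939844160), .negSucc (nat_lit 26910733293788016095), .ofNat (nat_lit 0)]],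
  [[.ofNat (nat_lit 0), .negSucc (nat_lit 19168278943497827615), .ofNat (nat_lit 0)]],
  [[]]],
  [[[.negSucc (nat_lit 2456085502585447487), .ofNat (nat_lit 25823890979959057344), .ofNat (nat_lit 0)]],
  [[.ofNat (nat_lit 0), .ofNat (nat_lit 15841188861155726400), .ofNat (nat_lit 0)]],
  [[]]],
  [[[.ofNat (nat_lit 591635978718791904), .negSucc (nat_lit 12297685209616758527), .ofNat (nat_lit 0)]],
  [[.ofNat (nat_lit 0), .negSucc (nat_lit 7769071602833946335), .ofNat (nat_lit 0)]],
  [[]]],
  [[[.ofNat (nat_lit 19328449372871040), .ofNat (nat_lit 2303054034758856288), .ofNat (nat_lit 0)]],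
  [[.ofNat (nat_lit 0), .ofNat (nat_lit 1831828862259432864), .ofNat (nat_lit 0)]],
  [[]]]],
  [[[[]],
  [[]],
  [[]]],
  [[[.negSucc (nat_lit 1620075274640063), .negSucc (nat_lit 5315778834132095), .ofNat (nat_lit 0)]],
  [[.ofNat (nat_lit 0), .negSucc (nat_lit 118278753799840127), .ofNat (nat_lit 0)]],
  [[.ofNat (nat_lit 0), .ofNat (nat_lit 109937054068055424), .ofNat (nat_lit 0)]]],
  [[[]],
  [[]],
  [[]]],
  [[[]],
  [[]],
  [[]]],
  [[[.ofNat (nat_lit 116477389881457920), .ofNat (nat_lit 836776500653212992), .ofNat (nat_lit 0)]],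
  [[.ofNat (nat_lit 0), .ofNat (nat_lit 1033180861210581024), .ofNat (nat_lit 0)]],
  [[.ofNat (nat_lit 0), .negSucc (nat_lit 439748216272221695), .ofNat (nat_lit 0)]]],
  [[[.negSucc (nat_lit 471476342942171135), .negSucc (nat_lit 2748964873225859999), .ofNat (nat_lit 0)]],
  [[.ofNat (nat_lit 0), .negSucc (nat_lit 976122986402461535), .ofNat (nat_lit 0)]],
  [[.ofNat (nat_lit 0), .ofNat (nat_lit 329811162204166272), .ofNat (nat_lit 0)]]],
  [[[.ofNat (nat_lit 821691731504619360), .ofNat (nat_lit 3153218020540830720), .ofNat (nat_lit 0)]],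
  [[.ofNat (nat_lit 0), .ofNat (nat_lit 1889047696616836992), .ofNat (nat_lit 0)]],
  [[]]],
  [[[.negSucc (nat_lit 683523466786076543), .negSucc (nat_lit 1369436972178008735), .ofNat (nat_lit 0)]],
  [[.ofNat (nat_lit 0), .negSucc (nat_lit 4154498602269732575), .ofNat (nat_lit 0)]],
  [[]]],
  [[[.ofNat (nat_lit 218450763616810464), .ofNat (nat_lit 133723103043957120), .ofNat (nat_lit 0)]],
  [[.ofNat (nat_lit 0), .ofNat (nat_lit 2326671784644616224), .ofNat (nat_lit 0)]],
  [[]]]],
  [[[[]],
  [[]],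
  [[]]],
  [[[.negSucc (nat_lit 3912800964103295), .ofNat (nat_lit 775758360674592), .ofNat (nat_lit 0)]],
  [[.ofNat (nat_lit 0), .ofNat (nat_lit 178608466659726144), .ofNat (nat_lit 0)]],
  [[.ofNat (nat_lit 0), .negSucc (nat_lit 21616723931988095), .ofNat (nat_lit 0)]]],
  [[[]],
  [[]],
  [[]]],
  [[[]],
  [[]],
  [[]]],
  [[[]],
  [[]],
  [[]]],
  [[[.ofNat (nat_lit 186642236605353408), .ofNat (nat_lit 511079591763481248), .ofNat (nat_lit 0)]],
  [[.ofNat (nat_lit 0), .negSucc (nat_lit 2192655335957251199), .ofNat (nat_lit 0)]],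
  [[.ofNat (nat_lit 0), .ofNat (nat_lit 108083619659940480), .ofNat (nat_lit 0)]]],
  [[[.negSucc (nat_lit 554186091067025183), .negSucc (nat_lit 1247215147831928735), .ofNat (nat_lit 0)]],
  [[.ofNat (nat_lit 0), .ofNat (nat_lit 2152803513058862688), .ofNat (nat_lit 0)]],
  [[.ofNat (nat_lit 0), .negSucc (nat_lit 86466895727952383), .ofNat (nat_lit 0)]]],
  [[[.ofNat (nat_lit 575835079066713216), .ofNat (nat_lit 955761211848691584), .ofNat (nat_lit 0)]],
  [[.ofNat (nat_lit 0), .ofNat (nat_lit 1022099715135945216), .ofNat (nat_lit 0)]],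
  [[]]],
  [[[.negSucc (nat_lit 204378423640938143), .negSucc (nat_lit 220401414140918687), .ofNat (nat_lit 0)]],
  [[.ofNat (nat_lit 0), .negSucc (nat_lit 1160856358897282847), .ofNat (nat_lit 0)]],
  [[]]]],
  [[[[]],
  [[]],
  [[]]],
  [[[.negSucc (nat_lit 710908321409567), .negSucc (nat_lit 3246207044351903), .ofNat (nat_lit 0)]],
  [[.ofNat (nat_lit 0), .negSucc (nat_lit 99237532720228127), .ofNat (nat_lit 0)]],
  [[.ofNat (nat_lit 0), .negSucc (nat_lit 11503208776115519), .ofNat (nat_lit 0)]]],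
  [[[]],
  [[]],
  [[]]],
  [[[]],
  [[]],
  [[]]],
  [[[]],
  [[]],
  [[]]],
  [[[]],
  [[]],
  [[]]],
  [[[.negSucc (nat_lit 28906563165676415), .ofNat (nat_lit 199332021376082016), .ofNat (nat_lit 0)]],
  [[.ofNat (nat_lit 0), .negSucc (nat_lit 416884392741170015), .ofNat (nat_lit 0)]],
  [[.ofNat (nat_lit 0), .ofNat (nat_lit 69019252656693120), .ofNat (nat_lit 0)]]],
  [[[.ofNat (nat_lit 62789484581219808), .negSucc (nat_lit 375940593441700703), .ofNat (nat_lit 0)]],
  [[.ofNat (nat_lit 0), .ofNat (nat_lit 1528431514523936928), .ofNat (nat_lit 0)]],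
  [[.ofNat (nat_lit 0), .negSucc (nat_lit 57516043880577599), .ofNat (nat_lit 0)]]],
  [[[.negSucc (nat_lit 33172013094133823), .ofNat (nat_lit 179854779109970592), .ofNat (nat_lit 0)]],
  [[.ofNat (nat_lit 0), .negSucc (nat_lit 1012309589062538783), .ofNat (nat_lit 0)]],
  [[]]]],
  [[[[]],
  [[]],
  [[]]],
  [[[.negSucc (nat_lit 3127852157162399), .ofNat (nat_lit 3557723153520960), .ofNat (nat_lit 0)]],
  [[.ofNat (nat_lit 0), .negSucc (nat_lit 66365509674193919), .ofNat (nat_lit 0)]],
  [[.ofNat (nat_lit 0), .negSucc (nat_lit 40975306418895551), .ofNat (nat_lit 0)]]],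
  [[[]],
  [[]],
  [[]]],
  [[[]],
  [[]],
  [[]]],
  [[[]],
  [[]],
  [[]]],
  [[[]],
  [[]],
  [[]]],
  [[[.ofNat (nat_lit 81971163749825856), .negSucc (nat_lit 85396961624400287), .ofNat (nat_lit 0)]],
  [[.ofNat (nat_lit 0), .ofNat (nat_lit 1090263076101251136), .ofNat (nat_lit 0)]],
  [[.ofNat (nat_lit 0), .ofNat (nat_lit 245851838513373312), .ofNat (nat_lit 0)]]],
  [[[.negSucc (nat_lit 142047362399514911), .ofNat (nat_lit 145889861174153856), .ofNat (nat_lit 0)]],
  [[.ofNat (nat_lit 0), .negSucc (nat_lit 1715967584483144831), .ofNat (nat_lit 0)]],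
  [[.ofNat (nat_lit 0), .negSucc (nat_lit 204876532094477759), .ofNat (nat_lit 0)]]],
  [[[.ofNat (nat_lit 63204050806851456), .negSucc (nat_lit 64050622703274527), .ofNat (nat_lit 0)]],
  [[.ofNat (nat_lit 0), .ofNat (nat_lit 692070018056087616), .ofNat (nat_lit 0)]],
  [[]]]],
  [[[[]],
  [[]],
  [[]]],
  [[[.ofNat (nat_lit 1694861717947776), .negSucc (nat_lit 7411098683555999), .ofNat (nat_lit 0)]],
  [[.ofNat (nat_lit 0), .ofNat (nat_lit 87616682629323552), .ofNat (nat_lit 0)]],
  [[.ofNat (nat_lit 0), .ofNat (nat_lit 14386610900715264), .ofNat (nat_lit 0)]]],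
  [[[]],
  [[]],
  [[]]],
  [[[]],
  [[]],
  [[]]],
  [[[]],
  [[]],
  [[]]],
  [[[]],
  [[]],
  [[]]],
  [[[]],
  [[]],
  [[]]],
  [[[.negSucc (nat_lit 11864032025634431), .ofNat (nat_lit 51877690784892000), .ofNat (nat_lit 0)]],
  [[.ofNat (nat_lit 0), .negSucc (nat_lit 613316778405264863), .ofNat (nat_lit 0)]],
  [[.ofNat (nat_lit 0), .negSucc (nat_lit 100706276305006847), .ofNat (nat_lit 0)]]],
  [[[.ofNat (nat_lit 10169170307686656), .negSucc (nat_lit 44466592101335999), .ofNat (nat_lit 0)]],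
  [[.ofNat (nat_lit 0), .ofNat (nat_lit 525700095775941312), .ofNat (nat_lit 0)]],
  [[.ofNat (nat_lit 0), .ofNat (nat_lit 86319665404291584), .ofNat (nat_lit 0)]]]],
  [[[[]],
  [[]],
  [[]]],
  [[[]],
  [[]],
  [[]]],
  [[[]],
  [[]],
  [[]]],
  [[[]],
  [[]],
  [[]]],
  [[[]],
  [[]],
  [[]]],
  [[[]],
  [[]],
  [[]]],
  [[[]],
  [[]],
  [[]]],
  [[[]],
  [[]],
  [[]]],
  [[[]],
  [[]],
  [[]]]],
  [[[[]],
  [[]],
  [[]]],
  [[[]],
  [[]],
  [[]]],
  [[[]],
  [[]],
  [[]]],
  [[[]],
  [[]],
  [[]]],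
  [[[]],
  [[]],
  [[]]],
  [[[]],
  [[]],
  [[]]],
  [[[]],
  [[]],
  [[]]],
  [[[]],
  [[]],
  [[]]],
  [[[]],
  [[]],
  [[]]]]]

noncomputable def BR4_tn : List (List ℕ) := [[nat_lit 16384, nat_lit 0, nat_lit 0],
  [nat_lit 32768, nat_lit 12288, nat_lit 0],
  [nat_lit 16384, nat_lit 12288, nat_lit 9216]]

noncomputable def BR4_zn : List (List ℕ) := [[nat_lit 281474976710656, nat_lit 0, nat_lit 0, nat_lit 0, nat_lit 0, nat_lit 0, nat_lit 0, nat_lit 0, nat_lit 0],
  [nat_lit 2251799813685248, nat_lit 140737488355328, nat_lit 0, nat_lit 0, nat_lit 0, nat_lit 0, nat_lit 0, nat_lit 0, nat_lit 0],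
  [nat_lit 7881299347898368, nat_lit 985162418487296, nat_lit 70368744177664, nat_lit 0, nat_lit 0, nat_lit 0, nat_lit 0, nat_lit 0, nat_lit 0],
  [nat_lit 15762598695796736, nat_lit 2955487255461888, nat_lit 422212465065984, nat_lit 35184372088832, nat_lit 0, nat_lit 0, nat_lit 0, nat_lit 0, nat_lit 0],
  [nat_lit 19703248369745920, nat_lit 4925812092436480, nat_lit 1055531162664960, nat_lit 175921860444160, nat_lit 17592186044416, nat_lit 0, nat_lit 0, nat_lit 0, nat_lit 0],
  [nat_lit 15762598695796736, nat_lit 4925812092436480, nat_lit 1407374883553280, nat_lit 351843720888320, nat_lit 70368744177664, nat_lit 8796093022208, nat_lit 0, nat_lit 0, nat_lit 0],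
  [nat_lit 7881299347898368, nat_lit 2955487255461888, nat_lit 1055531162664960, nat_lit 351843720888320, nat_lit 105553116266496, nat_lit 26388279066624, nat_lit 4398046511104, nat_lit 0, nat_lit 0],
  [nat_lit 2251799813685248, nat_lit 985162418487296, nat_lit 422212465065984, nat_lit 175921860444160, nat_lit 70368744177664, nat_lit 26388279066624, nat_lit 8796093022208, nat_lit 2199023255552, nat_lit 0],
  [nat_lit 281474976710656, nat_lit 140737488355328, nat_lit 70368744177664, nat_lit 35184372088832, nat_lit 17592186044416, nat_lit 8796093022208, nat_lit 4398046511104, nat_lit 2199023255552, nat_lit 1099511627776],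
  [nat_lit 281474976710656, nat_lit 140737488355328, nat_lit 70368744177664, nat_lit 35184372088832, nat_lit 17592186044416, nat_lit 8796093022208, nat_lit 4398046511104, nat_lit 2199023255552, nat_lit 1099511627776],
  [nat_lit 2251799813685248, nat_lit 1266637395197952, nat_lit 703687441776640, nat_lit 387028092977152, nat_lit 211106232532992, nat_lit 114349209288704, nat_lit 61572651155456, nat_lit 32985348833280, nat_lit 17592186044416],
  [nat_lit 7881299347898368, nat_lit 4925812092436480, nat_lit 3025855999639552, nat_lit 1829587348619264, nat_lit 1090715534753792, nat_lit 642114790621184, nat_lit 373833953443840, nat_lit 215504279044096, nat_lit 123145302310912],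
  [nat_lit 15762598695796736, nat_lit 10836786603360256, nat_lit 7318349394477056, nat_lit 4855443348258816, nat_lit 3166593487994880, nat_lit 2031897488130048, nat_lit 1284229581242368, nat_lit 800444465020928, nat_lit 492581209243648],
  [nat_lit 19703248369745920, nat_lit 14777436277309440, nat_lit 10907155347537920, nat_lit 7916483719987200, nat_lit 5647091720257536, nat_lit 3958241859993600, nat_lit 2726788836884480, nat_lit 1847179534663680, nat_lit 1231453023109120],
  [nat_lit 15762598695796736, nat_lit 12807111440334848, nat_lit 10273836649938944, nat_lit 8127589952520192, nat_lit 6333186975989760, nat_lit 4855443348258816, nat_lit 3659174697238528, nat_lit 2709196650840064, nat_lit 1970324836974592],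
  [nat_lit 7881299347898368, nat_lit 6896136929411072, nat_lit 5981343255101440, nat_lit 5136918324969472, nat_lit 4362862139015168, nat_lit 3659174697238528, nat_lit 3025855999639552, nat_lit 2462906046218240, nat_lit 1970324836974592],
  [nat_lit 2251799813685248, nat_lit 2111062325329920, nat_lit 1970324836974592, nat_lit 1829587348619264, nat_lit 1688849860263936, nat_lit 1548112371908608, nat_lit 1407374883553280, nat_lit 1266637395197952, nat_lit 1125899906842624],
  [nat_lit 281474976710656, nat_lit 281474976710656, nat_lit 281474976710656, nat_lit 281474976710656, nat_lit 281474976710656, nat_lit 281474976710656, nat_lit 281474976710656, nat_lit 281474976710656, nat_lit 281474976710656],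
  [nat_lit 281474976710656, nat_lit 281474976710656, nat_lit 281474976710656, nat_lit 281474976710656, nat_lit 281474976710656, nat_lit 281474976710656, nat_lit 281474976710656, nat_lit 281474976710656, nat_lit 281474976710656],
  [nat_lit 2251799813685248, nat_lit 2392537302040576, nat_lit 2533274790395904, nat_lit 2674012278751232, nat_lit 2814749767106560, nat_lit 2955487255461888, nat_lit 3096224743817216, nat_lit 3236962232172544, nat_lit 3377699720527872],
  [nat_lit 7881299347898368, nat_lit 8866461766385664, nat_lit 9921992929050624, nat_lit 11047892835893248, nat_lit 12244161486913536, nat_lit 13510798882111488, nat_lit 14847805021487104, nat_lit 16255179905040384, nat_lit 17732923532771328],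
  [nat_lit 15762598695796736, nat_lit 18718085951258624, nat_lit 22095785671786496, nat_lit 25930882229469184, nat_lit 30258559996395520, nat_lit 35114003344654336, nat_lit 40532396646334464, nat_lit 46548924273524736, nat_lit 53198770598313984],
  [nat_lit 19703248369745920, nat_lit 24629060462182400, nat_lit 30610403717283840, nat_lit 37823199995494400, nat_lit 46460963343302656, nat_lit 56734799993241600, nat_lit 68873408363888640, nat_lit 83123079059865600, nat_lit 99747694871838720],
  [nat_lit 15762598695796736, nat_lit 20688410788233216, nat_lit 27021597764222976, nat_lit 35114003344654336, nat_lit 45387839994593280, nat_lit 58344485016305664, nat_lit 74573276642279424, nat_lit 94760310128246784, nat_lit 119697233846206464],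
  [nat_lit 7881299347898368, nat_lit 10836786603360256, nat_lit 14847805021487104, nat_lit 20266198323167232, nat_lit 27549363345555456, nat_lit 37286638321139712, nat_lit 50230089203318784, nat_lit 67329694038491136, nat_lit 89772925384654848],
  [nat_lit 2251799813685248, nat_lit 3236962232172544, nat_lit 4644337115725824, nat_lit 6649846324789248, nat_lit 9499780463984640, nat_lit 13537187161178112, nat_lit 19237055439568896, nat_lit 27252495206055936, nat_lit 38474110879137792],
  [nat_lit 281474976710656, nat_lit 422212465065984, nat_lit 633318697598976, nat_lit 949978046398464, nat_lit 1424967069597696, nat_lit 2137450604396544, nat_lit 3206175906594816, nat_lit 4809263859892224, nat_lit 7213895789838336]]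

noncomputable def BR4_sn : List (List ℕ) := [[nat_lit 4096, nat_lit 0, nat_lit 0],
  [nat_lit 8192, nat_lit 1280, nat_lit 0],
  [nat_lit 4096, nat_lit 1280, nat_lit 400]]

noncomputable def BR4_en : List (List ℕ) := [[nat_lit 281474976710656, nat_lit 140737488355328, nat_lit 70368744177664, nat_lit 35184372088832, nat_lit 17592186044416, nat_lit 8796093022208, nat_lit 4398046511104]]

noncomputable def BR4_en1 : List (List ℕ) := [[nat_lit 1]]


end Crest.Agent.R163.Ck
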