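import Crest.Agent.R163.BR5aD

/-! Row 163: Bellman certificate, kernel checks (generated). -/

set_option autoImplicit false
set_option Elab.async false
set_option maxRecDepth 100000

namespace Crest.Agent.R163.Ck

theorem BR5a_p0_0_0 : pcAll 256 BR5a_A B9m1b_256_degs B9m1b_256_rp 10 B9m1b_256_cp B9m1b_256_rw BR5a_tn (chunk 10 0 B9m1b_256_sw)
    (chunk 1 0 BR5a_en) (chunk 1 0 BR5a_sn) = true := by decide +kernel

theorem BR5a_p0_1_0 : pcAll 256 BR5a_A B9m1b_256_degs B9m1b_256_rp 10 B9m1b_256_cp B9m1b_256_rw BR5a_tn (chunk 10 0 B9m1b_256_sw)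
    (chunk 1 1 BR5a_en) (chunk 1 0 BR5a_sn) = true := by decide +kernel

theorem BR5a_p1_0_0 : pcAll 256 BR5a_A B9m1b_256_degs B9m1b_256_rp 10 B9m1b_256_cp B9m1b_256_rw BR5a_tn (chunk 10 0 B9m1b_256_sw)
    (chunk 1 0 BR5a_en) (chunk 1 1 BR5a_sn) = true := by decide +kernel

theorem BR5a_p1_1_0 : pcAll 256 BR5a_A B9m1b_256_degs B9m1b_256_rp 10 B9m1b_256_cp B9m1b_256_rw BR5a_tn (chunk 10 0 B9m1b_256_sw)
    (chunk 1 1 BR5a_en) (chunk 1 1 BR5a_sn) = true := by decide +kernel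

theorem BR5a_p2_0_0 : pcAll 256 BR5a_A B9m1b_256_degs B9m1b_256_rp 10 B9m1b_256_cp B9m1b_256_rw BR5a_tn (chunk 10 0 B9m1b_256_sw)
    (chunk 1 0 BR5a_en) (chunk 1 2 BR5a_sn) = true := by decide +kernel

theorem BR5a_p2_1_0 : pcAll 256 BR5a_A B9m1b_256_degs B9m1b_256_rp 10 B9m1b_256_cp B9m1b_256_rw BR5a_tn (chunk 10 0 B9m1b_256_sw)
    (chunk 1 1 BR5a_en) (chunk 1 2 BR5a_sn) = true := by decide +kernel

theorem BR5a_e0_0 : ecAll 256 BR5a_E B9m1b_256_degs B9m1b_256_re 15 B9m1b_256_ce BR5a_zn (chunk 1 0 BR5a_tn) BR5a_en1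
    (chunk 1 0 BR5a_sn) = true := by decide +kernel

theorem BR5a_e0_1 : ecAll 256 BR5a_E B9m1b_256_degs B9m1b_256_re 15 B9m1b_256_ce BR5a_zn (chunk 1 1 BR5a_tn) BR5a_en1
    (chunk 1 0 BR5a_sn) = true := by decide +kernel

theorem BR5a_e0_2 : ecAll 256 BR5a_E B9m1b_256_degs B9m1b_256_re 15 B9m1b_256_ce BR5a_zn (chunk 1 2 BR5a_tn) BR5a_en1
    (chunk 1 0 BR5a_sn) = true := by decide +kernel

theorem BR5a_e1_0 : ecAll 256 BR5a_E B9m1b_256_degs B9m1b_256_re 15 B9m1b_256_ce BR5a_zn (chunk 1 0 BR5a_tn) BR5a_en1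
    (chunk 1 1 BR5a_sn) = true := by decide +kernel

theorem BR5a_e1_1 : ecAll 256 BR5a_E B9m1b_256_degs B9m1b_256_re 15 B9m1b_256_ce BR5a_zn (chunk 1 1 BR5a_tn) BR5a_en1
    (chunk 1 1 BR5a_sn) = true := by decide +kernel

theorem BR5a_e1_2 : ecAll 256 BR5a_E B9m1b_256_degs B9m1b_256_re 15 B9m1b_256_ce BR5a_zn (chunk 1 2 BR5a_tn) BR5a_en1
    (chunk 1 1 BR5a_sn) = true := by decide +kernel

theorem BR5a_e2_0 : ecAll 256 BR5a_E B9m1b_256_degs B9m1b_256_re 15 B9m1b_256_ce BR5a_zn (chunk 1 0 BR5a_tn) BR5a_en1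
    (chunk 1 2 BR5a_sn) = true := by decide +kernel

theorem BR5a_e2_1 : ecAll 256 BR5a_E B9m1b_256_degs B9m1b_256_re 15 B9m1b_256_ce BR5a_zn (chunk 1 1 BR5a_tn) BR5a_en1
    (chunk 1 2 BR5a_sn) = true := by decide +kernel

theorem BR5a_e2_2 : ecAll 256 BR5a_E B9m1b_256_degs B9m1b_256_re 15 B9m1b_256_ce BR5a_zn (chunk 1 2 BR5a_tn) BR5a_en1
    (chunk 1 2 BR5a_sn) = true := by decide +kernel

theorem BR5a_A_eq : BR5a.arrP = BR5a_A := by decide +kernel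

theorem BR5a_E_eq : BR5a.arrE = BR5a_E := by decide +kernel

theorem BR5a_G : sc BR5a.arrG BR5a_en1 BR5a_sn = true := by decide +kernel


end Crest.Agent.R163.Ck
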