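import Crest.Agent.R163.B9m1b_256D

/-! Row 163: Bellman certificate, data (generated). -/

set_option autoImplicit false
set_option Elab.async false
set_option maxRecDepth 100000

namespace Crest.Agent.R163.Ck

noncomputable def BR5a : Bell := ⟨true, 9, 3, 3, 1, 8, 32, fs3_9, lams3_9, TT3_9,
  [[[[.ofNat (nat_lit 31577818256005797), .negSucc (nat_lit 28380067800423110), .negSucc (nat_lit 231033544476821243), .ofNat (nat_lit 22928486126142132), .ofNat (nat_lit 610900099279613658), .ofNat (nat_lit 315809189966749752), .negSucc (nat_lit 8062613060616800), .negSucc (nat_lit 501810649802960759), .negSucc (nat_lit 344002948069917581), .negSucc (nat_lit 1090482721970593625), .ofNat (nat_lit 185616202647294), .ofNat (nat_lit 265433773386930588), .ofNat (nat_lit 442866929656609656), .ofNat (nat_lit 761348802057404868), .ofNat (nat_lit 896521049263677672), .ofNat (nat_lit 834551100816102), .negSucc (nat_lit 91089899152367507), .negSucc (nat_lit 177880208969602565), .negSucc (nat_lit 337040408289734351),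 .negSucc (nat_lit 105511531725108989), .negSucc (nat_lit 875025537316845479), .negSucc (nat_lit 124100905394221577), .negSucc (nat_lit 291430532955824), .ofNat (nat_lit 19626287531612148), .ofNat (nat_lit 43957131965737704), .ofNat (nat_lit 92648395045919952), .ofNat (nat_lit 59337158373463086), .ofNat (nat_lit 261769181747952816), .ofNat (nat_lit 141378771940741764), .ofNat (nat_lit 76323726730997334), .ofNat (nat_lit 42578159248314), .negSucc (nat_lit 2403251546504903), .negSucc (nat_lit 6173796710410001), .negSucc (nat_lit 14497982775189143), .negSucc (nat_lit 9006808302372671), .negSucc (nat_lit 44127219957244487), .negSucc (nat_lit 5364944851308137), .negSucc (nat_lit 51176904354291311), .negSucc (nat_lit 5873924990711303), .ofNat (nat_lit 341698872033198), .negSucc (nat_lit 2395443051597), .ofNat (nat_lit 126822997538304), .ofNat (nat_lit 378462538259952), .ofNat (nat_lit 982731017090106), .ofNat (nat_lit 574112718184476), .ofNat (nat_lit 3315162990239700), .ofNat (nat_lit 786294234317856),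 .ofNat (nat_lit 3764342898358752), .negSucc (nat_lit 359057669580359), .ofNat (nat_lit 2300513851444608), .negSucc (nat_lit 2033716068116195), .negSucc (nat_lit 327219678788047)]],
  [[.negSucc (nat_lit 14713628487034796), .ofNat (nat_lit 41447938521566457), .ofNat (nat_lit 84961965655500588), .negSucc (nat_lit 35892127570796171), .negSucc (nat_lit 397144076360943347), .negSucc (nat_lit 130855172311337597), .ofNat (nat_lit 15469031028956310), .ofNat (nat_lit 385741782196247106), .ofNat (nat_lit 353809300819808934), .ofNat (nat_lit 727374492803109978), .negSucc (nat_lit 2923976932343900), .negSucc (nat_lit 220407947133074189), .negSucc (nat_lit 543838622023062071), .negSucc (nat_lit 586409149580324975), .negSucc (nat_lit 1000144790509805045), .negSucc (nat_lit 139132152731816), .ofNat (nat_lit 79338832062518412), .ofNat (nat_lit 239584094995812192), .ofNat (nat_lit 276723394005563388), .ofNat (nat_lit 149840491761333666), .ofNat (nat_lit 1149113647627802388), .ofNat (nat_lit 358435103769926568),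 .ofNat (nat_lit 169661901188790), .negSucc (nat_lit 17630024068539539), .negSucc (nat_lit 63346517340776657), .negSucc (nat_lit 79736770477175381), .negSucc (nat_lit 87666437021381477), .negSucc (nat_lit 365958408716397557), .negSucc (nat_lit 195806880067805333), .negSucc (nat_lit 429934426292642921), .negSucc (nat_lit 29169345628313), .ofNat (nat_lit 2202399586508922), .ofNat (nat_lit 9275101766175510), .ofNat (nat_lit 12858098541124554), .ofNat (nat_lit 14079462151472766), .ofNat (nat_lit 65928678476378796), .ofNat (nat_lit 7130599593963030), .ofNat (nat_lit 59806886550457158), .ofNat (nat_lit 82985492363392710), .ofNat (nat_lit 86005624861641510), .ofNat (nat_lit 1706855194270), .negSucc (nat_lit 118001902320881), .negSucc (nat_lit 574564651026119), .negSucc (nat_lit 882851636568455), .negSucc (nat_lit 975980092869875), .negSucc (nat_lit 5174796646055645), .negSucc (nat_lit 950062609580525), .negSucc (nat_lit 4083458617143647), .negSucc (nat_lit 7095624063809885), .negSucc (nat_lit 575467780083263),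 .negSucc (nat_lit 8902332006305597), .negSucc (nat_lit 373391498078997)]],
  [[]]],
  [[[]],
  [[.ofNat (nat_lit 23970497504229693), .negSucc (nat_lit 135357781596391682), .negSucc (nat_lit 30112464436649225), .ofNat (nat_lit 296220438760252923), .ofNat (nat_lit 341003429292768840), .negSucc (nat_lit 123632216559071261), .negSucc (nat_lit 333864566425139453), .negSucc (nat_lit 704697638686104437), .negSucc (nat_lit 156094418721293369), .ofNat (nat_lit 263059729802069940), .ofNat (nat_lit 211780039389588909), .ofNat (nat_lit 697691254052930238), .ofNat (nat_lit 328438951518487248), .negSucc (nat_lit 22486875235107623), .negSucc (nat_lit 176307485072783633), .negSucc (nat_lit 79633769297118074), .negSucc (nat_lit 366977044498573565), .negSucc (nat_lit 237439274535838079), .negSucc (nat_lit 121688432774915147), .negSucc (nat_lit 55156060003337495), .ofNat (nat_lit 197705995664645034), .ofNat (nat_lit 2912407150848354), .ofNat (nat_lit 17704619290725003), .ofNat (nat_lit 106120294589857428),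 .ofNat (nat_lit 91411682745645936), .ofNat (nat_lit 77639458644003690), .ofNat (nat_lit 37915123696124598), .ofNat (nat_lit 11248675388137080), .negSucc (nat_lit 144768009328797959), .negSucc (nat_lit 33140833046623565), .negSucc (nat_lit 2157317352068831), .negSucc (nat_lit 16002234498545459), .negSucc (nat_lit 17245845452642957), .negSucc (nat_lit 17882507316395501), .negSucc (nat_lit 8526941243966339), .negSucc (nat_lit 31618707911313659), .negSucc (nat_lit 2646261152621801), .ofNat (nat_lit 91849212462893004), .negSucc (nat_lit 1458724135269491), .ofNat (nat_lit 44754602298275430), .ofNat (nat_lit 111297798096768), .ofNat (nat_lit 986455084214106), .ofNat (nat_lit 1263604500534672), .ofNat (nat_lit 1426428727020504), .ofNat (nat_lit 732364241134284), .ofNat (nat_lit 5014546388019846), .ofNat (nat_lit 592808691839274), .negSucc (nat_lit 6961153927928111), .ofNat (nat_lit 3237004350083862), .negSucc (nat_lit 10203341322444623), .negSucc (nat_lit 15916929383956265), .negSucc (nat_lit 2814088117529033)]],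
  [[.ofNat (nat_lit 394185006837252), .ofNat (nat_lit 0), .ofNat (nat_lit 0), .ofNat (nat_lit 0), .ofNat (nat_lit 0), .ofNat (nat_lit 0), .ofNat (nat_lit 0), .ofNat (nat_lit 0), .ofNat (nat_lit 0), .ofNat (nat_lit 0), .ofNat (nat_lit 0), .ofNat (nat_lit 0), .ofNat (nat_lit 0), .ofNat (nat_lit 0), .ofNat (nat_lit 0), .ofNat (nat_lit 0), .ofNat (nat_lit 0), .ofNat (nat_lit 0), .ofNat (nat_lit 0), .ofNat (nat_lit 0), .ofNat (nat_lit 0), .ofNat (nat_lit 0), .ofNat (nat_lit 0), .ofNat (nat_lit 0), .ofNat (nat_lit 0), .ofNat (nat_lit 0), .ofNat (nat_lit 0), .ofNat (nat_lit 0), .ofNat (nat_lit 0), .ofNat (nat_lit 0), .ofNat (nat_lit 0), .ofNat (nat_lit 0), .ofNat (nat_lit 0), .ofNat (nat_lit 0), .ofNat (nat_lit 0), .ofNat (nat_lit 0), .ofNat (nat_lit 0), .ofNat (nat_lit 0), .ofNat (nat_lit 0), .ofNat (nat_lit 0), .ofNat (nat_lit 0), .ofNat (nat_lit 0), .ofNat (nat_lit 0), .ofNat (nat_lit 0), .ofNat (nat_lit 0), .ofNat (nat_lit 0), .ofNat (nat_lit 0), .ofNat (nat_lit 0), .ofNat (nat_lit 0), .ofNat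 (nat_lit 0), .ofNat (nat_lit 0), .ofNat (nat_lit 0)]]],
  [[[]],
  [[.ofNat (nat_lit 0), .ofNat (nat_lit 2566844518781232), .negSucc (nat_lit 2566844518781231), .ofNat (nat_lit 786011108877054), .negSucc (nat_lit 3641455586021777), .ofNat (nat_lit 2855444477144724), .negSucc (nat_lit 2632880062827755), .ofNat (nat_lit 9722307898861740), .negSucc (nat_lit 6280215483584699), .negSucc (nat_lit 809212352449283), .ofNat (nat_lit 2058082572192552), .negSucc (nat_lit 8518055901954263), .ofNat (nat_lit 4116165144385104), .ofNat (nat_lit 9375232741506432), .negSucc (nat_lit 7031424556129823), .ofNat (nat_lit 124646616950256), .negSucc (nat_lit 1921717237053311), .ofNat (nat_lit 7124088147456312), .ofNat (nat_lit 614798783556408), .negSucc (nat_lit 4153179992001479), .negSucc (nat_lit 5924947708519919), .ofNat (nat_lit 4136311389611736), .negSucc (nat_lit 576151051295735), .ofNat (nat_lit 3603119196236112), .negSucc (nat_lit 4688516039742683), .negSucc (nat_lit 4831027060463531), .ofNat (nat_lit 2383911834559740),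 .ofNat (nat_lit 11332302518280420), .negSucc (nat_lit 6726795975655379), .negSucc (nat_lit 496843421918939), .ofNat (nat_lit 184334748594336), .negSucc (nat_lit 1103673705596639), .ofNat (nat_lit 729920029854240), .ofNat (nat_lit 1834422948680832), .ofNat (nat_lit 745587172130400), .negSucc (nat_lit 3277243147094207), .negSucc (nat_lit 927172528140383), .ofNat (nat_lit 1834422948680832), .negSucc (nat_lit 61795401328223), .ofNat (nat_lit 41196934218816), .negSucc (nat_lit 17694440810759), .ofNat (nat_lit 106166644864560), .ofNat (nat_lit 801906170436), .negSucc (nat_lit 213135195899555), .negSucc (nat_lit 213937102069991), .ofNat (nat_lit 213937102069992), .ofNat (nat_lit 106968551034996), .ofNat (nat_lit 636197963016924), .ofNat (nat_lit 0), .negSucc (nat_lit 264614705990963), .negSucc (nat_lit 1064072167156907), .ofNat (nat_lit 709381444771272)]],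
  [[.negSucc (nat_lit 1139183712407555), .ofNat (nat_lit 0), .ofNat (nat_lit 0), .ofNat (nat_lit 0), .ofNat (nat_lit 0), .ofNat (nat_lit 0), .ofNat (nat_lit 0), .ofNat (nat_lit 0), .ofNat (nat_lit 0), .ofNat (nat_lit 0), .ofNat (nat_lit 0), .ofNat (nat_lit 0), .ofNat (nat_lit 0), .ofNat (nat_lit 0), .ofNat (nat_lit 0), .ofNat (nat_lit 0), .ofNat (nat_lit 0), .ofNat (nat_lit 0), .ofNat (nat_lit 0), .ofNat (nat_lit 0), .ofNat (nat_lit 0), .ofNat (nat_lit 0), .ofNat (nat_lit 0), .ofNat (nat_lit 0), .ofNat (nat_lit 0), .ofNat (nat_lit 0), .ofNat (nat_lit 0), .ofNat (nat_lit 0), .ofNat (nat_lit 0), .ofNat (nat_lit 0), .ofNat (nat_lit 0), .ofNat (nat_lit 0), .ofNat (nat_lit 0), .ofNat (nat_lit 0), .ofNat (nat_lit 0), .ofNat (nat_lit 0), .ofNat (nat_lit 0), .ofNat (nat_lit 0), .ofNat (nat_lit 0), .ofNat (nat_lit 0), .ofNat (nat_lit 0), .ofNat (nat_lit 0), .ofNat (nat_lit 0), .ofNat (nat_lit 0), .ofNat (nat_lit 0), .ofNat (nat_lit 0), .ofNat (nat_lit 0), .ofNat (nat_lit 0), .ofNat (nat_lit 0), .ofNat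 (nat_lit 0), .ofNat (nat_lit 0), .ofNat (nat_lit 0)]]]],
  [[.ofNat (nat_lit 0)],
  [.ofNat (nat_lit 0)],
  [.ofNat (nat_lit 733126937850405)]],
  [[[[.ofNat (nat_lit 0), .negSucc (nat_lit 1938771942371758079), .negSucc (nat_lit 5999950464666227711), .ofNat (nat_lit 6141850844067007488), .negSucc (nat_lit 7267808799997341695), .ofNat (nat_lit 3839204235384410112), .ofNat (nat_lit 810887041012709376), .negSucc (nat_lit 3266792890932031487), .ofNat (nat_lit 495401676406179840), .negSucc (nat_lit 308198352364204031), .ofNat (nat_lit 0), .ofNat (nat_lit 0)]],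
  [[.ofNat (nat_lit 180708411529930752), .negSucc (nat_lit 1153582634533063679), .negSucc (nat_lit 1013328491700252671), .ofNat (nat_lit 1300359918492029952), .ofNat (nat_lit 4303461676197150720), .ofNat (nat_lit 2070700785565894656), .ofNat (nat_lit 2296281428413728768), .negSucc (nat_lit 15609007394135101439), .ofNat (nat_lit 1783352683704738816), .ofNat (nat_lit 6558984103357559808), .ofNat (nat_lit 0), .ofNat (nat_lit 0)]]],
  [[[.ofNat (nat_lit 0), .ofNat (nat_lit 1445738249189486592), .ofNat (nat_lit 3775845980662106112), .negSucc (nat_lit 683094857317032959), .ofNat (nat_lit 5830903236782315520), .negSucc (nat_lit 3811247155870801919), .ofNat (nat_lit 10321620606931000320), .negSucc (nat_lit 12793489119167634431), .ofNat (nat_lit 7289374639012227072), .negSucc (nat_lit 5111188929505290239), .ofNat (nat_lit 0), .ofNat (nat_lit 0)]],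
  [[.negSucc (nat_lit 1864456685168062463), .ofNat (nat_lit 3745014640316762112), .ofNat (nat_lit 13231058961234355200), .ofNat (nat_lit 3494750587675923456), .negSucc (nat_lit 37773644200489774079), .negSucc (nat_lit 31179167468747080703), .ofNat (nat_lit 14211133102914665472), .ofNat (nat_lit 49955705341278870528), .ofNat (nat_lit 15181320532590710784), .negSucc (nat_lit 45138175123804581887), .ofNat (nat_lit 0), .ofNat (nat_lit 0)]]],
  [[[.ofNat (nat_lit 0), .ofNat (nat_lit 2922620237148718080), .negSucc (nat_lit 1372242833899951103), .negSucc (nat_lit 11754756396769029119), .ofNat (nat_lit 14045815528764051456), .ofNat (nat_lit 16398947461538755584), .negSucc (nat_lit 12043514197913619455), .negSucc (nat_lit 19060604489210821631), .negSucc (nat_lit 8495823997808593919), .ofNat (nat_lit 23419423155611418624), .ofNat (nat_lit 0), .ofNat (nat_lit 0)]],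
  [[.ofNat (nat_lit 2241167911428777984), .negSucc (nat_lit 1015136491970967551), .negSucc (nat_lit 10153714826113413119), .negSucc (nat_lit 12909256322588218367), .ofNat (nat_lit 18971712298649272320), .ofNat (nat_lit 48558073562429082624), .negSucc (nat_lit 32054903114471506943), .negSucc (nat_lit 5712845306890779647), .negSucc (nat_lit 42594173164664340479), .ofNat (nat_lit 57945646046578987008), .ofNat (nat_lit 0), .ofNat (nat_lit 0)]]]]⟩

noncomputable def BR5a_A : L6 := [[[[[[.ofNat (nat_lit 0), .ofNat (nat_lit 0), .ofNat (nat_lit 222937035471415296)],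
  [],
  [.ofNat (nat_lit 0), .ofNat (nat_lit 0), .negSucc (nat_lit 1166524121505337343)],
  [],
  [.ofNat (nat_lit 0), .ofNat (nat_lit 0), .ofNat (nat_lit 750721984358814720)],
  [],
  [],
  []],
  [[.ofNat (nat_lit 0), .ofNat (nat_lit 180708411529930752), .ofNat (nat_lit 0)],
  [],
  [],
  [],
  [],
  [],
  [],
  []],
  [[.ofNat (nat_lit 0), .ofNat (nat_lit 608670274754423808), .ofNat (nat_lit 0)],
  [.ofNat (nat_lit 0), .ofNat (nat_lit 608670274754423808), .ofNat (nat_lit 0)],
  [],
  [],
  [],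
  [],
  [],
  []],
  [[.ofNat (nat_lit 239092819189880832), .ofNat (nat_lit 460631263834045440), .ofNat (nat_lit 0)],
  [],
  [.negSucc (nat_lit 239092819189880831), .negSucc (nat_lit 460631263834045439), .ofNat (nat_lit 0)],
  [],
  [],
  [],
  [],
  []],
  [[.ofNat (nat_lit 118292884137990144), .ofNat (nat_lit 463425833665511424), .ofNat (nat_lit 0)],
  [],
  [],
  [.ofNat (nat_lit 118292884137990144), .ofNat (nat_lit 463425833665511424), .ofNat (nat_lit 0)],
  [],
  [],
  [],
  []],
  [[.negSucc (nat_lit 165111557584960511), .ofNat (nat_lit 354908180755252224), .ofNat (nat_lit 0)],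
  [],
  [],
  [],
  [.ofNat (nat_lit 165111557584960512), .negSucc (nat_lit 354908180755252223), .ofNat (nat_lit 0)],
  [],
  [],
  []],
  [[.ofNat (nat_lit 11428149738129408), .negSucc (nat_lit 379565331592955903), .ofNat (nat_lit 0)],
  [],
  [],
  [],
  [.negSucc (nat_lit 11428149738129407), .ofNat (nat_lit 379565331592955904), .ofNat (nat_lit 0)],
  [],
  [],
  []],
  [[.ofNat (nat_lit 44153082906983424), .negSucc (nat_lit 959317985946249215), .ofNat (nat_lit 0)],
  [],
  [],
  [],
  [],
  [.ofNat (nat_lit 44153082906983424), .negSucc (nat_lit 959317985946249215), .ofNat (nat_lit 0)],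
  [],
  []],
  [[.negSucc (nat_lit 9401485178290175), .ofNat (nat_lit 14148201074448384), .ofNat (nat_lit 0)],
  [],
  [],
  [],
  [],
  [],
  [.ofNat (nat_lit 9401485178290176), .negSucc (nat_lit 14148201074448383), .ofNat (nat_lit 0)],
  []],
  [[.ofNat (nat_lit 397664864250135552), .ofNat (nat_lit 753616891655239680), .ofNat (nat_lit 0)],
  [],
  [],
  [],
  [],
  [],
  [.negSucc (nat_lit 397664864250135551), .negSucc (nat_lit 753616891655239679), .ofNat (nat_lit 0)],
  []],
  [[],
  [],
  [],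
  [],
  [],
  [],
  [],
  []],
  [[],
  [],
  [],
  [],
  [],
  [],
  [],
  []]],
  [],
  [],
  [],
  [],
  [],
  [],
  [],
  [],
  [],
  [],
  []],
  [[],
  [],
  [],
  [],
  [],
  [],
  [],
  [],
  [],
  [],
  [],
  []],
  [[],
  [[[.ofNat (nat_lit 0), .ofNat (nat_lit 462871202486215680), .ofNat (nat_lit 1153582634533063680)],
  [],
  [.ofNat (nat_lit 0), .ofNat (nat_lit 1971336590423986176), .ofNat (nat_lit 0)],
  [],
  [],
  [],
  [],
  []],
  [[.ofNat (nat_lit 330003113651159040), .negSucc (nat_lit 7194927203787985919), .ofNat (nat_lit 0)],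
  [],
  [],
  [],
  [],
  [],
  [],
  []],
  [[],
  [.negSucc (nat_lit 5957486475482972159), .ofNat (nat_lit 1870217565734956032), .ofNat (nat_lit 0)],
  [],
  [],
  [],
  [],
  [],
  []],
  [[],
  [],
  [.ofNat (nat_lit 1132050910561551360), .ofNat (nat_lit 10379087961044391936), .ofNat (nat_lit 0)],
  [],
  [],
  [],
  [],
  []],
  [[],
  [],
  [],
  [.negSucc (nat_lit 1880463081676142591), .negSucc (nat_lit 3969667364313143807), .ofNat (nat_lit 0)],
  [],
  [],
  [],
  []],
  [[],
  [],
  [],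
  [],
  [.negSucc (nat_lit 10741481324439363071), .negSucc (nat_lit 11078316718700629247), .ofNat (nat_lit 0)],
  [],
  [],
  []],
  [[],
  [],
  [],
  [],
  [.negSucc (nat_lit 2315672598754980863), .negSucc (nat_lit 5277822937033973759), .ofNat (nat_lit 0)],
  [],
  [],
  []],
  [[],
  [],
  [],
  [],
  [],
  [.negSucc (nat_lit 1069090253023753727), .negSucc (nat_lit 8761767364016580095), .ofNat (nat_lit 0)],
  [],
  []],
  [[],
  [],
  [],
  [],
  [],
  [],
  [.ofNat (nat_lit 6430997532561738624), .ofNat (nat_lit 3056219518549835520), .ofNat (nat_lit 0)],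
  []],
  [[],
  [],
  [],
  [],
  [],
  [],
  [.ofNat (nat_lit 7779688584304324608), .negSucc (nat_lit 4337426433261376511), .ofNat (nat_lit 0)],
  []],
  [[],
  [],
  [],
  [],
  [],
  [],
  [],
  [.ofNat (nat_lit 7622752638976759296), .ofNat (nat_lit 3643998691266519552), .ofNat (nat_lit 0)]],
  [[],
  [],
  [],
  [],
  [],
  [],
  [],
  [.negSucc (nat_lit 2783654049750948863), .negSucc (nat_lit 5275318241586677759), .ofNat (nat_lit 0)]]],
  [],
  [],
  [],
  [],
  [],
  [],
  [],
  [],
  [],
  []],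
  [[],
  [],
  [[[.ofNat (nat_lit 0), .ofNat (nat_lit 1171962949792849920), .ofNat (nat_lit 1013328491700252672)],
  [],
  [.ofNat (nat_lit 0), .ofNat (nat_lit 1864425260043150336), .ofNat (nat_lit 0)],
  [],
  [],
  [],
  [],
  []],
  [[.negSucc (nat_lit 42463989183255551), .negSucc (nat_lit 2883546057435208703), .ofNat (nat_lit 0)],
  [],
  [],
  [],
  [],
  [],
  [],
  []],
  [[],
  [.ofNat (nat_lit 7372064205205258752), .negSucc (nat_lit 1535072469994372607), .ofNat (nat_lit 0)],
  [],
  [],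
  [],
  [],
  [],
  []],
  [[],
  [],
  [.ofNat (nat_lit 2957572784034874368), .ofNat (nat_lit 10536686965237715712), .ofNat (nat_lit 0)],
  [],
  [],
  [],
  [],
  []],
  [[],
  [],
  [],
  [.ofNat (nat_lit 4169953454295674880), .ofNat (nat_lit 11684152524449643264), .ofNat (nat_lit 0)],
  [],
  [],
  [],
  []],
  [[],
  [],
  [],
  [],
  [.negSucc (nat_lit 10936609801998974207), .negSucc (nat_lit 3838160666030761727), .ofNat (nat_lit 0)],
  [],
  [],
  []],
  [[],
  [],
  [],
  [],
  [.negSucc (nat_lit 7569356678451320831), .ofNat (nat_lit 3171443445339604992), .ofNat (nat_lit 0)],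
  [],
  [],
  []],
  [[],
  [],
  [],
  [],
  [],
  [.negSucc (nat_lit 15925305264471016703), .negSucc (nat_lit 6552945481109313023), .ofNat (nat_lit 0)],
  [],
  []],
  [[],
  [],
  [],
  [],
  [],
  [],
  [.ofNat (nat_lit 7727242846724014464), .ofNat (nat_lit 3900735333792004608), .ofNat (nat_lit 0)],
  []],
  [[],
  [],
  [],
  [],
  [],
  [],
  [.ofNat (nat_lit 3959821354755815424), .negSucc (nat_lit 13725442298821708799), .ofNat (nat_lit 0)],
  []],
  [[],
  [],
  [],
  [],
  [],
  [],
  [],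
  [.ofNat (nat_lit 10176889177246290048), .ofNat (nat_lit 6774878851619590656), .ofNat (nat_lit 0)]],
  [[],
  [],
  [],
  [],
  [],
  [],
  [],
  [.negSucc (nat_lit 636696512591201279), .negSucc (nat_lit 15880355408324067839), .ofNat (nat_lit 0)]]],
  [],
  [],
  [],
  [],
  [],
  [],
  [],
  [],
  []],
  [[],
  [],
  [],
  [[[.ofNat (nat_lit 0), .negSucc (nat_lit 3732776052854611967), .negSucc (nat_lit 1300359918492029951)],
  [],
  [.ofNat (nat_lit 0), .negSucc (nat_lit 4083510433555574783), .ofNat (nat_lit 0)],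
  [],
  [],
  [],
  [],
  []],
  [[.ofNat (nat_lit 7273901754628558848), .ofNat (nat_lit 11679447879536421888), .ofNat (nat_lit 0)],
  [],
  [],
  [],
  [],
  [],
  [],
  []],
  [[],
  [.negSucc (nat_lit 2957572784034874367), .negSucc (nat_lit 10536686965237715711), .ofNat (nat_lit 0)],
  [],
  [],
  [],
  [],
  [],
  []],
  [[],
  [],
  [.negSucc (nat_lit 21402202579006014719), .negSucc (nat_lit 39550301583459641855), .ofNat (nat_lit 0)],
  [],
  [],
  [],
  [],
  []],
  [[],
  [],
  [],
  [.ofNat (nat_lit 12579264168878237184), .negSucc (nat_lit 17450700170794261631), .ofNat (nat_lit 0)],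
  [],
  [],
  [],
  []],
  [[],
  [],
  [],
  [],
  [.ofNat (nat_lit 14732783822673995328), .ofNat (nat_lit 59697514319199740928), .ofNat (nat_lit 0)],
  [],
  [],
  []],
  [[],
  [],
  [],
  [],
  [.ofNat (nat_lit 26094018546390028032), .ofNat (nat_lit 7066670563881520128), .ofNat (nat_lit 0)],
  [],
  [],
  []],
  [[],
  [],
  [],
  [],
  [],
  [.negSucc (nat_lit 9475076093178681215), .ofNat (nat_lit 91785608390409755904), .ofNat (nat_lit 0)],
  [],
  []],
  [[],
  [],
  [],
  [],
  [],
  [],
  [.ofNat (nat_lit 1259279265756227616), .negSucc (nat_lit 29457389588609381759), .ofNat (nat_lit 0)],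
  []],
  [[],
  [],
  [],
  [],
  [],
  [],
  [.negSucc (nat_lit 17242243096789131263), .ofNat (nat_lit 69878293873411191552), .ofNat (nat_lit 0)],
  []],
  [[],
  [],
  [],
  [],
  [],
  [],
  [],
  [.negSucc (nat_lit 8116453564988542271), .negSucc (nat_lit 23617111604560856063), .ofNat (nat_lit 0)]],
  [[],
  [],
  [],
  [],
  [],
  [],
  [],
  [.ofNat (nat_lit 23069984257222115328), .ofNat (nat_lit 23906251367462181888), .ofNat (nat_lit 0)]]],
  [],
  [],
  [],
  [],
  [],
  [],
  [],
  []],
  [[],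
  [],
  [],
  [],
  [[[.ofNat (nat_lit 0), .negSucc (nat_lit 3130333088332612607), .negSucc (nat_lit 4303461676197150719)],
  [],
  [.ofNat (nat_lit 0), .ofNat (nat_lit 6085173783263606784), .ofNat (nat_lit 0)],
  [],
  [],
  [],
  [],
  []],
  [[.negSucc (nat_lit 5387345718321199103), .ofNat (nat_lit 8273129040510294528), .ofNat (nat_lit 0)],
  [],
  [],
  [],
  [],
  [],
  [],
  []],
  [[],
  [.ofNat (nat_lit 4169953454295674880), .ofNat (nat_lit 11684152524449643264), .ofNat (nat_lit 0)],
  [],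
  [],
  [],
  [],
  [],
  []],
  [[],
  [],
  [.negSucc (nat_lit 12579264168878237183), .ofNat (nat_lit 17450700170794261632), .ofNat (nat_lit 0)],
  [],
  [],
  [],
  [],
  []],
  [[],
  [],
  [],
  [.negSucc (nat_lit 21231638268089816447), .ofNat (nat_lit 13905735631356809088), .ofNat (nat_lit 0)],
  [],
  [],
  [],
  []],
  [[],
  [],
  [],
  [],
  [.ofNat (nat_lit 26973380031559617600), .negSucc (nat_lit 48566837903101857791), .ofNat (nat_lit 0)],
  [],
  [],
  []],
  [[],
  [],
  [],
  [],
  [.ofNat (nat_lit 35745417894681301248), .ofNat (nat_lit 212677919299883520), .ofNat (nat_lit 0)],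
  [],
  [],
  []],
  [[],
  [],
  [],
  [],
  [],
  [.ofNat (nat_lit 40481498037320415936), .negSucc (nat_lit 88262524700754886079), .ofNat (nat_lit 0)],
  [],
  []],
  [[],
  [],
  [],
  [],
  [],
  [],
  [.ofNat (nat_lit 5250992608045787904), .negSucc (nat_lit 25422185207493030527), .ofNat (nat_lit 0)],
  []],
  [[],
  [],
  [],
  [],
  [],
  [],
  [.negSucc (nat_lit 84262220999769719807), .ofNat (nat_lit 16601866832102055552), .ofNat (nat_lit 0)],
  []],
  [[],
  [],
  [],
  [],
  [],
  [],
  [],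
  [.negSucc (nat_lit 39260297994677692415), .negSucc (nat_lit 3453561952017234911), .ofNat (nat_lit 0)]],
  [[],
  [],
  [],
  [],
  [],
  [],
  [],
  [.ofNat (nat_lit 14353090445910938112), .ofNat (nat_lit 11056556568372392448), .ofNat (nat_lit 0)]]],
  [],
  [],
  [],
  [],
  [],
  [],
  []],
  [[],
  [],
  [],
  [],
  [],
  [[[.ofNat (nat_lit 0), .ofNat (nat_lit 6490699185002932224), .negSucc (nat_lit 2070700785565894655)],
  [],
  [.ofNat (nat_lit 0), .ofNat (nat_lit 2582069493199030272), .ofNat (nat_lit 0)],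
  [],
  [],
  [],
  [],
  []],
  [[.negSucc (nat_lit 6902277089054952959), .negSucc (nat_lit 9007615933134734591), .ofNat (nat_lit 0)],
  [],
  [],
  [],
  [],
  [],
  [],
  []],
  [[],
  [.ofNat (nat_lit 10936609801998974208), .ofNat (nat_lit 3838160666030761728), .ofNat (nat_lit 0)],
  [],
  [],
  [],
  [],
  [],
  []],
  [[],
  [],
  [.ofNat (nat_lit 14732783822673995328), .ofNat (nat_lit 59697514319199740928), .ofNat (nat_lit 0)],
  [],
  [],
  [],
  [],
  []],
  [[],
  [],
  [],
  [.negSucc (nat_lit 26973380031559617599), .ofNat (nat_lit 48566837903101857792), .ofNat (nat_lit 0)],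
  [],
  [],
  [],
  []],
  [[],
  [],
  [],
  [],
  [.ofNat (nat_lit 49425007569510243168), .negSucc (nat_lit 107866251321717906719), .ofNat (nat_lit 0)],
  [],
  [],
  []],
  [[],
  [],
  [],
  [],
  [.negSucc (nat_lit 62613195574835705471), .ofNat (nat_lit 312228934621593984), .ofNat (nat_lit 0)],
  [],
  [],
  []],
  [[],
  [],
  [],
  [],
  [],
  [.ofNat (nat_lit 50915425400904763296), .negSucc (nat_lit 213606101083393929887), .ofNat (nat_lit 0)],
  [],
  []],
  [[],
  [],
  [],
  [],
  [],
  [],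
  [.negSucc (nat_lit 44047015635568441679), .ofNat (nat_lit 40497541066144805904), .ofNat (nat_lit 0)],
  []],
  [[],
  [],
  [],
  [],
  [],
  [],
  [.negSucc (nat_lit 50321795981312830463), .negSucc (nat_lit 93808096632143364671), .ofNat (nat_lit 0)],
  []],
  [[],
  [],
  [],
  [],
  [],
  [],
  [],
  [.negSucc (nat_lit 58414998486435818975), .ofNat (nat_lit 58943771795788176384), .ofNat (nat_lit 0)]],
  [[],
  [],
  [],
  [],
  [],
  [],
  [],
  [.negSucc (nat_lit 38134945386732950783), .negSucc (nat_lit 26915028552103280255), .ofNat (nat_lit 0)]]],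
  [[[.ofNat (nat_lit 0), .ofNat (nat_lit 3370734716579343360), .negSucc (nat_lit 2296281428413728767)],
  [],
  [.ofNat (nat_lit 0), .ofNat (nat_lit 184979660317931520), .ofNat (nat_lit 0)],
  [],
  [],
  [],
  [],
  []],
  [[.negSucc (nat_lit 1504785557742271487), .negSucc (nat_lit 2981541508620244991), .ofNat (nat_lit 0)],
  [],
  [],
  [],
  [],
  [],
  [],
  []],
  [[],
  [.ofNat (nat_lit 7569356678451320832), .negSucc (nat_lit 3171443445339604991), .ofNat (nat_lit 0)],
  [],
  [],
  [],
  [],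
  [],
  []],
  [[],
  [],
  [.ofNat (nat_lit 26094018546390028032), .ofNat (nat_lit 7066670563881520128), .ofNat (nat_lit 0)],
  [],
  [],
  [],
  [],
  []],
  [[],
  [],
  [],
  [.negSucc (nat_lit 35745417894681301247), .negSucc (nat_lit 212677919299883519), .ofNat (nat_lit 0)],
  [],
  [],
  [],
  []],
  [[],
  [],
  [],
  [],
  [.negSucc (nat_lit 62613195574835705471), .ofNat (nat_lit 312228934621593984), .ofNat (nat_lit 0)],
  [],
  [],
  []],
  [[],
  [],
  [],
  [],
  [.negSucc (nat_lit 9086813463381014015), .ofNat (nat_lit 19542439048971769344), .ofNat (nat_lit 0)],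
  [],
  [],
  []],
  [[],
  [],
  [],
  [],
  [],
  [.ofNat (nat_lit 32228521602496398720), .ofNat (nat_lit 9367425033017433984), .ofNat (nat_lit 0)],
  [],
  []],
  [[],
  [],
  [],
  [],
  [],
  [],
  [.ofNat (nat_lit 47881336865985578304), .ofNat (nat_lit 14751415296512421696), .ofNat (nat_lit 0)],
  []],
  [[],
  [],
  [],
  [],
  [],
  [],
  [.negSucc (nat_lit 8977713965078072831), .negSucc (nat_lit 2687090785352891135), .ofNat (nat_lit 0)],
  []],
  [[],
  [],
  [],
  [],
  [],
  [],
  [],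
  [.ofNat (nat_lit 8898108955828944768), .ofNat (nat_lit 27353862275641201152), .ofNat (nat_lit 0)]],
  [[],
  [],
  [],
  [],
  [],
  [],
  [],
  [.negSucc (nat_lit 1596593039514080255), .negSucc (nat_lit 25749787406373812735), .ofNat (nat_lit 0)]]],
  [],
  [],
  [],
  [],
  []],
  [[],
  [],
  [],
  [],
  [],
  [],
  [],
  [[[.ofNat (nat_lit 0), .negSucc (nat_lit 6891675811643344895), .ofNat (nat_lit 15609007394135101440)],
  [],
  [.ofNat (nat_lit 0), .negSucc (nat_lit 5769858611673962495), .ofNat (nat_lit 0)],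
  [],
  [],
  [],
  [],
  []],
  [[.negSucc (nat_lit 2197702637908277759), .negSucc (nat_lit 6847240030118521343), .ofNat (nat_lit 0)],
  [],
  [],
  [],
  [],
  [],
  [],
  []],
  [[],
  [.negSucc (nat_lit 15925305264471016703), .negSucc (nat_lit 6552945481109313023), .ofNat (nat_lit 0)],
  [],
  [],
  [],
  [],
  [],
  []],
  [[],
  [],
  [.ofNat (nat_lit 9475076093178681216), .negSucc (nat_lit 91785608390409755903), .ofNat (nat_lit 0)],
  [],
  [],
  [],
  [],
  []],
  [[],
  [],
  [],
  [.ofNat (nat_lit 40481498037320415936), .negSucc (nat_lit 88262524700754886079), .ofNat (nat_lit 0)],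
  [],
  [],
  [],
  []],
  [[],
  [],
  [],
  [],
  [.negSucc (nat_lit 50915425400904763295), .ofNat (nat_lit 213606101083393929888), .ofNat (nat_lit 0)],
  [],
  [],
  []],
  [[],
  [],
  [],
  [],
  [.negSucc (nat_lit 32228521602496398719), .negSucc (nat_lit 9367425033017433983), .ofNat (nat_lit 0)],
  [],
  [],
  []],
  [[],
  [],
  [],
  [],
  [],
  [.ofNat (nat_lit 134796051535260129120), .ofNat (nat_lit 191901206562664347072), .ofNat (nat_lit 0)],
  [],
  []],
  [[],
  [],
  [],
  [],
  [],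
  [],
  [.ofNat (nat_lit 20199557431539343584), .negSucc (nat_lit 14004065419143189407), .ofNat (nat_lit 0)],
  []],
  [[],
  [],
  [],
  [],
  [],
  [],
  [.ofNat (nat_lit 163061199181938710016), .ofNat (nat_lit 113641421765101737408), .ofNat (nat_lit 0)],
  []],
  [[],
  [],
  [],
  [],
  [],
  [],
  [],
  [.negSucc (nat_lit 13027442168828767103), .ofNat (nat_lit 33901310771595029088), .ofNat (nat_lit 0)]],
  [[],
  [],
  [],
  [],
  [],
  [],
  [],
  [.negSucc (nat_lit 5947901877590825471), .ofNat (nat_lit 48119526845209239552), .ofNat (nat_lit 0)]]],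
  [],
  [],
  [],
  []],
  [[],
  [],
  [],
  [],
  [],
  [],
  [],
  [],
  [[[.ofNat (nat_lit 0), .negSucc (nat_lit 425755838854554623), .negSucc (nat_lit 1783352683704738815)],
  [],
  [.ofNat (nat_lit 0), .ofNat (nat_lit 114372762991653888), .ofNat (nat_lit 0)],
  [],
  [],
  [],
  [],
  []],
  [[.ofNat (nat_lit 6926399208967918464), .ofNat (nat_lit 4839572202254574336), .ofNat (nat_lit 0)],
  [],
  [],
  [],
  [],
  [],
  [],
  []],
  [[],
  [.negSucc (nat_lit 7727242846724014463), .negSucc (nat_lit 3900735333792004607), .ofNat (nat_lit 0)],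
  [],
  [],
  [],
  [],
  [],
  []],
  [[],
  [],
  [.ofNat (nat_lit 1259279265756227616), .negSucc (nat_lit 29457389588609381759), .ofNat (nat_lit 0)],
  [],
  [],
  [],
  [],
  []],
  [[],
  [],
  [],
  [.negSucc (nat_lit 5250992608045787903), .ofNat (nat_lit 25422185207493030528), .ofNat (nat_lit 0)],
  [],
  [],
  [],
  []],
  [[],
  [],
  [],
  [],
  [.negSucc (nat_lit 44047015635568441679), .ofNat (nat_lit 40497541066144805904), .ofNat (nat_lit 0)],
  [],
  [],
  []],
  [[],
  [],
  [],
  [],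
  [.ofNat (nat_lit 47881336865985578304), .ofNat (nat_lit 14751415296512421696), .ofNat (nat_lit 0)],
  [],
  [],
  []],
  [[],
  [],
  [],
  [],
  [],
  [.negSucc (nat_lit 20199557431539343583), .ofNat (nat_lit 14004065419143189408), .ofNat (nat_lit 0)],
  [],
  []],
  [[],
  [],
  [],
  [],
  [],
  [],
  [.negSucc (nat_lit 28392600805454578895), .ofNat (nat_lit 25040540543228188272), .ofNat (nat_lit 0)],
  []],
  [[],
  [],
  [],
  [],
  [],
  [],
  [.ofNat (nat_lit 57052351371674264256), .negSucc (nat_lit 69621389020308458591), .ofNat (nat_lit 0)],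
  []],
  [[],
  [],
  [],
  [],
  [],
  [],
  [],
  [.negSucc (nat_lit 4990925623947941807), .negSucc (nat_lit 3097591163172447767), .ofNat (nat_lit 0)]],
  [[],
  [],
  [],
  [],
  [],
  [],
  [],
  [.negSucc (nat_lit 3740513175392542847), .ofNat (nat_lit 10803465339855641856), .ofNat (nat_lit 0)]]],
  [[[.ofNat (nat_lit 0), .ofNat (nat_lit 2396120512096548864), .negSucc (nat_lit 6558984103357559807)],
  [],
  [.ofNat (nat_lit 0), .ofNat (nat_lit 1894102038074225664), .ofNat (nat_lit 0)],
  [],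
  [],
  [],
  [],
  []],
  [[.ofNat (nat_lit 7471490231940120576), .ofNat (nat_lit 2221557670096183296), .ofNat (nat_lit 0)],
  [],
  [],
  [],
  [],
  [],
  [],
  []],
  [[],
  [.negSucc (nat_lit 3959821354755815423), .ofNat (nat_lit 13725442298821708800), .ofNat (nat_lit 0)],
  [],
  [],
  [],
  [],
  [],
  []],
  [[],
  [],
  [.negSucc (nat_lit 17242243096789131263), .ofNat (nat_lit 69878293873411191552), .ofNat (nat_lit 0)],
  [],
  [],
  [],
  [],
  []],
  [[],
  [],
  [],
  [.ofNat (nat_lit 84262220999769719808), .negSucc (nat_lit 16601866832102055551), .ofNat (nat_lit 0)],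
  [],
  [],
  [],
  []],
  [[],
  [],
  [],
  [],
  [.negSucc (nat_lit 50321795981312830463), .negSucc (nat_lit 93808096632143364671), .ofNat (nat_lit 0)],
  [],
  [],
  []],
  [[],
  [],
  [],
  [],
  [.negSucc (nat_lit 8977713965078072831), .negSucc (nat_lit 2687090785352891135), .ofNat (nat_lit 0)],
  [],
  [],
  []],
  [[],
  [],
  [],
  [],
  [],
  [.negSucc (nat_lit 163061199181938710015), .negSucc (nat_lit 113641421765101737407), .ofNat (nat_lit 0)],
  [],
  []],
  [[],
  [],
  [],
  [],
  [],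
  [],
  [.ofNat (nat_lit 57052351371674264256), .negSucc (nat_lit 69621389020308458591), .ofNat (nat_lit 0)],
  []],
  [[],
  [],
  [],
  [],
  [],
  [],
  [.negSucc (nat_lit 63297870385291269119), .negSucc (nat_lit 1882385744866758143), .ofNat (nat_lit 0)],
  []],
  [[],
  [],
  [],
  [],
  [],
  [],
  [],
  [.ofNat (nat_lit 27304879031875874304), .negSucc (nat_lit 19289041263576342143), .ofNat (nat_lit 0)]],
  [[],
  [],
  [],
  [],
  [],
  [],
  [],
  [.ofNat (nat_lit 31835555612239933440), .negSucc (nat_lit 26485836919378942463), .ofNat (nat_lit 0)]]],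
  [],
  []],
  [[],
  [],
  [],
  [],
  [],
  [],
  [],
  [],
  [],
  [],
  [[[],
  [],
  [],
  [],
  [],
  [],
  [],
  []],
  [[.negSucc (nat_lit 7622752638976759295), .negSucc (nat_lit 3643998691266519551), .ofNat (nat_lit 0)],
  [],
  [],
  [],
  [],
  [],
  [],
  []],
  [[],
  [.ofNat (nat_lit 10176889177246290048), .ofNat (nat_lit 6774878851619590656), .ofNat (nat_lit 0)],
  [],
  [],
  [],
  [],
  [],
  []],
  [[],
  [],
  [.ofNat (nat_lit 8116453564988542272), .ofNat (nat_lit 23617111604560856064), .ofNat (nat_lit 0)],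
  [],
  [],
  [],
  [],
  []],
  [[],
  [],
  [],
  [.negSucc (nat_lit 39260297994677692415), .negSucc (nat_lit 3453561952017234911), .ofNat (nat_lit 0)],
  [],
  [],
  [],
  []],
  [[],
  [],
  [],
  [],
  [.ofNat (nat_lit 58414998486435818976), .negSucc (nat_lit 58943771795788176383), .ofNat (nat_lit 0)],
  [],
  [],
  []],
  [[],
  [],
  [],
  [],
  [.negSucc (nat_lit 8898108955828944767), .negSucc (nat_lit 27353862275641201151), .ofNat (nat_lit 0)],
  [],
  [],
  []],
  [[],
  [],
  [],
  [],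
  [],
  [.negSucc (nat_lit 13027442168828767103), .ofNat (nat_lit 33901310771595029088), .ofNat (nat_lit 0)],
  [],
  []],
  [[],
  [],
  [],
  [],
  [],
  [],
  [.ofNat (nat_lit 4990925623947941808), .ofNat (nat_lit 3097591163172447768), .ofNat (nat_lit 0)],
  []],
  [[],
  [],
  [],
  [],
  [],
  [],
  [.negSucc (nat_lit 27304879031875874303), .ofNat (nat_lit 19289041263576342144), .ofNat (nat_lit 0)],
  []],
  [[],
  [],
  [],
  [],
  [],
  [],
  [],
  [.ofNat (nat_lit 25322280471352142352), .negSucc (nat_lit 28046622951324831599), .ofNat (nat_lit 0)]],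
  [[],
  [],
  [],
  [],
  [],
  [],
  [],
  [.negSucc (nat_lit 2104323636105490175), .ofNat (nat_lit 499558480703301888), .ofNat (nat_lit 0)]]],
  [[[],
  [],
  [],
  [],
  [],
  [],
  [],
  []],
  [[.ofNat (nat_lit 2783654049750948864), .ofNat (nat_lit 5275318241586677760), .ofNat (nat_lit 0)],
  [],
  [],
  [],
  [],
  [],
  [],
  []],
  [[],
  [.negSucc (nat_lit 636696512591201279), .negSucc (nat_lit 15880355408324067839), .ofNat (nat_lit 0)],
  [],
  [],
  [],
  [],
  [],
  []],
  [[],
  [],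
  [.negSucc (nat_lit 23069984257222115327), .negSucc (nat_lit 23906251367462181887), .ofNat (nat_lit 0)],
  [],
  [],
  [],
  [],
  []],
  [[],
  [],
  [],
  [.ofNat (nat_lit 14353090445910938112), .ofNat (nat_lit 11056556568372392448), .ofNat (nat_lit 0)],
  [],
  [],
  [],
  []],
  [[],
  [],
  [],
  [],
  [.ofNat (nat_lit 38134945386732950784), .ofNat (nat_lit 26915028552103280256), .ofNat (nat_lit 0)],
  [],
  [],
  []],
  [[],
  [],
  [],
  [],
  [.ofNat (nat_lit 1596593039514080256), .ofNat (nat_lit 25749787406373812736), .ofNat (nat_lit 0)],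
  [],
  [],
  []],
  [[],
  [],
  [],
  [],
  [],
  [.negSucc (nat_lit 5947901877590825471), .ofNat (nat_lit 48119526845209239552), .ofNat (nat_lit 0)],
  [],
  []],
  [[],
  [],
  [],
  [],
  [],
  [],
  [.ofNat (nat_lit 3740513175392542848), .negSucc (nat_lit 10803465339855641855), .ofNat (nat_lit 0)],
  []],
  [[],
  [],
  [],
  [],
  [],
  [],
  [.negSucc (nat_lit 31835555612239933439), .ofNat (nat_lit 26485836919378942464), .ofNat (nat_lit 0)],
  []],
  [[],
  [],
  [],
  [],
  [],
  [],
  [],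
  [.negSucc (nat_lit 2104323636105490175), .ofNat (nat_lit 499558480703301888), .ofNat (nat_lit 0)]],
  [[],
  [],
  [],
  [],
  [],
  [],
  [],
  [.ofNat (nat_lit 4867099845579546624), .negSucc (nat_lit 15208870220108098559), .ofNat (nat_lit 0)]]]]],
  [[[[[.ofNat (nat_lit 0), .ofNat (nat_lit 0), .negSucc (nat_lit 468591557842612223)],
  [],
  [.ofNat (nat_lit 0), .ofNat (nat_lit 0), .ofNat (nat_lit 2252165953076444160)],
  [],
  [],
  [],
  [],
  []],
  [[.ofNat (nat_lit 0), .negSucc (nat_lit 388555945282520063), .ofNat (nat_lit 0)],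
  [],
  [],
  [],
  [],
  [],
  [],
  []],
  [[],
  [.ofNat (nat_lit 0), .negSucc (nat_lit 4827987514873377791), .ofNat (nat_lit 0)],
  [],
  [],
  [],
  [],
  [],
  []],
  [[],
  [],
  [.ofNat (nat_lit 0), .negSucc (nat_lit 2409074791212395519), .ofNat (nat_lit 0)],
  [],
  [],
  [],
  [],
  []],
  [[],
  [],
  [],
  [.ofNat (nat_lit 0), .negSucc (nat_lit 10398141888329954303), .ofNat (nat_lit 0)],
  [],
  [],
  [],
  []],
  [[],
  [],
  [],
  [],
  [.ofNat (nat_lit 0), .negSucc (nat_lit 10329903420387342335), .ofNat (nat_lit 0)],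
  [],
  [],
  []],
  [[],
  [],
  [],
  [],
  [.ofNat (nat_lit 0), .negSucc (nat_lit 4181621757592052735), .ofNat (nat_lit 0)],
  [],
  [],
  []],
  [[],
  [],
  [],
  [],
  [],
  [.ofNat (nat_lit 0), .negSucc (nat_lit 10158468702575376383), .ofNat (nat_lit 0)],
  [],
  []],
  [[],
  [],
  [],
  [],
  [],
  [],
  [.ofNat (nat_lit 0), .negSucc (nat_lit 69645837551625215), .ofNat (nat_lit 0)],
  []],
  [[],
  [],
  [],
  [],
  [],
  [],
  [.ofNat (nat_lit 0), .negSucc (nat_lit 2087922159732344831), .ofNat (nat_lit 0)],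
  []],
  [[],
  [],
  [],
  [],
  [],
  [],
  [],
  []],
  [[],
  [],
  [],
  [],
  [],
  [],
  [],
  []]],
  [],
  [],
  [],
  [],
  [],
  [],
  [],
  [],
  [],
  [],
  []],
  [[],
  [],
  [],
  [],
  [],
  [],
  [],
  [],
  [],
  [],
  [],
  []],
  [[],
  [[[.ofNat (nat_lit 0), .ofNat (nat_lit 2496934931658485760), .negSucc (nat_lit 3745014640316762111)],
  [],
  [],
  [],
  [],
  [],
  [],
  []],
  [[.ofNat (nat_lit 1445738249189486592), .ofNat (nat_lit 6727108811589554688), .ofNat (nat_lit 0)],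
  [],
  [],
  [],
  [],
  [],
  [],
  []],
  [[],
  [.ofNat (nat_lit 0), .negSucc (nat_lit 15996405103964559359), .ofNat (nat_lit 0)],
  [],
  [],
  [],
  [],
  [],
  []],
  [[],
  [],
  [.ofNat (nat_lit 0), .negSucc (nat_lit 19895879973861345023), .ofNat (nat_lit 0)],
  [],
  [],
  [],
  [],
  []],
  [[],
  [],
  [],
  [.ofNat (nat_lit 0), .ofNat (nat_lit 131472828529891158528), .ofNat (nat_lit 0)],
  [],
  [],
  [],
  []],
  [[],
  [],
  [],
  [],
  [.ofNat (nat_lit 0), .ofNat (nat_lit 82670993294293798272), .ofNat (nat_lit 0)],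
  [],
  [],
  []],
  [[],
  [],
  [],
  [],
  [.ofNat (nat_lit 0), .ofNat (nat_lit 47150178502736065536), .ofNat (nat_lit 0)],
  [],
  [],
  []],
  [[],
  [],
  [],
  [],
  [],
  [.ofNat (nat_lit 0), .negSucc (nat_lit 82603782764088952319), .ofNat (nat_lit 0)],
  [],
  []],
  [[],
  [],
  [],
  [],
  [],
  [],
  [.ofNat (nat_lit 0), .negSucc (nat_lit 58275485898217549055), .ofNat (nat_lit 0)],
  []],
  [[],
  [],
  [],
  [],
  [],
  [],
  [.ofNat (nat_lit 0), .negSucc (nat_lit 93351447442188813311), .ofNat (nat_lit 0)],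
  []],
  [[],
  [],
  [],
  [],
  [],
  [],
  [],
  [.ofNat (nat_lit 0), .negSucc (nat_lit 38264162125792969727), .ofNat (nat_lit 0)]],
  [[],
  [],
  [],
  [],
  [],
  [],
  [],
  [.ofNat (nat_lit 0), .negSucc (nat_lit 14615455118126413823), .ofNat (nat_lit 0)]]],
  [],
  [],
  [],
  [],
  [],
  [],
  [],
  [],
  [],
  []],
  [[],
  [],
  [[[.ofNat (nat_lit 0), .negSucc (nat_lit 46995460575805439), .negSucc (nat_lit 13231058961234355199)],
  [],
  [],
  [],
  [],
  [],
  [],
  []],
  [[.ofNat (nat_lit 3775845980662106112), .ofNat (nat_lit 29227464065198914560), .ofNat (nat_lit 0)],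
  [],
  [],
  [],
  [],
  [],
  [],
  []],
  [[],
  [.ofNat (nat_lit 0), .negSucc (nat_lit 11313308742414524927), .ofNat (nat_lit 0)],
  [],
  [],
  [],
  [],
  [],
  []],
  [[],
  [],
  [.ofNat (nat_lit 0), .negSucc (nat_lit 152079942226798430207), .ofNat (nat_lit 0)],
  [],
  [],
  [],
  [],
  []],
  [[],
  [],
  [],
  [.ofNat (nat_lit 0), .negSucc (nat_lit 60521615512735640831), .ofNat (nat_lit 0)],
  [],
  [],
  [],
  []],
  [[],
  [],
  [],
  [],
  [.ofNat (nat_lit 0), .ofNat (nat_lit 226304257145932062720), .ofNat (nat_lit 0)],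
  [],
  [],
  []],
  [[],
  [],
  [],
  [],
  [.ofNat (nat_lit 0), .negSucc (nat_lit 13153276839062905343), .ofNat (nat_lit 0)],
  [],
  [],
  []],
  [[],
  [],
  [],
  [],
  [],
  [.ofNat (nat_lit 0), .ofNat (nat_lit 164391955830094499712), .ofNat (nat_lit 0)],
  [],
  []],
  [[],
  [],
  [],
  [],
  [],
  [],
  [.ofNat (nat_lit 0), .negSucc (nat_lit 116455172780240439551), .ofNat (nat_lit 0)],
  []],
  [[],
  [],
  [],
  [],
  [],
  [],
  [.ofNat (nat_lit 0), .ofNat (nat_lit 106591582687932274176), .ofNat (nat_lit 0)],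
  []],
  [[],
  [],
  [],
  [],
  [],
  [],
  [],
  [.ofNat (nat_lit 0), .negSucc (nat_lit 85631466040546182911), .ofNat (nat_lit 0)]],
  [[],
  [],
  [],
  [],
  [],
  [],
  [],
  [.ofNat (nat_lit 0), .ofNat (nat_lit 60856656136198101504), .ofNat (nat_lit 0)]]],
  [],
  [],
  [],
  [],
  [],
  [],
  [],
  [],
  []],
  [[],
  [],
  [],
  [[[.ofNat (nat_lit 0), .negSucc (nat_lit 7483926009794116607), .negSucc (nat_lit 3494750587675923455)],
  [],
  [],
  [],
  [],
  [],
  [],
  []],
  [[.negSucc (nat_lit 683094857317032959), .negSucc (nat_lit 16401129386185421567), .ofNat (nat_lit 0)],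
  [],
  [],
  [],
  [],
  [],
  [],
  []],
  [[],
  [.ofNat (nat_lit 0), .ofNat (nat_lit 152079942226798430208), .ofNat (nat_lit 0)],
  [],
  [],
  [],
  [],
  [],
  []],
  [[],
  [],
  [.ofNat (nat_lit 0), .ofNat (nat_lit 90018194446779880320), .ofNat (nat_lit 0)],
  [],
  [],
  [],
  [],
  []],
  [[],
  [],
  [],
  [.ofNat (nat_lit 0), .negSucc (nat_lit 450774887489002869119), .ofNat (nat_lit 0)],
  [],
  [],
  [],
  []],
  [[],
  [],
  [],
  [],
  [.ofNat (nat_lit 0), .negSucc (nat_lit 199849953918648018815), .ofNat (nat_lit 0)],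
  [],
  [],
  []],
  [[],
  [],
  [],
  [],
  [.ofNat (nat_lit 0), .negSucc (nat_lit 69728452179143643647), .ofNat (nat_lit 0)],
  [],
  [],
  []],
  [[],
  [],
  [],
  [],
  [],
  [.ofNat (nat_lit 0), .ofNat (nat_lit 223673435770785954048), .ofNat (nat_lit 0)],
  [],
  []],
  [[],
  [],
  [],
  [],
  [],
  [],
  [.ofNat (nat_lit 0), .ofNat (nat_lit 127045050970478963904), .ofNat (nat_lit 0)],
  []],
  [[],
  [],
  [],
  [],
  [],
  [],
  [.ofNat (nat_lit 0), .ofNat (nat_lit 51974503084290438144), .ofNat (nat_lit 0)],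
  []],
  [[],
  [],
  [],
  [],
  [],
  [],
  [],
  [.ofNat (nat_lit 0), .ofNat (nat_lit 48848551037738387712), .ofNat (nat_lit 0)]],
  [[],
  [],
  [],
  [],
  [],
  [],
  [],
  [.ofNat (nat_lit 0), .negSucc (nat_lit 28781791994315685887), .ofNat (nat_lit 0)]]],
  [],
  [],
  [],
  [],
  [],
  [],
  [],
  []],
  [[],
  [],
  [],
  [],
  [[[.ofNat (nat_lit 0), .ofNat (nat_lit 6339444329744898048), .ofNat (nat_lit 37773644200489774080)],
  [],
  [],
  [],
  [],
  [],
  [],
  []],
  [[.ofNat (nat_lit 5830903236782315520), .negSucc (nat_lit 169246472730380932607), .ofNat (nat_lit 0)],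
  [],
  [],
  [],
  [],
  [],
  [],
  []],
  [[],
  [.ofNat (nat_lit 0), .negSucc (nat_lit 60521615512735640831), .ofNat (nat_lit 0)],
  [],
  [],
  [],
  [],
  [],
  []],
  [[],
  [],
  [.ofNat (nat_lit 0), .ofNat (nat_lit 450774887489002869120), .ofNat (nat_lit 0)],
  [],
  [],
  [],
  [],
  []],
  [[],
  [],
  [],
  [.ofNat (nat_lit 0), .ofNat (nat_lit 279171701890555815936), .ofNat (nat_lit 0)],
  [],
  [],
  [],
  []],
  [[],
  [],
  [],
  [],
  [.ofNat (nat_lit 0), .negSucc (nat_lit 432057705599900416319), .ofNat (nat_lit 0)],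
  [],
  [],
  []],
  [[],
  [],
  [],
  [],
  [.ofNat (nat_lit 0), .ofNat (nat_lit 105723859528644309504), .ofNat (nat_lit 0)],
  [],
  [],
  []],
  [[],
  [],
  [],
  [],
  [],
  [.ofNat (nat_lit 0), .negSucc (nat_lit 329260117393810403711), .ofNat (nat_lit 0)],
  [],
  []],
  [[],
  [],
  [],
  [],
  [],
  [],
  [.ofNat (nat_lit 0), .ofNat (nat_lit 213348024673070906304), .ofNat (nat_lit 0)],
  []],
  [[],
  [],
  [],
  [],
  [],
  [],
  [.ofNat (nat_lit 0), .negSucc (nat_lit 196077533764796001791), .ofNat (nat_lit 0)],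
  []],
  [[],
  [],
  [],
  [],
  [],
  [],
  [],
  [.ofNat (nat_lit 0), .ofNat (nat_lit 146882278426598023968), .ofNat (nat_lit 0)]],
  [[],
  [],
  [],
  [],
  [],
  [],
  [],
  [.ofNat (nat_lit 0), .negSucc (nat_lit 80350125818761451519), .ofNat (nat_lit 0)]]],
  [],
  [],
  [],
  [],
  [],
  [],
  []],
  [[],
  [],
  [],
  [],
  [],
  [[[.ofNat (nat_lit 0), .ofNat (nat_lit 8975386142268862464), .ofNat (nat_lit 31179167468747080704)],
  [],
  [],
  [],
  [],
  [],
  [],
  []],
  [[.negSucc (nat_lit 3811247155870801919), .ofNat (nat_lit 51491825825546717568), .ofNat (nat_lit 0)],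
  [],
  [],
  [],
  [],
  [],
  [],
  []],
  [[],
  [.ofNat (nat_lit 0), .negSucc (nat_lit 226304257145932062719), .ofNat (nat_lit 0)],
  [],
  [],
  [],
  [],
  [],
  []],
  [[],
  [],
  [.ofNat (nat_lit 0), .negSucc (nat_lit 199849953918648018815), .ofNat (nat_lit 0)],
  [],
  [],
  [],
  [],
  []],
  [[],
  [],
  [],
  [.ofNat (nat_lit 0), .ofNat (nat_lit 432057705599900416320), .ofNat (nat_lit 0)],
  [],
  [],
  [],
  []],
  [[],
  [],
  [],
  [],
  [.ofNat (nat_lit 0), .ofNat (nat_lit 385052603867239848192), .ofNat (nat_lit 0)],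
  [],
  [],
  []],
  [[],
  [],
  [],
  [],
  [.ofNat (nat_lit 0), .negSucc (nat_lit 27471340705109059583), .ofNat (nat_lit 0)],
  [],
  [],
  []],
  [[],
  [],
  [],
  [],
  [],
  [.ofNat (nat_lit 0), .negSucc (nat_lit 195703867132833817151), .ofNat (nat_lit 0)],
  [],
  []],
  [[],
  [],
  [],
  [],
  [],
  [],
  [.ofNat (nat_lit 0), .negSucc (nat_lit 134252885219795023391), .ofNat (nat_lit 0)],
  []],
  [[],
  [],
  [],
  [],
  [],
  [],
  [.ofNat (nat_lit 0), .ofNat (nat_lit 87844408335950759424), .ofNat (nat_lit 0)],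
  []],
  [[],
  [],
  [],
  [],
  [],
  [],
  [],
  [.ofNat (nat_lit 0), .ofNat (nat_lit 73460951956597315968), .ofNat (nat_lit 0)]],
  [[],
  [],
  [],
  [],
  [],
  [],
  [],
  [.ofNat (nat_lit 0), .ofNat (nat_lit 65408038763375707776), .ofNat (nat_lit 0)]]],
  [[[.ofNat (nat_lit 0), .negSucc (nat_lit 9951661286295137279), .negSucc (nat_lit 14211133102914665471)],
  [],
  [],
  [],
  [],
  [],
  [],
  []],
  [[.ofNat (nat_lit 10321620606931000320), .ofNat (nat_lit 61361311605650731008), .ofNat (nat_lit 0)],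
  [],
  [],
  [],
  [],
  [],
  [],
  []],
  [[],
  [.ofNat (nat_lit 0), .ofNat (nat_lit 13153276839062905344), .ofNat (nat_lit 0)],
  [],
  [],
  [],
  [],
  [],
  []],
  [[],
  [],
  [.ofNat (nat_lit 0), .negSucc (nat_lit 69728452179143643647), .ofNat (nat_lit 0)],
  [],
  [],
  [],
  [],
  []],
  [[],
  [],
  [],
  [.ofNat (nat_lit 0), .negSucc (nat_lit 105723859528644309503), .ofNat (nat_lit 0)],
  [],
  [],
  [],
  []],
  [[],
  [],
  [],
  [],
  [.ofNat (nat_lit 0), .negSucc (nat_lit 27471340705109059583), .ofNat (nat_lit 0)],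
  [],
  [],
  []],
  [[],
  [],
  [],
  [],
  [.ofNat (nat_lit 0), .ofNat (nat_lit 43192018207512138240), .ofNat (nat_lit 0)],
  [],
  [],
  []],
  [[],
  [],
  [],
  [],
  [],
  [.ofNat (nat_lit 0), .negSucc (nat_lit 60181306825512052223), .ofNat (nat_lit 0)],
  [],
  []],
  [[],
  [],
  [],
  [],
  [],
  [],
  [.ofNat (nat_lit 0), .negSucc (nat_lit 28295489932727430527), .ofNat (nat_lit 0)],
  []],
  [[],
  [],
  [],
  [],
  [],
  [],
  [.ofNat (nat_lit 0), .ofNat (nat_lit 51300915029886366720), .ofNat (nat_lit 0)],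
  []],
  [[],
  [],
  [],
  [],
  [],
  [],
  [],
  [.ofNat (nat_lit 0), .ofNat (nat_lit 10312690749984285696), .ofNat (nat_lit 0)]],
  [[],
  [],
  [],
  [],
  [],
  [],
  [],
  [.ofNat (nat_lit 0), .ofNat (nat_lit 83685537130461239808), .ofNat (nat_lit 0)]]],
  [],
  [],
  [],
  [],
  []],
  [[],
  [],
  [],
  [],
  [],
  [],
  [],
  [[[.ofNat (nat_lit 0), .ofNat (nat_lit 1253771895819709440), .negSucc (nat_lit 49955705341278870527)],
  [],
  [],
  [],
  [],
  [],
  [],
  []],
  [[.negSucc (nat_lit 12793489119167634431), .ofNat (nat_lit 132559488105367822848), .ofNat (nat_lit 0)],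
  [],
  [],
  [],
  [],
  [],
  [],
  []],
  [[],
  [.ofNat (nat_lit 0), .ofNat (nat_lit 164391955830094499712), .ofNat (nat_lit 0)],
  [],
  [],
  [],
  [],
  [],
  []],
  [[],
  [],
  [.ofNat (nat_lit 0), .negSucc (nat_lit 223673435770785954047), .ofNat (nat_lit 0)],
  [],
  [],
  [],
  [],
  []],
  [[],
  [],
  [],
  [.ofNat (nat_lit 0), .negSucc (nat_lit 329260117393810403711), .ofNat (nat_lit 0)],
  [],
  [],
  [],
  []],
  [[],
  [],
  [],
  [],
  [.ofNat (nat_lit 0), .ofNat (nat_lit 195703867132833817152), .ofNat (nat_lit 0)],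
  [],
  [],
  []],
  [[],
  [],
  [],
  [],
  [.ofNat (nat_lit 0), .ofNat (nat_lit 60181306825512052224), .ofNat (nat_lit 0)],
  [],
  [],
  []],
  [[],
  [],
  [],
  [],
  [],
  [.ofNat (nat_lit 0), .negSucc (nat_lit 162603327928289374367), .ofNat (nat_lit 0)],
  [],
  []],
  [[],
  [],
  [],
  [],
  [],
  [],
  [.ofNat (nat_lit 0), .negSucc (nat_lit 251093156057247842351), .ofNat (nat_lit 0)],
  []],
  [[],
  [],
  [],
  [],
  [],
  [],
  [.ofNat (nat_lit 0), .negSucc (nat_lit 323092091916799164287), .ofNat (nat_lit 0)],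
  []],
  [[],
  [],
  [],
  [],
  [],
  [],
  [],
  [.ofNat (nat_lit 0), .ofNat (nat_lit 289903014002422265184), .ofNat (nat_lit 0)]],
  [[],
  [],
  [],
  [],
  [],
  [],
  [],
  [.ofNat (nat_lit 0), .negSucc (nat_lit 8443482276288268799), .ofNat (nat_lit 0)]]],
  [],
  [],
  [],
  []],
  [[],
  [],
  [],
  [],
  [],
  [],
  [],
  [],
  [[[.ofNat (nat_lit 0), .negSucc (nat_lit 7060629113028919295), .negSucc (nat_lit 15181320532590710783)],
  [],
  [],
  [],
  [],
  [],
  [],
  []],
  [[.ofNat (nat_lit 7289374639012227072), .negSucc (nat_lit 43094165365626838271), .ofNat (nat_lit 0)],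
  [],
  [],
  [],
  [],
  [],
  [],
  []],
  [[],
  [.ofNat (nat_lit 0), .ofNat (nat_lit 116455172780240439552), .ofNat (nat_lit 0)],
  [],
  [],
  [],
  [],
  [],
  []],
  [[],
  [],
  [.ofNat (nat_lit 0), .ofNat (nat_lit 127045050970478963904), .ofNat (nat_lit 0)],
  [],
  [],
  [],
  [],
  []],
  [[],
  [],
  [],
  [.ofNat (nat_lit 0), .negSucc (nat_lit 213348024673070906303), .ofNat (nat_lit 0)],
  [],
  [],
  [],
  []],
  [[],
  [],
  [],
  [],
  [.ofNat (nat_lit 0), .negSucc (nat_lit 134252885219795023391), .ofNat (nat_lit 0)],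
  [],
  [],
  []],
  [[],
  [],
  [],
  [],
  [.ofNat (nat_lit 0), .negSucc (nat_lit 28295489932727430527), .ofNat (nat_lit 0)],
  [],
  [],
  []],
  [[],
  [],
  [],
  [],
  [],
  [.ofNat (nat_lit 0), .ofNat (nat_lit 251093156057247842352), .ofNat (nat_lit 0)],
  [],
  []],
  [[],
  [],
  [],
  [],
  [],
  [],
  [.ofNat (nat_lit 0), .negSucc (nat_lit 148285258044924736655), .ofNat (nat_lit 0)],
  []],
  [[],
  [],
  [],
  [],
  [],
  [],
  [.ofNat (nat_lit 0), .ofNat (nat_lit 8631681357485414016), .ofNat (nat_lit 0)],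
  []],
  [[],
  [],
  [],
  [],
  [],
  [],
  [],
  [.ofNat (nat_lit 0), .ofNat (nat_lit 137043960019254547848), .ofNat (nat_lit 0)]],
  [[],
  [],
  [],
  [],
  [],
  [],
  [],
  [.ofNat (nat_lit 0), .negSucc (nat_lit 34100061068277454463), .ofNat (nat_lit 0)]]],
  [[[.ofNat (nat_lit 0), .ofNat (nat_lit 8899393005653741568), .ofNat (nat_lit 45138175123804581888)],
  [],
  [],
  [],
  [],
  [],
  [],
  []],
  [[.negSucc (nat_lit 5111188929505290239), .negSucc (nat_lit 138489622565993395199), .ofNat (nat_lit 0)],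
  [],
  [],
  [],
  [],
  [],
  [],
  []],
  [[],
  [.ofNat (nat_lit 0), .negSucc (nat_lit 106591582687932274175), .ofNat (nat_lit 0)],
  [],
  [],
  [],
  [],
  [],
  []],
  [[],
  [],
  [.ofNat (nat_lit 0), .ofNat (nat_lit 51974503084290438144), .ofNat (nat_lit 0)],
  [],
  [],
  [],
  [],
  []],
  [[],
  [],
  [],
  [.ofNat (nat_lit 0), .ofNat (nat_lit 196077533764796001792), .ofNat (nat_lit 0)],
  [],
  [],
  [],
  []],
  [[],
  [],
  [],
  [],
  [.ofNat (nat_lit 0), .ofNat (nat_lit 87844408335950759424), .ofNat (nat_lit 0)],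
  [],
  [],
  []],
  [[],
  [],
  [],
  [],
  [.ofNat (nat_lit 0), .ofNat (nat_lit 51300915029886366720), .ofNat (nat_lit 0)],
  [],
  [],
  []],
  [[],
  [],
  [],
  [],
  [],
  [.ofNat (nat_lit 0), .ofNat (nat_lit 323092091916799164288), .ofNat (nat_lit 0)],
  [],
  []],
  [[],
  [],
  [],
  [],
  [],
  [],
  [.ofNat (nat_lit 0), .ofNat (nat_lit 8631681357485414016), .ofNat (nat_lit 0)],
  []],
  [[],
  [],
  [],
  [],
  [],
  [],
  [.ofNat (nat_lit 0), .negSucc (nat_lit 353458035717982629119), .ofNat (nat_lit 0)],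
  []],
  [[],
  [],
  [],
  [],
  [],
  [],
  [],
  [.ofNat (nat_lit 0), .ofNat (nat_lit 130911467549618236032), .ofNat (nat_lit 0)]],
  [[],
  [],
  [],
  [],
  [],
  [],
  [],
  [.ofNat (nat_lit 0), .ofNat (nat_lit 72615657023920286208), .ofNat (nat_lit 0)]]],
  [],
  []],
  [[],
  [],
  [],
  [],
  [],
  [],
  [],
  [],
  [],
  [],
  [[[],
  [],
  [],
  [],
  [],
  [],
  [],
  []],
  [[.ofNat (nat_lit 0), .ofNat (nat_lit 38264162125792969728), .ofNat (nat_lit 0)],
  [],
  [],
  [],
  [],
  [],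
  [],
  []],
  [[],
  [.ofNat (nat_lit 0), .negSucc (nat_lit 85631466040546182911), .ofNat (nat_lit 0)],
  [],
  [],
  [],
  [],
  [],
  []],
  [[],
  [],
  [.ofNat (nat_lit 0), .negSucc (nat_lit 48848551037738387711), .ofNat (nat_lit 0)],
  [],
  [],
  [],
  [],
  []],
  [[],
  [],
  [],
  [.ofNat (nat_lit 0), .ofNat (nat_lit 146882278426598023968), .ofNat (nat_lit 0)],
  [],
  [],
  [],
  []],
  [[],
  [],
  [],
  [],
  [.ofNat (nat_lit 0), .negSucc (nat_lit 73460951956597315967), .ofNat (nat_lit 0)],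
  [],
  [],
  []],
  [[],
  [],
  [],
  [],
  [.ofNat (nat_lit 0), .negSucc (nat_lit 10312690749984285695), .ofNat (nat_lit 0)],
  [],
  [],
  []],
  [[],
  [],
  [],
  [],
  [],
  [.ofNat (nat_lit 0), .ofNat (nat_lit 289903014002422265184), .ofNat (nat_lit 0)],
  [],
  []],
  [[],
  [],
  [],
  [],
  [],
  [],
  [.ofNat (nat_lit 0), .negSucc (nat_lit 137043960019254547847), .ofNat (nat_lit 0)],
  []],
  [[],
  [],
  [],
  [],
  [],
  [],
  [.ofNat (nat_lit 0), .negSucc (nat_lit 130911467549618236031), .ofNat (nat_lit 0)],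
  []],
  [[],
  [],
  [],
  [],
  [],
  [],
  [],
  [.ofNat (nat_lit 0), .ofNat (nat_lit 41783238276020602848), .ofNat (nat_lit 0)]],
  [[],
  [],
  [],
  [],
  [],
  [],
  [],
  [.ofNat (nat_lit 0), .ofNat (nat_lit 22393726728748043904), .ofNat (nat_lit 0)]]],
  [[[],
  [],
  [],
  [],
  [],
  [],
  [],
  []],
  [[.ofNat (nat_lit 0), .ofNat (nat_lit 14615455118126413824), .ofNat (nat_lit 0)],
  [],
  [],
  [],
  [],
  [],
  [],
  []],
  [[],
  [.ofNat (nat_lit 0), .ofNat (nat_lit 60856656136198101504), .ofNat (nat_lit 0)],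
  [],
  [],
  [],
  [],
  [],
  []],
  [[],
  [],
  [.ofNat (nat_lit 0), .ofNat (nat_lit 28781791994315685888), .ofNat (nat_lit 0)],
  [],
  [],
  [],
  [],
  []],
  [[],
  [],
  [],
  [.ofNat (nat_lit 0), .negSucc (nat_lit 80350125818761451519), .ofNat (nat_lit 0)],
  [],
  [],
  [],
  []],
  [[],
  [],
  [],
  [],
  [.ofNat (nat_lit 0), .negSucc (nat_lit 65408038763375707775), .ofNat (nat_lit 0)],
  [],
  [],
  []],
  [[],
  [],
  [],
  [],
  [.ofNat (nat_lit 0), .negSucc (nat_lit 83685537130461239807), .ofNat (nat_lit 0)],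
  [],
  [],
  []],
  [[],
  [],
  [],
  [],
  [],
  [.ofNat (nat_lit 0), .negSucc (nat_lit 8443482276288268799), .ofNat (nat_lit 0)],
  [],
  []],
  [[],
  [],
  [],
  [],
  [],
  [],
  [.ofNat (nat_lit 0), .ofNat (nat_lit 34100061068277454464), .ofNat (nat_lit 0)],
  []],
  [[],
  [],
  [],
  [],
  [],
  [],
  [.ofNat (nat_lit 0), .negSucc (nat_lit 72615657023920286207), .ofNat (nat_lit 0)],
  []],
  [[],
  [],
  [],
  [],
  [],
  [],
  [],
  [.ofNat (nat_lit 0), .ofNat (nat_lit 22393726728748043904), .ofNat (nat_lit 0)]],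
  [[],
  [],
  [],
  [],
  [],
  [],
  [],
  [.ofNat (nat_lit 0), .negSucc (nat_lit 11535873521108336639), .ofNat (nat_lit 0)]]]]],
  [[[[[.ofNat (nat_lit 0), .ofNat (nat_lit 0), .ofNat (nat_lit 10998041647666176)],
  [],
  [],
  [],
  [],
  [],
  [],
  []],
  [[.ofNat (nat_lit 0), .ofNat (nat_lit 269831321004791808), .ofNat (nat_lit 0)],
  [],
  [],
  [],
  [],
  [],
  [],
  []],
  [[],
  [.ofNat (nat_lit 0), .ofNat (nat_lit 1864425260043150336), .ofNat (nat_lit 0)],
  [],
  [],
  [],
  [],
  [],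
  []],
  [[],
  [],
  [.ofNat (nat_lit 0), .ofNat (nat_lit 4083510433555574784), .ofNat (nat_lit 0)],
  [],
  [],
  [],
  [],
  []],
  [[],
  [],
  [],
  [.ofNat (nat_lit 0), .ofNat (nat_lit 6085173783263606784), .ofNat (nat_lit 0)],
  [],
  [],
  [],
  []],
  [[],
  [],
  [],
  [],
  [.ofNat (nat_lit 0), .negSucc (nat_lit 2582069493199030271), .ofNat (nat_lit 0)],
  [],
  [],
  []],
  [[],
  [],
  [],
  [],
  [.ofNat (nat_lit 0), .negSucc (nat_lit 184979660317931519), .ofNat (nat_lit 0)],
  [],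
  [],
  []],
  [[],
  [],
  [],
  [],
  [],
  [.ofNat (nat_lit 0), .negSucc (nat_lit 5769858611673962495), .ofNat (nat_lit 0)],
  [],
  []],
  [[],
  [],
  [],
  [],
  [],
  [],
  [.ofNat (nat_lit 0), .negSucc (nat_lit 114372762991653887), .ofNat (nat_lit 0)],
  []],
  [[],
  [],
  [],
  [],
  [],
  [],
  [.ofNat (nat_lit 0), .negSucc (nat_lit 1894102038074225663), .ofNat (nat_lit 0)],
  []],
  [[],
  [],
  [],
  [],
  [],
  [],
  [],
  []],
  [[],
  [],
  [],
  [],
  [],
  [],
  [],
  []]],
  [],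
  [],
  [],
  [],
  [],
  [],
  [],
  [],
  [],
  [],
  []],
  [[],
  [],
  [],
  [],
  [],
  [],
  [],
  [],
  [],
  [],
  [],
  []],
  [[],
  [[[.ofNat (nat_lit 0), .negSucc (nat_lit 2922620237148718079), .ofNat (nat_lit 1015136491970967552)],
  [],
  [],
  [],
  [],
  [],
  [],
  []],
  [[.ofNat (nat_lit 2922620237148718080), .ofNat (nat_lit 10711297757333873664), .ofNat (nat_lit 0)],
  [],
  [],
  [],
  [],
  [],
  [],
  []],
  [[],
  [.ofNat (nat_lit 0), .ofNat (nat_lit 442041028278690816), .ofNat (nat_lit 0)],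
  [],
  [],
  [],
  [],
  [],
  []],
  [[],
  [],
  [.ofNat (nat_lit 0), .negSucc (nat_lit 73703276218245832703), .ofNat (nat_lit 0)],
  [],
  [],
  [],
  [],
  []],
  [[],
  [],
  [],
  [.ofNat (nat_lit 0), .negSucc (nat_lit 48951793429788386303), .ofNat (nat_lit 0)],
  [],
  [],
  [],
  []],
  [[],
  [],
  [],
  [],
  [.ofNat (nat_lit 0), .ofNat (nat_lit 90996182622055157760), .ofNat (nat_lit 0)],
  [],
  [],
  []],
  [[],
  [],
  [],
  [],
  [.ofNat (nat_lit 0), .ofNat (nat_lit 36936110217999670272), .ofNat (nat_lit 0)],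
  [],
  [],
  []],
  [[],
  [],
  [],
  [],
  [],
  [.ofNat (nat_lit 0), .ofNat (nat_lit 86196977876437876224), .ofNat (nat_lit 0)],
  [],
  []],
  [[],
  [],
  [],
  [],
  [],
  [],
  [.ofNat (nat_lit 0), .negSucc (nat_lit 25807773285533257343), .ofNat (nat_lit 0)],
  []],
  [[],
  [],
  [],
  [],
  [],
  [],
  [.ofNat (nat_lit 0), .negSucc (nat_lit 22832803407269021183), .ofNat (nat_lit 0)],
  []],
  [[],
  [],
  [],
  [],
  [],
  [],
  [],
  [.ofNat (nat_lit 0), .negSucc (nat_lit 23090508763545678335), .ofNat (nat_lit 0)]],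
  [[],
  [],
  [],
  [],
  [],
  [],
  [],
  [.ofNat (nat_lit 0), .negSucc (nat_lit 13258714266519579647), .ofNat (nat_lit 0)]]],
  [],
  [],
  [],
  [],
  [],
  [],
  [],
  [],
  [],
  []],
  [[],
  [],
  [[[.ofNat (nat_lit 0), .ofNat (nat_lit 1372242833899951104), .ofNat (nat_lit 10153714826113413120)],
  [],
  [],
  [],
  [],
  [],
  [],
  []],
  [[.negSucc (nat_lit 1372242833899951103), .negSucc (nat_lit 10595755854392103935), .ofNat (nat_lit 0)],
  [],
  [],
  [],
  [],
  [],
  [],
  []],
  [[],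
  [.ofNat (nat_lit 0), .ofNat (nat_lit 57973330433007733248), .ofNat (nat_lit 0)],
  [],
  [],
  [],
  [],
  [],
  []],
  [[],
  [],
  [.ofNat (nat_lit 0), .ofNat (nat_lit 18950003504496677376), .ofNat (nat_lit 0)],
  [],
  [],
  [],
  [],
  []],
  [[],
  [],
  [],
  [.ofNat (nat_lit 0), .negSucc (nat_lit 209643350460713892863), .ofNat (nat_lit 0)],
  [],
  [],
  [],
  []],
  [[],
  [],
  [],
  [],
  [.ofNat (nat_lit 0), .ofNat (nat_lit 26163732021355738368), .ofNat (nat_lit 0)],
  [],
  [],
  []],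
  [[],
  [],
  [],
  [],
  [.ofNat (nat_lit 0), .negSucc (nat_lit 61829117656020716543), .ofNat (nat_lit 0)],
  [],
  [],
  []],
  [[],
  [],
  [],
  [],
  [],
  [.ofNat (nat_lit 0), .ofNat (nat_lit 195354771192703952640), .ofNat (nat_lit 0)],
  [],
  []],
  [[],
  [],
  [],
  [],
  [],
  [],
  [.ofNat (nat_lit 0), .negSucc (nat_lit 41186338029398100095), .ofNat (nat_lit 0)],
  []],
  [[],
  [],
  [],
  [],
  [],
  [],
  [.ofNat (nat_lit 0), .ofNat (nat_lit 48785475835429917696), .ofNat (nat_lit 0)],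
  []],
  [[],
  [],
  [],
  [],
  [],
  [],
  [],
  [.ofNat (nat_lit 0), .negSucc (nat_lit 59495852395042729343), .ofNat (nat_lit 0)]],
  [[],
  [],
  [],
  [],
  [],
  [],
  [],
  []]],
  [],
  [],
  [],
  [],
  [],
  [],
  [],
  [],
  []],
  [[],
  [],
  [],
  [[[.ofNat (nat_lit 0), .ofNat (nat_lit 11754756396769029120), .ofNat (nat_lit 12909256322588218368)],
  [],
  [],
  [],
  [],
  [],
  [],
  []],
  [[.negSucc (nat_lit 11754756396769029119), .negSucc (nat_lit 86612532540834051071), .ofNat (nat_lit 0)],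
  [],
  [],
  [],
  [],
  [],
  [],
  []],
  [[],
  [.ofNat (nat_lit 0), .negSucc (nat_lit 18950003504496677375), .ofNat (nat_lit 0)],
  [],
  [],
  [],
  [],
  [],
  []],
  [[],
  [],
  [.ofNat (nat_lit 0), .ofNat (nat_lit 325123352840385616896), .ofNat (nat_lit 0)],
  [],
  [],
  [],
  [],
  []],
  [[],
  [],
  [],
  [.ofNat (nat_lit 0), .negSucc (nat_lit 56095802826932420351), .ofNat (nat_lit 0)],
  [],
  [],
  [],
  []],
  [[],
  [],
  [],
  [],
  [.ofNat (nat_lit 0), .negSucc (nat_lit 342926102655998431487), .ofNat (nat_lit 0)],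
  [],
  [],
  []],
  [[],
  [],
  [],
  [],
  [.ofNat (nat_lit 0), .negSucc (nat_lit 142235143193871816191), .ofNat (nat_lit 0)],
  [],
  [],
  []],
  [[],
  [],
  [],
  [],
  [],
  [.ofNat (nat_lit 0), .ofNat (nat_lit 181354369914052750080), .ofNat (nat_lit 0)],
  [],
  []],
  [[],
  [],
  [],
  [],
  [],
  [],
  [.ofNat (nat_lit 0), .ofNat (nat_lit 56079375926783372352), .ofNat (nat_lit 0)],
  []],
  [[],
  [],
  [],
  [],
  [],
  [],
  [.ofNat (nat_lit 0), .ofNat (nat_lit 151435530405061479936), .ofNat (nat_lit 0)],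
  []],
  [[],
  [],
  [],
  [],
  [],
  [],
  [],
  [.ofNat (nat_lit 0), .negSucc (nat_lit 66785517365664613823), .ofNat (nat_lit 0)]],
  [[],
  [],
  [],
  [],
  [],
  [],
  [],
  []]],
  [],
  [],
  [],
  [],
  [],
  [],
  [],
  []],
  [[],
  [],
  [],
  [],
  [[[.ofNat (nat_lit 0), .negSucc (nat_lit 14045815528764051455), .negSucc (nat_lit 18971712298649272319)],
  [],
  [],
  [],
  [],
  [],
  [],
  []],
  [[.ofNat (nat_lit 14045815528764051456), .ofNat (nat_lit 67923505728437658624), .ofNat (nat_lit 0)],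
  [],
  [],
  [],
  [],
  [],
  [],
  []],
  [[],
  [.ofNat (nat_lit 0), .negSucc (nat_lit 209643350460713892863), .ofNat (nat_lit 0)],
  [],
  [],
  [],
  [],
  [],
  []],
  [[],
  [],
  [.ofNat (nat_lit 0), .ofNat (nat_lit 56095802826932420352), .ofNat (nat_lit 0)],
  [],
  [],
  [],
  [],
  []],
  [[],
  [],
  [],
  [.ofNat (nat_lit 0), .ofNat (nat_lit 595118412404005621248), .ofNat (nat_lit 0)],
  [],
  [],
  [],
  []],
  [[],
  [],
  [],
  [],
  [.ofNat (nat_lit 0), .negSucc (nat_lit 452143940634032605055), .ofNat (nat_lit 0)],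
  [],
  [],
  []],
  [[],
  [],
  [],
  [],
  [.ofNat (nat_lit 0), .ofNat (nat_lit 33924172917397409280), .ofNat (nat_lit 0)],
  [],
  [],
  []],
  [[],
  [],
  [],
  [],
  [],
  [.ofNat (nat_lit 0), .negSucc (nat_lit 180801110313497539583), .ofNat (nat_lit 0)],
  [],
  []],
  [[],
  [],
  [],
  [],
  [],
  [],
  [.ofNat (nat_lit 0), .ofNat (nat_lit 184136211842317151616), .ofNat (nat_lit 0)],
  []],
  [[],
  [],
  [],
  [],
  [],
  [],
  [.ofNat (nat_lit 0), .ofNat (nat_lit 73360450947667765248), .ofNat (nat_lit 0)],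
  []],
  [[],
  [],
  [],
  [],
  [],
  [],
  [],
  [.ofNat (nat_lit 0), .negSucc (nat_lit 84756246315237729791), .ofNat (nat_lit 0)]],
  [[],
  [],
  [],
  [],
  [],
  [],
  [],
  [.ofNat (nat_lit 0), .negSucc (nat_lit 16461151630285888511), .ofNat (nat_lit 0)]]],
  [],
  [],
  [],
  [],
  [],
  [],
  []],
  [[],
  [],
  [],
  [],
  [],
  [[[.ofNat (nat_lit 0), .negSucc (nat_lit 16398947461538755583), .negSucc (nat_lit 48558073562429082623)],
  [],
  [],
  [],
  [],
  [],
  [],
  []],
  [[.ofNat (nat_lit 16398947461538755584), .ofNat (nat_lit 139554256184484240384), .ofNat (nat_lit 0)],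
  [],
  [],
  [],
  [],
  [],
  [],
  []],
  [[],
  [.ofNat (nat_lit 0), .negSucc (nat_lit 26163732021355738367), .ofNat (nat_lit 0)],
  [],
  [],
  [],
  [],
  [],
  []],
  [[],
  [],
  [.ofNat (nat_lit 0), .negSucc (nat_lit 342926102655998431487), .ofNat (nat_lit 0)],
  [],
  [],
  [],
  [],
  []],
  [[],
  [],
  [],
  [.ofNat (nat_lit 0), .ofNat (nat_lit 452143940634032605056), .ofNat (nat_lit 0)],
  [],
  [],
  [],
  []],
  [[],
  [],
  [],
  [],
  [.ofNat (nat_lit 0), .ofNat (nat_lit 110148879666216947328), .ofNat (nat_lit 0)],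
  [],
  [],
  []],
  [[],
  [],
  [],
  [],
  [.ofNat (nat_lit 0), .ofNat (nat_lit 25746104329200089856), .ofNat (nat_lit 0)],
  [],
  [],
  []],
  [[],
  [],
  [],
  [],
  [],
  [.ofNat (nat_lit 0), .negSucc (nat_lit 389812331570302907711), .ofNat (nat_lit 0)],
  [],
  []],
  [[],
  [],
  [],
  [],
  [],
  [],
  [.ofNat (nat_lit 0), .ofNat (nat_lit 79843676661585199872), .ofNat (nat_lit 0)],
  []],
  [[],
  [],
  [],
  [],
  [],
  [],
  [.ofNat (nat_lit 0), .ofNat (nat_lit 59695582091683556736), .ofNat (nat_lit 0)],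
  []],
  [[],
  [],
  [],
  [],
  [],
  [],
  [],
  [.ofNat (nat_lit 0), .negSucc (nat_lit 15990696208025358623), .ofNat (nat_lit 0)]],
  [[],
  [],
  [],
  [],
  [],
  [],
  [],
  []]],
  [[[.ofNat (nat_lit 0), .ofNat (nat_lit 12043514197913619456), .ofNat (nat_lit 32054903114471506944)],
  [],
  [],
  [],
  [],
  [],
  [],
  []],
  [[.negSucc (nat_lit 12043514197913619455), .ofNat (nat_lit 4881207103528163328), .ofNat (nat_lit 0)],
  [],
  [],
  [],
  [],
  [],
  [],
  []],
  [[],
  [.ofNat (nat_lit 0), .ofNat (nat_lit 61829117656020716544), .ofNat (nat_lit 0)],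
  [],
  [],
  [],
  [],
  [],
  []],
  [[],
  [],
  [.ofNat (nat_lit 0), .negSucc (nat_lit 142235143193871816191), .ofNat (nat_lit 0)],
  [],
  [],
  [],
  [],
  []],
  [[],
  [],
  [],
  [.ofNat (nat_lit 0), .negSucc (nat_lit 33924172917397409279), .ofNat (nat_lit 0)],
  [],
  [],
  [],
  []],
  [[],
  [],
  [],
  [],
  [.ofNat (nat_lit 0), .ofNat (nat_lit 25746104329200089856), .ofNat (nat_lit 0)],
  [],
  [],
  []],
  [[],
  [],
  [],
  [],
  [.ofNat (nat_lit 0), .negSucc (nat_lit 5232172463953210367), .ofNat (nat_lit 0)],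
  [],
  [],
  []],
  [[],
  [],
  [],
  [],
  [],
  [.ofNat (nat_lit 0), .negSucc (nat_lit 15187699239514345727), .ofNat (nat_lit 0)],
  [],
  []],
  [[],
  [],
  [],
  [],
  [],
  [],
  [.ofNat (nat_lit 0), .ofNat (nat_lit 51857850486563163648), .ofNat (nat_lit 0)],
  []],
  [[],
  [],
  [],
  [],
  [],
  [],
  [.ofNat (nat_lit 0), .ofNat (nat_lit 24596097717839989248), .ofNat (nat_lit 0)],
  []],
  [[],
  [],
  [],
  [],
  [],
  [],
  [],
  [.ofNat (nat_lit 0), .negSucc (nat_lit 34804124949613896575), .ofNat (nat_lit 0)]],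
  [[],
  [],
  [],
  [],
  [],
  [],
  [],
  []]],
  [],
  [],
  [],
  [],
  []],
  [[],
  [],
  [],
  [],
  [],
  [],
  [],
  [[[.ofNat (nat_lit 0), .ofNat (nat_lit 19060604489210821632), .ofNat (nat_lit 5712845306890779648)],
  [],
  [],
  [],
  [],
  [],
  [],
  []],
  [[.negSucc (nat_lit 19060604489210821631), .negSucc (nat_lit 91909823183328655871), .ofNat (nat_lit 0)],
  [],
  [],
  [],
  [],
  [],
  [],
  []],
  [[],
  [.ofNat (nat_lit 0), .ofNat (nat_lit 195354771192703952640), .ofNat (nat_lit 0)],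
  [],
  [],
  [],
  [],
  [],
  []],
  [[],
  [],
  [.ofNat (nat_lit 0), .negSucc (nat_lit 181354369914052750079), .ofNat (nat_lit 0)],
  [],
  [],
  [],
  [],
  []],
  [[],
  [],
  [],
  [.ofNat (nat_lit 0), .negSucc (nat_lit 180801110313497539583), .ofNat (nat_lit 0)],
  [],
  [],
  [],
  []],
  [[],
  [],
  [],
  [],
  [.ofNat (nat_lit 0), .ofNat (nat_lit 389812331570302907712), .ofNat (nat_lit 0)],
  [],
  [],
  []],
  [[],
  [],
  [],
  [],
  [.ofNat (nat_lit 0), .ofNat (nat_lit 15187699239514345728), .ofNat (nat_lit 0)],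
  [],
  [],
  []],
  [[],
  [],
  [],
  [],
  [],
  [.ofNat (nat_lit 0), .negSucc (nat_lit 351303572314130347007), .ofNat (nat_lit 0)],
  [],
  []],
  [[],
  [],
  [],
  [],
  [],
  [],
  [.ofNat (nat_lit 0), .ofNat (nat_lit 56649593942220463776), .ofNat (nat_lit 0)],
  []],
  [[],
  [],
  [],
  [],
  [],
  [],
  [.ofNat (nat_lit 0), .ofNat (nat_lit 101682128955063571200), .ofNat (nat_lit 0)],
  []],
  [[],
  [],
  [],
  [],
  [],
  [],
  [],
  [.ofNat (nat_lit 0), .negSucc (nat_lit 14873963098760682335), .ofNat (nat_lit 0)]],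
  [[],
  [],
  [],
  [],
  [],
  [],
  [],
  []]],
  [],
  [],
  [],
  []],
  [[],
  [],
  [],
  [],
  [],
  [],
  [],
  [],
  [[[.ofNat (nat_lit 0), .ofNat (nat_lit 8495823997808593920), .ofNat (nat_lit 42594173164664340480)],
  [],
  [],
  [],
  [],
  [],
  [],
  []],
  [[.negSucc (nat_lit 8495823997808593919), .negSucc (nat_lit 68401946450197597823), .ofNat (nat_lit 0)],
  [],
  [],
  [],
  [],
  [],
  [],
  []],
  [[],
  [.ofNat (nat_lit 0), .ofNat (nat_lit 41186338029398100096), .ofNat (nat_lit 0)],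
  [],
  [],
  [],
  [],
  [],
  []],
  [[],
  [],
  [.ofNat (nat_lit 0), .ofNat (nat_lit 56079375926783372352), .ofNat (nat_lit 0)],
  [],
  [],
  [],
  [],
  []],
  [[],
  [],
  [],
  [.ofNat (nat_lit 0), .negSucc (nat_lit 184136211842317151615), .ofNat (nat_lit 0)],
  [],
  [],
  [],
  []],
  [[],
  [],
  [],
  [],
  [.ofNat (nat_lit 0), .ofNat (nat_lit 79843676661585199872), .ofNat (nat_lit 0)],
  [],
  [],
  []],
  [[],
  [],
  [],
  [],
  [.ofNat (nat_lit 0), .ofNat (nat_lit 51857850486563163648), .ofNat (nat_lit 0)],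
  [],
  [],
  []],
  [[],
  [],
  [],
  [],
  [],
  [.ofNat (nat_lit 0), .negSucc (nat_lit 56649593942220463775), .ofNat (nat_lit 0)],
  [],
  []],
  [[],
  [],
  [],
  [],
  [],
  [],
  [.ofNat (nat_lit 0), .ofNat (nat_lit 11064580574567304384), .ofNat (nat_lit 0)],
  []],
  [[],
  [],
  [],
  [],
  [],
  [],
  [.ofNat (nat_lit 0), .negSucc (nat_lit 11482993605824993087), .ofNat (nat_lit 0)],
  []],
  [[],
  [],
  [],
  [],
  [],
  [],
  [],
  [.ofNat (nat_lit 0), .negSucc (nat_lit 1228974312128262335), .ofNat (nat_lit 0)]],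
  [[],
  [],
  [],
  [],
  [],
  [],
  [],
  [.ofNat (nat_lit 0), .ofNat (nat_lit 1657339283314947456), .ofNat (nat_lit 0)]]],
  [[[.ofNat (nat_lit 0), .negSucc (nat_lit 23419423155611418623), .negSucc (nat_lit 57945646046578987007)],
  [],
  [],
  [],
  [],
  [],
  [],
  []],
  [[.ofNat (nat_lit 23419423155611418624), .ofNat (nat_lit 35112842639309965824), .ofNat (nat_lit 0)],
  [],
  [],
  [],
  [],
  [],
  [],
  []],
  [[],
  [.ofNat (nat_lit 0), .negSucc (nat_lit 48785475835429917695), .ofNat (nat_lit 0)],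
  [],
  [],
  [],
  [],
  [],
  []],
  [[],
  [],
  [.ofNat (nat_lit 0), .ofNat (nat_lit 151435530405061479936), .ofNat (nat_lit 0)],
  [],
  [],
  [],
  [],
  []],
  [[],
  [],
  [],
  [.ofNat (nat_lit 0), .negSucc (nat_lit 73360450947667765247), .ofNat (nat_lit 0)],
  [],
  [],
  [],
  []],
  [[],
  [],
  [],
  [],
  [.ofNat (nat_lit 0), .ofNat (nat_lit 59695582091683556736), .ofNat (nat_lit 0)],
  [],
  [],
  []],
  [[],
  [],
  [],
  [],
  [.ofNat (nat_lit 0), .ofNat (nat_lit 24596097717839989248), .ofNat (nat_lit 0)],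
  [],
  [],
  []],
  [[],
  [],
  [],
  [],
  [],
  [.ofNat (nat_lit 0), .negSucc (nat_lit 101682128955063571199), .ofNat (nat_lit 0)],
  [],
  []],
  [[],
  [],
  [],
  [],
  [],
  [],
  [.ofNat (nat_lit 0), .negSucc (nat_lit 11482993605824993087), .ofNat (nat_lit 0)],
  []],
  [[],
  [],
  [],
  [],
  [],
  [],
  [.ofNat (nat_lit 0), .ofNat (nat_lit 45931974423299972352), .ofNat (nat_lit 0)],
  []],
  [[],
  [],
  [],
  [],
  [],
  [],
  [],
  [.ofNat (nat_lit 0), .negSucc (nat_lit 3314678566629894911), .ofNat (nat_lit 0)]],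
  [[],
  [],
  [],
  [],
  [],
  [],
  [],
  [.ofNat (nat_lit 0), .negSucc (nat_lit 6629357133259789823), .ofNat (nat_lit 0)]]],
  [],
  []],
  [[],
  [],
  [],
  [],
  [],
  [],
  [],
  [],
  [],
  [],
  [[[],
  [],
  [],
  [],
  [],
  [],
  [],
  []],
  [[.ofNat (nat_lit 0), .ofNat (nat_lit 23090508763545678336), .ofNat (nat_lit 0)],
  [],
  [],
  [],
  [],
  [],
  [],
  []],
  [[],
  [.ofNat (nat_lit 0), .negSucc (nat_lit 59495852395042729343), .ofNat (nat_lit 0)],
  [],
  [],
  [],
  [],
  [],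
  []],
  [[],
  [],
  [.ofNat (nat_lit 0), .ofNat (nat_lit 66785517365664613824), .ofNat (nat_lit 0)],
  [],
  [],
  [],
  [],
  []],
  [[],
  [],
  [],
  [.ofNat (nat_lit 0), .negSucc (nat_lit 84756246315237729791), .ofNat (nat_lit 0)],
  [],
  [],
  [],
  []],
  [[],
  [],
  [],
  [],
  [.ofNat (nat_lit 0), .ofNat (nat_lit 15990696208025358624), .ofNat (nat_lit 0)],
  [],
  [],
  []],
  [[],
  [],
  [],
  [],
  [.ofNat (nat_lit 0), .ofNat (nat_lit 34804124949613896576), .ofNat (nat_lit 0)],
  [],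
  [],
  []],
  [[],
  [],
  [],
  [],
  [],
  [.ofNat (nat_lit 0), .negSucc (nat_lit 14873963098760682335), .ofNat (nat_lit 0)],
  [],
  []],
  [[],
  [],
  [],
  [],
  [],
  [],
  [.ofNat (nat_lit 0), .ofNat (nat_lit 1228974312128262336), .ofNat (nat_lit 0)],
  []],
  [[],
  [],
  [],
  [],
  [],
  [],
  [.ofNat (nat_lit 0), .ofNat (nat_lit 3314678566629894912), .ofNat (nat_lit 0)],
  []],
  [[],
  [],
  [],
  [],
  [],
  [],
  [],
  []],
  [[],
  [],
  [],
  [],
  [],
  [],
  [],
  []]],
  [[[],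
  [],
  [],
  [],
  [],
  [],
  [],
  []],
  [[.ofNat (nat_lit 0), .ofNat (nat_lit 13258714266519579648), .ofNat (nat_lit 0)],
  [],
  [],
  [],
  [],
  [],
  [],
  []],
  [[],
  [],
  [],
  [],
  [],
  [],
  [],
  []],
  [[],
  [],
  [],
  [],
  [],
  [],
  [],
  []],
  [[],
  [],
  [],
  [.ofNat (nat_lit 0), .negSucc (nat_lit 16461151630285888511), .ofNat (nat_lit 0)],
  [],
  [],
  [],
  []],
  [[],
  [],
  [],
  [],
  [],
  [],
  [],
  []],
  [[],
  [],
  [],
  [],
  [],
  [],
  [],
  []],
  [[],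
  [],
  [],
  [],
  [],
  [],
  [],
  []],
  [[],
  [],
  [],
  [],
  [],
  [],
  [.ofNat (nat_lit 0), .negSucc (nat_lit 1657339283314947455), .ofNat (nat_lit 0)],
  []],
  [[],
  [],
  [],
  [],
  [],
  [],
  [.ofNat (nat_lit 0), .ofNat (nat_lit 6629357133259789824), .ofNat (nat_lit 0)],
  []],
  [[],
  [],
  [],
  [],
  [],
  [],
  [],
  []],
  [[],
  [],
  [],
  [],
  [],
  [],
  [],
  []]]]]]

noncomputable def BR5a_E : L5 := [[[[[]],
  [[]],
  [[]]],
  [[[.ofNat (nat_lit 1010490184192185504), .negSucc (nat_lit 470836111585113503), .ofNat (nat_lit 0)]],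
  [[.ofNat (nat_lit 0), .ofNat (nat_lit 767055920135350176), .ofNat (nat_lit 0)]],
  [[]]],
  [[[.negSucc (nat_lit 8301235592871819359), .ofNat (nat_lit 4045116933666145440), .ofNat (nat_lit 0)]],
  [[.ofNat (nat_lit 0), .negSucc (nat_lit 5295047873057309087), .ofNat (nat_lit 0)]],
  [[]]],
  [[[.ofNat (nat_lit 30388408811920177344), .negSucc (nat_lit 18044524039778467775), .ofNat (nat_lit 0)]],
  [[.ofNat (nat_lit 0), .ofNat (nat_lit 16434932847806416032), .ofNat (nat_lit 0)]],
  [[]]],
  [[[.negSucc (nat_lit 62219485852930840607), .ofNat (nat_lit 47436627419139914496), .ofNat (nat_lit 0)]],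
  [[.ofNat (nat_lit 0), .negSucc (nat_lit 29811100608974954303), .ofNat (nat_lit 0)]],
  [[]]],
  [[[.ofNat (nat_lit 75723397458152642496), .negSucc (nat_lit 75319183557715525919), .ofNat (nat_lit 0)]],
  [[.ofNat (nat_lit 0), .ofNat (nat_lit 33251708308899684384), .ofNat (nat_lit 0)]],
  [[]]],
  [[[.negSucc (nat_lit 54714046071906059903), .ofNat (nat_lit 72092685826247193504), .ofNat (nat_lit 0)]],
  [[.ofNat (nat_lit 0), .negSucc (nat_lit 21128837705417247263), .ofNat (nat_lit 0)]],
  [[]]],
  [[[.ofNat (nat_lit 22231975129711007328), .negSucc (nat_lit 39677113666672962623), .ofNat (nat_lit 0)]],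
  [[.ofNat (nat_lit 0), .ofNat (nat_lit 5252192383330310688), .ofNat (nat_lit 0)]],
  [[]]],
  [[[.negSucc (nat_lit 4423697806616014463), .ofNat (nat_lit 10887781585455572544), .ofNat (nat_lit 0)]],
  [[.ofNat (nat_lit 0), .ofNat (nat_lit 1250088822347020416), .ofNat (nat_lit 0)]],
  [[]]],
  [[[.ofNat (nat_lit 304193740348721664), .negSucc (nat_lit 950554388756756159), .ofNat (nat_lit 0)]],
  [[.ofNat (nat_lit 0), .negSucc (nat_lit 720992095069271039), .ofNat (nat_lit 0)]],
  [[]]]],
  [[[[]],
  [[]],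
  [[]]],
  [[[.negSucc (nat_lit 230844665274826751), .ofNat (nat_lit 0), .ofNat (nat_lit 0)]],
  [[.ofNat (nat_lit 0), .ofNat (nat_lit 46121898121423200), .ofNat (nat_lit 0)]],
  [[.ofNat (nat_lit 0), .negSucc (nat_lit 61604268450749567), .ofNat (nat_lit 0)]]],
  [[[.ofNat (nat_lit 2788374542015600352), .negSucc (nat_lit 33057417797882783), .ofNat (nat_lit 0)]],
  [[.ofNat (nat_lit 0), .negSucc (nat_lit 3849649580098146239), .ofNat (nat_lit 0)]],
  [[.ofNat (nat_lit 0), .ofNat (nat_lit 123208536901499136), .ofNat (nat_lit 0)]]],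
  [[[.negSucc (nat_lit 12957706450294343423), .ofNat (nat_lit 2835404024147772192), .ofNat (nat_lit 0)]],
  [[.ofNat (nat_lit 0), .ofNat (nat_lit 34371508515819701184), .ofNat (nat_lit 0)]],
  [[.ofNat (nat_lit 0), .negSucc (nat_lit 61604268450749567), .ofNat (nat_lit 0)]]],
  [[[.ofNat (nat_lit 26708237756407951776), .negSucc (nat_lit 13428316151569806335), .ofNat (nat_lit 0)]],
  [[.ofNat (nat_lit 0), .negSucc (nat_lit 110554350441059145311), .ofNat (nat_lit 0)]],
  [[]]],
  [[[.negSucc (nat_lit 21352266058408090559), .ofNat (nat_lit 26841087229791191616), .ofNat (nat_lit 0)]],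
  [[.ofNat (nat_lit 0), .ofNat (nat_lit 179227608620454987840), .ofNat (nat_lit 0)]],
  [[]]],
  [[[.negSucc (nat_lit 5865071740916945183), .negSucc (nat_lit 27117549149945289407), .ofNat (nat_lit 0)]],
  [[.ofNat (nat_lit 0), .negSucc (nat_lit 167350884829455318047), .ofNat (nat_lit 0)]],
  [[]]],
  [[[.ofNat (nat_lit 20704899702547970208), .ofNat (nat_lit 11955914490433064832), .ofNat (nat_lit 0)]],
  [[.ofNat (nat_lit 0), .ofNat (nat_lit 95149058712859131264), .ofNat (nat_lit 0)]],
  [[]]],
  [[[.negSucc (nat_lit 11872334500897029407), .ofNat (nat_lit 437028087352550112), .ofNat (nat_lit 0)]],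
  [[.ofNat (nat_lit 0), .negSucc (nat_lit 32034624433079102207), .ofNat (nat_lit 0)]],
  [[]]],
  [[[.ofNat (nat_lit 2076711414819712992), .negSucc (nat_lit 1490511112411600223), .ofNat (nat_lit 0)]],
  [[.ofNat (nat_lit 0), .ofNat (nat_lit 4995211536436468320), .ofNat (nat_lit 0)]],
  [[]]]],
  [[[[]],
  [[]],
  [[]]],
  [[[.ofNat (nat_lit 0), .negSucc (nat_lit 19020946086075743), .ofNat (nat_lit 0)]],
  [[.ofNat (nat_lit 0), .ofNat (nat_lit 150874609839793056), .ofNat (nat_lit 0)]],
  [[.ofNat (nat_lit 0), .negSucc (nat_lit 58263289376348447), .ofNat (nat_lit 0)]]],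
  [[[]],
  [[]],
  [[]]],
  [[[.ofNat (nat_lit 1065204046498721760), .ofNat (nat_lit 1018391625546812928), .ofNat (nat_lit 0)]],
  [[.ofNat (nat_lit 0), .ofNat (nat_lit 66768241753511712), .ofNat (nat_lit 0)]],
  [[.ofNat (nat_lit 0), .ofNat (nat_lit 174789868129045344), .ofNat (nat_lit 0)]]],
  [[[.negSucc (nat_lit 5882302501495849151), .negSucc (nat_lit 3559644026201798495), .ofNat (nat_lit 0)]],
  [[.ofNat (nat_lit 0), .negSucc (nat_lit 13051548131611165343), .ofNat (nat_lit 0)]],
  [[.ofNat (nat_lit 0), .negSucc (nat_lit 116526578752696895), .ofNat (nat_lit 0)]]],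
  [[[.ofNat (nat_lit 12004017053963272704), .ofNat (nat_lit 2151472657090368960), .ofNat (nat_lit 0)]],
  [[.ofNat (nat_lit 0), .ofNat (nat_lit 46949150634439126464), .ofNat (nat_lit 0)]],
  [[]]],
  [[[.negSucc (nat_lit 11150473978165660991), .ofNat (nat_lit 7410096457928076672), .ofNat (nat_lit 0)]],
  [[.ofNat (nat_lit 0), .negSucc (nat_lit 71373124597898419487), .ofNat (nat_lit 0)]],
  [[]]],
  [[[.ofNat (nat_lit 4392299502961661664), .negSucc (nat_lit 13604208000349963967), .ofNat (nat_lit 0)]],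
  [[.ofNat (nat_lit 0), .ofNat (nat_lit 57945372411931838496), .ofNat (nat_lit 0)]],
  [[]]],
  [[[.negSucc (nat_lit 328957058792515967), .ofNat (nat_lit 8212273944970942944), .ofNat (nat_lit 0)]],
  [[.ofNat (nat_lit 0), .negSucc (nat_lit 25917839239108512383), .ofNat (nat_lit 0)]],
  [[]]],
  [[[.negSucc (nat_lit 99787064969630015), .negSucc (nat_lit 1609361712898363295), .ofNat (nat_lit 0)]],
  [[.ofNat (nat_lit 0), .ofNat (nat_lit 5230346070653827488), .ofNat (nat_lit 0)]],
  [[]]]],
  [[[[]],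
  [[]],
  [[]]],
  [[[.negSucc (nat_lit 7471650599683775), .negSucc (nat_lit 14394726994813919), .ofNat (nat_lit 0)]],
  [[.ofNat (nat_lit 0), .negSucc (nat_lit 75283587225387359), .ofNat (nat_lit 0)]],
  [[.ofNat (nat_lit 0), .ofNat (nat_lit 127609701048611712), .ofNat (nat_lit 0)]]],
  [[[]],
  [[]],
  [[]]],
  [[[]],
  [[]],
  [[]]],
  [[[.ofNat (nat_lit 3400379414683429824), .negSucc (nat_lit 23866063644613247), .ofNat (nat_lit 0)]],
  [[.ofNat (nat_lit 0), .negSucc (nat_lit 2859021909251228159), .ofNat (nat_lit 0)]],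
  [[.ofNat (nat_lit 0), .negSucc (nat_lit 510438804194446847), .ofNat (nat_lit 0)]]],
  [[[.negSucc (nat_lit 17095704238605855455), .ofNat (nat_lit 969864277691812896), .ofNat (nat_lit 0)]],
  [[.ofNat (nat_lit 0), .ofNat (nat_lit 22068554464942739424), .ofNat (nat_lit 0)]],
  [[.ofNat (nat_lit 0), .ofNat (nat_lit 382829103145835136), .ofNat (nat_lit 0)]]],
  [[[.ofNat (nat_lit 32602600113717539232), .negSucc (nat_lit 3352501008517299263), .ofNat (nat_lit 0)]],
  [[.ofNat (nat_lit 0), .negSucc (nat_lit 43574722579716450911), .ofNat (nat_lit 0)]],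
  [[]]],
  [[[.negSucc (nat_lit 28559984491541062655), .ofNat (nat_lit 6252036600093694560), .ofNat (nat_lit 0)]],
  [[.ofNat (nat_lit 0), .ofNat (nat_lit 33278567869741656096), .ofNat (nat_lit 0)]],
  [[]]],
  [[[.ofNat (nat_lit 10752861727733250528), .negSucc (nat_lit 6091539151221165311), .ofNat (nat_lit 0)]],
  [[.ofNat (nat_lit 0), .negSucc (nat_lit 9209807616045677471), .ofNat (nat_lit 0)]],
  [[]]],
  [[[.negSucc (nat_lit 1092680875387617695), .ofNat (nat_lit 2260400072592384288), .ofNat (nat_lit 0)]],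
  [[.ofNat (nat_lit 0), .ofNat (nat_lit 371713357554348384), .ofNat (nat_lit 0)]],
  [[]]]],
  [[[[]],
  [[]],
  [[]]],
  [[[.negSucc (nat_lit 3696652629312191), .negSucc (nat_lit 14482057302047231), .ofNat (nat_lit 0)]],
  [[.ofNat (nat_lit 0), .ofNat (nat_lit 324941934010311072), .ofNat (nat_lit 0)]],
  [[.ofNat (nat_lit 0), .negSucc (nat_lit 190161680726987711), .ofNat (nat_lit 0)]]],
  [[[]],
  [[]],
  [[]]],
  [[[]],
  [[]],
  [[]]],
  [[[]],
  [[]],
  [[]]],
  [[[.ofNat (nat_lit 2959258675605550272), .ofNat (nat_lit 1468914616137440448), .ofNat (nat_lit 0)]],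
  [[.ofNat (nat_lit 0), .negSucc (nat_lit 6236395645161104639), .ofNat (nat_lit 0)]],
  [[.ofNat (nat_lit 0), .ofNat (nat_lit 950808403634938560), .ofNat (nat_lit 0)]]],
  [[[.negSucc (nat_lit 10459796641254747359), .negSucc (nat_lit 7443455742647101439), .ofNat (nat_lit 0)]],
  [[.ofNat (nat_lit 0), .ofNat (nat_lit 13186938411046291680), .ofNat (nat_lit 0)]],
  [[.ofNat (nat_lit 0), .negSucc (nat_lit 760646722907950847), .ofNat (nat_lit 0)]]],
  [[[.ofNat (nat_lit 13122287756014889376), .ofNat (nat_lit 11627043565498938720), .ofNat (nat_lit 0)]],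
  [[.ofNat (nat_lit 0), .negSucc (nat_lit 13925820127755792671), .ofNat (nat_lit 0)]],
  [[]]],
  [[[.negSucc (nat_lit 6672647069653240223), .negSucc (nat_lit 6683521909189957055), .ofNat (nat_lit 0)]],
  [[.ofNat (nat_lit 0), .ofNat (nat_lit 10636872130934640288), .ofNat (nat_lit 0)]],
  [[]]],
  [[[.ofNat (nat_lit 1054593931916860128), .ofNat (nat_lit 1045501527502726560), .ofNat (nat_lit 0)]],
  [[.ofNat (nat_lit 0), .negSucc (nat_lit 3986536703074345727), .ofNat (nat_lit 0)]],
  [[]]]],
  [[[[]],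
  [[]],
  [[]]],
  [[[.ofNat (nat_lit 5159736174530016), .negSucc (nat_lit 11090880648601631), .ofNat (nat_lit 0)]],
  [[.ofNat (nat_lit 0), .negSucc (nat_lit 322809481887104447), .ofNat (nat_lit 0)]],
  [[.ofNat (nat_lit 0), .negSucc (nat_lit 80689671662469695), .ofNat (nat_lit 0)]]],
  [[[]],
  [[]],
  [[]]],
  [[[]],
  [[]],
  [[]]],
  [[[]],
  [[]],
  [[]]],
  [[[]],
  [[]],
  [[]]],
  [[[.ofNat (nat_lit 734051667942220896), .ofNat (nat_lit 364554247193873280), .ofNat (nat_lit 0)]],
  [[.ofNat (nat_lit 0), .ofNat (nat_lit 915346489386125952), .ofNat (nat_lit 0)]],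
  [[.ofNat (nat_lit 0), .ofNat (nat_lit 484138029974818176), .ofNat (nat_lit 0)]]],
  [[[.negSucc (nat_lit 2698463532553522847), .negSucc (nat_lit 1445606632957994495), .ofNat (nat_lit 0)]],
  [[.ofNat (nat_lit 0), .ofNat (nat_lit 2175882612496603200), .ofNat (nat_lit 0)]],
  [[.ofNat (nat_lit 0), .negSucc (nat_lit 403448358312348479), .ofNat (nat_lit 0)]]],
  [[[.ofNat (nat_lit 3153494171884142880), .ofNat (nat_lit 1886277569523182208), .ofNat (nat_lit 0)]],
  [[.ofNat (nat_lit 0), .negSucc (nat_lit 4515328838054748671), .ofNat (nat_lit 0)]],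
  [[]]],
  [[[.negSucc (nat_lit 1194242043447370943), .negSucc (nat_lit 794134303110459359), .ofNat (nat_lit 0)]],
  [[.ofNat (nat_lit 0), .ofNat (nat_lit 1746909218059123968), .ofNat (nat_lit 0)]],
  [[]]]],
  [[[[]],
  [[]],
  [[]]],
  [[[.negSucc (nat_lit 357129679316543), .ofNat (nat_lit 11861416612279872), .ofNat (nat_lit 0)]],
  [[.ofNat (nat_lit 0), .negSucc (nat_lit 130675679924751647), .ofNat (nat_lit 0)]],
  [[.ofNat (nat_lit 0), .negSucc (nat_lit 5780614384935359), .ofNat (nat_lit 0)]]],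
  [[[]],
  [[]],
  [[]]],
  [[[]],
  [[]],
  [[]]],
  [[[]],
  [[]],
  [[]]],
  [[[]],
  [[]],
  [[]]],
  [[[.ofNat (nat_lit 197744909157086688), .ofNat (nat_lit 1626930241312809888), .ofNat (nat_lit 0)]],
  [[.ofNat (nat_lit 0), .negSucc (nat_lit 1606742183668449887), .ofNat (nat_lit 0)]],
  [[.ofNat (nat_lit 0), .ofNat (nat_lit 34683686309612160), .ofNat (nat_lit 0)]]],
  [[[.negSucc (nat_lit 432783442595907647), .negSucc (nat_lit 4329412611931833119), .ofNat (nat_lit 0)]],
  [[.ofNat (nat_lit 0), .ofNat (nat_lit 7931755135322542656), .ofNat (nat_lit 0)]],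
  [[.ofNat (nat_lit 0), .negSucc (nat_lit 28903071924676799), .ofNat (nat_lit 0)]]],
  [[[.ofNat (nat_lit 275189195155087584), .ofNat (nat_lit 3683143167026997600), .ofNat (nat_lit 0)]],
  [[.ofNat (nat_lit 0), .negSucc (nat_lit 9997878280241722463), .ofNat (nat_lit 0)]],
  [[]]],
  [[[.negSucc (nat_lit 39793532036950079), .negSucc (nat_lit 992522213020254239), .ofNat (nat_lit 0)]],
  [[.ofNat (nat_lit 0), .ofNat (nat_lit 3803541008512381344), .ofNat (nat_lit 0)]],
  [[]]]],
  [[[[]],
  [[]],
  [[]]],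
  [[[.negSucc (nat_lit 1379783840843231), .ofNat (nat_lit 29978687060820288), .ofNat (nat_lit 0)]],
  [[.ofNat (nat_lit 0), .ofNat (nat_lit 317452146955480512), .ofNat (nat_lit 0)]],
  [[.ofNat (nat_lit 0), .ofNat (nat_lit 180308081614811328), .ofNat (nat_lit 0)]]],
  [[[]],
  [[]],
  [[]]],
  [[[]],
  [[]],
  [[]]],
  [[[]],
  [[]],
  [[]]],
  [[[]],
  [[]],
  [[]]],
  [[[]],
  [[]],
  [[]]],
  [[[.ofNat (nat_lit 730595494924093728), .ofNat (nat_lit 537219545807451168), .ofNat (nat_lit 0)]],
  [[.ofNat (nat_lit 0), .negSucc (nat_lit 3121596028510728767), .ofNat (nat_lit 0)]],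
  [[.ofNat (nat_lit 0), .negSucc (nat_lit 1262156571303679295), .ofNat (nat_lit 0)]]],
  [[[.negSucc (nat_lit 1450152719121441599), .negSucc (nat_lit 1314268588101464639), .ofNat (nat_lit 0)]],
  [[.ofNat (nat_lit 0), .ofNat (nat_lit 3703574881377613440), .ofNat (nat_lit 0)]],
  [[.ofNat (nat_lit 0), .ofNat (nat_lit 1081848489688867968), .ofNat (nat_lit 0)]]],
  [[[.ofNat (nat_lit 720937008038191104), .ofNat (nat_lit 747070355233193184), .ofNat (nat_lit 0)]],
  [[.ofNat (nat_lit 0), .negSucc (nat_lit 899430999822365183), .ofNat (nat_lit 0)]],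
  [[]]]],
  [[[[]],
  [[]],
  [[]]],
  [[[.ofNat (nat_lit 293796411821568), .negSucc (nat_lit 442131283576511), .ofNat (nat_lit 0)]],
  [[.ofNat (nat_lit 0), .negSucc (nat_lit 2176432423488287), .ofNat (nat_lit 0)]],
  [[.ofNat (nat_lit 0), .negSucc (nat_lit 3574148843489183), .ofNat (nat_lit 0)]]],
  [[[]],
  [[]],
  [[]]],
  [[[]],
  [[]],
  [[]]],
  [[[]],
  [[]],
  [[]]],
  [[[]],
  [[]],
  [[]]],
  [[[]],
  [[]],
  [[]]],
  [[[]],
  [[]],
  [[]]],
  [[[.negSucc (nat_lit 2350371294572543), .ofNat (nat_lit 3537050268612096), .ofNat (nat_lit 0)]],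
  [[.ofNat (nat_lit 0), .ofNat (nat_lit 17411459387906304), .ofNat (nat_lit 0)]],
  [[.ofNat (nat_lit 0), .ofNat (nat_lit 28593190747913472), .ofNat (nat_lit 0)]]],
  [[[.ofNat (nat_lit 2056574882750976), .negSucc (nat_lit 3094918985035583), .ofNat (nat_lit 0)]],
  [[.ofNat (nat_lit 0), .negSucc (nat_lit 15235026964418015), .ofNat (nat_lit 0)]],
  [[.ofNat (nat_lit 0), .negSucc (nat_lit 25019041904424287), .ofNat (nat_lit 0)]]]],
  [[[[]],
  [[]],
  [[]]],
  [[[.negSucc (nat_lit 12427027007816735), .negSucc (nat_lit 23550527864226239), .ofNat (nat_lit 0)]],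
  [[.ofNat (nat_lit 0), .negSucc (nat_lit 65247567491635775), .ofNat (nat_lit 0)]],
  [[.ofNat (nat_lit 0), .negSucc (nat_lit 59190688689819551), .ofNat (nat_lit 0)]]],
  [[[]],
  [[]],
  [[]]],
  [[[]],
  [[]],
  [[]]],
  [[[]],
  [[]],
  [[]]],
  [[[]],
  [[]],
  [[]]],
  [[[]],
  [[]],
  [[]]],
  [[[]],
  [[]],
  [[]]],
  [[[.ofNat (nat_lit 99416216062533888), .ofNat (nat_lit 188404222913809920), .ofNat (nat_lit 0)]],
  [[.ofNat (nat_lit 0), .ofNat (nat_lit 521980539933086208), .ofNat (nat_lit 0)]],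
  [[.ofNat (nat_lit 0), .ofNat (nat_lit 473525509518556416), .ofNat (nat_lit 0)]]],
  [[[.negSucc (nat_lit 86989189054717151), .negSucc (nat_lit 164853695049583679), .ofNat (nat_lit 0)]],
  [[.ofNat (nat_lit 0), .negSucc (nat_lit 456732972441450431), .ofNat (nat_lit 0)]],
  [[.ofNat (nat_lit 0), .negSucc (nat_lit 414334820828736863), .ofNat (nat_lit 0)]]]],
  [[[[]],
  [[]],
  [[]]],
  [[[]],
  [[]],
  [[]]],
  [[[]],
  [[]],
  [[]]],
  [[[]],
  [[]],
  [[]]],
  [[[]],
  [[]],
  [[]]],
  [[[]],
  [[]],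
  [[]]],
  [[[]],
  [[]],
  [[]]],
  [[[]],
  [[]],
  [[]]],
  [[[]],
  [[]],
  [[]]],
  [[[]],
  [[]],
  [[]]]],
  [[[[]],
  [[]],
  [[]]],
  [[[]],
  [[]],
  [[]]],
  [[[]],
  [[]],
  [[]]],
  [[[]],
  [[]],
  [[]]],
  [[[]],
  [[]],
  [[]]],
  [[[]],
  [[]],
  [[]]],
  [[[]],
  [[]],
  [[]]],
  [[[]],
  [[]],
  [[]]],
  [[[]],
  [[]],
  [[]]],
  [[[]],
  [[]],
  [[]]]]]

noncomputable def BR5a_tn : List (List ℕ) := [[nat_lit 16384, nat_lit 0, nat_lit 0],
  [nat_lit 32768, nat_lit 13184, nat_lit 0],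
  [nat_lit 16384, nat_lit 13184, nat_lit 10609]]

noncomputable def BR5a_zn : List (List ℕ) := [[nat_lit 18014398509481984, nat_lit 1688849860263936, nat_lit 158329674399744, nat_lit 14843406974976, nat_lit 1391569403904, nat_lit 130459631616, nat_lit 12230590464, nat_lit 1146617856, nat_lit 107495424, nat_lit 10077696],
  [nat_lit 162129586585337856, nat_lit 23362423066984448, nat_lit 2955487255461888, nat_lit 348820063911936, nat_lit 39427799777280, nat_lit 4326911115264, nat_lit 464762437632, nat_lit 49113464832, nat_lit 5123948544, nat_lit 529079040],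
  [nat_lit 648518346341351424, nat_lit 126100789566373888, nat_lit 21642786881142784, nat_lit 3296473299025920, nat_lit 460377544458240, nat_lit 60395561680896, nat_lit 7563600986112, nat_lit 914141085696, nat_lit 107435704320, nat_lit 12345177600],
  [nat_lit 1513209474796486656, nat_lit 370421069351223296, nat_lit 82045557664645120, nat_lit 16231196807659520, nat_lit 2864055991664640, nat_lit 459878657163264, nat_lit 68578845917184, nat_lit 9651470008320, nat_lit 1297310515200, nat_lit 168031584000],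
  [nat_lit 2269814212194729984, nat_lit 669910444571361280, nat_lit 183332568815370240, nat_lit 45824895866634240, nat_lit 10308463750021120, nat_lit 2072820439842816, nat_lit 377244210954240, nat_lit 63219231129600, nat_lit 9907640064000, nat_lit 1470276360000],
  [nat_lit 2269814212194729984, nat_lit 784189285115887616, nat_lit 256542451039207424, nat_lit 78485957489197056, nat_lit 22110084691656704, nat_lit 5637441113292800, nat_lit 1284839571456000, nat_lit 263539906560000, nat_lit 49372243200000, nat_lit 8576612100000],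
  [nat_lit 1513209474796486656, nat_lit 598978750440275968, nat_lit 228465322112319488, nat_lit 83229319370899456, nat_lit 28614672001269760, nat_lit 9136636952576000, nat_lit 2654695751680000, nat_lit 687984460800000, nat_lit 159249686400000, nat_lit 33353491500000],
  [nat_lit 648518346341351424, nat_lit 289356276058554368, nat_lit 126228332915195904, nat_lit 53546559870074880, nat_lit 21921352017510400, nat_lit 8567138549760000, nat_lit 3145071820800000, nat_lit 1058652761600000, nat_lit 316240512000000, nat_lit 83383728750000],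
  [nat_lit 162129586585337856, nat_lit 80501843339247616, nat_lit 39560428367380480, nat_lit 19193349852364800, nat_lit 9161299460096000, nat_lit 4279972659200000, nat_lit 1941329510400000, nat_lit 843308032000000, nat_lit 341770345000000, nat_lit 121601271093750],
  [nat_lit 18014398509481984, nat_lit 9851624184872960, nat_lit 5387606976102400, nat_lit 2946347565056000, nat_lit 1611283824640000, nat_lit 881170841600000, nat_lit 481890304000000, nat_lit 263533760000000, nat_lit 144120025000000, nat_lit 78815638671875],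
  [nat_lit 18014398509481984, nat_lit 9851624184872960, nat_lit 5387606976102400, nat_lit 2946347565056000, nat_lit 1611283824640000, nat_lit 881170841600000, nat_lit 481890304000000, nat_lit 263533760000000, nat_lit 144120025000000, nat_lit 78815638671875],
  [nat_lit 162129586585337856, nat_lit 96827391988465664, nat_lit 57416497202462720, nat_lit 33840906318643200, nat_lit 19841809383424000, nat_lit 11581102489600000, nat_lit 6732695961600000, nat_lit 3900299648000000, nat_lit 2252390105000000, nat_lit 1297080225000000],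
  [nat_lit 648518346341351424, nat_lit 419960665252298752, nat_lit 269076883595853824, nat_lit 170727011600302080, nat_lit 107365431404134400, nat_lit 66976177192960000, nat_lit 41476003430400000, nat_lit 25514585689600000, nat_lit 15601198592000000, nat_lit 9487215360000000],
  [nat_lit 1513209474796486656, nat_lit 1056094112618381312, nat_lit 728435249494622208, nat_lit 496712899062923264, nat_lit 335001446871203840, nat_lit 223593170468864000, nat_lit 147777688862720000, nat_lit 96777341337600000, nat_lit 62838495641600000, nat_lit 40478785536000000],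
  [nat_lit 2269814212194729984, nat_lit 1698420009472098304, nat_lit 1256482305803812864, nat_lit 918861111418159104, nat_lit 664213622498525184, nat_lit 474650101206220800, nat_lit 335389755703296000, nat_lit 234416620175360000, nat_lit 162135434854400000, nat_lit 111027526041600000],
  [nat_lit 2269814212194729984, nat_lit 1812698850016624640, nat_lit 1433257387271127040, nat_lit 1121433828049551360, nat_lit 867931613634232320, nat_lit 664213622498525184, nat_lit 502502170306805760, nat_lit 375779009914470400, nat_lit 277785331367936000, nat_lit 203021761904640000],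
  [nat_lit 1513209474796486656, nat_lit 1284651793707433984, nat_lit 1081985412429250560, nat_lit 903534331643822080, nat_lit 747622552033034240, nat_lit 612574074278772736, nat_lit 496712899062923264, nat_lit 398363027067371520, nat_lit 315848458974003200, nat_lit 247493195464704000],
  [nat_lit 648518346341351424, nat_lit 583216151744479232, nat_lit 521612714263445504, nat_lit 463708033898250240, nat_lit 409502110648893440, nat_lit 358994944515375104, nat_lit 312186535497695232, nat_lit 269076883595853824, nat_lit 229665988809850880, nat_lit 193953851139686400],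
  [nat_lit 162129586585337856, nat_lit 153966812260728832, nat_lit 145804037936119808, nat_lit 137641263611510784, nat_lit 129478489286901760, nat_lit 121315714962292736, nat_lit 113152940637683712, nat_lit 104990166313074688, nat_lit 96827391988465664, nat_lit 88664617663856640],
  [nat_lit 18014398509481984, nat_lit 18014398509481984, nat_lit 18014398509481984, nat_lit 18014398509481984, nat_lit 18014398509481984, nat_lit 18014398509481984, nat_lit 18014398509481984, nat_lit 18014398509481984, nat_lit 18014398509481984, nat_lit 18014398509481984],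
  [nat_lit 18014398509481984, nat_lit 18014398509481984, nat_lit 18014398509481984, nat_lit 18014398509481984, nat_lit 18014398509481984, nat_lit 18014398509481984, nat_lit 18014398509481984, nat_lit 18014398509481984, nat_lit 18014398509481984, nat_lit 18014398509481984],
  [nat_lit 162129586585337856, nat_lit 170292360909946880, nat_lit 178455135234555904, nat_lit 186617909559164928, nat_lit 194780683883773952, nat_lit 202943458208382976, nat_lit 211106232532992000, nat_lit 219269006857601024, nat_lit 227431781182210048, nat_lit 235594555506819072],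
  [nat_lit 648518346341351424, nat_lit 713820540938223616, nat_lit 782821492650934272, nat_lit 855521201479483392, nat_lit 931919667423870976, nat_lit 1012016890484097024, nat_lit 1095812870660161536, nat_lit 1183307607952064512, nat_lit 1274501102359805952, nat_lit 1369393353883385856],
  [nat_lit 1513209474796486656, nat_lit 1741767155885539328, nat_lit 1996216136785461248, nat_lit 2278232416814366720, nat_lit 2589491995290370048, nat_lit 2931670871531585536, nat_lit 3306445044856127488, nat_lit 3715490514582110208, nat_lit 4160483280027648000, nat_lit 4643099340510855168],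
  [nat_lit 2269814212194729984, nat_lit 2726929574372835328, nat_lit 3261718835983548416, nat_lit 3884237992935555072, nat_lit 4605302478328561664, nat_lit 5436487162453295104, nat_lit 6390126352791502848, nat_lit 7479313794015952896, nat_lit 8717902667990433792, nat_lit 10120505593769754624],
  [nat_lit 2269814212194729984, nat_lit 2841208414917361664, nat_lit 3542059116694339584, nat_lit 4397506307297378304, nat_lit 5436487162453295104, nat_lit 6692080163821191168, nat_lit 8201849218969632768, nat_lit 10008187781353832448, nat_lit 12158662970292830208, nat_lit 14706359690946674688],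
  [nat_lit 1513209474796486656, nat_lit 1970324836974592000, nat_lit 2556896698207043584, nat_lit 3306445044856127488, nat_lit 4260084235194335232, nat_lit 5467899479313088512, nat_lit 6990479248396124160, nat_lit 8900603613357539328, nat_lit 11285088512844496896, nat_lit 14246785950604591104],
  [nat_lit 648518346341351424, nat_lit 877076027430404096, nat_lit 1183307607952064512, nat_lit 1592353077678047232, nat_lit 2136946798290272256, nat_lit 2859482223243952128, nat_lit 3814544405724659712, nat_lit 5071980950192738304, nat_lit 6720582063008415744, nat_lit 8872440357630984192],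
  [nat_lit 162129586585337856, nat_lit 227431781182210048, nat_lit 318625275589951488, nat_lit 445766065717248000, nat_lit 622707333427888128, nat_lit 868475926449487872, nat_lit 1209116626376196096, nat_lit 1680145515752103936, nat_lit 2329785770992511040, nat_lit 3223191223670630976],
  [nat_lit 18014398509481984, nat_lit 26177172834091008, nat_lit 38038704274538496, nat_lit 55274992148938752, nat_lit 80321472966426624, nat_lit 116717140404338688, nat_lit 169604594650054656, nat_lit 246456676600860672, nat_lit 358132358185625664, nat_lit 520411082988487293]]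

noncomputable def BR5a_sn : List (List ℕ) := [[nat_lit 4096, nat_lit 0, nat_lit 0],
  [nat_lit 8192, nat_lit 2816, nat_lit 0],
  [nat_lit 4096, nat_lit 2816, nat_lit 1936]]

noncomputable def BR5a_en : List (List ℕ) := [[nat_lit 320000000, nat_lit 143046875, nat_lit 64000000, nat_lit 28609375, nat_lit 12800000, nat_lit 5721875, nat_lit 2560000, nat_lit 1144375],
  [nat_lit 320000000, nat_lit 143125000, nat_lit 64000000, nat_lit 28625000, nat_lit 12800000, nat_lit 5725000, nat_lit 2560000, nat_lit 1145000]]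

noncomputable def BR5a_en1 : List (List ℕ) := [[nat_lit 1]]


end Crest.Agent.R163.Ck
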