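import Crest.Agent.R163.B9m1b_256D

/-! Row 163: Bellman certificate, data (generated). -/

set_option autoImplicit false
set_option Elab.async false
set_option maxRecDepth 100000

namespace Crest.Agent.R163.Ck

noncomputable def BR5b : Bell := ⟨true, 9, 3, 3, 1, 8, 32, fs3_9, lams3_9, TT3_9,
  [[[[.ofNat (nat_lit 40410703335663549), .negSucc (nat_lit 39171867783726491), .negSucc (nat_lit 299508806031298109), .ofNat (nat_lit 39929362430382963), .ofNat (nat_lit 763902050467057056), .ofNat (nat_lit 422206465789648548), .negSucc (nat_lit 20889098107239050), .negSucc (nat_lit 572789268208179197), .negSucc (nat_lit 446293051775809271), .negSucc (nat_lit 1510898800850522873), .ofNat (nat_lit 5597233438339791), .ofNat (nat_lit 264055032977210028), .ofNat (nat_lit 549737777628048150), .ofNat (nat_lit 934987628441106954), .ofNat (nat_lit 1661390294244583932), .negSucc (nat_lit 498041903231405), .negSucc (nat_lit 77120392502023451), .negSucc (nat_lit 189940279025267567), .negSucc (nat_lit 317420925321432311), .negSucc (nat_lit 138458837978430911),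 .negSucc (nat_lit 1799667694978635383), .negSucc (nat_lit 539812719688718411), .negSucc (nat_lit 105226023781448), .ofNat (nat_lit 14176059954025572), .ofNat (nat_lit 36706862130686928), .ofNat (nat_lit 59632021682468946), .ofNat (nat_lit 73000216078433910), .ofNat (nat_lit 482295158218916064), .ofNat (nat_lit 427060906104060432), .ofNat (nat_lit 689019812530022898), .ofNat (nat_lit 29521557939657), .negSucc (nat_lit 1512736017538433), .negSucc (nat_lit 3793917761527583), .negSucc (nat_lit 6013890782239583), .negSucc (nat_lit 8975916866896349), .negSucc (nat_lit 58506659583729047), .negSucc (nat_lit 6928878432383825), .negSucc (nat_lit 181347418785826469), .negSucc (nat_lit 130600969552945565), .negSucc (nat_lit 194633035242372083), .negSucc (nat_lit 2081725304515), .ofNat (nat_lit 71312829482076), .ofNat (nat_lit 172757404730004), .ofNat (nat_lit 277102476543816), .ofNat (nat_lit 383491196970072), .ofNat (nat_lit 2333618689468272), .ofNat (nat_lit 925489208714448), .ofNat (nat_lit 13319005484680572), .ofNat (nat_lit 9061103161651392),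 .ofNat (nat_lit 11519349808617072), .ofNat (nat_lit 37012033846364268), .ofNat (nat_lit 5678143813241984)]],
  [[.negSucc (nat_lit 9259022241945467), .ofNat (nat_lit 19496990296921653), .ofNat (nat_lit 35180566144959870), .negSucc (nat_lit 13709467279943315), .negSucc (nat_lit 127219508153651879), .negSucc (nat_lit 19597853852314415), .ofNat (nat_lit 1598368437118611), .ofNat (nat_lit 65680176596163372), .ofNat (nat_lit 182274571924485858), .ofNat (nat_lit 213591008724303780), .ofNat (nat_lit 2948572020098115), .ofNat (nat_lit 6814573796390904), .negSucc (nat_lit 315000277066034009), .negSucc (nat_lit 100934903316535451), .negSucc (nat_lit 814384189705072859), .negSucc (nat_lit 1827006416774756), .negSucc (nat_lit 18023989115443841), .ofNat (nat_lit 123123890279411604), .negSucc (nat_lit 29570210839685339), .ofNat (nat_lit 130149355291142580), .ofNat (nat_lit 1222418173877011674), .ofNat (nat_lit 599386983380044686), .ofNat (nat_lit 482136567878574), .ofNat (nat_lit 6804010400654700), .negSucc (nat_lit 23944224881222567), .ofNat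 (nat_lit 30773709243619488), .negSucc (nat_lit 87458074615005983), .negSucc (nat_lit 356090624507991563), .negSucc (nat_lit 416327970497605847), .negSucc (nat_lit 1000849731540097859), .negSucc (nat_lit 62429294286722), .negSucc (nat_lit 1108170911775809), .ofNat (nat_lit 2185987638128358), .negSucc (nat_lit 7355035649605325), .ofNat (nat_lit 13276074611743098), .ofNat (nat_lit 40948940547613332), .ofNat (nat_lit 10377895242694488), .ofNat (nat_lit 198771084086487258), .ofNat (nat_lit 219605515797785274), .ofNat (nat_lit 360604615455744222), .ofNat (nat_lit 3241727193753), .ofNat (nat_lit 69618104247534), .negSucc (nat_lit 69712143049145), .ofNat (nat_lit 576165306356910), .negSucc (nat_lit 754676167180553), .negSucc (nat_lit 1106837727828833), .negSucc (nat_lit 1644645824881979), .negSucc (nat_lit 15639998577932219), .negSucc (nat_lit 17444956410114731), .negSucc (nat_lit 13529525181052715), .negSucc (nat_lit 77455430814161003), .negSucc (nat_lit 16773752767005485)]],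
  [[]]],
  [[[.ofNat (nat_lit 19309797466167753), .negSucc (nat_lit 69812149685784362), .negSucc (nat_lit 32236301082174983), .ofNat (nat_lit 98738210388095118), .ofNat (nat_lit 331412064449668668), .negSucc (nat_lit 201651962105089691), .negSucc (nat_lit 70421641786645838), .negSucc (nat_lit 501972445131470639), .negSucc (nat_lit 319236550641097181), .ofNat (nat_lit 459426974563996038), .ofNat (nat_lit 25797772647745254), .ofNat (nat_lit 368835791377810302), .ofNat (nat_lit 593392727213026830), .ofNat (nat_lit 34672695103555344), .negSucc (nat_lit 150410014067759921), .negSucc (nat_lit 3710929641396911), .negSucc (nat_lit 153498308565279329), .negSucc (nat_lit 291903681968294885), .negSucc (nat_lit 142266303708091865), .negSucc (nat_lit 191068499381982011), .negSucc (nat_lit 408295086932654081), .negSucc (nat_lit 98036117289703835), .negSucc (nat_lit 392689117512062), .ofNat (nat_lit 37097112220727364), .ofNat (nat_lit 77941622483187120), .ofNat (nat_lit 58728480494121306), .ofNat (nat_lit 132356511516945546), .ofNat (nat_lit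 293268475640328048), .ofNat (nat_lit 155279750273799624), .ofNat (nat_lit 353818208613943926), .ofNat (nat_lit 187216264642662), .negSucc (nat_lit 4870641148478945), .negSucc (nat_lit 10585356413751449), .negSucc (nat_lit 10064360512639997), .negSucc (nat_lit 22688455012368965), .negSucc (nat_lit 73032754854089843), .negSucc (nat_lit 14765020820787545), .negSucc (nat_lit 89546941360320029), .negSucc (nat_lit 105276344878072565), .negSucc (nat_lit 165880221938195705), .negSucc (nat_lit 16420301253600), .ofNat (nat_lit 269711781230034), .ofNat (nat_lit 568597176166374), .ofNat (nat_lit 623481827948496), .ofNat (nat_lit 1517403268818282), .ofNat (nat_lit 6491496185184294), .ofNat (nat_lit 2385933467701392), .ofNat (nat_lit 10452905161645860), .ofNat (nat_lit 9761961388169304), .ofNat (nat_lit 4185241676580204), .ofNat (nat_lit 40121097444151956), .ofNat (nat_lit 14073202747777270)]],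
  [[.ofNat (nat_lit 968160078374499), .negSucc (nat_lit 4703430631658651), .ofNat (nat_lit 4703430631658652), .negSucc (nat_lit 12272712416163017), .ofNat (nat_lit 39169852564318380), .negSucc (nat_lit 26897140148155361), .ofNat (nat_lit 15112212579426168), .negSucc (nat_lit 51744438636745031), .ofNat (nat_lit 27927814376359224), .ofNat (nat_lit 8704411680959640), .negSucc (nat_lit 4237461510858791), .ofNat (nat_lit 12029251039964244), .negSucc (nat_lit 8474923021717583), .ofNat (nat_lit 2732533970448528), .negSucc (nat_lit 2049400477836395), .negSucc (nat_lit 2037483300312647), .ofNat (nat_lit 13172720606741664), .negSucc (nat_lit 18281779195874363), .negSucc (nat_lit 17019574333144235), .ofNat (nat_lit 6198721084579572), .ofNat (nat_lit 37830431885751576), .negSucc (nat_lit 19863036747741563), .ofNat (nat_lit 1536995259212580), .negSucc (nat_lit 8797780507320359), .ofNat (nat_lit 8842014239021550), .ofNat (nat_lit 11667768361436430), .negSucc (nat_lit 2694033202171229), .negSucc (nat_lit 21683006262753569), .ofNat (nat_lit 6137099018682930),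 .ofNat (nat_lit 4990943093891670), .negSucc (nat_lit 343208069592815), .ofNat (nat_lit 1988578993751088), .negSucc (nat_lit 1501666501781471), .negSucc (nat_lit 2808560505877295), .negSucc (nat_lit 562313065305791), .ofNat (nat_lit 3883168139683248), .ofNat (nat_lit 1175694205920432), .negSucc (nat_lit 2808560505877295), .ofNat (nat_lit 2930601927239712), .negSucc (nat_lit 1953734618159807), .ofNat (nat_lit 26496812784848), .negSucc (nat_lit 158980876709087), .ofNat (nat_lit 78800479048032), .ofNat (nat_lit 239161274370144), .ofNat (nat_lit 160360795322112), .negSucc (nat_lit 160360795322111), .negSucc (nat_lit 80180397661055), .negSucc (nat_lit 1032685739302559), .ofNat (nat_lit 0), .ofNat (nat_lit 476252670820752), .ofNat (nat_lit 1353407329946784), .negSucc (nat_lit 902271553297855)]],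
  [[]]],
  [[[.negSucc (nat_lit 20940208880084), .negSucc (nat_lit 3056543641815479), .ofNat (nat_lit 3056543641815480), .negSucc (nat_lit 4953815437644035), .ofNat (nat_lit 16389718133839848), .negSucc (nat_lit 11435902696195811), .ofNat (nat_lit 7631948889631296), .negSucc (nat_lit 26885635973227439), .ofNat (nat_lit 15611527498298400), .ofNat (nat_lit 3642159585297744), .negSucc (nat_lit 2050095270615911), .ofNat (nat_lit 5437054582180524), .negSucc (nat_lit 4100190541231823), .ofNat (nat_lit 2852924918668848), .negSucc (nat_lit 2139693689001635), .negSucc (nat_lit 1282786835307191), .ofNat (nat_lit 8053218089429472), .negSucc (nat_lit 7068777650334107), .negSucc (nat_lit 13955510267205371), .negSucc (nat_lit 58150681374491), .ofNat (nat_lit 29337008844756024), .negSucc (nat_lit 15025001499964331), .ofNat (nat_lit 890105235229980), .negSucc (nat_lit 5062720651190999), .ofNat (nat_lit 4035389521294350), .ofNat (nat_lit 7648724446022070), .negSucc (nat_lit 474968580374429), .negSucc (nat_lit 13158474721391969), .ofNat (nat_lit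 2146387154635530), .ofNat (nat_lit 3975557595775470), .negSucc (nat_lit 193397206342415), .ofNat (nat_lit 1117949162090448), .negSucc (nat_lit 959304604658015), .negSucc (nat_lit 1451217752387471), .ofNat (nat_lit 38162968279680), .ofNat (nat_lit 1778282325269136), .ofNat (nat_lit 425818169279184), .negSucc (nat_lit 1451217752387471), .ofNat (nat_lit 2084774072570784), .negSucc (nat_lit 1389849381713855), .ofNat (nat_lit 14676971009008), .negSucc (nat_lit 88061826054047), .ofNat (nat_lit 78920313271464), .ofNat (nat_lit 97203338836632), .ofNat (nat_lit 18283025565168), .negSucc (nat_lit 18283025565167), .negSucc (nat_lit 9141512782583), .negSucc (nat_lit 607291269595751), .ofNat (nat_lit 0), .ofNat (nat_lit 299074878406584), .ofNat (nat_lit 643857320726088), .negSucc (nat_lit 429238213817391)]],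
  [[.ofNat (nat_lit 438845215747887), .ofNat (nat_lit 1106062246937808), .negSucc (nat_lit 1106062246937807), .ofNat (nat_lit 11398834334551680), .negSucc (nat_lit 34749534127123943), .ofNat (nat_lit 23350699792572264), .negSucc (nat_lit 14162375082964319), .ofNat (nat_lit 48927381636940848), .negSucc (nat_lit 27042887859060095), .negSucc (nat_lit 7722118694916431), .ofNat (nat_lit 4308047702933004), .negSucc (nat_lit 12848986876170887), .ofNat (nat_lit 8616095405866008), .negSucc (nat_lit 300624930512495), .ofNat (nat_lit 225468697884372), .ofNat (nat_lit 2056090691500632), .negSucc (nat_lit 13465315207751759), .ofNat (nat_lit 19215958791732876), .ofNat (nat_lit 17269256874516444), .negSucc (nat_lit 6677963216733779), .negSucc (nat_lit 39053597984024759), .ofNat (nat_lit 20655570050760348), .negSucc (nat_lit 1644586974622907), .ofNat (nat_lit 9485152396457616), .negSucc (nat_lit 9690719456810501), .negSucc (nat_lit 12683868454854125), .ofNat (nat_lit 3112371558318870), .ofNat (nat_lit 24043826164941810), .negSucc (nat_lit 7511611918635089),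 .negSucc (nat_lit 5110563314795669), .ofNat (nat_lit 380138662252992), .negSucc (nat_lit 2210593727176511), .ofNat (nat_lit 1616636585688000), .ofNat (nat_lit 3213636961463808), .ofNat (nat_lit 810879360935232), .negSucc (nat_lit 4657817459306879), .negSucc (nat_lit 1427576452547135), .ofNat (nat_lit 3213636961463808), .negSucc (nat_lit 2816822678319935), .ofNat (nat_lit 1877881785546624), .negSucc (nat_lit 30129207102511), .ofNat (nat_lit 180775242615072), .negSucc (nat_lit 68996208563015), .negSucc (nat_lit 292554276667127), .negSucc (nat_lit 223558068104111), .ofNat (nat_lit 223558068104112), .ofNat (nat_lit 111779034052056), .ofNat (nat_lit 1153647664253448), .ofNat (nat_lit 0), .negSucc (nat_lit 520934315100695), .negSucc (nat_lit 1600763800461671), .ofNat (nat_lit 1067175866974448)]],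
  [[]]]],
  [[.ofNat (nat_lit 949851140560713)],
  [.negSucc (nat_lit 1416991310559692)],
  [.ofNat (nat_lit 0)]],
  [[[[.negSucc (nat_lit 9629518658978783231), .ofNat (nat_lit 63296131116674230272), .negSucc (nat_lit 35686224152716022783), .negSucc (nat_lit 130515398619582578687), .ofNat (nat_lit 112737676706553397248), .ofNat (nat_lit 99085752645892015104), .negSucc (nat_lit 12124488500638746623), .negSucc (nat_lit 141921420303762671615), .ofNat (nat_lit 1478768597389550592), .ofNat (nat_lit 47986988164457932800), .ofNat (nat_lit 0), .ofNat (nat_lit 0)]],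
  [[.ofNat (nat_lit 7576782075109131264), .negSucc (nat_lit 62393997101796808703), .ofNat (nat_lit 26131402440169896960), .ofNat (nat_lit 148179533363834821632), .negSucc (nat_lit 140364737867515705343), .negSucc (nat_lit 106379464949007648767), .ofNat (nat_lit 16941977177715753984), .ofNat (nat_lit 164120822983614578688), .negSucc (nat_lit 1227106315401698303), .negSucc (nat_lit 60020192406686017535), .ofNat (nat_lit 0), .ofNat (nat_lit 0)]]],
  [[[.ofNat (nat_lit 15814831879265642496), .negSucc (nat_lit 122222430005057132543), .ofNat (nat_lit 47378969048515101696), .ofNat (nat_lit 286127794642595724288), .negSucc (nat_lit 245397608815161581567), .negSucc (nat_lit 207127251120499199999), .ofNat (nat_lit 11785897875044376576), .ofNat (nat_lit 294173617468711431168), .negSucc (nat_lit 2231499062718203903), .negSucc (nat_lit 92999456166989942783), .ofNat (nat_lit 0), .ofNat (nat_lit 0)]],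
  [[.negSucc (nat_lit 10824250348280254463), .ofNat (nat_lit 115464524188474119168), .negSucc (nat_lit 24077494400032014335), .negSucc (nat_lit 328308991666400176127), .ofNat (nat_lit 262506465391685520384), .ofNat (nat_lit 248634218055662373888), .negSucc (nat_lit 16692877784145466367), .negSucc (nat_lit 325377153945932064767), .negSucc (nat_lit 5843935304095057919), .ofNat (nat_lit 109510092767662248960), .ofNat (nat_lit 0), .ofNat (nat_lit 0)]]],
  [[[.negSucc (nat_lit 5039915274511607807), .ofNat (nat_lit 57988411432191240192), .ofNat (nat_lit 4579574432986063872), .negSucc (nat_lit 183563875454105640959), .ofNat (nat_lit 105026986520095629312), .ofNat (nat_lit 163922933753966444544), .ofNat (nat_lit 2045436299489811456), .negSucc (nat_lit 181411091756833370111), .negSucc (nat_lit 8420068620680822783), .ofNat (nat_lit 56995670717462181888), .ofNat (nat_lit 0), .ofNat (nat_lit 0)]],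
  [[.ofNat (nat_lit 712369955557942272), .negSucc (nat_lit 51111251573679912959), .negSucc (nat_lit 17165563480475688959), .ofNat (nat_lit 183601403650076931072), .negSucc (nat_lit 63560784743402729471), .negSucc (nat_lit 170276493669014688767), .negSucc (nat_lit 15502004609953010687), .ofNat (nat_lit 141372392267054859264), .ofNat (nat_lit 12780771397579054080), .negSucc (nat_lit 30653330777593178111), .ofNat (nat_lit 0), .ofNat (nat_lit 0)]]]]⟩

noncomputable def BR5b_A : L6 := [[[[[[.negSucc (nat_lit 946949633804178431), .ofNat (nat_lit 10620914579234270208), .negSucc (nat_lit 7576782075109131263)],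
  [],
  [.negSucc (nat_lit 21442773893207039), .ofNat (nat_lit 449377500925836288), .ofNat (nat_lit 0)],
  [],
  [.ofNat (nat_lit 972647567934170112), .negSucc (nat_lit 1450999102013125631), .ofNat (nat_lit 0)],
  [],
  [],
  []],
  [[.negSucc (nat_lit 9629518658978783231), .ofNat (nat_lit 7576782075109131264), .ofNat (nat_lit 0)],
  [],
  [],
  [],
  [],
  [],
  [],
  []],
  [[.ofNat (nat_lit 671828542772825088), .ofNat (nat_lit 3042507263133404160), .ofNat (nat_lit 0)],
  [.ofNat (nat_lit 671828542772825088), .ofNat (nat_lit 3042507263133404160), .ofNat (nat_lit 0)],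
  [],
  [],
  [],
  [],
  [],
  []],
  [[.ofNat (nat_lit 6708993149462353920), .negSucc (nat_lit 5096677767981797375), .ofNat (nat_lit 0)],
  [],
  [.negSucc (nat_lit 6708993149462353919), .ofNat (nat_lit 5096677767981797376), .ofNat (nat_lit 0)],
  [],
  [],
  [],
  [],
  []],
  [[.negSucc (nat_lit 3578493014147837951), .negSucc (nat_lit 838826224432828415), .ofNat (nat_lit 0)],
  [],
  [],
  [.negSucc (nat_lit 3578493014147837951), .negSucc (nat_lit 838826224432828415), .ofNat (nat_lit 0)],
  [],
  [],
  [],
  []],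
  [[.negSucc (nat_lit 5083847005260137471), .ofNat (nat_lit 6515591247881699328), .ofNat (nat_lit 0)],
  [],
  [],
  [],
  [.ofNat (nat_lit 5083847005260137472), .negSucc (nat_lit 6515591247881699327), .ofNat (nat_lit 0)],
  [],
  [],
  []],
  [[.negSucc (nat_lit 1014979026251040767), .ofNat (nat_lit 2900060288864197632), .ofNat (nat_lit 0)],
  [],
  [],
  [],
  [.ofNat (nat_lit 1014979026251040768), .negSucc (nat_lit 2900060288864197631), .ofNat (nat_lit 0)],
  [],
  [],
  []],
  [[.ofNat (nat_lit 7480091083964673024), .negSucc (nat_lit 8779307528960547839), .ofNat (nat_lit 0)],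
  [],
  [],
  [],
  [],
  [.ofNat (nat_lit 7480091083964673024), .negSucc (nat_lit 8779307528960547839), .ofNat (nat_lit 0)],
  [],
  []],
  [[.negSucc (nat_lit 37821641817019391), .ofNat (nat_lit 58562047932936192), .ofNat (nat_lit 0)],
  [],
  [],
  [],
  [],
  [],
  [.ofNat (nat_lit 37821641817019392), .negSucc (nat_lit 58562047932936191), .ofNat (nat_lit 0)],
  []],
  [[.negSucc (nat_lit 2218533069933499391), .ofNat (nat_lit 2914967705024894976), .ofNat (nat_lit 0)],
  [],
  [],
  [],
  [],
  [],
  [.ofNat (nat_lit 2218533069933499392), .negSucc (nat_lit 2914967705024894975), .ofNat (nat_lit 0)],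
  []],
  [[],
  [],
  [],
  [],
  [],
  [],
  [],
  []],
  [[],
  [],
  [],
  [],
  [],
  [],
  [],
  []]],
  [],
  [],
  [],
  [],
  [],
  [],
  [],
  [],
  [],
  [],
  []],
  [[],
  [],
  [],
  [],
  [],
  [],
  [],
  [],
  [],
  [],
  [],
  []],
  [[],
  [[[.ofNat (nat_lit 6005625677043858432), .negSucc (nat_lit 66908365841788075007), .ofNat (nat_lit 62393997101796808704)],
  [],
  [.negSucc (nat_lit 2347425516914288639), .ofNat (nat_lit 849455805648236544), .ofNat (nat_lit 0)],
  [],
  [],
  [],
  [],
  []],
  [[.ofNat (nat_lit 43919450367935053824), .negSucc (nat_lit 61138445040410231807), .ofNat (nat_lit 0)],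
  [],
  [],
  [],
  [],
  [],
  [],
  []],
  [[],
  [.ofNat (nat_lit 3119485624145132544), .negSucc (nat_lit 32869537759058715647), .ofNat (nat_lit 0)],
  [],
  [],
  [],
  [],
  [],
  []],
  [[],
  [],
  [.ofNat (nat_lit 56914691775987022848), .negSucc (nat_lit 22728607508556589823), .ofNat (nat_lit 0)],
  [],
  [],
  [],
  [],
  []],
  [[],
  [],
  [],
  [.negSucc (nat_lit 16206489454154651135), .ofNat (nat_lit 76487738035007070720), .ofNat (nat_lit 0)],
  [],
  [],
  [],
  []],
  [[],
  [],
  [],
  [],
  [.negSucc (nat_lit 58807437106000845311), .ofNat (nat_lit 35339095199277191808), .ofNat (nat_lit 0)],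
  [],
  [],
  []],
  [[],
  [],
  [],
  [],
  [.negSucc (nat_lit 43929290296681159679), .ofNat (nat_lit 54858055615899577344), .ofNat (nat_lit 0)],
  [],
  [],
  []],
  [[],
  [],
  [],
  [],
  [],
  [.negSucc (nat_lit 24997750432145948159), .negSucc (nat_lit 24686107409004512255), .ofNat (nat_lit 0)],
  [],
  []],
  [[],
  [],
  [],
  [],
  [],
  [],
  [.ofNat (nat_lit 8781957163236714624), .negSucc (nat_lit 8412091898551393535), .ofNat (nat_lit 0)],
  []],
  [[],
  [],
  [],
  [],
  [],
  [],
  [.ofNat (nat_lit 44816169634329669120), .negSucc (nat_lit 61683320493294501887), .ofNat (nat_lit 0)],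
  []],
  [[],
  [],
  [],
  [],
  [],
  [],
  [],
  [.ofNat (nat_lit 10552363221414974976), .negSucc (nat_lit 5864784143959171583), .ofNat (nat_lit 0)]],
  [[],
  [],
  [],
  [],
  [],
  [],
  [],
  [.ofNat (nat_lit 15529731489534495744), .negSucc (nat_lit 20404773935174264831), .ofNat (nat_lit 0)]]],
  [],
  [],
  [],
  [],
  [],
  [],
  [],
  [],
  [],
  []],
  [[],
  [],
  [[[.ofNat (nat_lit 4770625744364433408), .ofNat (nat_lit 15631259639785012224), .negSucc (nat_lit 26131402440169896959)],
  [],
  [.negSucc (nat_lit 8391535684526002175), .ofNat (nat_lit 17791761473087459328), .ofNat (nat_lit 0)],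
  [],
  [],
  [],
  [],
  []],
  [[.negSucc (nat_lit 38805709776861155327), .ofNat (nat_lit 59000940199228612608), .ofNat (nat_lit 0)],
  [],
  [],
  [],
  [],
  [],
  [],
  []],
  [[],
  [.negSucc (nat_lit 36594103613688543743), .ofNat (nat_lit 48928801532094051840), .ofNat (nat_lit 0)],
  [],
  [],
  [],
  [],
  [],
  []],
  [[],
  [],
  [.ofNat (nat_lit 41723569283406209280), .negSucc (nat_lit 80985417980584660991), .ofNat (nat_lit 0)],
  [],
  [],
  [],
  [],
  []],
  [[],
  [],
  [],
  [.ofNat (nat_lit 166717733703652912896), .negSucc (nat_lit 174447863465130756863), .ofNat (nat_lit 0)],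
  [],
  [],
  [],
  []],
  [[],
  [],
  [],
  [],
  [.negSucc (nat_lit 42520063353254150399), .ofNat (nat_lit 72233692312516865280), .ofNat (nat_lit 0)],
  [],
  [],
  []],
  [[],
  [],
  [],
  [],
  [.ofNat (nat_lit 74005235352451086336), .negSucc (nat_lit 79004282796357861887), .ofNat (nat_lit 0)],
  [],
  [],
  []],
  [[],
  [],
  [],
  [],
  [],
  [.negSucc (nat_lit 150417464886516402431), .ofNat (nat_lit 150882962957313383808), .ofNat (nat_lit 0)],
  [],
  []],
  [[],
  [],
  [],
  [],
  [],
  [],
  [.ofNat (nat_lit 9987823672149409920), .negSucc (nat_lit 15619230808654316543), .ofNat (nat_lit 0)],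
  []],
  [[],
  [],
  [],
  [],
  [],
  [],
  [.negSucc (nat_lit 113124024088178840063), .ofNat (nat_lit 101440595516535558144), .ofNat (nat_lit 0)],
  []],
  [[],
  [],
  [],
  [],
  [],
  [],
  [],
  [.ofNat (nat_lit 14516348207966704512), .negSucc (nat_lit 12178453581775973375), .ofNat (nat_lit 0)]],
  [[],
  [],
  [],
  [],
  [],
  [],
  [],
  [.negSucc (nat_lit 31486986999786332159), .ofNat (nat_lit 18845916831620872704), .ofNat (nat_lit 0)]]],
  [],
  [],
  [],
  [],
  [],
  [],
  [],
  [],
  []],
  [[],
  [],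
  [],
  [[[.negSucc (nat_lit 15713634154005586943), .ofNat (nat_lit 151615560828598244352), .negSucc (nat_lit 148179533363834821631)],
  [],
  [.ofNat (nat_lit 11090123760151378944), .negSucc (nat_lit 20024643775090480127), .ofNat (nat_lit 0)],
  [],
  [],
  [],
  [],
  []],
  [[.negSucc (nat_lit 73600706843595555839), .ofNat (nat_lit 125450925855278231808), .ofNat (nat_lit 0)],
  [],
  [],
  [],
  [],
  [],
  [],
  []],
  [[],
  [.negSucc (nat_lit 41723569283406209279), .ofNat (nat_lit 80985417980584660992), .ofNat (nat_lit 0)],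
  [],
  [],
  [],
  [],
  [],
  []],
  [[],
  [],
  [.negSucc (nat_lit 195121200807366132095), .ofNat (nat_lit 86509481821693605504), .ofNat (nat_lit 0)],
  [],
  [],
  [],
  [],
  []],
  [[],
  [],
  [],
  [.ofNat (nat_lit 94985718041019745152), .negSucc (nat_lit 254152593670440025727), .ofNat (nat_lit 0)],
  [],
  [],
  [],
  []],
  [[],
  [],
  [],
  [],
  [.ofNat (nat_lit 209898614327480319744), .negSucc (nat_lit 140534110220470965503), .ofNat (nat_lit 0)],
  [],
  [],
  []],
  [[],
  [],
  [],
  [],
  [.ofNat (nat_lit 148875395227964665344), .negSucc (nat_lit 139232648128867974143), .ofNat (nat_lit 0)],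
  [],
  [],
  []],
  [[],
  [],
  [],
  [],
  [],
  [.ofNat (nat_lit 2687839983744273792), .ofNat (nat_lit 168517578193895821824), .ofNat (nat_lit 0)],
  [],
  []],
  [[],
  [],
  [],
  [],
  [],
  [],
  [.negSucc (nat_lit 64939036323177254015), .ofNat (nat_lit 71825923618003181376), .ofNat (nat_lit 0)],
  []],
  [[],
  [],
  [],
  [],
  [],
  [],
  [.negSucc (nat_lit 174390098857018589951), .ofNat (nat_lit 237246227499895011072), .ofNat (nat_lit 0)],
  []],
  [[],
  [],
  [],
  [],
  [],
  [],
  [],
  [.negSucc (nat_lit 58010504192130621887), .ofNat (nat_lit 47463308827997929344), .ofNat (nat_lit 0)]],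
  [[],
  [],
  [],
  [],
  [],
  [],
  [],
  [.negSucc (nat_lit 27602479967526623231), .ofNat (nat_lit 52764228201848878080), .ofNat (nat_lit 0)]]],
  [],
  [],
  [],
  [],
  [],
  [],
  [],
  []],
  [[],
  [],
  [],
  [],
  [[[.ofNat (nat_lit 3063732110397960192), .negSucc (nat_lit 117651179758977580031), .ofNat (nat_lit 140364737867515705344)],
  [],
  [.negSucc (nat_lit 1848080850207482879), .ofNat (nat_lit 5851549168549466112), .ofNat (nat_lit 0)],
  [],
  [],
  [],
  [],
  []],
  [[.ofNat (nat_lit 128944166160708048384), .negSucc (nat_lit 216852475902522776063), .ofNat (nat_lit 0)],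
  [],
  [],
  [],
  [],
  [],
  [],
  []],
  [[],
  [.ofNat (nat_lit 166717733703652912896), .negSucc (nat_lit 174447863465130756863), .ofNat (nat_lit 0)],
  [],
  [],
  [],
  [],
  [],
  []],
  [[],
  [],
  [.negSucc (nat_lit 94985718041019745151), .ofNat (nat_lit 254152593670440025728), .ofNat (nat_lit 0)],
  [],
  [],
  [],
  [],
  []],
  [[],
  [],
  [],
  [.negSucc (nat_lit 572214420455583317759), .ofNat (nat_lit 603889029443005971840), .ofNat (nat_lit 0)],
  [],
  [],
  [],
  []],
  [[],
  [],
  [],
  [],
  [.ofNat (nat_lit 149963403409747145856), .negSucc (nat_lit 279796858696485282815), .ofNat (nat_lit 0)],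
  [],
  [],
  []],
  [[],
  [],
  [],
  [],
  [.negSucc (nat_lit 219461873721852930047), .ofNat (nat_lit 244325147339266824960), .ofNat (nat_lit 0)],
  [],
  [],
  []],
  [[],
  [],
  [],
  [],
  [],
  [.ofNat (nat_lit 519288060228979942656), .negSucc (nat_lit 540049051545657379775), .ofNat (nat_lit 0)],
  [],
  []],
  [[],
  [],
  [],
  [],
  [],
  [],
  [.negSucc (nat_lit 52324097894800637759), .ofNat (nat_lit 73747243975637678400), .ofNat (nat_lit 0)],
  []],
  [[],
  [],
  [],
  [],
  [],
  [],
  [.ofNat (nat_lit 299416884470933014656), .negSucc (nat_lit 314769378923044437887), .ofNat (nat_lit 0)],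
  []],
  [[],
  [],
  [],
  [],
  [],
  [],
  [],
  [.negSucc (nat_lit 80348114826051436223), .ofNat (nat_lit 41620870959070414752), .ofNat (nat_lit 0)]],
  [[],
  [],
  [],
  [],
  [],
  [],
  [],
  [.ofNat (nat_lit 81349318639507373568), .negSucc (nat_lit 21531150778668180479), .ofNat (nat_lit 0)]]],
  [],
  [],
  [],
  [],
  [],
  [],
  []],
  [[],
  [],
  [],
  [],
  [],
  [[[.ofNat (nat_lit 11050474559580297216), .negSucc (nat_lit 107097564643553627135), .ofNat (nat_lit 106379464949007648768)],
  [],
  [.negSucc (nat_lit 3384848395968666623), .ofNat (nat_lit 8346512371050178560), .ofNat (nat_lit 0)],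
  [],
  [],
  [],
  [],
  []],
  [[.ofNat (nat_lit 40278315539891169792), .negSucc (nat_lit 71040369749730456959), .ofNat (nat_lit 0)],
  [],
  [],
  [],
  [],
  [],
  [],
  []],
  [[],
  [.ofNat (nat_lit 42520063353254150400), .negSucc (nat_lit 72233692312516865279), .ofNat (nat_lit 0)],
  [],
  [],
  [],
  [],
  [],
  []],
  [[],
  [],
  [.ofNat (nat_lit 209898614327480319744), .negSucc (nat_lit 140534110220470965503), .ofNat (nat_lit 0)],
  [],
  [],
  [],
  [],
  []],
  [[],
  [],
  [],
  [.negSucc (nat_lit 149963403409747145855), .ofNat (nat_lit 279796858696485282816), .ofNat (nat_lit 0)],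
  [],
  [],
  [],
  []],
  [[],
  [],
  [],
  [],
  [.negSucc (nat_lit 237250446855430208543), .ofNat (nat_lit 247557247280631274464), .ofNat (nat_lit 0)],
  [],
  [],
  []],
  [[],
  [],
  [],
  [],
  [.negSucc (nat_lit 159377764550003203967), .ofNat (nat_lit 106312839217103180160), .ofNat (nat_lit 0)],
  [],
  [],
  []],
  [[],
  [],
  [],
  [],
  [],
  [.ofNat (nat_lit 55071225042687237600), .negSucc (nat_lit 190805802702142336127), .ofNat (nat_lit 0)],
  [],
  []],
  [[],
  [],
  [],
  [],
  [],
  [],
  [.ofNat (nat_lit 79902503800245591984), .negSucc (nat_lit 127458404090667884015), .ofNat (nat_lit 0)],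
  []],
  [[],
  [],
  [],
  [],
  [],
  [],
  [.ofNat (nat_lit 137162505026928573504), .negSucc (nat_lit 290793230444546520767), .ofNat (nat_lit 0)],
  []],
  [[],
  [],
  [],
  [],
  [],
  [],
  [],
  [.ofNat (nat_lit 50621579944109138016), .negSucc (nat_lit 111418733864299193567), .ofNat (nat_lit 0)]],
  [[],
  [],
  [],
  [],
  [],
  [],
  [],
  [.negSucc (nat_lit 20331366938119346687), .negSucc (nat_lit 21184360788751819775), .ofNat (nat_lit 0)]]],
  [[[.ofNat (nat_lit 6851956940949943296), .ofNat (nat_lit 3747816936704314368), .negSucc (nat_lit 16941977177715753983)],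
  [],
  [.negSucc (nat_lit 7762291016665955327), .ofNat (nat_lit 8525556326411172864), .ofNat (nat_lit 0)],
  [],
  [],
  [],
  [],
  []],
  [[.negSucc (nat_lit 56053778797319906303), .ofNat (nat_lit 71800032793615331328), .ofNat (nat_lit 0)],
  [],
  [],
  [],
  [],
  [],
  [],
  []],
  [[],
  [.negSucc (nat_lit 74005235352451086335), .ofNat (nat_lit 79004282796357861888), .ofNat (nat_lit 0)],
  [],
  [],
  [],
  [],
  [],
  []],
  [[],
  [],
  [.ofNat (nat_lit 148875395227964665344), .negSucc (nat_lit 139232648128867974143), .ofNat (nat_lit 0)],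
  [],
  [],
  [],
  [],
  []],
  [[],
  [],
  [],
  [.ofNat (nat_lit 219461873721852930048), .negSucc (nat_lit 244325147339266824959), .ofNat (nat_lit 0)],
  [],
  [],
  [],
  []],
  [[],
  [],
  [],
  [],
  [.negSucc (nat_lit 159377764550003203967), .ofNat (nat_lit 106312839217103180160), .ofNat (nat_lit 0)],
  [],
  [],
  []],
  [[],
  [],
  [],
  [],
  [.ofNat (nat_lit 97038006239900385792), .negSucc (nat_lit 88473762610172835839), .ofNat (nat_lit 0)],
  [],
  [],
  []],
  [[],
  [],
  [],
  [],
  [],
  [.negSucc (nat_lit 163641729257428917887), .ofNat (nat_lit 178309853963250923520), .ofNat (nat_lit 0)],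
  [],
  []],
  [[],
  [],
  [],
  [],
  [],
  [],
  [.ofNat (nat_lit 49189143942380562624), .ofNat (nat_lit 127753729012067904), .ofNat (nat_lit 0)],
  []],
  [[],
  [],
  [],
  [],
  [],
  [],
  [.negSucc (nat_lit 106198477725469466879), .ofNat (nat_lit 50880597919058006784), .ofNat (nat_lit 0)],
  []],
  [[],
  [],
  [],
  [],
  [],
  [],
  [],
  [.ofNat (nat_lit 10953853471733369472), .negSucc (nat_lit 420284018114338175), .ofNat (nat_lit 0)]],
  [[],
  [],
  [],
  [],
  [],
  [],
  [],
  [.negSucc (nat_lit 4272211843145791487), .negSucc (nat_lit 20663158695625755647), .ofNat (nat_lit 0)]]],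
  [],
  [],
  [],
  [],
  []],
  [[],
  [],
  [],
  [],
  [],
  [],
  [],
  [[[.negSucc (nat_lit 15245426851146464255), .ofNat (nat_lit 153695614979405546496), .negSucc (nat_lit 164120822983614578687)],
  [],
  [.ofNat (nat_lit 6675361455467381760), .negSucc (nat_lit 12916178157819138047), .ofNat (nat_lit 0)],
  [],
  [],
  [],
  [],
  []],
  [[.negSucc (nat_lit 116923669871616723455), .ofNat (nat_lit 188806930392619090944), .ofNat (nat_lit 0)],
  [],
  [],
  [],
  [],
  [],
  [],
  []],
  [[],
  [.negSucc (nat_lit 150417464886516402431), .ofNat (nat_lit 150882962957313383808), .ofNat (nat_lit 0)],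
  [],
  [],
  [],
  [],
  [],
  []],
  [[],
  [],
  [.negSucc (nat_lit 2687839983744273791), .negSucc (nat_lit 168517578193895821823), .ofNat (nat_lit 0)],
  [],
  [],
  [],
  [],
  []],
  [[],
  [],
  [],
  [.ofNat (nat_lit 519288060228979942656), .negSucc (nat_lit 540049051545657379775), .ofNat (nat_lit 0)],
  [],
  [],
  [],
  []],
  [[],
  [],
  [],
  [],
  [.negSucc (nat_lit 55071225042687237599), .ofNat (nat_lit 190805802702142336128), .ofNat (nat_lit 0)],
  [],
  [],
  []],
  [[],
  [],
  [],
  [],
  [.ofNat (nat_lit 163641729257428917888), .negSucc (nat_lit 178309853963250923519), .ofNat (nat_lit 0)],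
  [],
  [],
  []],
  [[],
  [],
  [],
  [],
  [],
  [.negSucc (nat_lit 339006125005983287711), .ofNat (nat_lit 552066194802993641856), .ofNat (nat_lit 0)],
  [],
  []],
  [[],
  [],
  [],
  [],
  [],
  [],
  [.ofNat (nat_lit 31091901102631879632), .negSucc (nat_lit 19043607689042761295), .ofNat (nat_lit 0)],
  []],
  [[],
  [],
  [],
  [],
  [],
  [],
  [.negSucc (nat_lit 160544388239503199423), .ofNat (nat_lit 288152244423402960960), .ofNat (nat_lit 0)],
  []],
  [[],
  [],
  [],
  [],
  [],
  [],
  [],
  [.ofNat (nat_lit 16176816638004525984), .negSucc (nat_lit 999340684048373903), .ofNat (nat_lit 0)]],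
  [[],
  [],
  [],
  [],
  [],
  [],
  [],
  [.negSucc (nat_lit 17901578993161936895), .negSucc (nat_lit 26306470859240489471), .ofNat (nat_lit 0)]]],
  [],
  [],
  [],
  []],
  [[],
  [],
  [],
  [],
  [],
  [],
  [],
  [],
  [[[.ofNat (nat_lit 557960714408355840), .negSucc (nat_lit 2005517939903815679), .ofNat (nat_lit 1227106315401698304)],
  [],
  [.negSucc (nat_lit 448500883341699071), .ofNat (nat_lit 507395193959835648), .ofNat (nat_lit 0)],
  [],
  [],
  [],
  [],
  []],
  [[.ofNat (nat_lit 10260725760626265216), .negSucc (nat_lit 9639198213953091839), .ofNat (nat_lit 0)],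
  [],
  [],
  [],
  [],
  [],
  [],
  []],
  [[],
  [.negSucc (nat_lit 9987823672149409919), .ofNat (nat_lit 15619230808654316544), .ofNat (nat_lit 0)],
  [],
  [],
  [],
  [],
  [],
  []],
  [[],
  [],
  [.negSucc (nat_lit 64939036323177254015), .ofNat (nat_lit 71825923618003181376), .ofNat (nat_lit 0)],
  [],
  [],
  [],
  [],
  []],
  [[],
  [],
  [],
  [.ofNat (nat_lit 52324097894800637760), .negSucc (nat_lit 73747243975637678399), .ofNat (nat_lit 0)],
  [],
  [],
  [],
  []],
  [[],
  [],
  [],
  [],
  [.ofNat (nat_lit 79902503800245591984), .negSucc (nat_lit 127458404090667884015), .ofNat (nat_lit 0)],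
  [],
  [],
  []],
  [[],
  [],
  [],
  [],
  [.ofNat (nat_lit 49189143942380562624), .ofNat (nat_lit 127753729012067904), .ofNat (nat_lit 0)],
  [],
  [],
  []],
  [[],
  [],
  [],
  [],
  [],
  [.negSucc (nat_lit 31091901102631879631), .ofNat (nat_lit 19043607689042761296), .ofNat (nat_lit 0)],
  [],
  []],
  [[],
  [],
  [],
  [],
  [],
  [],
  [.negSucc (nat_lit 51833792497822895591), .ofNat (nat_lit 29488325269791454128), .ofNat (nat_lit 0)],
  []],
  [[],
  [],
  [],
  [],
  [],
  [],
  [.negSucc (nat_lit 14439746833578474911), .ofNat (nat_lit 63462697333994791008), .ofNat (nat_lit 0)],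
  []],
  [[],
  [],
  [],
  [],
  [],
  [],
  [],
  [.negSucc (nat_lit 43437230636043333167), .ofNat (nat_lit 49157503097178427344), .ofNat (nat_lit 0)]],
  [[],
  [],
  [],
  [],
  [],
  [],
  [],
  [.ofNat (nat_lit 25210127195725962240), .negSucc (nat_lit 31830795149729856767), .ofNat (nat_lit 0)]]],
  [[[.ofNat (nat_lit 3457938428069280768), .negSucc (nat_lit 50112380243889063935), .ofNat (nat_lit 60020192406686017536)],
  [],
  [.negSucc (nat_lit 863832186049886207), .ofNat (nat_lit 2599888063272671232), .ofNat (nat_lit 0)],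
  [],
  [],
  [],
  [],
  []],
  [[.ofNat (nat_lit 92803157798787601920), .negSucc (nat_lit 121703512899980519423), .ofNat (nat_lit 0)],
  [],
  [],
  [],
  [],
  [],
  [],
  []],
  [[],
  [.ofNat (nat_lit 113124024088178840064), .negSucc (nat_lit 101440595516535558143), .ofNat (nat_lit 0)],
  [],
  [],
  [],
  [],
  [],
  []],
  [[],
  [],
  [.negSucc (nat_lit 174390098857018589951), .ofNat (nat_lit 237246227499895011072), .ofNat (nat_lit 0)],
  [],
  [],
  [],
  [],
  []],
  [[],
  [],
  [],
  [.negSucc (nat_lit 299416884470933014655), .ofNat (nat_lit 314769378923044437888), .ofNat (nat_lit 0)],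
  [],
  [],
  [],
  []],
  [[],
  [],
  [],
  [],
  [.ofNat (nat_lit 137162505026928573504), .negSucc (nat_lit 290793230444546520767), .ofNat (nat_lit 0)],
  [],
  [],
  []],
  [[],
  [],
  [],
  [],
  [.negSucc (nat_lit 106198477725469466879), .ofNat (nat_lit 50880597919058006784), .ofNat (nat_lit 0)],
  [],
  [],
  []],
  [[],
  [],
  [],
  [],
  [],
  [.ofNat (nat_lit 160544388239503199424), .negSucc (nat_lit 288152244423402960959), .ofNat (nat_lit 0)],
  [],
  []],
  [[],
  [],
  [],
  [],
  [],
  [],
  [.negSucc (nat_lit 14439746833578474911), .ofNat (nat_lit 63462697333994791008), .ofNat (nat_lit 0)],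
  []],
  [[],
  [],
  [],
  [],
  [],
  [],
  [.ofNat (nat_lit 48528797625723866112), .ofNat (nat_lit 77663862632682964224), .ofNat (nat_lit 0)],
  []],
  [[],
  [],
  [],
  [],
  [],
  [],
  [],
  [.negSucc (nat_lit 2459270817687029759), .ofNat (nat_lit 49233998520776422080), .ofNat (nat_lit 0)]],
  [[],
  [],
  [],
  [],
  [],
  [],
  [],
  [.negSucc (nat_lit 36079927603807514111), .ofNat (nat_lit 127836541097547724800), .ofNat (nat_lit 0)]]],
  [],
  []],
  [[],
  [],
  [],
  [],
  [],
  [],
  [],
  [],
  [],
  [],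
  [[[],
  [],
  [],
  [],
  [],
  [],
  [],
  []],
  [[.negSucc (nat_lit 10552363221414974975), .ofNat (nat_lit 5864784143959171584), .ofNat (nat_lit 0)],
  [],
  [],
  [],
  [],
  [],
  [],
  []],
  [[],
  [.ofNat (nat_lit 14516348207966704512), .negSucc (nat_lit 12178453581775973375), .ofNat (nat_lit 0)],
  [],
  [],
  [],
  [],
  [],
  []],
  [[],
  [],
  [.ofNat (nat_lit 58010504192130621888), .negSucc (nat_lit 47463308827997929343), .ofNat (nat_lit 0)],
  [],
  [],
  [],
  [],
  []],
  [[],
  [],
  [],
  [.negSucc (nat_lit 80348114826051436223), .ofNat (nat_lit 41620870959070414752), .ofNat (nat_lit 0)],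
  [],
  [],
  [],
  []],
  [[],
  [],
  [],
  [],
  [.negSucc (nat_lit 50621579944109138015), .ofNat (nat_lit 111418733864299193568), .ofNat (nat_lit 0)],
  [],
  [],
  []],
  [[],
  [],
  [],
  [],
  [.negSucc (nat_lit 10953853471733369471), .ofNat (nat_lit 420284018114338176), .ofNat (nat_lit 0)],
  [],
  [],
  []],
  [[],
  [],
  [],
  [],
  [],
  [.ofNat (nat_lit 16176816638004525984), .negSucc (nat_lit 999340684048373903), .ofNat (nat_lit 0)],
  [],
  []],
  [[],
  [],
  [],
  [],
  [],
  [],
  [.ofNat (nat_lit 43437230636043333168), .negSucc (nat_lit 49157503097178427343), .ofNat (nat_lit 0)],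
  []],
  [[],
  [],
  [],
  [],
  [],
  [],
  [.ofNat (nat_lit 2459270817687029760), .negSucc (nat_lit 49233998520776422079), .ofNat (nat_lit 0)],
  []],
  [[],
  [],
  [],
  [],
  [],
  [],
  [],
  [.ofNat (nat_lit 41121834033729743712), .negSucc (nat_lit 37382131766451066839), .ofNat (nat_lit 0)]],
  [[],
  [],
  [],
  [],
  [],
  [],
  [],
  [.negSucc (nat_lit 19974154484837131775), .ofNat (nat_lit 27376782778277816832), .ofNat (nat_lit 0)]]],
  [[[],
  [],
  [],
  [],
  [],
  [],
  [],
  []],
  [[.negSucc (nat_lit 15529731489534495743), .ofNat (nat_lit 20404773935174264832), .ofNat (nat_lit 0)],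
  [],
  [],
  [],
  [],
  [],
  [],
  []],
  [[],
  [.negSucc (nat_lit 31486986999786332159), .ofNat (nat_lit 18845916831620872704), .ofNat (nat_lit 0)],
  [],
  [],
  [],
  [],
  [],
  []],
  [[],
  [],
  [.ofNat (nat_lit 27602479967526623232), .negSucc (nat_lit 52764228201848878079), .ofNat (nat_lit 0)],
  [],
  [],
  [],
  [],
  []],
  [[],
  [],
  [],
  [.ofNat (nat_lit 81349318639507373568), .negSucc (nat_lit 21531150778668180479), .ofNat (nat_lit 0)],
  [],
  [],
  [],
  []],
  [[],
  [],
  [],
  [],
  [.ofNat (nat_lit 20331366938119346688), .ofNat (nat_lit 21184360788751819776), .ofNat (nat_lit 0)],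
  [],
  [],
  []],
  [[],
  [],
  [],
  [],
  [.ofNat (nat_lit 4272211843145791488), .ofNat (nat_lit 20663158695625755648), .ofNat (nat_lit 0)],
  [],
  [],
  []],
  [[],
  [],
  [],
  [],
  [],
  [.negSucc (nat_lit 17901578993161936895), .negSucc (nat_lit 26306470859240489471), .ofNat (nat_lit 0)],
  [],
  []],
  [[],
  [],
  [],
  [],
  [],
  [],
  [.negSucc (nat_lit 25210127195725962239), .ofNat (nat_lit 31830795149729856768), .ofNat (nat_lit 0)],
  []],
  [[],
  [],
  [],
  [],
  [],
  [],
  [.ofNat (nat_lit 36079927603807514112), .negSucc (nat_lit 127836541097547724799), .ofNat (nat_lit 0)],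
  []],
  [[],
  [],
  [],
  [],
  [],
  [],
  [],
  [.negSucc (nat_lit 19974154484837131775), .ofNat (nat_lit 27376782778277816832), .ofNat (nat_lit 0)]],
  [[],
  [],
  [],
  [],
  [],
  [],
  [],
  [.ofNat (nat_lit 41344679011921643520), .negSucc (nat_lit 73610501363409139199), .ofNat (nat_lit 0)]]]]],
  [[[[[.negSucc (nat_lit 42885547786414079), .negSucc (nat_lit 14916076877413969919), .ofNat (nat_lit 10824250348280254464)],
  [],
  [.ofNat (nat_lit 2917942703802510336), .negSucc (nat_lit 4352997306039376895), .ofNat (nat_lit 0)],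
  [],
  [],
  [],
  [],
  []],
  [[.ofNat (nat_lit 9809206202221784064), .negSucc (nat_lit 7212015623166409727), .ofNat (nat_lit 0)],
  [],
  [],
  [],
  [],
  [],
  [],
  []],
  [[],
  [.ofNat (nat_lit 4770625744364433408), .negSucc (nat_lit 20054964512931010559), .ofNat (nat_lit 0)],
  [],
  [],
  [],
  [],
  [],
  []],
  [[],
  [],
  [.ofNat (nat_lit 15713634154005586944), .negSucc (nat_lit 21100162209015665663), .ofNat (nat_lit 0)],
  [],
  [],
  [],
  [],
  []],
  [[],
  [],
  [],
  [.ofNat (nat_lit 3063732110397960192), .negSucc (nat_lit 4913503052424182783), .ofNat (nat_lit 0)],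
  [],
  [],
  [],
  []],
  [[],
  [],
  [],
  [],
  [.negSucc (nat_lit 11050474559580297215), .ofNat (nat_lit 8011811997661612032), .ofNat (nat_lit 0)],
  [],
  [],
  []],
  [[],
  [],
  [],
  [],
  [.negSucc (nat_lit 6851956940949943295), .ofNat (nat_lit 8376671563934432256), .ofNat (nat_lit 0)],
  [],
  [],
  []],
  [[],
  [],
  [],
  [],
  [],
  [.negSucc (nat_lit 15245426851146464255), .ofNat (nat_lit 11774194675642874880), .ofNat (nat_lit 0)],
  [],
  []],
  [[],
  [],
  [],
  [],
  [],
  [],
  [.negSucc (nat_lit 557960714408355839), .ofNat (nat_lit 526749342514265088), .ofNat (nat_lit 0)],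
  []],
  [[],
  [],
  [],
  [],
  [],
  [],
  [.negSucc (nat_lit 3457938428069280767), .ofNat (nat_lit 2125392079431131136), .ofNat (nat_lit 0)],
  []],
  [[],
  [],
  [],
  [],
  [],
  [],
  [],
  []],
  [[],
  [],
  [],
  [],
  [],
  [],
  [],
  []]],
  [],
  [],
  [],
  [],
  [],
  [],
  [],
  [],
  [],
  [],
  []],
  [[],
  [],
  [],
  [],
  [],
  [],
  [],
  [],
  [],
  [],
  [],
  []],
  [[],
  [[[.negSucc (nat_lit 4694851033828577279), .ofNat (nat_lit 123921341616353605632), .negSucc (nat_lit 115464524188474119167)],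
  [],
  [],
  [],
  [],
  [],
  [],
  []],
  [[.negSucc (nat_lit 72972049660684134911), .ofNat (nat_lit 89422651528647565824), .ofNat (nat_lit 0)],
  [],
  [],
  [],
  [],
  [],
  [],
  []],
  [[],
  [.negSucc (nat_lit 70917111084567665663), .ofNat (nat_lit 128523764890272807936), .ofNat (nat_lit 0)],
  [],
  [],
  [],
  [],
  [],
  []],
  [[],
  [],
  [.negSucc (nat_lit 164738990950445157119), .ofNat (nat_lit 174753039379018224384), .ofNat (nat_lit 0)],
  [],
  [],
  [],
  [],
  []],
  [[],
  [],
  [],
  [.ofNat (nat_lit 117526725448616360448), .negSucc (nat_lit 153647797471522665983), .ofNat (nat_lit 0)],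
  [],
  [],
  [],
  []],
  [[],
  [],
  [],
  [],
  [.ofNat (nat_lit 166255794121941362304), .negSucc (nat_lit 182198410045130825855), .ofNat (nat_lit 0)],
  [],
  [],
  []],
  [[],
  [],
  [],
  [],
  [.ofNat (nat_lit 151810420963941881856), .negSucc (nat_lit 177523119815266796543), .ofNat (nat_lit 0)],
  [],
  [],
  []],
  [[],
  [],
  [],
  [],
  [],
  [.ofNat (nat_lit 31945823622501364224), .negSucc (nat_lit 53095851646809601535), .ofNat (nat_lit 0)],
  [],
  []],
  [[],
  [],
  [],
  [],
  [],
  [],
  [.negSucc (nat_lit 49317889186190503295), .ofNat (nat_lit 44839955279467657728), .ofNat (nat_lit 0)],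
  []],
  [[],
  [],
  [],
  [],
  [],
  [],
  [.negSucc (nat_lit 98739307830060523007), .ofNat (nat_lit 89218230161651785728), .ofNat (nat_lit 0)],
  []],
  [[],
  [],
  [],
  [],
  [],
  [],
  [],
  [.negSucc (nat_lit 37888599873878304767), .ofNat (nat_lit 37065598424426299392), .ofNat (nat_lit 0)]],
  [[],
  [],
  [],
  [],
  [],
  [],
  [],
  [.negSucc (nat_lit 24205568996484965375), .ofNat (nat_lit 14877744556017917952), .ofNat (nat_lit 0)]]],
  [],
  [],
  [],
  [],
  [],
  [],
  [],
  [],
  [],
  []],
  [[],
  [],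
  [[[.negSucc (nat_lit 16783071369052004351), .negSucc (nat_lit 11795446102340183039), .ofNat (nat_lit 24077494400032014336)],
  [],
  [],
  [],
  [],
  [],
  [],
  []],
  [[.ofNat (nat_lit 118296080133082767360), .negSucc (nat_lit 152601259290304822271), .ofNat (nat_lit 0)],
  [],
  [],
  [],
  [],
  [],
  [],
  []],
  [[],
  [.ofNat (nat_lit 134417856715249614336), .negSucc (nat_lit 205899460182967136255), .ofNat (nat_lit 0)],
  [],
  [],
  [],
  [],
  [],
  []],
  [[],
  [],
  [.negSucc (nat_lit 200395693154855642111), .ofNat (nat_lit 243063663506159040000), .ofNat (nat_lit 0)],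
  [],
  [],
  [],
  [],
  []],
  [[],
  [],
  [],
  [.negSucc (nat_lit 374710743653911213823), .ofNat (nat_lit 524053854297479119104), .ofNat (nat_lit 0)],
  [],
  [],
  [],
  []],
  [[],
  [],
  [],
  [],
  [.ofNat (nat_lit 195368605638330087936), .negSucc (nat_lit 204187253130508220927), .ofNat (nat_lit 0)],
  [],
  [],
  []],
  [[],
  [],
  [],
  [],
  [.negSucc (nat_lit 93942185722861330943), .ofNat (nat_lit 108605542573920384000), .ofNat (nat_lit 0)],
  [],
  [],
  []],
  [[],
  [],
  [],
  [],
  [],
  [.ofNat (nat_lit 234244567059242633856), .negSucc (nat_lit 312418357371320160383), .ofNat (nat_lit 0)],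
  [],
  []],
  [[],
  [],
  [],
  [],
  [],
  [],
  [.negSucc (nat_lit 83309317746037070975), .ofNat (nat_lit 71546977406563812864), .ofNat (nat_lit 0)],
  []],
  [[],
  [],
  [],
  [],
  [],
  [],
  [.ofNat (nat_lit 48455752433827719168), .negSucc (nat_lit 16569486040315410431), .ofNat (nat_lit 0)],
  []],
  [[],
  [],
  [],
  [],
  [],
  [],
  [],
  [.negSucc (nat_lit 79058078456294507903), .ofNat (nat_lit 83494168679173045248), .ofNat (nat_lit 0)]],
  [[],
  [],
  [],
  [],
  [],
  [],
  [],
  [.ofNat (nat_lit 25285003306337124864), .ofNat (nat_lit 0), .ofNat (nat_lit 0)]]],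
  [],
  [],
  [],
  [],
  [],
  [],
  [],
  [],
  []],
  [[],
  [],
  [],
  [[[.ofNat (nat_lit 22180247520302757888), .negSucc (nat_lit 326177082192776684543), .ofNat (nat_lit 328308991666400176128)],
  [],
  [],
  [],
  [],
  [],
  [],
  []],
  [[.ofNat (nat_lit 121388803692150567168), .negSucc (nat_lit 153555952287381951743), .ofNat (nat_lit 0)],
  [],
  [],
  [],
  [],
  [],
  [],
  []],
  [[],
  [.ofNat (nat_lit 200395693154855642112), .negSucc (nat_lit 243063663506159039999), .ofNat (nat_lit 0)],
  [],
  [],
  [],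
  [],
  [],
  []],
  [[],
  [],
  [.ofNat (nat_lit 426636308424113936640), .negSucc (nat_lit 475615868522118863615), .ofNat (nat_lit 0)],
  [],
  [],
  [],
  [],
  []],
  [[],
  [],
  [],
  [.negSucc (nat_lit 519345408872637316223), .ofNat (nat_lit 710586163690116945408), .ofNat (nat_lit 0)],
  [],
  [],
  [],
  []],
  [[],
  [],
  [],
  [],
  [.negSucc (nat_lit 319353325517604849407), .ofNat (nat_lit 341945399200093798464), .ofNat (nat_lit 0)],
  [],
  [],
  []],
  [[],
  [],
  [],
  [],
  [.negSucc (nat_lit 198045566325365230079), .ofNat (nat_lit 272450302737956900352), .ofNat (nat_lit 0)],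
  [],
  [],
  []],
  [[],
  [],
  [],
  [],
  [],
  [.ofNat (nat_lit 279587181360151903104), .negSucc (nat_lit 516988322916822891647), .ofNat (nat_lit 0)],
  [],
  []],
  [[],
  [],
  [],
  [],
  [],
  [],
  [.ofNat (nat_lit 42016188402698734080), .negSucc (nat_lit 49918820485867810559), .ofNat (nat_lit 0)],
  []],
  [[],
  [],
  [],
  [],
  [],
  [],
  [.ofNat (nat_lit 101842845221088126720), .negSucc (nat_lit 157363754582049057791), .ofNat (nat_lit 0)],
  []],
  [[],
  [],
  [],
  [],
  [],
  [],
  [],
  [.negSucc (nat_lit 69858958735584999359), .ofNat (nat_lit 108407218169025538560), .ofNat (nat_lit 0)]],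
  [[],
  [],
  [],
  [],
  [],
  [],
  [],
  [.ofNat (nat_lit 28085307248566213632), .ofNat (nat_lit 0), .ofNat (nat_lit 0)]]],
  [],
  [],
  [],
  [],
  [],
  [],
  [],
  []],
  [[],
  [],
  [],
  [],
  [[[.negSucc (nat_lit 3696161700414965759), .ofNat (nat_lit 257100707152260513792), .negSucc (nat_lit 262506465391685520383)],
  [],
  [],
  [],
  [],
  [],
  [],
  []],
  [[.negSucc (nat_lit 362924334263777942015), .ofNat (nat_lit 416154262863208186368), .ofNat (nat_lit 0)],
  [],
  [],
  [],
  [],
  [],
  [],
  []],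
  [[],
  [.negSucc (nat_lit 374710743653911213823), .ofNat (nat_lit 524053854297479119104), .ofNat (nat_lit 0)],
  [],
  [],
  [],
  [],
  [],
  []],
  [[],
  [],
  [.ofNat (nat_lit 519345408872637316224), .negSucc (nat_lit 710586163690116945407), .ofNat (nat_lit 0)],
  [],
  [],
  [],
  [],
  []],
  [[],
  [],
  [],
  [.ofNat (nat_lit 607738211332475693184), .negSucc (nat_lit 851797529162731719935), .ofNat (nat_lit 0)],
  [],
  [],
  [],
  []],
  [[],
  [],
  [],
  [],
  [.negSucc (nat_lit 515095803192367035071), .ofNat (nat_lit 810810886665834218880), .ofNat (nat_lit 0)],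
  [],
  [],
  []],
  [[],
  [],
  [],
  [],
  [.ofNat (nat_lit 79948948599828228096), .ofNat (nat_lit 23425101271981287936), .ofNat (nat_lit 0)],
  [],
  [],
  []],
  [[],
  [],
  [],
  [],
  [],
  [.negSucc (nat_lit 68429373773770841471), .ofNat (nat_lit 21130935723594689472), .ofNat (nat_lit 0)],
  [],
  []],
  [[],
  [],
  [],
  [],
  [],
  [],
  [.ofNat (nat_lit 166756923552225141504), .negSucc (nat_lit 220306260483164844287), .ofNat (nat_lit 0)],
  []],
  [[],
  [],
  [],
  [],
  [],
  [],
  [.negSucc (nat_lit 183294030275787639167), .negSucc (nat_lit 111189562430553897983), .ofNat (nat_lit 0)],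
  []],
  [[],
  [],
  [],
  [],
  [],
  [],
  [],
  [.negSucc (nat_lit 62907586804043660447), .ofNat (nat_lit 113233562420506569216), .ofNat (nat_lit 0)]],
  [[],
  [],
  [],
  [],
  [],
  [],
  [],
  [.negSucc (nat_lit 103988753954263466495), .ofNat (nat_lit 29626726146417340416), .ofNat (nat_lit 0)]]],
  [],
  [],
  [],
  [],
  [],
  [],
  []],
  [[],
  [],
  [],
  [],
  [],
  [[[.negSucc (nat_lit 6769696791937333247), .ofNat (nat_lit 223820275862599557120), .negSucc (nat_lit 248634218055662373887)],
  [],
  [],
  [],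
  [],
  [],
  [],
  []],
  [[.negSucc (nat_lit 40871456998557837695), .ofNat (nat_lit 66435808010531548032), .ofNat (nat_lit 0)],
  [],
  [],
  [],
  [],
  [],
  [],
  []],
  [[],
  [.negSucc (nat_lit 195368605638330087935), .ofNat (nat_lit 204187253130508220928), .ofNat (nat_lit 0)],
  [],
  [],
  [],
  [],
  [],
  []],
  [[],
  [],
  [.negSucc (nat_lit 319353325517604849407), .ofNat (nat_lit 341945399200093798464), .ofNat (nat_lit 0)],
  [],
  [],
  [],
  [],
  []],
  [[],
  [],
  [],
  [.ofNat (nat_lit 515095803192367035072), .negSucc (nat_lit 810810886665834218879), .ofNat (nat_lit 0)],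
  [],
  [],
  [],
  []],
  [[],
  [],
  [],
  [],
  [.ofNat (nat_lit 76990655912546417184), .ofNat (nat_lit 61618369862957619456), .ofNat (nat_lit 0)],
  [],
  [],
  []],
  [[],
  [],
  [],
  [],
  [.ofNat (nat_lit 30363218137608476544), .negSucc (nat_lit 4264931106035342207), .ofNat (nat_lit 0)],
  [],
  [],
  []],
  [[],
  [],
  [],
  [],
  [],
  [.negSucc (nat_lit 52160763879592078175), .ofNat (nat_lit 414119808574072934400), .ofNat (nat_lit 0)],
  [],
  []],
  [[],
  [],
  [],
  [],
  [],
  [],
  [.ofNat (nat_lit 79031673047562961968), .negSucc (nat_lit 108768145094352305279), .ofNat (nat_lit 0)],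
  []],
  [[],
  [],
  [],
  [],
  [],
  [],
  [.ofNat (nat_lit 52885575748150606656), .negSucc (nat_lit 108401188522218573311), .ofNat (nat_lit 0)],
  []],
  [[],
  [],
  [],
  [],
  [],
  [],
  [],
  [.negSucc (nat_lit 53607057494476042943), .ofNat (nat_lit 34676569354739251968), .ofNat (nat_lit 0)]],
  [[],
  [],
  [],
  [],
  [],
  [],
  [],
  [.negSucc (nat_lit 7081582076749933055), .ofNat (nat_lit 0), .ofNat (nat_lit 0)]]],
  [[[.negSucc (nat_lit 15524582033331910655), .ofNat (nat_lit 5265214777777969152), .ofNat (nat_lit 16692877784145466368)],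
  [],
  [],
  [],
  [],
  [],
  [],
  []],
  [[.ofNat (nat_lit 163596318838986258432), .negSucc (nat_lit 194215997599412262911), .ofNat (nat_lit 0)],
  [],
  [],
  [],
  [],
  [],
  [],
  []],
  [[],
  [.ofNat (nat_lit 93942185722861330944), .negSucc (nat_lit 108605542573920383999), .ofNat (nat_lit 0)],
  [],
  [],
  [],
  [],
  [],
  []],
  [[],
  [],
  [.negSucc (nat_lit 198045566325365230079), .ofNat (nat_lit 272450302737956900352), .ofNat (nat_lit 0)],
  [],
  [],
  [],
  [],
  []],
  [[],
  [],
  [],
  [.negSucc (nat_lit 79948948599828228095), .negSucc (nat_lit 23425101271981287935), .ofNat (nat_lit 0)],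
  [],
  [],
  [],
  []],
  [[],
  [],
  [],
  [],
  [.ofNat (nat_lit 30363218137608476544), .negSucc (nat_lit 4264931106035342207), .ofNat (nat_lit 0)],
  [],
  [],
  []],
  [[],
  [],
  [],
  [],
  [.negSucc (nat_lit 111490882603278640127), .ofNat (nat_lit 7880230473254014464), .ofNat (nat_lit 0)],
  [],
  [],
  []],
  [[],
  [],
  [],
  [],
  [],
  [.ofNat (nat_lit 89768246204800764288), .ofNat (nat_lit 22549083435462521088), .ofNat (nat_lit 0)],
  [],
  []],
  [[],
  [],
  [],
  [],
  [],
  [],
  [.negSucc (nat_lit 3642006497246238527), .negSucc (nat_lit 54984416369127602687), .ofNat (nat_lit 0)],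
  []],
  [[],
  [],
  [],
  [],
  [],
  [],
  [.ofNat (nat_lit 185483837481074940672), .negSucc (nat_lit 40422864253803153407), .ofNat (nat_lit 0)],
  []],
  [[],
  [],
  [],
  [],
  [],
  [],
  [],
  [.negSucc (nat_lit 42359491474607780351), .ofNat (nat_lit 39054079459547034624), .ofNat (nat_lit 0)]],
  [[],
  [],
  [],
  [],
  [],
  [],
  [],
  [.ofNat (nat_lit 39495982714602347520), .ofNat (nat_lit 0), .ofNat (nat_lit 0)]]],
  [],
  [],
  [],
  [],
  []],
  [[],
  [],
  [],
  [],
  [],
  [],
  [],
  [[[.ofNat (nat_lit 13350722910934763520), .negSucc (nat_lit 320005973784349707263), .ofNat (nat_lit 325377153945932064768)],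
  [],
  [],
  [],
  [],
  [],
  [],
  []],
  [[.ofNat (nat_lit 262227793846210066944), .negSucc (nat_lit 272281302299122463231), .ofNat (nat_lit 0)],
  [],
  [],
  [],
  [],
  [],
  [],
  []],
  [[],
  [.ofNat (nat_lit 234244567059242633856), .negSucc (nat_lit 312418357371320160383), .ofNat (nat_lit 0)],
  [],
  [],
  [],
  [],
  [],
  []],
  [[],
  [],
  [.negSucc (nat_lit 279587181360151903103), .ofNat (nat_lit 516988322916822891648), .ofNat (nat_lit 0)],
  [],
  [],
  [],
  [],
  []],
  [[],
  [],
  [],
  [.negSucc (nat_lit 68429373773770841471), .ofNat (nat_lit 21130935723594689472), .ofNat (nat_lit 0)],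
  [],
  [],
  [],
  []],
  [[],
  [],
  [],
  [],
  [.ofNat (nat_lit 52160763879592078176), .negSucc (nat_lit 414119808574072934399), .ofNat (nat_lit 0)],
  [],
  [],
  []],
  [[],
  [],
  [],
  [],
  [.negSucc (nat_lit 89768246204800764287), .negSucc (nat_lit 22549083435462521087), .ofNat (nat_lit 0)],
  [],
  [],
  []],
  [[],
  [],
  [],
  [],
  [],
  [.negSucc (nat_lit 231716927410939596959), .ofNat (nat_lit 497042494530694519680), .ofNat (nat_lit 0)],
  [],
  []],
  [[],
  [],
  [],
  [],
  [],
  [],
  [.ofNat (nat_lit 71702716972504557744), .negSucc (nat_lit 82704724414001057663), .ofNat (nat_lit 0)],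
  []],
  [[],
  [],
  [],
  [],
  [],
  [],
  [.ofNat (nat_lit 347181175440222258240), .negSucc (nat_lit 131665753331417465855), .ofNat (nat_lit 0)],
  []],
  [[],
  [],
  [],
  [],
  [],
  [],
  [],
  [.negSucc (nat_lit 39883659466596682319), .ofNat (nat_lit 20873542169793261312), .ofNat (nat_lit 0)]],
  [[],
  [],
  [],
  [],
  [],
  [],
  [],
  [.ofNat (nat_lit 41621854748114847744), .ofNat (nat_lit 0), .ofNat (nat_lit 0)]]],
  [],
  [],
  [],
  []],
  [[],
  [],
  [],
  [],
  [],
  [],
  [],
  [],
  [[[.negSucc (nat_lit 897001766683398143), .ofNat (nat_lit 3246289450637875200), .ofNat (nat_lit 5843935304095057920)],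
  [],
  [],
  [],
  [],
  [],
  [],
  []],
  [[.negSucc (nat_lit 51549388248908707199), .ofNat (nat_lit 38996019975372599808), .ofNat (nat_lit 0)],
  [],
  [],
  [],
  [],
  [],
  [],
  []],
  [[],
  [.ofNat (nat_lit 83309317746037070976), .negSucc (nat_lit 71546977406563812863), .ofNat (nat_lit 0)],
  [],
  [],
  [],
  [],
  [],
  []],
  [[],
  [],
  [.ofNat (nat_lit 42016188402698734080), .negSucc (nat_lit 49918820485867810559), .ofNat (nat_lit 0)],
  [],
  [],
  [],
  [],
  []],
  [[],
  [],
  [],
  [.negSucc (nat_lit 166756923552225141503), .ofNat (nat_lit 220306260483164844288), .ofNat (nat_lit 0)],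
  [],
  [],
  [],
  []],
  [[],
  [],
  [],
  [],
  [.ofNat (nat_lit 79031673047562961968), .negSucc (nat_lit 108768145094352305279), .ofNat (nat_lit 0)],
  [],
  [],
  []],
  [[],
  [],
  [],
  [],
  [.negSucc (nat_lit 3642006497246238527), .negSucc (nat_lit 54984416369127602687), .ofNat (nat_lit 0)],
  [],
  [],
  []],
  [[],
  [],
  [],
  [],
  [],
  [.negSucc (nat_lit 71702716972504557743), .ofNat (nat_lit 82704724414001057664), .ofNat (nat_lit 0)],
  [],
  []],
  [[],
  [],
  [],
  [],
  [],
  [],
  [.negSucc (nat_lit 17816470755334445591), .negSucc (nat_lit 17968529358448225343), .ofNat (nat_lit 0)],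
  []],
  [[],
  [],
  [],
  [],
  [],
  [],
  [.ofNat (nat_lit 39495245465990792160), .ofNat (nat_lit 12885189481551232512), .ofNat (nat_lit 0)],
  []],
  [[],
  [],
  [],
  [],
  [],
  [],
  [],
  [.negSucc (nat_lit 7528518884558299823), .ofNat (nat_lit 2773481733551047680), .ofNat (nat_lit 0)]],
  [[],
  [],
  [],
  [],
  [],
  [],
  [],
  [.negSucc (nat_lit 2996554263578838143), .negSucc (nat_lit 1859718069502239743), .ofNat (nat_lit 0)]]],
  [[[.negSucc (nat_lit 1727664372099772415), .ofNat (nat_lit 98199232293535285248), .negSucc (nat_lit 109510092767662248959)],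
  [],
  [],
  [],
  [],
  [],
  [],
  []],
  [[.negSucc (nat_lit 191738763997050465791), .ofNat (nat_lit 198728322929314034688), .ofNat (nat_lit 0)],
  [],
  [],
  [],
  [],
  [],
  [],
  []],
  [[],
  [.negSucc (nat_lit 48455752433827719167), .ofNat (nat_lit 16569486040315410432), .ofNat (nat_lit 0)],
  [],
  [],
  [],
  [],
  [],
  []],
  [[],
  [],
  [.ofNat (nat_lit 101842845221088126720), .negSucc (nat_lit 157363754582049057791), .ofNat (nat_lit 0)],
  [],
  [],
  [],
  [],
  []],
  [[],
  [],
  [],
  [.ofNat (nat_lit 183294030275787639168), .ofNat (nat_lit 111189562430553897984), .ofNat (nat_lit 0)],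
  [],
  [],
  [],
  []],
  [[],
  [],
  [],
  [],
  [.ofNat (nat_lit 52885575748150606656), .negSucc (nat_lit 108401188522218573311), .ofNat (nat_lit 0)],
  [],
  [],
  []],
  [[],
  [],
  [],
  [],
  [.ofNat (nat_lit 185483837481074940672), .negSucc (nat_lit 40422864253803153407), .ofNat (nat_lit 0)],
  [],
  [],
  []],
  [[],
  [],
  [],
  [],
  [],
  [.negSucc (nat_lit 347181175440222258239), .ofNat (nat_lit 131665753331417465856), .ofNat (nat_lit 0)],
  [],
  []],
  [[],
  [],
  [],
  [],
  [],
  [],
  [.ofNat (nat_lit 39495245465990792160), .ofNat (nat_lit 12885189481551232512), .ofNat (nat_lit 0)],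
  []],
  [[],
  [],
  [],
  [],
  [],
  [],
  [.negSucc (nat_lit 276557945843897655551), .negSucc (nat_lit 51540757926204930047), .ofNat (nat_lit 0)],
  []],
  [[],
  [],
  [],
  [],
  [],
  [],
  [],
  [.ofNat (nat_lit 3442217743255200192), .ofNat (nat_lit 3719436139004479488), .ofNat (nat_lit 0)]],
  [[],
  [],
  [],
  [],
  [],
  [],
  [],
  [.negSucc (nat_lit 52174067900029185023), .ofNat (nat_lit 7438872278008958976), .ofNat (nat_lit 0)]]],
  [],
  []],
  [[],
  [],
  [],
  [],
  [],
  [],
  [],
  [],
  [],
  [],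
  [[[],
  [],
  [],
  [],
  [],
  [],
  [],
  []],
  [[.ofNat (nat_lit 37888599873878304768), .negSucc (nat_lit 37065598424426299391), .ofNat (nat_lit 0)],
  [],
  [],
  [],
  [],
  [],
  [],
  []],
  [[],
  [.negSucc (nat_lit 79058078456294507903), .ofNat (nat_lit 83494168679173045248), .ofNat (nat_lit 0)],
  [],
  [],
  [],
  [],
  [],
  []],
  [[],
  [],
  [.ofNat (nat_lit 69858958735584999360), .negSucc (nat_lit 108407218169025538559), .ofNat (nat_lit 0)],
  [],
  [],
  [],
  [],
  []],
  [[],
  [],
  [],
  [.negSucc (nat_lit 62907586804043660447), .ofNat (nat_lit 113233562420506569216), .ofNat (nat_lit 0)],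
  [],
  [],
  [],
  []],
  [[],
  [],
  [],
  [],
  [.ofNat (nat_lit 53607057494476042944), .negSucc (nat_lit 34676569354739251967), .ofNat (nat_lit 0)],
  [],
  [],
  []],
  [[],
  [],
  [],
  [],
  [.ofNat (nat_lit 42359491474607780352), .negSucc (nat_lit 39054079459547034623), .ofNat (nat_lit 0)],
  [],
  [],
  []],
  [[],
  [],
  [],
  [],
  [],
  [.negSucc (nat_lit 39883659466596682319), .ofNat (nat_lit 20873542169793261312), .ofNat (nat_lit 0)],
  [],
  []],
  [[],
  [],
  [],
  [],
  [],
  [],
  [.ofNat (nat_lit 7528518884558299824), .negSucc (nat_lit 2773481733551047679), .ofNat (nat_lit 0)],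
  []],
  [[],
  [],
  [],
  [],
  [],
  [],
  [.negSucc (nat_lit 3442217743255200191), .negSucc (nat_lit 3719436139004479487), .ofNat (nat_lit 0)],
  []],
  [[],
  [],
  [],
  [],
  [],
  [],
  [],
  [.ofNat (nat_lit 45774153098984811672), .ofNat (nat_lit 0), .ofNat (nat_lit 0)]],
  [[],
  [],
  [],
  [],
  [],
  [],
  [],
  [.negSucc (nat_lit 9265822217613580031), .ofNat (nat_lit 0), .ofNat (nat_lit 0)]]],
  [[[],
  [],
  [],
  [],
  [],
  [],
  [],
  []],
  [[.ofNat (nat_lit 24205568996484965376), .negSucc (nat_lit 14877744556017917951), .ofNat (nat_lit 0)],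
  [],
  [],
  [],
  [],
  [],
  [],
  []],
  [[],
  [.ofNat (nat_lit 25285003306337124864), .ofNat (nat_lit 0), .ofNat (nat_lit 0)],
  [],
  [],
  [],
  [],
  [],
  []],
  [[],
  [],
  [.negSucc (nat_lit 28085307248566213631), .ofNat (nat_lit 0), .ofNat (nat_lit 0)],
  [],
  [],
  [],
  [],
  []],
  [[],
  [],
  [],
  [.negSucc (nat_lit 103988753954263466495), .ofNat (nat_lit 29626726146417340416), .ofNat (nat_lit 0)],
  [],
  [],
  [],
  []],
  [[],
  [],
  [],
  [],
  [.ofNat (nat_lit 7081582076749933056), .ofNat (nat_lit 0), .ofNat (nat_lit 0)],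
  [],
  [],
  []],
  [[],
  [],
  [],
  [],
  [.negSucc (nat_lit 39495982714602347519), .ofNat (nat_lit 0), .ofNat (nat_lit 0)],
  [],
  [],
  []],
  [[],
  [],
  [],
  [],
  [],
  [.ofNat (nat_lit 41621854748114847744), .ofNat (nat_lit 0), .ofNat (nat_lit 0)],
  [],
  []],
  [[],
  [],
  [],
  [],
  [],
  [],
  [.ofNat (nat_lit 2996554263578838144), .ofNat (nat_lit 1859718069502239744), .ofNat (nat_lit 0)],
  []],
  [[],
  [],
  [],
  [],
  [],
  [],
  [.ofNat (nat_lit 52174067900029185024), .negSucc (nat_lit 7438872278008958975), .ofNat (nat_lit 0)],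
  []],
  [[],
  [],
  [],
  [],
  [],
  [],
  [],
  [.negSucc (nat_lit 9265822217613580031), .ofNat (nat_lit 0), .ofNat (nat_lit 0)]],
  [[],
  [],
  [],
  [],
  [],
  [],
  [],
  [.ofNat (nat_lit 46302521253949370880), .ofNat (nat_lit 0), .ofNat (nat_lit 0)]]]]],
  [[[[[.ofNat (nat_lit 2917942703802510336), .ofNat (nat_lit 686917968472230912), .negSucc (nat_lit 712369955557942271)],
  [],
  [],
  [],
  [],
  [],
  [],
  []],
  [[.negSucc (nat_lit 2692489757597319167), .negSucc (nat_lit 137085850090294271), .ofNat (nat_lit 0)],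
  [],
  [],
  [],
  [],
  [],
  [],
  []],
  [[],
  [.negSucc (nat_lit 8391535684526002175), .ofNat (nat_lit 17791761473087459328), .ofNat (nat_lit 0)],
  [],
  [],
  [],
  [],
  [],
  []],
  [[],
  [],
  [.negSucc (nat_lit 11090123760151378943), .ofNat (nat_lit 20024643775090480128), .ofNat (nat_lit 0)],
  [],
  [],
  [],
  [],
  []],
  [[],
  [],
  [],
  [.negSucc (nat_lit 1848080850207482879), .ofNat (nat_lit 5851549168549466112), .ofNat (nat_lit 0)],
  [],
  [],
  [],
  []],
  [[],
  [],
  [],
  [],
  [.ofNat (nat_lit 3384848395968666624), .negSucc (nat_lit 8346512371050178559), .ofNat (nat_lit 0)],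
  [],
  [],
  []],
  [[],
  [],
  [],
  [],
  [.ofNat (nat_lit 7762291016665955328), .negSucc (nat_lit 8525556326411172863), .ofNat (nat_lit 0)],
  [],
  [],
  []],
  [[],
  [],
  [],
  [],
  [],
  [.ofNat (nat_lit 6675361455467381760), .negSucc (nat_lit 12916178157819138047), .ofNat (nat_lit 0)],
  [],
  []],
  [[],
  [],
  [],
  [],
  [],
  [],
  [.ofNat (nat_lit 448500883341699072), .negSucc (nat_lit 507395193959835647), .ofNat (nat_lit 0)],
  []],
  [[],
  [],
  [],
  [],
  [],
  [],
  [.ofNat (nat_lit 863832186049886208), .negSucc (nat_lit 2599888063272671231), .ofNat (nat_lit 0)],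
  []],
  [[],
  [],
  [],
  [],
  [],
  [],
  [],
  []],
  [[],
  [],
  [],
  [],
  [],
  [],
  [],
  []]],
  [],
  [],
  [],
  [],
  [],
  [],
  [],
  [],
  [],
  [],
  []],
  [[],
  [],
  [],
  [],
  [],
  [],
  [],
  [],
  [],
  [],
  [],
  []],
  [[],
  [[[.ofNat (nat_lit 0), .negSucc (nat_lit 57988411432191240191), .ofNat (nat_lit 51111251573679912960)],
  [],
  [],
  [],
  [],
  [],
  [],
  []],
  [[.ofNat (nat_lit 37628810686706586624), .negSucc (nat_lit 23963232989756252159), .ofNat (nat_lit 0)],
  [],
  [],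
  [],
  [],
  [],
  [],
  []],
  [[],
  [.ofNat (nat_lit 64490204210267879424), .negSucc (nat_lit 110917118651074670591), .ofNat (nat_lit 0)],
  [],
  [],
  [],
  [],
  [],
  []],
  [[],
  [],
  [.ofNat (nat_lit 90790466966277808896), .negSucc (nat_lit 182821340975904274175), .ofNat (nat_lit 0)],
  [],
  [],
  [],
  [],
  []],
  [[],
  [],
  [],
  [.negSucc (nat_lit 107124717631191123455), .ofNat (nat_lit 133850177603875229184), .ofNat (nat_lit 0)],
  [],
  [],
  [],
  []],
  [[],
  [],
  [],
  [],
  [.negSucc (nat_lit 83311189861671255167), .ofNat (nat_lit 197879308709114065536), .ofNat (nat_lit 0)],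
  [],
  [],
  []],
  [[],
  [],
  [],
  [],
  [.negSucc (nat_lit 144481309170339585023), .ofNat (nat_lit 184755037758733310976), .ofNat (nat_lit 0)],
  [],
  [],
  []],
  [[],
  [],
  [],
  [],
  [],
  [.negSucc (nat_lit 22833126992977343999), .ofNat (nat_lit 72595130210304864768), .ofNat (nat_lit 0)],
  [],
  []],
  [[],
  [],
  [],
  [],
  [],
  [],
  [.ofNat (nat_lit 22040920092075358464), .negSucc (nat_lit 50899771902171163391), .ofNat (nat_lit 0)],
  []],
  [[],
  [],
  [],
  [],
  [],
  [],
  [.ofNat (nat_lit 58940448907386369024), .negSucc (nat_lit 91296880343649211391), .ofNat (nat_lit 0)],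
  []],
  [[],
  [],
  [],
  [],
  [],
  [],
  [],
  [.ofNat (nat_lit 21628262687091379200), .negSucc (nat_lit 41505890095238446079), .ofNat (nat_lit 0)]],
  [[],
  [],
  [],
  [],
  [],
  [],
  [],
  [.ofNat (nat_lit 6046825302349203456), .negSucc (nat_lit 18199216442908698623), .ofNat (nat_lit 0)]]],
  [],
  [],
  [],
  [],
  [],
  [],
  [],
  [],
  [],
  []],
  [[],
  [],
  [[[.ofNat (nat_lit 0), .negSucc (nat_lit 4579574432986063871), .ofNat (nat_lit 17165563480475688960)],
  [],
  [],
  [],
  [],
  [],
  [],
  []],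
  [[.negSucc (nat_lit 59910629777281815551), .ofNat (nat_lit 93751555170598981632), .ofNat (nat_lit 0)],
  [],
  [],
  [],
  [],
  [],
  [],
  []],
  [[],
  [.negSucc (nat_lit 136389095231010831359), .ofNat (nat_lit 211221632372745102336), .ofNat (nat_lit 0)],
  [],
  [],
  [],
  [],
  [],
  []],
  [[],
  [],
  [.ofNat (nat_lit 132965420090919178752), .negSucc (nat_lit 220384585144071489023), .ofNat (nat_lit 0)],
  [],
  [],
  [],
  [],
  []],
  [[],
  [],
  [],
  [.ofNat (nat_lit 343186401239703956736), .negSucc (nat_lit 566325293068224887039), .ofNat (nat_lit 0)],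
  [],
  [],
  [],
  []],
  [[],
  [],
  [],
  [],
  [.negSucc (nat_lit 79123672427944928255), .ofNat (nat_lit 202009183202669732352), .ofNat (nat_lit 0)],
  [],
  [],
  []],
  [[],
  [],
  [],
  [],
  [.ofNat (nat_lit 52792883418522995712), .negSucc (nat_lit 122341611454976259071), .ofNat (nat_lit 0)],
  [],
  [],
  []],
  [[],
  [],
  [],
  [],
  [],
  [.negSucc (nat_lit 163360849182113775743), .ofNat (nat_lit 349732492785056002176), .ofNat (nat_lit 0)],
  [],
  []],
  [[],
  [],
  [],
  [],
  [],
  [],
  [.ofNat (nat_lit 27401353878805219584), .negSucc (nat_lit 83336947848218121983), .ofNat (nat_lit 0)],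
  []],
  [[],
  [],
  [],
  [],
  [],
  [],
  [.ofNat (nat_lit 8355734494026596352), .ofNat (nat_lit 31379570796998006784), .ofNat (nat_lit 0)],
  []],
  [[],
  [],
  [],
  [],
  [],
  [],
  [],
  [.ofNat (nat_lit 43780191472541825280), .negSucc (nat_lit 96382365973311479039), .ofNat (nat_lit 0)]],
  [[],
  [],
  [],
  [],
  [],
  [],
  [],
  []]],
  [],
  [],
  [],
  [],
  [],
  [],
  [],
  [],
  []],
  [[],
  [],
  [],
  [[[.ofNat (nat_lit 0), .ofNat (nat_lit 183563875454105640960), .negSucc (nat_lit 183601403650076931071)],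
  [],
  [],
  [],
  [],
  [],
  [],
  []],
  [[.negSucc (nat_lit 92773408487827832063), .ofNat (nat_lit 780062674172656896), .ofNat (nat_lit 0)],
  [],
  [],
  [],
  [],
  [],
  [],
  []],
  [[],
  [.negSucc (nat_lit 132965420090919178751), .ofNat (nat_lit 220384585144071489024), .ofNat (nat_lit 0)],
  [],
  [],
  [],
  [],
  [],
  []],
  [[],
  [],
  [.negSucc (nat_lit 207842405538915221759), .ofNat (nat_lit 540551786564839087872), .ofNat (nat_lit 0)],
  [],
  [],
  [],
  [],
  []],
  [[],
  [],
  [],
  [.ofNat (nat_lit 459931802293968537600), .negSucc (nat_lit 709948710302658545663), .ofNat (nat_lit 0)],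
  [],
  [],
  [],
  []],
  [[],
  [],
  [],
  [],
  [.ofNat (nat_lit 132617514962031059520), .negSucc (nat_lit 419927056430746810175), .ofNat (nat_lit 0)],
  [],
  [],
  []],
  [[],
  [],
  [],
  [],
  [.ofNat (nat_lit 193214401465821700608), .negSucc (nat_lit 297318686273689876991), .ofNat (nat_lit 0)],
  [],
  [],
  []],
  [[],
  [],
  [],
  [],
  [],
  [.negSucc (nat_lit 317581655744863029887), .ofNat (nat_lit 551070477513646042752), .ofNat (nat_lit 0)],
  [],
  []],
  [[],
  [],
  [],
  [],
  [],
  [],
  [.negSucc (nat_lit 26453253046929906815), .ofNat (nat_lit 61764374012514102144), .ofNat (nat_lit 0)],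
  []],
  [[],
  [],
  [],
  [],
  [],
  [],
  [.negSucc (nat_lit 74990344058156574719), .ofNat (nat_lit 191786791525958845440), .ofNat (nat_lit 0)],
  []],
  [[],
  [],
  [],
  [],
  [],
  [],
  [],
  [.ofNat (nat_lit 63751008317083661952), .negSucc (nat_lit 121105317202669957247), .ofNat (nat_lit 0)]],
  [[],
  [],
  [],
  [],
  [],
  [],
  [],
  []]],
  [],
  [],
  [],
  [],
  [],
  [],
  [],
  []],
  [[],
  [],
  [],
  [],
  [[[.ofNat (nat_lit 0), .negSucc (nat_lit 105026986520095629311), .ofNat (nat_lit 63560784743402729472)],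
  [],
  [],
  [],
  [],
  [],
  [],
  []],
  [[.ofNat (nat_lit 212151704151286752768), .negSucc (nat_lit 197410962347277958655), .ofNat (nat_lit 0)],
  [],
  [],
  [],
  [],
  [],
  [],
  []],
  [[],
  [.ofNat (nat_lit 343186401239703956736), .negSucc (nat_lit 566325293068224887039), .ofNat (nat_lit 0)],
  [],
  [],
  [],
  [],
  [],
  []],
  [[],
  [],
  [.negSucc (nat_lit 459931802293968537599), .ofNat (nat_lit 709948710302658545664), .ofNat (nat_lit 0)],
  [],
  [],
  [],
  [],
  []],
  [[],
  [],
  [],
  [.negSucc (nat_lit 579473964796443925247), .ofNat (nat_lit 983541592585878529536), .ofNat (nat_lit 0)],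
  [],
  [],
  [],
  []],
  [[],
  [],
  [],
  [],
  [.ofNat (nat_lit 410774416038380760192), .negSucc (nat_lit 905837560660300187519), .ofNat (nat_lit 0)],
  [],
  [],
  []],
  [[],
  [],
  [],
  [],
  [.ofNat (nat_lit 65972612422125116928), .negSucc (nat_lit 10309742943118115327), .ofNat (nat_lit 0)],
  [],
  [],
  []],
  [[],
  [],
  [],
  [],
  [],
  [.ofNat (nat_lit 21428816046233275584), .negSucc (nat_lit 58356449192631496895), .ofNat (nat_lit 0)],
  [],
  []],
  [[],
  [],
  [],
  [],
  [],
  [],
  [.negSucc (nat_lit 111410145556619636735), .ofNat (nat_lit 261015237029592255744), .ofNat (nat_lit 0)],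
  []],
  [[],
  [],
  [],
  [],
  [],
  [],
  [.negSucc (nat_lit 80602407088323683327), .ofNat (nat_lit 121061208692329869312), .ofNat (nat_lit 0)],
  []],
  [[],
  [],
  [],
  [],
  [],
  [],
  [],
  [.ofNat (nat_lit 56687742006142528512), .negSucc (nat_lit 132281779982624713727), .ofNat (nat_lit 0)]],
  [[],
  [],
  [],
  [],
  [],
  [],
  [],
  [.ofNat (nat_lit 18604850035916777472), .negSucc (nat_lit 32406281873784096767), .ofNat (nat_lit 0)]]],
  [],
  [],
  [],
  [],
  [],
  [],
  []],
  [[],
  [],
  [],
  [],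
  [],
  [[[.ofNat (nat_lit 0), .negSucc (nat_lit 163922933753966444543), .ofNat (nat_lit 170276493669014688768)],
  [],
  [],
  [],
  [],
  [],
  [],
  []],
  [[.ofNat (nat_lit 80611743892295189376), .ofNat (nat_lit 27602815040099376768), .ofNat (nat_lit 0)],
  [],
  [],
  [],
  [],
  [],
  [],
  []],
  [[],
  [.ofNat (nat_lit 79123672427944928256), .negSucc (nat_lit 202009183202669732351), .ofNat (nat_lit 0)],
  [],
  [],
  [],
  [],
  [],
  []],
  [[],
  [],
  [.ofNat (nat_lit 132617514962031059520), .negSucc (nat_lit 419927056430746810175), .ofNat (nat_lit 0)],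
  [],
  [],
  [],
  [],
  []],
  [[],
  [],
  [],
  [.negSucc (nat_lit 410774416038380760191), .ofNat (nat_lit 905837560660300187520), .ofNat (nat_lit 0)],
  [],
  [],
  [],
  []],
  [[],
  [],
  [],
  [],
  [.ofNat (nat_lit 78556457545085029248), .negSucc (nat_lit 29549679776902206719), .ofNat (nat_lit 0)],
  [],
  [],
  []],
  [[],
  [],
  [],
  [],
  [.negSucc (nat_lit 25265788846845787007), .ofNat (nat_lit 3427960651153319808), .ofNat (nat_lit 0)],
  [],
  [],
  []],
  [[],
  [],
  [],
  [],
  [],
  [.ofNat (nat_lit 199078653407959334016), .negSucc (nat_lit 500637856209753377663), .ofNat (nat_lit 0)],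
  [],
  []],
  [[],
  [],
  [],
  [],
  [],
  [],
  [.negSucc (nat_lit 60555586003811535743), .ofNat (nat_lit 125077041145583682048), .ofNat (nat_lit 0)],
  []],
  [[],
  [],
  [],
  [],
  [],
  [],
  [.negSucc (nat_lit 66583445453745055487), .ofNat (nat_lit 118868014913444584704), .ofNat (nat_lit 0)],
  []],
  [[],
  [],
  [],
  [],
  [],
  [],
  [],
  [.ofNat (nat_lit 23939045949208501440), .negSucc (nat_lit 36666187020017311679), .ofNat (nat_lit 0)]],
  [[],
  [],
  [],
  [],
  [],
  [],
  [],
  []]],
  [[[.ofNat (nat_lit 0), .negSucc (nat_lit 2045436299489811455), .ofNat (nat_lit 15502004609953010688)],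
  [],
  [],
  [],
  [],
  [],
  [],
  []],
  [[.negSucc (nat_lit 142435872870849773567), .ofNat (nat_lit 169253033148780300288), .ofNat (nat_lit 0)],
  [],
  [],
  [],
  [],
  [],
  [],
  []],
  [[],
  [.negSucc (nat_lit 52792883418522995711), .ofNat (nat_lit 122341611454976259072), .ofNat (nat_lit 0)],
  [],
  [],
  [],
  [],
  [],
  []],
  [[],
  [],
  [.ofNat (nat_lit 193214401465821700608), .negSucc (nat_lit 297318686273689876991), .ofNat (nat_lit 0)],
  [],
  [],
  [],
  [],
  []],
  [[],
  [],
  [],
  [.negSucc (nat_lit 65972612422125116927), .ofNat (nat_lit 10309742943118115328), .ofNat (nat_lit 0)],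
  [],
  [],
  [],
  []],
  [[],
  [],
  [],
  [],
  [.negSucc (nat_lit 25265788846845787007), .ofNat (nat_lit 3427960651153319808), .ofNat (nat_lit 0)],
  [],
  [],
  []],
  [[],
  [],
  [],
  [],
  [.ofNat (nat_lit 9073728319463640576), .negSucc (nat_lit 8151691601273200127), .ofNat (nat_lit 0)],
  [],
  [],
  []],
  [[],
  [],
  [],
  [],
  [],
  [.ofNat (nat_lit 47570829102715306752), .negSucc (nat_lit 19711461642695394047), .ofNat (nat_lit 0)],
  [],
  []],
  [[],
  [],
  [],
  [],
  [],
  [],
  [.negSucc (nat_lit 18618906007855710719), .ofNat (nat_lit 68864459356033754112), .ofNat (nat_lit 0)],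
  []],
  [[],
  [],
  [],
  [],
  [],
  [],
  [.negSucc (nat_lit 31343818759688217599), .ofNat (nat_lit 43028450326767209472), .ofNat (nat_lit 0)],
  []],
  [[],
  [],
  [],
  [],
  [],
  [],
  [],
  [.ofNat (nat_lit 15872916418666659072), .negSucc (nat_lit 47772943162635333887), .ofNat (nat_lit 0)]],
  [[],
  [],
  [],
  [],
  [],
  [],
  [],
  []]],
  [],
  [],
  [],
  [],
  []],
  [[],
  [],
  [],
  [],
  [],
  [],
  [],
  [[[.ofNat (nat_lit 0), .ofNat (nat_lit 181411091756833370112), .negSucc (nat_lit 141372392267054859263)],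
  [],
  [],
  [],
  [],
  [],
  [],
  []],
  [[.negSucc (nat_lit 158577964763856026111), .ofNat (nat_lit 68777262056749994496), .ofNat (nat_lit 0)],
  [],
  [],
  [],
  [],
  [],
  [],
  []],
  [[],
  [.negSucc (nat_lit 163360849182113775743), .ofNat (nat_lit 349732492785056002176), .ofNat (nat_lit 0)],
  [],
  [],
  [],
  [],
  [],
  []],
  [[],
  [],
  [.ofNat (nat_lit 317581655744863029888), .negSucc (nat_lit 551070477513646042751), .ofNat (nat_lit 0)],
  [],
  [],
  [],
  [],
  []],
  [[],
  [],
  [],
  [.ofNat (nat_lit 21428816046233275584), .negSucc (nat_lit 58356449192631496895), .ofNat (nat_lit 0)],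
  [],
  [],
  [],
  []],
  [[],
  [],
  [],
  [],
  [.negSucc (nat_lit 199078653407959334015), .ofNat (nat_lit 500637856209753377664), .ofNat (nat_lit 0)],
  [],
  [],
  []],
  [[],
  [],
  [],
  [],
  [.negSucc (nat_lit 47570829102715306751), .ofNat (nat_lit 19711461642695394048), .ofNat (nat_lit 0)],
  [],
  [],
  []],
  [[],
  [],
  [],
  [],
  [],
  [.ofNat (nat_lit 280794292968376844928), .negSucc (nat_lit 567671307208295804927), .ofNat (nat_lit 0)],
  [],
  []],
  [[],
  [],
  [],
  [],
  [],
  [],
  [.negSucc (nat_lit 46255818257411939135), .ofNat (nat_lit 94213141160444187840), .ofNat (nat_lit 0)],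
  []],
  [[],
  [],
  [],
  [],
  [],
  [],
  [.negSucc (nat_lit 67534298578681505279), .ofNat (nat_lit 154016197473165543936), .ofNat (nat_lit 0)],
  []],
  [[],
  [],
  [],
  [],
  [],
  [],
  [],
  [.ofNat (nat_lit 10945047868135456320), .negSucc (nat_lit 24095591493327869759), .ofNat (nat_lit 0)]],
  [[],
  [],
  [],
  [],
  [],
  [],
  [],
  []]],
  [],
  [],
  [],
  []],
  [[],
  [],
  [],
  [],
  [],
  [],
  [],
  [],
  [[[.ofNat (nat_lit 0), .ofNat (nat_lit 8420068620680822784), .negSucc (nat_lit 12780771397579054079)],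
  [],
  [],
  [],
  [],
  [],
  [],
  []],
  [[.ofNat (nat_lit 13620851471394535680), .negSucc (nat_lit 38119000504592109311), .ofNat (nat_lit 0)],
  [],
  [],
  [],
  [],
  [],
  [],
  []],
  [[],
  [.negSucc (nat_lit 27401353878805219583), .ofNat (nat_lit 83336947848218121984), .ofNat (nat_lit 0)],
  [],
  [],
  [],
  [],
  [],
  []],
  [[],
  [],
  [.negSucc (nat_lit 26453253046929906815), .ofNat (nat_lit 61764374012514102144), .ofNat (nat_lit 0)],
  [],
  [],
  [],
  [],
  []],
  [[],
  [],
  [],
  [.ofNat (nat_lit 111410145556619636736), .negSucc (nat_lit 261015237029592255743), .ofNat (nat_lit 0)],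
  [],
  [],
  [],
  []],
  [[],
  [],
  [],
  [],
  [.negSucc (nat_lit 60555586003811535743), .ofNat (nat_lit 125077041145583682048), .ofNat (nat_lit 0)],
  [],
  [],
  []],
  [[],
  [],
  [],
  [],
  [.negSucc (nat_lit 18618906007855710719), .ofNat (nat_lit 68864459356033754112), .ofNat (nat_lit 0)],
  [],
  [],
  []],
  [[],
  [],
  [],
  [],
  [],
  [.ofNat (nat_lit 46255818257411939136), .negSucc (nat_lit 94213141160444187839), .ofNat (nat_lit 0)],
  [],
  []],
  [[],
  [],
  [],
  [],
  [],
  [],
  [.negSucc (nat_lit 10570141991824361855), .ofNat (nat_lit 20071260832178565504), .ofNat (nat_lit 0)],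
  []],
  [[],
  [],
  [],
  [],
  [],
  [],
  [.ofNat (nat_lit 5236982627927435136), .negSucc (nat_lit 15761821383590569343), .ofNat (nat_lit 0)],
  []],
  [[],
  [],
  [],
  [],
  [],
  [],
  [],
  [.ofNat (nat_lit 1947679673092771968), .negSucc (nat_lit 2913334206541218431), .ofNat (nat_lit 0)]],
  [[],
  [],
  [],
  [],
  [],
  [],
  [],
  [.negSucc (nat_lit 755853162793650431), .ofNat (nat_lit 2274902055363587328), .ofNat (nat_lit 0)]]],
  [[[.ofNat (nat_lit 0), .negSucc (nat_lit 56995670717462181887), .ofNat (nat_lit 30653330777593178112)],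
  [],
  [],
  [],
  [],
  [],
  [],
  []],
  [[.ofNat (nat_lit 115936119624848550912), .negSucc (nat_lit 121950211121242389503), .ofNat (nat_lit 0)],
  [],
  [],
  [],
  [],
  [],
  [],
  []],
  [[],
  [.negSucc (nat_lit 8355734494026596351), .negSucc (nat_lit 31379570796998006783), .ofNat (nat_lit 0)],
  [],
  [],
  [],
  [],
  [],
  []],
  [[],
  [],
  [.negSucc (nat_lit 74990344058156574719), .ofNat (nat_lit 191786791525958845440), .ofNat (nat_lit 0)],
  [],
  [],
  [],
  [],
  []],
  [[],
  [],
  [],
  [.ofNat (nat_lit 80602407088323683328), .negSucc (nat_lit 121061208692329869311), .ofNat (nat_lit 0)],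
  [],
  [],
  [],
  []],
  [[],
  [],
  [],
  [],
  [.negSucc (nat_lit 66583445453745055487), .ofNat (nat_lit 118868014913444584704), .ofNat (nat_lit 0)],
  [],
  [],
  []],
  [[],
  [],
  [],
  [],
  [.negSucc (nat_lit 31343818759688217599), .ofNat (nat_lit 43028450326767209472), .ofNat (nat_lit 0)],
  [],
  [],
  []],
  [[],
  [],
  [],
  [],
  [],
  [.ofNat (nat_lit 67534298578681505280), .negSucc (nat_lit 154016197473165543935), .ofNat (nat_lit 0)],
  [],
  []],
  [[],
  [],
  [],
  [],
  [],
  [],
  [.ofNat (nat_lit 5236982627927435136), .negSucc (nat_lit 15761821383590569343), .ofNat (nat_lit 0)],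
  []],
  [[],
  [],
  [],
  [],
  [],
  [],
  [.negSucc (nat_lit 20947930511709740543), .ofNat (nat_lit 63047285534362277376), .ofNat (nat_lit 0)],
  []],
  [[],
  [],
  [],
  [],
  [],
  [],
  [],
  [.ofNat (nat_lit 1511706325587300864), .negSucc (nat_lit 4549804110727174655), .ofNat (nat_lit 0)]],
  [[],
  [],
  [],
  [],
  [],
  [],
  [],
  [.ofNat (nat_lit 3023412651174601728), .negSucc (nat_lit 9099608221454349311), .ofNat (nat_lit 0)]]],
  [],
  []],
  [[],
  [],
  [],
  [],
  [],
  [],
  [],
  [],
  [],
  [],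
  [[[],
  [],
  [],
  [],
  [],
  [],
  [],
  []],
  [[.negSucc (nat_lit 21628262687091379199), .ofNat (nat_lit 41505890095238446080), .ofNat (nat_lit 0)],
  [],
  [],
  [],
  [],
  [],
  [],
  []],
  [[],
  [.ofNat (nat_lit 43780191472541825280), .negSucc (nat_lit 96382365973311479039), .ofNat (nat_lit 0)],
  [],
  [],
  [],
  [],
  [],
  []],
  [[],
  [],
  [.negSucc (nat_lit 63751008317083661951), .ofNat (nat_lit 121105317202669957248), .ofNat (nat_lit 0)],
  [],
  [],
  [],
  [],
  []],
  [[],
  [],
  [],
  [.ofNat (nat_lit 56687742006142528512), .negSucc (nat_lit 132281779982624713727), .ofNat (nat_lit 0)],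
  [],
  [],
  [],
  []],
  [[],
  [],
  [],
  [],
  [.negSucc (nat_lit 23939045949208501439), .ofNat (nat_lit 36666187020017311680), .ofNat (nat_lit 0)],
  [],
  [],
  []],
  [[],
  [],
  [],
  [],
  [.negSucc (nat_lit 15872916418666659071), .ofNat (nat_lit 47772943162635333888), .ofNat (nat_lit 0)],
  [],
  [],
  []],
  [[],
  [],
  [],
  [],
  [],
  [.ofNat (nat_lit 10945047868135456320), .negSucc (nat_lit 24095591493327869759), .ofNat (nat_lit 0)],
  [],
  []],
  [[],
  [],
  [],
  [],
  [],
  [],
  [.negSucc (nat_lit 1947679673092771967), .ofNat (nat_lit 2913334206541218432), .ofNat (nat_lit 0)],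
  []],
  [[],
  [],
  [],
  [],
  [],
  [],
  [.negSucc (nat_lit 1511706325587300863), .ofNat (nat_lit 4549804110727174656), .ofNat (nat_lit 0)],
  []],
  [[],
  [],
  [],
  [],
  [],
  [],
  [],
  []],
  [[],
  [],
  [],
  [],
  [],
  [],
  [],
  []]],
  [[[],
  [],
  [],
  [],
  [],
  [],
  [],
  []],
  [[.negSucc (nat_lit 6046825302349203455), .ofNat (nat_lit 18199216442908698624), .ofNat (nat_lit 0)],
  [],
  [],
  [],
  [],
  [],
  [],
  []],
  [[],
  [],
  [],
  [],
  [],
  [],
  [],
  []],
  [[],
  [],
  [],
  [],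
  [],
  [],
  [],
  []],
  [[],
  [],
  [],
  [.ofNat (nat_lit 18604850035916777472), .negSucc (nat_lit 32406281873784096767), .ofNat (nat_lit 0)],
  [],
  [],
  [],
  []],
  [[],
  [],
  [],
  [],
  [],
  [],
  [],
  []],
  [[],
  [],
  [],
  [],
  [],
  [],
  [],
  []],
  [[],
  [],
  [],
  [],
  [],
  [],
  [],
  []],
  [[],
  [],
  [],
  [],
  [],
  [],
  [.ofNat (nat_lit 755853162793650432), .negSucc (nat_lit 2274902055363587327), .ofNat (nat_lit 0)],
  []],
  [[],
  [],
  [],
  [],
  [],
  [],
  [.negSucc (nat_lit 3023412651174601727), .ofNat (nat_lit 9099608221454349312), .ofNat (nat_lit 0)],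
  []],
  [[],
  [],
  [],
  [],
  [],
  [],
  [],
  []],
  [[],
  [],
  [],
  [],
  [],
  [],
  [],
  []]]]]]

noncomputable def BR5b_E : L5 := [[[[[]],
  [[]],
  [[]]],
  [[[.ofNat (nat_lit 1293142506741233568), .negSucc (nat_lit 296288711742254975), .ofNat (nat_lit 0)]],
  [[.ofNat (nat_lit 647505694973748672), .ofNat (nat_lit 0), .ofNat (nat_lit 0)]],
  [[]]],
  [[[.negSucc (nat_lit 10837781562080787263), .ofNat (nat_lit 1749681806140208736), .ofNat (nat_lit 0)]],
  [[.negSucc (nat_lit 3265550424574699103), .ofNat (nat_lit 0), .ofNat (nat_lit 0)]],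
  [[]]],
  [[[.ofNat (nat_lit 39233212117986834144), .negSucc (nat_lit 5136858537149107583), .ofNat (nat_lit 0)]],
  [[.ofNat (nat_lit 7311946007445571008), .ofNat (nat_lit 0), .ofNat (nat_lit 0)]],
  [[]]],
  [[[.negSucc (nat_lit 81627847006136012639), .ofNat (nat_lit 14820612021826291872), .ofNat (nat_lit 0)]],
  [[.negSucc (nat_lit 13830517215846963935), .ofNat (nat_lit 0), .ofNat (nat_lit 0)]],
  [[]]],
  [[[.ofNat (nat_lit 109304574935337243360), .negSucc (nat_lit 39057799176676905695), .ofNat (nat_lit 0)]],
  [[.ofNat (nat_lit 27913247112780089856), .ofNat (nat_lit 0), .ofNat (nat_lit 0)]],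
  [[]]],
  [[[.negSucc (nat_lit 98013404524727662271), .ofNat (nat_lit 64821030286582611360), .ofNat (nat_lit 0)]],
  [[.negSucc (nat_lit 41240925679596893567), .ofNat (nat_lit 0), .ofNat (nat_lit 0)]],
  [[]]],
  [[[.ofNat (nat_lit 57017145941594665632), .negSucc (nat_lit 59091544634552673983), .ofNat (nat_lit 0)]],
  [[.ofNat (nat_lit 35459119108017307872), .ofNat (nat_lit 0), .ofNat (nat_lit 0)]],
  [[]]],
  [[[.negSucc (nat_lit 18953084846960617247), .ofNat (nat_lit 26791823280784901472), .ofNat (nat_lit 0)]],
  [[.negSucc (nat_lit 15888732181569996479), .ofNat (nat_lit 0), .ofNat (nat_lit 0)]],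
  [[]]],
  [[[.ofNat (nat_lit 2584042438245102720), .negSucc (nat_lit 4600656335213071199), .ofNat (nat_lit 0)]],
  [[.ofNat (nat_lit 2893907578371835680), .ofNat (nat_lit 0), .ofNat (nat_lit 0)]],
  [[]]]],
  [[[[]],
  [[]],
  [[]]],
  [[[.negSucc (nat_lit 230844665274826751), .ofNat (nat_lit 0), .ofNat (nat_lit 0)]],
  [[.negSucc (nat_lit 187675802407620575), .ofNat (nat_lit 112882335159807648), .ofNat (nat_lit 0)]],
  [[.ofNat (nat_lit 73357047403571520), .negSucc (nat_lit 26545493926507391), .ofNat (nat_lit 0)]]],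
  [[[.ofNat (nat_lit 3538641127421522016), .ofNat (nat_lit 61014631182134976), .ofNat (nat_lit 0)]],
  [[.negSucc (nat_lit 1718207972630299871), .negSucc (nat_lit 225764670319615295), .ofNat (nat_lit 0)]],
  [[.negSucc (nat_lit 146714094807143039), .ofNat (nat_lit 53090987853014784), .ofNat (nat_lit 0)]]],
  [[[.negSucc (nat_lit 16432691564586365855), .negSucc (nat_lit 375411873963466367), .ofNat (nat_lit 0)]],
  [[.ofNat (nat_lit 19158162378301436544), .ofNat (nat_lit 112882335159807648), .ofNat (nat_lit 0)]],
  [[.ofNat (nat_lit 73357047403571520), .negSucc (nat_lit 26545493926507391), .ofNat (nat_lit 0)]]],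
  [[[.ofNat (nat_lit 41018550730242598656), .negSucc (nat_lit 6792833202223966271), .ofNat (nat_lit 0)]],
  [[.negSucc (nat_lit 59668127368418401631), .ofNat (nat_lit 0), .ofNat (nat_lit 0)]],
  [[]]],
  [[[.negSucc (nat_lit 68107013081261925407), .ofNat (nat_lit 45471346220445574464), .ofNat (nat_lit 0)]],
  [[.ofNat (nat_lit 83526313593134808000), .ofNat (nat_lit 0), .ofNat (nat_lit 0)]],
  [[]]],
  [[[.ofNat (nat_lit 79341620710235641344), .negSucc (nat_lit 104772250817845794143), .ofNat (nat_lit 0)]],
  [[.negSucc (nat_lit 53634032868238447967), .ofNat (nat_lit 0), .ofNat (nat_lit 0)]],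
  [[]]],
  [[[.negSucc (nat_lit 58629180966615339263), .ofNat (nat_lit 110440200370046180544), .ofNat (nat_lit 0)]],
  [[.ofNat (nat_lit 8689345779262370112), .ofNat (nat_lit 0), .ofNat (nat_lit 0)]],
  [[]]],
  [[[.ofNat (nat_lit 22241217294124617888), .negSucc (nat_lit 52659498331711591775), .ofNat (nat_lit 0)]],
  [[.ofNat (nat_lit 6338677473607824288), .ofNat (nat_lit 0), .ofNat (nat_lit 0)]],
  [[]]],
  [[[.negSucc (nat_lit 2740299584285922623), .ofNat (nat_lit 8627433004070928576), .ofNat (nat_lit 0)]],
  [[.negSucc (nat_lit 2504455212611668895), .ofNat (nat_lit 0), .ofNat (nat_lit 0)]],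
  [[]]]],
  [[[[]],
  [[]],
  [[]]],
  [[[.negSucc (nat_lit 20994641961650783), .negSucc (nat_lit 95078351972918879), .ofNat (nat_lit 0)]],
  [[.negSucc (nat_lit 149082054511388543), .ofNat (nat_lit 626717641029094080), .ofNat (nat_lit 0)]],
  [[.ofNat (nat_lit 262235490141437568), .negSucc (nat_lit 555992546033983103), .ofNat (nat_lit 0)]]],
  [[[]],
  [[]],
  [[]]],
  [[[.ofNat (nat_lit 2565913695568095456), .ofNat (nat_lit 969677854226182656), .ofNat (nat_lit 0)]],
  [[.negSucc (nat_lit 8595833086138525055), .negSucc (nat_lit 1880152923087282239), .ofNat (nat_lit 0)]],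
  [[.negSucc (nat_lit 786706470424312703), .ofNat (nat_lit 1667977638101949312), .ofNat (nat_lit 0)]]],
  [[[.negSucc (nat_lit 13295182579960669919), .negSucc (nat_lit 5676951989576805695), .ofNat (nat_lit 0)]],
  [[.ofNat (nat_lit 34150391400490955712), .ofNat (nat_lit 1253435282058188160), .ofNat (nat_lit 0)]],
  [[.ofNat (nat_lit 524470980282875136), .negSucc (nat_lit 1111985092067966207), .ofNat (nat_lit 0)]]],
  [[[.ofNat (nat_lit 31754338187140169568), .ofNat (nat_lit 7151429462620248864), .ofNat (nat_lit 0)]],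
  [[.negSucc (nat_lit 50105547083345140511), .ofNat (nat_lit 0), .ofNat (nat_lit 0)]],
  [[]]],
  [[[.negSucc (nat_lit 40988510596296891647), .ofNat (nat_lit 7060528318427702496), .ofNat (nat_lit 0)]],
  [[.ofNat (nat_lit 31316214477785609376), .ofNat (nat_lit 0), .ofNat (nat_lit 0)]],
  [[]]],
  [[[.ofNat (nat_lit 26945117726710420512), .negSucc (nat_lit 18341825292206019647), .ofNat (nat_lit 0)]],
  [[.negSucc (nat_lit 2426114575564628255), .ofNat (nat_lit 0), .ofNat (nat_lit 0)]],
  [[]]],
  [[[.negSucc (nat_lit 6693668551002861215), .ofNat (nat_lit 10223667416958219936), .ofNat (nat_lit 0)]],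
  [[.negSucc (nat_lit 6658527998379529439), .ofNat (nat_lit 0), .ofNat (nat_lit 0)]],
  [[]]],
  [[[.negSucc (nat_lit 267013240196611967), .negSucc (nat_lit 1291447418476609727), .ofNat (nat_lit 0)]],
  [[.ofNat (nat_lit 2468498919662646720), .ofNat (nat_lit 0), .ofNat (nat_lit 0)]],
  [[]]]],
  [[[[]],
  [[]],
  [[]]],
  [[[.negSucc (nat_lit 209656035920698559), .ofNat (nat_lit 159271180249431168), .ofNat (nat_lit 0)]],
  [[.ofNat (nat_lit 491051067312674592), .negSucc (nat_lit 659380069031739551), .ofNat (nat_lit 0)]],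
  [[.negSucc (nat_lit 346566367504730591), .ofNat (nat_lit 625770117971577504), .ofNat (nat_lit 0)]]],
  [[[]],
  [[]],
  [[]]],
  [[[]],
  [[]],
  [[]]],
  [[[.ofNat (nat_lit 2033232485229403776), .ofNat (nat_lit 2874987172861432992), .ofNat (nat_lit 0)]],
  [[.ofNat (nat_lit 1005422662009962720), .ofNat (nat_lit 2637520276126958208), .ofNat (nat_lit 0)]],
  [[.ofNat (nat_lit 1386265470018922368), .negSucc (nat_lit 2503080471886310015), .ofNat (nat_lit 0)]]],
  [[[.negSucc (nat_lit 3143637997934495327), .negSucc (nat_lit 21879794100716078975), .ofNat (nat_lit 0)]],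
  [[.negSucc (nat_lit 2545356800160284255), .negSucc (nat_lit 1978140207095218655), .ofNat (nat_lit 0)]],
  [[.negSucc (nat_lit 1039699102514191775), .ofNat (nat_lit 1877310353914732512), .ofNat (nat_lit 0)]]],
  [[[.negSucc (nat_lit 3485529076075110719), .ofNat (nat_lit 55469282125162347072), .ofNat (nat_lit 0)]],
  [[.negSucc (nat_lit 3001054008201928991), .ofNat (nat_lit 0), .ofNat (nat_lit 0)]],
  [[]]],
  [[[.ofNat (nat_lit 9480363268393568160), .negSucc (nat_lit 61207065461378515391), .ofNat (nat_lit 0)]],
  [[.ofNat (nat_lit 7902830367895621536), .ofNat (nat_lit 0), .ofNat (nat_lit 0)]],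
  [[]]],
  [[[.negSucc (nat_lit 4418501455605253247), .ofNat (nat_lit 27876355643831691168), .ofNat (nat_lit 0)]],
  [[.negSucc (nat_lit 5576593359095529407), .ofNat (nat_lit 0), .ofNat (nat_lit 0)]],
  [[]]],
  [[[.negSucc (nat_lit 256271188087414079), .negSucc (nat_lit 3293036560010308031), .ofNat (nat_lit 0)]],
  [[.ofNat (nat_lit 1723700070239483808), .ofNat (nat_lit 0), .ofNat (nat_lit 0)]],
  [[]]]],
  [[[[]],
  [[]],
  [[]]],
  [[[.ofNat (nat_lit 111827906692119936), .ofNat (nat_lit 26213319513525888), .ofNat (nat_lit 0)]],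
  [[.negSucc (nat_lit 95741628449936255), .ofNat (nat_lit 153546970388255712), .ofNat (nat_lit 0)]],
  [[.ofNat (nat_lit 57752526568983840), .negSucc (nat_lit 182860911517170815), .ofNat (nat_lit 0)]]],
  [[[]],
  [[]],
  [[]]],
  [[[]],
  [[]],
  [[]]],
  [[[]],
  [[]],
  [[]]],
  [[[.negSucc (nat_lit 2379161020794753023), .ofNat (nat_lit 7243530722375972256), .ofNat (nat_lit 0)]],
  [[.negSucc (nat_lit 4426381557190647359), .negSucc (nat_lit 767734851941278559), .ofNat (nat_lit 0)]],
  [[.negSucc (nat_lit 288762632844919199), .ofNat (nat_lit 914304557585854080), .ofNat (nat_lit 0)]]],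
  [[[.ofNat (nat_lit 4880288152140866208), .negSucc (nat_lit 27999346417376441471), .ofNat (nat_lit 0)]],
  [[.ofNat (nat_lit 14262242159545480512), .ofNat (nat_lit 614187881553022848), .ofNat (nat_lit 0)]],
  [[.ofNat (nat_lit 231010106275935360), .negSucc (nat_lit 731443646068683263), .ofNat (nat_lit 0)]]],
  [[[.ofNat (nat_lit 641647734951208032), .ofNat (nat_lit 34116692462194553568), .ofNat (nat_lit 0)]],
  [[.negSucc (nat_lit 18585166058015998751), .ofNat (nat_lit 0), .ofNat (nat_lit 0)]],
  [[]]],
  [[[.negSucc (nat_lit 7302139096682962079), .negSucc (nat_lit 13419175117871878847), .ofNat (nat_lit 0)]],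
  [[.ofNat (nat_lit 12855064893757635456), .ofNat (nat_lit 0), .ofNat (nat_lit 0)]],
  [[]]],
  [[[.ofNat (nat_lit 4047536323693520928), .ofNat (nat_lit 32085031164268608), .ofNat (nat_lit 0)]],
  [[.negSucc (nat_lit 4010017809646533599), .ofNat (nat_lit 0), .ofNat (nat_lit 0)]],
  [[]]]],
  [[[[]],
  [[]],
  [[]]],
  [[[.ofNat (nat_lit 158870218914379296), .negSucc (nat_lit 203612226496303103), .ofNat (nat_lit 0)]],
  [[.negSucc (nat_lit 345327329986884287), .ofNat (nat_lit 250369124926925376), .ofNat (nat_lit 0)]],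
  [[.ofNat (nat_lit 105776512374020832), .negSucc (nat_lit 260828511595318079), .ofNat (nat_lit 0)]]],
  [[[]],
  [[]],
  [[]]],
  [[[]],
  [[]],
  [[]]],
  [[[]],
  [[]],
  [[]]],
  [[[]],
  [[]],
  [[]]],
  [[[.ofNat (nat_lit 887143235354063424), .ofNat (nat_lit 264402405725880672), .ofNat (nat_lit 0)]],
  [[.ofNat (nat_lit 1628685601062214752), .negSucc (nat_lit 1502214749561552255), .ofNat (nat_lit 0)]],
  [[.negSucc (nat_lit 634659074244124991), .ofNat (nat_lit 1564971069571908480), .ofNat (nat_lit 0)]]],
  [[[.negSucc (nat_lit 3063125703077926559), .negSucc (nat_lit 221428878429786335), .ofNat (nat_lit 0)]],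
  [[.negSucc (nat_lit 1147895143818361631), .ofNat (nat_lit 1251845624634626880), .ofNat (nat_lit 0)]],
  [[.ofNat (nat_lit 528882561870104160), .negSucc (nat_lit 1304142557976590399), .ofNat (nat_lit 0)]]],
  [[[.ofNat (nat_lit 2193859948778628480), .ofNat (nat_lit 1278548351652355488), .ofNat (nat_lit 0)]],
  [[.ofNat (nat_lit 172352124345153312), .ofNat (nat_lit 0), .ofNat (nat_lit 0)]],
  [[]]],
  [[[.negSucc (nat_lit 176747699969144639), .negSucc (nat_lit 1117909652452146719), .ofNat (nat_lit 0)]],
  [[.negSucc (nat_lit 307815251602122143), .ofNat (nat_lit 0), .ofNat (nat_lit 0)]],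
  [[]]]],
  [[[[]],
  [[]],
  [[]]],
  [[[.ofNat (nat_lit 31718094570345024), .negSucc (nat_lit 90626884027006175), .ofNat (nat_lit 0)]],
  [[.negSucc (nat_lit 214123654404685727), .ofNat (nat_lit 261770986372951008), .ofNat (nat_lit 0)]],
  [[.ofNat (nat_lit 242571594270811104), .negSucc (nat_lit 266423635200349151), .ofNat (nat_lit 0)]]],
  [[[]],
  [[]],
  [[]]],
  [[[]],
  [[]],
  [[]]],
  [[[]],
  [[]],
  [[]]],
  [[[]],
  [[]],
  [[]]],
  [[[.ofNat (nat_lit 1189557067556805120), .ofNat (nat_lit 1100162684615598432), .ofNat (nat_lit 0)]],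
  [[.negSucc (nat_lit 263465961217935263), .negSucc (nat_lit 1570625918237706047), .ofNat (nat_lit 0)]],
  [[.negSucc (nat_lit 1455429565624866623), .ofNat (nat_lit 1598541811202094912), .ofNat (nat_lit 0)]]],
  [[[.negSucc (nat_lit 4569077484592671167), .negSucc (nat_lit 388067379065849087), .ofNat (nat_lit 0)]],
  [[.ofNat (nat_lit 3606110209914740928), .ofNat (nat_lit 1308854931864755040), .ofNat (nat_lit 0)]],
  [[.ofNat (nat_lit 1212857971354055520), .negSucc (nat_lit 1332118176001745759), .ofNat (nat_lit 0)]]],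
  [[[.ofNat (nat_lit 5315739009952166784), .negSucc (nat_lit 1799338223499047711), .ofNat (nat_lit 0)]],
  [[.negSucc (nat_lit 4708833300938190239), .ofNat (nat_lit 0), .ofNat (nat_lit 0)]],
  [[]]],
  [[[.negSucc (nat_lit 1967936687486645759), .ofNat (nat_lit 1177869801976304544), .ofNat (nat_lit 0)]],
  [[.ofNat (nat_lit 1580312706646070304), .ofNat (nat_lit 0), .ofNat (nat_lit 0)]],
  [[]]]],
  [[[[]],
  [[]],
  [[]]],
  [[[.negSucc (nat_lit 233752846373896031), .ofNat (nat_lit 274353360280017120), .ofNat (nat_lit 0)]],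
  [[.ofNat (nat_lit 476419589098327008), .negSucc (nat_lit 367943583613839839), .ofNat (nat_lit 0)]],
  [[.negSucc (nat_lit 208605045483355679), .ofNat (nat_lit 403630567431848064), .ofNat (nat_lit 0)]]],
  [[[]],
  [[]],
  [[]]],
  [[[]],
  [[]],
  [[]]],
  [[[]],
  [[]],
  [[]]],
  [[[]],
  [[]],
  [[]]],
  [[[]],
  [[]],
  [[]]],
  [[[.ofNat (nat_lit 773692425632065248), .negSucc (nat_lit 271591390652342399), .ofNat (nat_lit 0)]],
  [[.negSucc (nat_lit 2457271272170594879), .ofNat (nat_lit 2575605085296878880), .ofNat (nat_lit 0)]],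
  [[.ofNat (nat_lit 1460235318383489760), .negSucc (nat_lit 2825413972022936447), .ofNat (nat_lit 0)]]],
  [[[.ofNat (nat_lit 322637919727037760), .negSucc (nat_lit 1651644100935452159), .ofNat (nat_lit 0)]],
  [[.ofNat (nat_lit 1103185831554573696), .negSucc (nat_lit 2207661501683039039), .ofNat (nat_lit 0)]],
  [[.negSucc (nat_lit 1251630272900134079), .ofNat (nat_lit 2421783404591088384), .ofNat (nat_lit 0)]]],
  [[[.negSucc (nat_lit 862577498985206975), .ofNat (nat_lit 1648882131307777440), .ofNat (nat_lit 0)]],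
  [[.ofNat (nat_lit 877665851517694176), .ofNat (nat_lit 0), .ofNat (nat_lit 0)]],
  [[]]]],
  [[[[]],
  [[]],
  [[]]],
  [[[.ofNat (nat_lit 1181926306781856), .negSucc (nat_lit 1830063997904255), .ofNat (nat_lit 0)]],
  [[.negSucc (nat_lit 17436272325261119), .ofNat (nat_lit 16460916953570784), .ofNat (nat_lit 0)]],
  [[.ofNat (nat_lit 14015652604428096), .negSucc (nat_lit 15856099811244863), .ofNat (nat_lit 0)]]],
  [[[]],
  [[]],
  [[]]],
  [[[]],
  [[]],
  [[]]],
  [[[]],
  [[]],
  [[]]],
  [[[]],
  [[]],
  [[]]],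
  [[[]],
  [[]],
  [[]]],
  [[[]],
  [[]],
  [[]]],
  [[[.negSucc (nat_lit 9455410454254847), .ofNat (nat_lit 14640511983234048), .ofNat (nat_lit 0)]],
  [[.ofNat (nat_lit 139490178602088960), .negSucc (nat_lit 131687335628566271), .ofNat (nat_lit 0)]],
  [[.negSucc (nat_lit 112125220835424767), .ofNat (nat_lit 126848798489958912), .ofNat (nat_lit 0)]]],
  [[[.ofNat (nat_lit 8273484147472992), .negSucc (nat_lit 12810447985329791), .ofNat (nat_lit 0)]],
  [[.negSucc (nat_lit 122053906276827839), .ofNat (nat_lit 115226418674995488), .ofNat (nat_lit 0)]],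
  [[.ofNat (nat_lit 98109568230996672), .negSucc (nat_lit 110992698678714047), .ofNat (nat_lit 0)]]]],
  [[[[]],
  [[]],
  [[]]],
  [[[.ofNat (nat_lit 69329158435421856), .negSucc (nat_lit 91092740782027967), .ofNat (nat_lit 0)]],
  [[.negSucc (nat_lit 108060575877165023), .ofNat (nat_lit 66418502482222848), .ofNat (nat_lit 0)]],
  [[.ofNat (nat_lit 26994755814058944), .negSucc (nat_lit 81246501977270975), .ofNat (nat_lit 0)]]],
  [[[]],
  [[]],
  [[]]],
  [[[]],
  [[]],
  [[]]],
  [[[]],
  [[]],
  [[]]],
  [[[]],
  [[]],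
  [[]]],
  [[[]],
  [[]],
  [[]]],
  [[[]],
  [[]],
  [[]]],
  [[[.negSucc (nat_lit 554633267483374847), .ofNat (nat_lit 728741926256223744), .ofNat (nat_lit 0)]],
  [[.ofNat (nat_lit 864484607017320192), .negSucc (nat_lit 531348019857782783), .ofNat (nat_lit 0)]],
  [[.negSucc (nat_lit 215958046512471551), .ofNat (nat_lit 649972015818167808), .ofNat (nat_lit 0)]]],
  [[[.ofNat (nat_lit 485304109047952992), .negSucc (nat_lit 637649185474195775), .ofNat (nat_lit 0)]],
  [[.negSucc (nat_lit 756424031140155167), .ofNat (nat_lit 464929517375559936), .ofNat (nat_lit 0)]],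
  [[.ofNat (nat_lit 188963290698412608), .negSucc (nat_lit 568725513840896831), .ofNat (nat_lit 0)]]]],
  [[[[]],
  [[]],
  [[]]],
  [[[]],
  [[]],
  [[]]],
  [[[]],
  [[]],
  [[]]],
  [[[]],
  [[]],
  [[]]],
  [[[]],
  [[]],
  [[]]],
  [[[]],
  [[]],
  [[]]],
  [[[]],
  [[]],
  [[]]],
  [[[]],
  [[]],
  [[]]],
  [[[]],
  [[]],
  [[]]],
  [[[]],
  [[]],
  [[]]]],
  [[[[]],
  [[]],
  [[]]],
  [[[]],
  [[]],
  [[]]],
  [[[]],
  [[]],
  [[]]],
  [[[]],
  [[]],
  [[]]],
  [[[]],
  [[]],
  [[]]],
  [[[]],
  [[]],
  [[]]],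
  [[[]],
  [[]],
  [[]]],
  [[[]],
  [[]],
  [[]]],
  [[[]],
  [[]],
  [[]]],
  [[[]],
  [[]],
  [[]]]]]

noncomputable def BR5b_tn : List (List ℕ) := [[nat_lit 16384, nat_lit 0, nat_lit 0],
  [nat_lit 32768, nat_lit 13184, nat_lit 0],
  [nat_lit 16384, nat_lit 13184, nat_lit 10609]]

noncomputable def BR5b_zn : List (List ℕ) := [[nat_lit 18014398509481984, nat_lit 1688849860263936, nat_lit 158329674399744, nat_lit 14843406974976, nat_lit 1391569403904, nat_lit 130459631616, nat_lit 12230590464, nat_lit 1146617856, nat_lit 107495424, nat_lit 10077696],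
  [nat_lit 162129586585337856, nat_lit 23362423066984448, nat_lit 2955487255461888, nat_lit 348820063911936, nat_lit 39427799777280, nat_lit 4326911115264, nat_lit 464762437632, nat_lit 49113464832, nat_lit 5123948544, nat_lit 529079040],
  [nat_lit 648518346341351424, nat_lit 126100789566373888, nat_lit 21642786881142784, nat_lit 3296473299025920, nat_lit 460377544458240, nat_lit 60395561680896, nat_lit 7563600986112, nat_lit 914141085696, nat_lit 107435704320, nat_lit 12345177600],
  [nat_lit 1513209474796486656, nat_lit 370421069351223296, nat_lit 82045557664645120, nat_lit 16231196807659520, nat_lit 2864055991664640, nat_lit 459878657163264, nat_lit 68578845917184, nat_lit 9651470008320, nat_lit 1297310515200, nat_lit 168031584000],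
  [nat_lit 2269814212194729984, nat_lit 669910444571361280, nat_lit 183332568815370240, nat_lit 45824895866634240, nat_lit 10308463750021120, nat_lit 2072820439842816, nat_lit 377244210954240, nat_lit 63219231129600, nat_lit 9907640064000, nat_lit 1470276360000],
  [nat_lit 2269814212194729984, nat_lit 784189285115887616, nat_lit 256542451039207424, nat_lit 78485957489197056, nat_lit 22110084691656704, nat_lit 5637441113292800, nat_lit 1284839571456000, nat_lit 263539906560000, nat_lit 49372243200000, nat_lit 8576612100000],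
  [nat_lit 1513209474796486656, nat_lit 598978750440275968, nat_lit 228465322112319488, nat_lit 83229319370899456, nat_lit 28614672001269760, nat_lit 9136636952576000, nat_lit 2654695751680000, nat_lit 687984460800000, nat_lit 159249686400000, nat_lit 33353491500000],
  [nat_lit 648518346341351424, nat_lit 289356276058554368, nat_lit 126228332915195904, nat_lit 53546559870074880, nat_lit 21921352017510400, nat_lit 8567138549760000, nat_lit 3145071820800000, nat_lit 1058652761600000, nat_lit 316240512000000, nat_lit 83383728750000],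
  [nat_lit 162129586585337856, nat_lit 80501843339247616, nat_lit 39560428367380480, nat_lit 19193349852364800, nat_lit 9161299460096000, nat_lit 4279972659200000, nat_lit 1941329510400000, nat_lit 843308032000000, nat_lit 341770345000000, nat_lit 121601271093750],
  [nat_lit 18014398509481984, nat_lit 9851624184872960, nat_lit 5387606976102400, nat_lit 2946347565056000, nat_lit 1611283824640000, nat_lit 881170841600000, nat_lit 481890304000000, nat_lit 263533760000000, nat_lit 144120025000000, nat_lit 78815638671875],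
  [nat_lit 18014398509481984, nat_lit 9851624184872960, nat_lit 5387606976102400, nat_lit 2946347565056000, nat_lit 1611283824640000, nat_lit 881170841600000, nat_lit 481890304000000, nat_lit 263533760000000, nat_lit 144120025000000, nat_lit 78815638671875],
  [nat_lit 162129586585337856, nat_lit 96827391988465664, nat_lit 57416497202462720, nat_lit 33840906318643200, nat_lit 19841809383424000, nat_lit 11581102489600000, nat_lit 6732695961600000, nat_lit 3900299648000000, nat_lit 2252390105000000, nat_lit 1297080225000000],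
  [nat_lit 648518346341351424, nat_lit 419960665252298752, nat_lit 269076883595853824, nat_lit 170727011600302080, nat_lit 107365431404134400, nat_lit 66976177192960000, nat_lit 41476003430400000, nat_lit 25514585689600000, nat_lit 15601198592000000, nat_lit 9487215360000000],
  [nat_lit 1513209474796486656, nat_lit 1056094112618381312, nat_lit 728435249494622208, nat_lit 496712899062923264, nat_lit 335001446871203840, nat_lit 223593170468864000, nat_lit 147777688862720000, nat_lit 96777341337600000, nat_lit 62838495641600000, nat_lit 40478785536000000],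
  [nat_lit 2269814212194729984, nat_lit 1698420009472098304, nat_lit 1256482305803812864, nat_lit 918861111418159104, nat_lit 664213622498525184, nat_lit 474650101206220800, nat_lit 335389755703296000, nat_lit 234416620175360000, nat_lit 162135434854400000, nat_lit 111027526041600000],
  [nat_lit 2269814212194729984, nat_lit 1812698850016624640, nat_lit 1433257387271127040, nat_lit 1121433828049551360, nat_lit 867931613634232320, nat_lit 664213622498525184, nat_lit 502502170306805760, nat_lit 375779009914470400, nat_lit 277785331367936000, nat_lit 203021761904640000],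
  [nat_lit 1513209474796486656, nat_lit 1284651793707433984, nat_lit 1081985412429250560, nat_lit 903534331643822080, nat_lit 747622552033034240, nat_lit 612574074278772736, nat_lit 496712899062923264, nat_lit 398363027067371520, nat_lit 315848458974003200, nat_lit 247493195464704000],
  [nat_lit 648518346341351424, nat_lit 583216151744479232, nat_lit 521612714263445504, nat_lit 463708033898250240, nat_lit 409502110648893440, nat_lit 358994944515375104, nat_lit 312186535497695232, nat_lit 269076883595853824, nat_lit 229665988809850880, nat_lit 193953851139686400],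
  [nat_lit 162129586585337856, nat_lit 153966812260728832, nat_lit 145804037936119808, nat_lit 137641263611510784, nat_lit 129478489286901760, nat_lit 121315714962292736, nat_lit 113152940637683712, nat_lit 104990166313074688, nat_lit 96827391988465664, nat_lit 88664617663856640],
  [nat_lit 18014398509481984, nat_lit 18014398509481984, nat_lit 18014398509481984, nat_lit 18014398509481984, nat_lit 18014398509481984, nat_lit 18014398509481984, nat_lit 18014398509481984, nat_lit 18014398509481984, nat_lit 18014398509481984, nat_lit 18014398509481984],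
  [nat_lit 18014398509481984, nat_lit 18014398509481984, nat_lit 18014398509481984, nat_lit 18014398509481984, nat_lit 18014398509481984, nat_lit 18014398509481984, nat_lit 18014398509481984, nat_lit 18014398509481984, nat_lit 18014398509481984, nat_lit 18014398509481984],
  [nat_lit 162129586585337856, nat_lit 170292360909946880, nat_lit 178455135234555904, nat_lit 186617909559164928, nat_lit 194780683883773952, nat_lit 202943458208382976, nat_lit 211106232532992000, nat_lit 219269006857601024, nat_lit 227431781182210048, nat_lit 235594555506819072],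
  [nat_lit 648518346341351424, nat_lit 713820540938223616, nat_lit 782821492650934272, nat_lit 855521201479483392, nat_lit 931919667423870976, nat_lit 1012016890484097024, nat_lit 1095812870660161536, nat_lit 1183307607952064512, nat_lit 1274501102359805952, nat_lit 1369393353883385856],
  [nat_lit 1513209474796486656, nat_lit 1741767155885539328, nat_lit 1996216136785461248, nat_lit 2278232416814366720, nat_lit 2589491995290370048, nat_lit 2931670871531585536, nat_lit 3306445044856127488, nat_lit 3715490514582110208, nat_lit 4160483280027648000, nat_lit 4643099340510855168],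
  [nat_lit 2269814212194729984, nat_lit 2726929574372835328, nat_lit 3261718835983548416, nat_lit 3884237992935555072, nat_lit 4605302478328561664, nat_lit 5436487162453295104, nat_lit 6390126352791502848, nat_lit 7479313794015952896, nat_lit 8717902667990433792, nat_lit 10120505593769754624],
  [nat_lit 2269814212194729984, nat_lit 2841208414917361664, nat_lit 3542059116694339584, nat_lit 4397506307297378304, nat_lit 5436487162453295104, nat_lit 6692080163821191168, nat_lit 8201849218969632768, nat_lit 10008187781353832448, nat_lit 12158662970292830208, nat_lit 14706359690946674688],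
  [nat_lit 1513209474796486656, nat_lit 1970324836974592000, nat_lit 2556896698207043584, nat_lit 3306445044856127488, nat_lit 4260084235194335232, nat_lit 5467899479313088512, nat_lit 6990479248396124160, nat_lit 8900603613357539328, nat_lit 11285088512844496896, nat_lit 14246785950604591104],
  [nat_lit 648518346341351424, nat_lit 877076027430404096, nat_lit 1183307607952064512, nat_lit 1592353077678047232, nat_lit 2136946798290272256, nat_lit 2859482223243952128, nat_lit 3814544405724659712, nat_lit 5071980950192738304, nat_lit 6720582063008415744, nat_lit 8872440357630984192],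
  [nat_lit 162129586585337856, nat_lit 227431781182210048, nat_lit 318625275589951488, nat_lit 445766065717248000, nat_lit 622707333427888128, nat_lit 868475926449487872, nat_lit 1209116626376196096, nat_lit 1680145515752103936, nat_lit 2329785770992511040, nat_lit 3223191223670630976],
  [nat_lit 18014398509481984, nat_lit 26177172834091008, nat_lit 38038704274538496, nat_lit 55274992148938752, nat_lit 80321472966426624, nat_lit 116717140404338688, nat_lit 169604594650054656, nat_lit 246456676600860672, nat_lit 358132358185625664, nat_lit 520411082988487293]]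

noncomputable def BR5b_sn : List (List ℕ) := [[nat_lit 4096, nat_lit 2816, nat_lit 1936],
  [nat_lit 8192, nat_lit 7168, nat_lit 5984],
  [nat_lit 4096, nat_lit 4352, nat_lit 4624]]

noncomputable def BR5b_en : List (List ℕ) := [[nat_lit 320000000, nat_lit 143046875, nat_lit 64000000, nat_lit 28609375, nat_lit 12800000, nat_lit 5721875, nat_lit 2560000, nat_lit 1144375],
  [nat_lit 320000000, nat_lit 143125000, nat_lit 64000000, nat_lit 28625000, nat_lit 12800000, nat_lit 5725000, nat_lit 2560000, nat_lit 1145000]]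

noncomputable def BR5b_en1 : List (List ℕ) := [[nat_lit 1]]


end Crest.Agent.R163.Ck
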