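import Crest.Agent.R163.B9m1b_256D

/-! Row 163: Bellman certificate, data (generated). -/

set_option autoImplicit false
set_option Elab.async false
set_option maxRecDepth 100000

namespace Crest.Agent.R163.Ck

noncomputable def BR5c : Bell := ⟨true, 9, 3, 3, 1, 8, 32, fs3_9, lams3_9, TT3_9,
  [[[[.ofNat (nat_lit 53306035283288736), .negSucc (nat_lit 20842223507753813), .negSucc (nat_lit 401456981545575821), .ofNat (nat_lit 44405684651270349), .ofNat (nat_lit 653455445692515804), .ofNat (nat_lit 643603097111766858), .negSucc (nat_lit 47270437900116011), .negSucc (nat_lit 474956294115860135), .ofNat (nat_lit 202202504706606156), .negSucc (nat_lit 1735857449846432675), .ofNat (nat_lit 29004016197201930), .ofNat (nat_lit 322333801969271868), .negSucc (nat_lit 778638625721945099), .ofNat (nat_lit 1244647614860134308), .ofNat (nat_lit 350667428723998452), .negSucc (nat_lit 10765374457403798), .negSucc (nat_lit 144812510373866453), .ofNat (nat_lit 351842188881386376), .negSucc (nat_lit 705928201050530555), .ofNat (nat_lit 493082283093055776),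 .ofNat (nat_lit 80469282597032214), .ofNat (nat_lit 760116851167873662), .ofNat (nat_lit 2391847512323346), .ofNat (nat_lit 37194454398255534), .negSucc (nat_lit 67360983403350239), .ofNat (nat_lit 237788064904331646), .negSucc (nat_lit 380941490127990185), .ofNat (nat_lit 173259719785979352), .negSucc (nat_lit 227155050790762733), .negSucc (nat_lit 1417654676959013249), .negSucc (nat_lit 293061780647786), .negSucc (nat_lit 4994354355019373), .ofNat (nat_lit 5104679521876266), .negSucc (nat_lit 40611185052167111), .ofNat (nat_lit 62316090875865318), .negSucc (nat_lit 88198840785142439), .ofNat (nat_lit 52996466574393252), .ofNat (nat_lit 69869590261314294), .ofNat (nat_lit 268667451908918334), .ofNat (nat_lit 576298062656467662), .ofNat (nat_lit 15228248658677), .ofNat (nat_lit 274315096341156), .negSucc (nat_lit 62430823272389), .ofNat (nat_lit 2723667387117912), .negSucc (nat_lit 3717727248846029), .ofNat (nat_lit 10331288785368408), .negSucc (nat_lit 9307680606552233), .ofNat (nat_lit 1116245456804508), .negSucc (nat_lit 15204633354785033),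 .negSucc (nat_lit 4098398738123231), .negSucc (nat_lit 113875018949722781), .negSucc (nat_lit 35479776814538959)]],
  [[.negSucc (nat_lit 6935083923344165), .ofNat (nat_lit 25002541398078360), .negSucc (nat_lit 46483883351952605), .negSucc (nat_lit 54166750773185717), .ofNat (nat_lit 371289155006018970), .ofNat (nat_lit 193349486479623786), .ofNat (nat_lit 58662242264524680), .negSucc (nat_lit 328332478019702003), .negSucc (nat_lit 645321534975781523), .negSucc (nat_lit 1401317097765526295), .negSucc (nat_lit 36529445782547090), .ofNat (nat_lit 107892755660291076), .ofNat (nat_lit 1216931481109527030), .ofNat (nat_lit 1005425842955926464), .ofNat (nat_lit 2868262430136773580), .ofNat (nat_lit 13713398392785615), .negSucc (nat_lit 6442519839092099), .negSucc (nat_lit 506868107199363521), .negSucc (nat_lit 274147733953423871), .negSucc (nat_lit 529177097552350319), .negSucc (nat_lit 3753761574485881943), .negSucc (nat_lit 1476778845912476777), .negSucc (nat_lit 3071040089484176), .negSucc (nat_lit 4072775609060369), .ofNat (nat_lit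 105183438692451912), .ofNat (nat_lit 15686368269355710), .ofNat (nat_lit 376917914099372940), .ofNat (nat_lit 1030880497561602912), .ofNat (nat_lit 1004330604591280458), .ofNat (nat_lit 2245142531000546424), .ofNat (nat_lit 378119120137857), .ofNat (nat_lit 905573366408772), .negSucc (nat_lit 10578561477379847), .ofNat (nat_lit 4673015992455264), .negSucc (nat_lit 59824671834624371), .negSucc (nat_lit 117347463125102627), .negSucc (nat_lit 48991934879730089), .negSucc (nat_lit 406191469691181599), .negSucc (nat_lit 454270672552409315), .negSucc (nat_lit 773728763349624587), .negSucc (nat_lit 19695599111783), .negSucc (nat_lit 56913077045171), .ofNat (nat_lit 407288484302928), .negSucc (nat_lit 559737207579959), .ofNat (nat_lit 3511669592196360), .ofNat (nat_lit 3808779739522116), .ofNat (nat_lit 8393538728131212), .ofNat (nat_lit 26991925362938352), .ofNat (nat_lit 31827489436385100), .ofNat (nat_lit 22090005849481920), .ofNat (nat_lit 160263454126192644), .ofNat (nat_lit 43054304610649404)]],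
  [[]]],
  [[[.negSucc (nat_lit 50905622328116624), .ofNat (nat_lit 135696338901919332), .ofNat (nat_lit 378092892478068522), .negSucc (nat_lit 217570834723896863), .negSucc (nat_lit 1380770753966614673), .negSucc (nat_lit 1216672700499806237), .ofNat (nat_lit 209031111102832659), .ofNat (nat_lit 1332887840699272884), .ofNat (nat_lit 1185078622897499094), .ofNat (nat_lit 5211955230797054232), .negSucc (nat_lit 122434339299893099), .negSucc (nat_lit 770874823405495223), .negSucc (nat_lit 1970066097422751419), .negSucc (nat_lit 3591882953572896233), .negSucc (nat_lit 6601293000247397615), .ofNat (nat_lit 44670396929129073), .ofNat (nat_lit 273437801571853818), .ofNat (nat_lit 904419783630841338), .ofNat (nat_lit 1375141096950126714), .ofNat (nat_lit 655586620589747826), .ofNat (nat_lit 7646897116399097430), .ofNat (nat_lit 2157973878818781144), .negSucc (nat_lit 9970203861154997), .negSucc (nat_lit 58236039288854513), .negSucc (nat_lit 235844080883085761), .negSucc (nat_lit 304064233335636803), .negSucc (nat_lit 443625259512117455),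 .negSucc (nat_lit 2213623974657663161), .negSucc (nat_lit 1764808690209741395), .negSucc (nat_lit 2816906130176285843), .ofNat (nat_lit 1246859424052950), .ofNat (nat_lit 6841785097777350), .ofNat (nat_lit 32848647543422520), .ofNat (nat_lit 37597462962694386), .ofNat (nat_lit 75550165656089034), .ofNat (nat_lit 307295584194290796), .ofNat (nat_lit 48699168009476268), .ofNat (nat_lit 713909270571917082), .ofNat (nat_lit 552739388457161934), .ofNat (nat_lit 837853632158076888), .negSucc (nat_lit 66808404985256), .negSucc (nat_lit 341272755385667), .negSucc (nat_lit 1904204634404147), .negSucc (nat_lit 2102758358875613), .negSucc (nat_lit 5148175502902715), .negSucc (nat_lit 16156548304195733), .negSucc (nat_lit 8072118462149801), .negSucc (nat_lit 50182754714146799), .negSucc (nat_lit 38971949803028477), .negSucc (nat_lit 38371578936065297), .negSucc (nat_lit 172063914889797521), .negSucc (nat_lit 39699135874182473)]],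
  [[.ofNat (nat_lit 17360254452932874), .negSucc (nat_lit 19817266230020915), .ofNat (nat_lit 19817266230020916), .negSucc (nat_lit 6720228155005505), .ofNat (nat_lit 30069317580026976), .negSucc (nat_lit 23349089425021469), .ofNat (nat_lit 10366127570215872), .negSucc (nat_lit 34782439707524159), .ofNat (nat_lit 17734241563968960), .ofNat (nat_lit 6682070573339328), .negSucc (nat_lit 3739184140914503), .ofNat (nat_lit 12591842670245448), .negSucc (nat_lit 7478368281829007), .negSucc (nat_lit 5497160990007743), .ofNat (nat_lit 4122870742505808), .negSucc (nat_lit 419729332136327), .ofNat (nat_lit 3881969163062352), .negSucc (nat_lit 7675010264913155), .negSucc (nat_lit 5438895568353683), .ofNat (nat_lit 2849177263742748), .ofNat (nat_lit 16332163817684904), .negSucc (nat_lit 9529675079086835), .ofNat (nat_lit 687480435679212), .negSucc (nat_lit 4083812725684103), .ofNat (nat_lit 4297743715946778), .ofNat (nat_lit 5768043488894394), .negSucc (nat_lit 1547821973229929), .negSucc (nat_lit 11585738414486789), .ofNat (nat_lit 4574525267714310),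 .ofNat (nat_lit 1889580205166130), .negSucc (nat_lit 178346604136367), .ofNat (nat_lit 1045661123671728), .negSucc (nat_lit 934386861093503), .negSucc (nat_lit 1391536088790287), .ofNat (nat_lit 96125923977504), .ofNat (nat_lit 1887938009855568), .ofNat (nat_lit 352058126999856), .negSucc (nat_lit 1391536088790287), .ofNat (nat_lit 1542067374917376), .negSucc (nat_lit 1028044916611583), .ofNat (nat_lit 14965232235128), .negSucc (nat_lit 89791393410767), .ofNat (nat_lit 78702588661956), .ofNat (nat_lit 100880198159580), .ofNat (nat_lit 22177609497624), .negSucc (nat_lit 22177609497623), .negSucc (nat_lit 11088804748811), .negSucc (nat_lit 617450949126563), .ofNat (nat_lit 0), .ofNat (nat_lit 303181072188876), .ofNat (nat_lit 661806168121812), .negSucc (nat_lit 441204112081207)]],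
  [[]]],
  [[[.ofNat (nat_lit 22937499088310817), .negSucc (nat_lit 20059550333060111), .ofNat (nat_lit 20059550333060112), .ofNat (nat_lit 7436772510786000), .negSucc (nat_lit 12280542365827943), .ofNat (nat_lit 4843769855041944), .ofNat (nat_lit 4005355985098848), .negSucc (nat_lit 18750433355023823), .ofNat (nat_lit 17474086784553408), .negSucc (nat_lit 2729009414628431), .negSucc (nat_lit 4801593370814927), .ofNat (nat_lit 20321697511593396), .negSucc (nat_lit 9603186741629855), .negSucc (nat_lit 23667669596594447), .ofNat (nat_lit 17750752197445836), .ofNat (nat_lit 970698195041040), .negSucc (nat_lit 2965919631589295), .negSucc (nat_lit 3958412666163983), .ofNat (nat_lit 4227537898494864), .ofNat (nat_lit 3095364564055296), .ofNat (nat_lit 2978002357638048), .negSucc (nat_lit 4347270717475967), .ofNat (nat_lit 308373985513728), .negSucc (nat_lit 2173569300392255), .ofNat (nat_lit 3155718191800752), .ofNat (nat_lit 3409843914764496), .negSucc (nat_lit 1922222249745839), .negSucc (nat_lit 9095138270177039), .ofNat (nat_lit 6697346050413360),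 .negSucc (nat_lit 380352322177199), .negSucc (nat_lit 134347293345023), .ofNat (nat_lit 806185958663808), .negSucc (nat_lit 712169119072511), .negSucc (nat_lit 1169408377913471), .negSucc (nat_lit 13662527864831), .ofNat (nat_lit 1896670805162112), .ofNat (nat_lit 322585369714944), .negSucc (nat_lit 1169408377913471), .ofNat (nat_lit 520660687705344), .negSucc (nat_lit 347107125136895), .ofNat (nat_lit 13071478382928), .negSucc (nat_lit 78428870297567), .ofNat (nat_lit 50917868313984), .ofNat (nat_lit 105939872281152), .ofNat (nat_lit 55022003967168), .negSucc (nat_lit 55022003967167), .negSucc (nat_lit 27511001983583), .negSucc (nat_lit 521491090099391), .ofNat (nat_lit 0), .ofNat (nat_lit 246990044057904), .ofNat (nat_lit 631535098033728), .negSucc (nat_lit 421023398689151)]],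
  [[.negSucc (nat_lit 22831827311759003), .ofNat (nat_lit 6419382319104876), .negSucc (nat_lit 6419382319104875), .ofNat (nat_lit 7884028125713160), .negSucc (nat_lit 26861775536691917), .ofNat (nat_lit 18977747410978758), .negSucc (nat_lit 9018517732076483), .ofNat (nat_lit 30104787475707732), .negSucc (nat_lit 15116986291033043), .negSucc (nat_lit 5969283452598203), .ofNat (nat_lit 4416450802249104), .negSucc (nat_lit 16810686575337707), .ofNat (nat_lit 8832901604498208), .ofNat (nat_lit 14245336674361584), .negSucc (nat_lit 10684002505771187), .ofNat (nat_lit 77012989452144), .negSucc (nat_lit 2589487262270063), .ofNat (nat_lit 7483255374795192), .ofNat (nat_lit 4308986094772968), .negSucc (nat_lit 2843371776420071), .negSucc (nat_lit 17127609491774735), .ofNat (nat_lit 10691214071444568), .negSucc (nat_lit 792940741954343), .ofNat (nat_lit 4895460667593288), .negSucc (nat_lit 5348579060830715), .negSucc (nat_lit 7372429363687787), .ofNat (nat_lit 2176816093013340), .ofNat (nat_lit 15749241984081900), .negSucc (nat_lit 7519681961457299),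 .negSucc (nat_lit 1787887616758379), .ofNat (nat_lit 237566883853392), .negSucc (nat_lit 1408050013748303), .ofNat (nat_lit 1274285619607296), .ofNat (nat_lit 1930191728735856), .negSucc (nat_lit 125894453399903), .negSucc (nat_lit 2835664843734575), .negSucc (nat_lit 470393093391311), .ofNat (nat_lit 1930191728735856), .negSucc (nat_lit 1596700669974911), .ofNat (nat_lit 1064467113316608), .negSucc (nat_lit 21409849463463), .ofNat (nat_lit 128459096780784), .negSucc (nat_lit 104626860023531), .negSucc (nat_lit 152291333538035), .negSucc (nat_lit 47664473514503), .ofNat (nat_lit 47664473514504), .ofNat (nat_lit 23832236757252), .ofNat (nat_lit 875381440708236), .ofNat (nat_lit 0), .negSucc (nat_lit 425774601975491), .negSucc (nat_lit 970710387737243), .ofNat (nat_lit 647140258491496)]],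
  [[]]]],
  [[.negSucc (nat_lit 5723636247970145)],
  [.ofNat (nat_lit 5423174706694725)],
  [.ofNat (nat_lit 0)]],
  [[[[.negSucc (nat_lit 4112670092070979583), .negSucc (nat_lit 38130863873285597183), .ofNat (nat_lit 9218274043840542720), .ofNat (nat_lit 165007946297395565568), .negSucc (nat_lit 203204372809614944255), .negSucc (nat_lit 119543256333094920191), .ofNat (nat_lit 41038128779841626112), .ofNat (nat_lit 206105695770412670976), .ofNat (nat_lit 3278278043047987200), .negSucc (nat_lit 88992674082341425151), .ofNat (nat_lit 0), .ofNat (nat_lit 0)]],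
  [[.negSucc (nat_lit 1403024867370814463), .ofNat (nat_lit 33641455671349410816), .negSucc (nat_lit 32896824168488030207), .negSucc (nat_lit 93779574895765029887), .ofNat (nat_lit 130461958161161773056), .ofNat (nat_lit 71109083580971719680), .negSucc (nat_lit 37932598313068824575), .negSucc (nat_lit 115288468468427114495), .negSucc (nat_lit 4598682220101353471), .ofNat (nat_lit 53135962048048886784), .ofNat (nat_lit 0), .ofNat (nat_lit 0)]]],
  [[[.ofNat (nat_lit 4585160969956353024), .ofNat (nat_lit 108552104282802161664), .negSucc (nat_lit 84885142540860711935), .negSucc (nat_lit 184909294959436864511), .ofNat (nat_lit 33431627751906456576), .ofNat (nat_lit 143389245165151398912), .negSucc (nat_lit 15994486092517788671), .ofNat (nat_lit 29374674473368387584), .negSucc (nat_lit 51869761709909944319), .ofNat (nat_lit 5959850879532524544), .ofNat (nat_lit 0), .ofNat (nat_lit 0)]],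
  [[.ofNat (nat_lit 3149730642242589696), .negSucc (nat_lit 105695726525791423487), .ofNat (nat_lit 137846873056385479680), .ofNat (nat_lit 68222863459192716288), .negSucc (nat_lit 16442524676483914751), .negSucc (nat_lit 63724433893687996415), .ofNat (nat_lit 13031096130983632896), .negSucc (nat_lit 56196305428190846975), .ofNat (nat_lit 38840215992528079872), .ofNat (nat_lit 3494817205304435712), .ofNat (nat_lit 0), .ofNat (nat_lit 0)]]],
  [[[.ofNat (nat_lit 4918094678202255360), .negSucc (nat_lit 81493837448306614271), .ofNat (nat_lit 105829827085472053248), .negSucc (nat_lit 11865708927198056447), .ofNat (nat_lit 115980964777632448512), .negSucc (nat_lit 24400932126902415359), .ofNat (nat_lit 42510800013130948608), .negSucc (nat_lit 188372264614947265535), .ofNat (nat_lit 57007453943558725632), .ofNat (nat_lit 19607997726091155456), .ofNat (nat_lit 0), .ofNat (nat_lit 0)]],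
  [[.negSucc (nat_lit 11276575573028686847), .ofNat (nat_lit 82757014568895734784), .negSucc (nat_lit 126005046769139539967), .ofNat (nat_lit 17246581899940924416), .negSucc (nat_lit 40005874473881978879), .ofNat (nat_lit 22279581915294486528), .negSucc (nat_lit 28890583144682268671), .ofNat (nat_lit 84294989741462427648), .negSucc (nat_lit 39690802407641333759), .ofNat (nat_lit 10804413939679494144), .ofNat (nat_lit 0), .ofNat (nat_lit 0)]]]]⟩

noncomputable def BR5c_A : L6 := [[[[[[.negSucc (nat_lit 17592588482912428031), .ofNat (nat_lit 21889570651874242560), .ofNat (nat_lit 1403024867370814464)],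
  [],
  [.ofNat (nat_lit 23487999066430276608), .negSucc (nat_lit 23379791167241220095), .ofNat (nat_lit 0)],
  [],
  [.negSucc (nat_lit 5861003517921429503), .ofNat (nat_lit 5553330899655398400), .ofNat (nat_lit 0)],
  [],
  [],
  []],
  [[.negSucc (nat_lit 4112670092070979583), .negSucc (nat_lit 1403024867370814463), .ofNat (nat_lit 0)],
  [],
  [],
  [],
  [],
  [],
  [],
  []],
  [[.ofNat (nat_lit 9945027377376003072), .ofNat (nat_lit 3068576430674485248), .ofNat (nat_lit 0)],
  [.ofNat (nat_lit 9945027377376003072), .ofNat (nat_lit 3068576430674485248), .ofNat (nat_lit 0)],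
  [],
  [],
  [],
  [],
  [],
  []],
  [[.ofNat (nat_lit 14166425066194308096), .negSucc (nat_lit 2695884364137701375), .ofNat (nat_lit 0)],
  [],
  [.negSucc (nat_lit 14166425066194308095), .ofNat (nat_lit 2695884364137701376), .ofNat (nat_lit 0)],
  [],
  [],
  [],
  [],
  []],
  [[.negSucc (nat_lit 16834863840536696831), .negSucc (nat_lit 5093590329434096639), .ofNat (nat_lit 0)],
  [],
  [],
  [.negSucc (nat_lit 16834863840536696831), .negSucc (nat_lit 5093590329434096639), .ofNat (nat_lit 0)],
  [],
  [],
  [],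
  []],
  [[.ofNat (nat_lit 77128121815741440), .ofNat (nat_lit 1578552120853152768), .ofNat (nat_lit 0)],
  [],
  [],
  [],
  [.negSucc (nat_lit 77128121815741439), .negSucc (nat_lit 1578552120853152767), .ofNat (nat_lit 0)],
  [],
  [],
  []],
  [[.ofNat (nat_lit 9729202481101753344), .ofNat (nat_lit 457194176741403648), .ofNat (nat_lit 0)],
  [],
  [],
  [],
  [.negSucc (nat_lit 9729202481101753343), .negSucc (nat_lit 457194176741403647), .ofNat (nat_lit 0)],
  [],
  [],
  []],
  [[.negSucc (nat_lit 3661715912111474687), .ofNat (nat_lit 2448205814438931456), .ofNat (nat_lit 0)],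
  [],
  [],
  [],
  [],
  [.negSucc (nat_lit 3661715912111474687), .ofNat (nat_lit 2448205814438931456), .ofNat (nat_lit 0)],
  [],
  []],
  [[.ofNat (nat_lit 41749779051648000), .ofNat (nat_lit 22645515898377216), .ofNat (nat_lit 0)],
  [],
  [],
  [],
  [],
  [],
  [.negSucc (nat_lit 41749779051647999), .negSucc (nat_lit 22645515898377215), .ofNat (nat_lit 0)],
  []],
  [[.ofNat (nat_lit 2051936538561358848), .negSucc (nat_lit 1575166064330833919), .ofNat (nat_lit 0)],
  [],
  [],
  [],
  [],
  [],
  [.negSucc (nat_lit 2051936538561358847), .ofNat (nat_lit 1575166064330833920), .ofNat (nat_lit 0)],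
  []],
  [[],
  [],
  [],
  [],
  [],
  [],
  [],
  []],
  [[],
  [],
  [],
  [],
  [],
  [],
  [],
  []]],
  [],
  [],
  [],
  [],
  [],
  [],
  [],
  [],
  [],
  [],
  []],
  [[],
  [],
  [],
  [],
  [],
  [],
  [],
  [],
  [],
  [],
  [],
  []],
  [[],
  [[[.ofNat (nat_lit 34027495104709840896), .ofNat (nat_lit 22911203408629533696), .negSucc (nat_lit 33641455671349410815)],
  [],
  [.negSucc (nat_lit 15405734655790166015), .ofNat (nat_lit 4930085621072544768), .ofNat (nat_lit 0)],
  [],
  [],
  [],
  [],
  []],
  [[.negSucc (nat_lit 133765361399522691071), .ofNat (nat_lit 39720959229929001984), .ofNat (nat_lit 0)],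
  [],
  [],
  [],
  [],
  [],
  [],
  []],
  [[],
  [.negSucc (nat_lit 47895866518292020223), .negSucc (nat_lit 40363628066310647807), .ofNat (nat_lit 0)],
  [],
  [],
  [],
  [],
  [],
  []],
  [[],
  [],
  [.ofNat (nat_lit 193024182769758229248), .negSucc (nat_lit 21090914452752664319), .ofNat (nat_lit 0)],
  [],
  [],
  [],
  [],
  []],
  [[],
  [],
  [],
  [.ofNat (nat_lit 167382221085229625856), .ofNat (nat_lit 67322380336906466304), .ofNat (nat_lit 0)],
  [],
  [],
  [],
  []],
  [[],
  [],
  [],
  [],
  [.negSucc (nat_lit 136723388147762315903), .ofNat (nat_lit 33092223242923866240), .ofNat (nat_lit 0)],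
  [],
  [],
  []],
  [[],
  [],
  [],
  [],
  [.ofNat (nat_lit 78881889732895899648), .negSucc (nat_lit 12283109474055220223), .ofNat (nat_lit 0)],
  [],
  [],
  []],
  [[],
  [],
  [],
  [],
  [],
  [.negSucc (nat_lit 148645507882490417663), .negSucc (nat_lit 24634448043735306239), .ofNat (nat_lit 0)],
  [],
  []],
  [[],
  [],
  [],
  [],
  [],
  [],
  [.ofNat (nat_lit 20260765678021905024), .negSucc (nat_lit 20066740732119739391), .ofNat (nat_lit 0)],
  []],
  [[],
  [],
  [],
  [],
  [],
  [],
  [.negSucc (nat_lit 86695746880643564543), .ofNat (nat_lit 21393847094435610624), .ofNat (nat_lit 0)],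
  []],
  [[],
  [],
  [],
  [],
  [],
  [],
  [],
  [.ofNat (nat_lit 9744419235221586432), .negSucc (nat_lit 5375303352139336703), .ofNat (nat_lit 0)]],
  [[],
  [],
  [],
  [],
  [],
  [],
  [],
  [.negSucc (nat_lit 14363555769929511935), .ofNat (nat_lit 11026162450315837440), .ofNat (nat_lit 0)]]],
  [],
  [],
  [],
  [],
  [],
  [],
  [],
  [],
  [],
  []],
  [[],
  [],
  [[[.negSucc (nat_lit 20811930157267190783), .negSucc (nat_lit 24613764644814354431), .ofNat (nat_lit 32896824168488030208)],
  [],
  [.ofNat (nat_lit 6287637691303907328), .ofNat (nat_lit 13753229074786262016), .ofNat (nat_lit 0)],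
  [],
  [],
  [],
  [],
  []],
  [[.ofNat (nat_lit 57114140562132562944), .ofNat (nat_lit 7466803897822617600), .ofNat (nat_lit 0)],
  [],
  [],
  [],
  [],
  [],
  [],
  []],
  [[],
  [.ofNat (nat_lit 1465733811826584576), .ofNat (nat_lit 6117341578866344448), .ofNat (nat_lit 0)],
  [],
  [],
  [],
  [],
  [],
  []],
  [[],
  [],
  [.negSucc (nat_lit 8990358415232638463), .negSucc (nat_lit 102039252036394970879), .ofNat (nat_lit 0)],
  [],
  [],
  [],
  [],
  []],
  [[],
  [],
  [],
  [.ofNat (nat_lit 23902478071250188032), .ofNat (nat_lit 8329224110079955968), .ofNat (nat_lit 0)],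
  [],
  [],
  [],
  []],
  [[],
  [],
  [],
  [],
  [.negSucc (nat_lit 52715291282091025919), .ofNat (nat_lit 105144951219032929536), .ofNat (nat_lit 0)],
  [],
  [],
  []],
  [[],
  [],
  [],
  [],
  [.ofNat (nat_lit 70776852992349617664), .negSucc (nat_lit 25681417524794990591), .ofNat (nat_lit 0)],
  [],
  [],
  []],
  [[],
  [],
  [],
  [],
  [],
  [.negSucc (nat_lit 30327512977351642751), .negSucc (nat_lit 22521736774618786943), .ofNat (nat_lit 0)],
  [],
  []],
  [[],
  [],
  [],
  [],
  [],
  [],
  [.ofNat (nat_lit 46750165087956407424), .negSucc (nat_lit 51820229945572932095), .ofNat (nat_lit 0)],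
  []],
  [[],
  [],
  [],
  [],
  [],
  [],
  [.negSucc (nat_lit 128947967038806409727), .ofNat (nat_lit 25695958327499727360), .ofNat (nat_lit 0)],
  []],
  [[],
  [],
  [],
  [],
  [],
  [],
  [],
  [.ofNat (nat_lit 24965918914917329280), .negSucc (nat_lit 24264255017916223487), .ofNat (nat_lit 0)]],
  [[],
  [],
  [],
  [],
  [],
  [],
  [],
  [.negSucc (nat_lit 78875903465403715583), .ofNat (nat_lit 38785975903758191616), .ofNat (nat_lit 0)]]],
  [],
  [],
  [],
  [],
  [],
  [],
  [],
  [],
  []],
  [[],
  [],
  [],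
  [[[.negSucc (nat_lit 25984522897735560191), .negSucc (nat_lit 150944150506305991679), .ofNat (nat_lit 93779574895765029888)],
  [],
  [.ofNat (nat_lit 8493164565076786176), .negSucc (nat_lit 12145691372331598847), .ofNat (nat_lit 0)],
  [],
  [],
  [],
  [],
  []],
  [[.ofNat (nat_lit 358032129067153794816), .negSucc (nat_lit 114870489348517694207), .ofNat (nat_lit 0)],
  [],
  [],
  [],
  [],
  [],
  [],
  []],
  [[],
  [.ofNat (nat_lit 8990358415232638464), .ofNat (nat_lit 102039252036394970880), .ofNat (nat_lit 0)],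
  [],
  [],
  [],
  [],
  [],
  []],
  [[],
  [],
  [.negSucc (nat_lit 525688976756809524095), .ofNat (nat_lit 43223130648583558272), .ofNat (nat_lit 0)],
  [],
  [],
  [],
  [],
  []],
  [[],
  [],
  [],
  [.negSucc (nat_lit 440141896221031845503), .negSucc (nat_lit 78926984441777962367), .ofNat (nat_lit 0)],
  [],
  [],
  [],
  []],
  [[],
  [],
  [],
  [],
  [.ofNat (nat_lit 356013613339159294656), .ofNat (nat_lit 3181610870346128832), .ofNat (nat_lit 0)],
  [],
  [],
  []],
  [[],
  [],
  [],
  [],
  [.negSucc (nat_lit 240267258079421531903), .ofNat (nat_lit 154328632802344493568), .ofNat (nat_lit 0)],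
  [],
  [],
  []],
  [[],
  [],
  [],
  [],
  [],
  [.ofNat (nat_lit 554644529251896424320), .negSucc (nat_lit 32498280899711974655), .ofNat (nat_lit 0)],
  [],
  []],
  [[],
  [],
  [],
  [],
  [],
  [],
  [.ofNat (nat_lit 6039774737844994656), .negSucc (nat_lit 27618854481419250239), .ofNat (nat_lit 0)],
  []],
  [[],
  [],
  [],
  [],
  [],
  [],
  [.ofNat (nat_lit 494742582598214050560), .negSucc (nat_lit 313992642481181611775), .ofNat (nat_lit 0)],
  []],
  [[],
  [],
  [],
  [],
  [],
  [],
  [],
  [.ofNat (nat_lit 60639007604194713024), .negSucc (nat_lit 89544954338388866303), .ofNat (nat_lit 0)]],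
  [[],
  [],
  [],
  [],
  [],
  [],
  [],
  [.ofNat (nat_lit 64917493407123996672), .negSucc (nat_lit 42560945164917061631), .ofNat (nat_lit 0)]]],
  [],
  [],
  [],
  [],
  [],
  [],
  [],
  []],
  [[],
  [],
  [],
  [],
  [[[.ofNat (nat_lit 26331680155476197376), .ofNat (nat_lit 196135505815068057600), .negSucc (nat_lit 130461958161161773055)],
  [],
  [.negSucc (nat_lit 14817269288397597695), .ofNat (nat_lit 11028489943688524800), .ofNat (nat_lit 0)],
  [],
  [],
  [],
  [],
  []],
  [[.negSucc (nat_lit 370586593894844570111), .ofNat (nat_lit 63139577824255306752), .ofNat (nat_lit 0)],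
  [],
  [],
  [],
  [],
  [],
  [],
  []],
  [[],
  [.ofNat (nat_lit 23902478071250188032), .ofNat (nat_lit 8329224110079955968), .ofNat (nat_lit 0)],
  [],
  [],
  [],
  [],
  [],
  []],
  [[],
  [],
  [.ofNat (nat_lit 440141896221031845504), .ofNat (nat_lit 78926984441777962368), .ofNat (nat_lit 0)],
  [],
  [],
  [],
  [],
  []],
  [[],
  [],
  [],
  [.ofNat (nat_lit 583834886485378000128), .negSucc (nat_lit 487986063302996372735), .ofNat (nat_lit 0)],
  [],
  [],
  [],
  []],
  [[],
  [],
  [],
  [],
  [.negSucc (nat_lit 268245873138508069247), .negSucc (nat_lit 18257740066706462207), .ofNat (nat_lit 0)],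
  [],
  [],
  []],
  [[],
  [],
  [],
  [],
  [.negSucc (nat_lit 9834427662073641215), .negSucc (nat_lit 47804729470739389439), .ofNat (nat_lit 0)],
  [],
  [],
  []],
  [[],
  [],
  [],
  [],
  [],
  [.negSucc (nat_lit 838389895239639936383), .ofNat (nat_lit 744107325421691860416), .ofNat (nat_lit 0)],
  [],
  []],
  [[],
  [],
  [],
  [],
  [],
  [],
  [.negSucc (nat_lit 99227855966722157375), .ofNat (nat_lit 84606431874649505280), .ofNat (nat_lit 0)],
  []],
  [[],
  [],
  [],
  [],
  [],
  [],
  [.negSucc (nat_lit 29107060853628039551), .ofNat (nat_lit 97617964018321778688), .ofNat (nat_lit 0)],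
  []],
  [[],
  [],
  [],
  [],
  [],
  [],
  [],
  [.negSucc (nat_lit 26630404371575790335), .negSucc (nat_lit 55101734684633805119), .ofNat (nat_lit 0)]],
  [[],
  [],
  [],
  [],
  [],
  [],
  [],
  [.ofNat (nat_lit 262904089209110332416), .negSucc (nat_lit 128812538709075382271), .ofNat (nat_lit 0)]]],
  [],
  [],
  [],
  [],
  [],
  [],
  []],
  [[],
  [],
  [],
  [],
  [],
  [[[.ofNat (nat_lit 15343835378873859072), .ofNat (nat_lit 116616098184744665088), .negSucc (nat_lit 71109083580971719679)],
  [],
  [.negSucc (nat_lit 412120552041197567), .ofNat (nat_lit 2509466955338806272), .ofNat (nat_lit 0)],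
  [],
  [],
  [],
  [],
  []],
  [[.negSucc (nat_lit 256266644480857236095), .ofNat (nat_lit 104201306823895585920), .ofNat (nat_lit 0)],
  [],
  [],
  [],
  [],
  [],
  [],
  []],
  [[],
  [.ofNat (nat_lit 52715291282091025920), .negSucc (nat_lit 105144951219032929535), .ofNat (nat_lit 0)],
  [],
  [],
  [],
  [],
  [],
  []],
  [[],
  [],
  [.ofNat (nat_lit 356013613339159294656), .ofNat (nat_lit 3181610870346128832), .ofNat (nat_lit 0)],
  [],
  [],
  [],
  [],
  []],
  [[],
  [],
  [],
  [.ofNat (nat_lit 268245873138508069248), .ofNat (nat_lit 18257740066706462208), .ofNat (nat_lit 0)],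
  [],
  [],
  [],
  []],
  [[],
  [],
  [],
  [],
  [.negSucc (nat_lit 246553000345892479967), .negSucc (nat_lit 92960043058153338623), .ofNat (nat_lit 0)],
  [],
  [],
  []],
  [[],
  [],
  [],
  [],
  [.ofNat (nat_lit 318005487893576154240), .negSucc (nat_lit 292858492197280846463), .ofNat (nat_lit 0)],
  [],
  [],
  []],
  [[],
  [],
  [],
  [],
  [],
  [.negSucc (nat_lit 503880073183275879743), .ofNat (nat_lit 173411140589414975808), .ofNat (nat_lit 0)],
  [],
  []],
  [[],
  [],
  [],
  [],
  [],
  [],
  [.ofNat (nat_lit 77628027077776835712), .ofNat (nat_lit 24857947378868120640), .ofNat (nat_lit 0)],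
  []],
  [[],
  [],
  [],
  [],
  [],
  [],
  [.negSucc (nat_lit 854468619816226343615), .ofNat (nat_lit 537006036468756570624), .ofNat (nat_lit 0)],
  []],
  [[],
  [],
  [],
  [],
  [],
  [],
  [],
  [.negSucc (nat_lit 86487500846260757951), .ofNat (nat_lit 82502320338738446976), .ofNat (nat_lit 0)]],
  [[],
  [],
  [],
  [],
  [],
  [],
  [],
  [.negSucc (nat_lit 102929002795270217087), .ofNat (nat_lit 24400283707186760448), .ofNat (nat_lit 0)]]],
  [[[.negSucc (nat_lit 8481220791809928191), .negSucc (nat_lit 44248144195095155711), .ofNat (nat_lit 37932598313068824576)],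
  [],
  [.ofNat (nat_lit 1010260464669499392), .ofNat (nat_lit 3131863393087899648), .ofNat (nat_lit 0)],
  [],
  [],
  [],
  [],
  []],
  [[.ofNat (nat_lit 119920018512737525760), .negSucc (nat_lit 50215707787124044799), .ofNat (nat_lit 0)],
  [],
  [],
  [],
  [],
  [],
  [],
  []],
  [[],
  [.negSucc (nat_lit 70776852992349617663), .ofNat (nat_lit 25681417524794990592), .ofNat (nat_lit 0)],
  [],
  [],
  [],
  [],
  [],
  []],
  [[],
  [],
  [.negSucc (nat_lit 240267258079421531903), .ofNat (nat_lit 154328632802344493568), .ofNat (nat_lit 0)],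
  [],
  [],
  [],
  [],
  []],
  [[],
  [],
  [],
  [.ofNat (nat_lit 9834427662073641216), .ofNat (nat_lit 47804729470739389440), .ofNat (nat_lit 0)],
  [],
  [],
  [],
  []],
  [[],
  [],
  [],
  [],
  [.ofNat (nat_lit 318005487893576154240), .negSucc (nat_lit 292858492197280846463), .ofNat (nat_lit 0)],
  [],
  [],
  []],
  [[],
  [],
  [],
  [],
  [.negSucc (nat_lit 60736615922626606079), .ofNat (nat_lit 25523583816350937600), .ofNat (nat_lit 0)],
  [],
  [],
  []],
  [[],
  [],
  [],
  [],
  [],
  [.ofNat (nat_lit 67427054618825965824), .negSucc (nat_lit 88378148354128270847), .ofNat (nat_lit 0)],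
  [],
  []],
  [[],
  [],
  [],
  [],
  [],
  [],
  [.negSucc (nat_lit 138015281421042217343), .ofNat (nat_lit 131626552222518174720), .ofNat (nat_lit 0)],
  []],
  [[],
  [],
  [],
  [],
  [],
  [],
  [.negSucc (nat_lit 28947117252788441855), .ofNat (nat_lit 40388610626348580864), .ofNat (nat_lit 0)],
  []],
  [[],
  [],
  [],
  [],
  [],
  [],
  [],
  [.negSucc (nat_lit 100920513679718128127), .ofNat (nat_lit 62570537833386686976), .ofNat (nat_lit 0)]],
  [[],
  [],
  [],
  [],
  [],
  [],
  [],
  [.ofNat (nat_lit 32871914038903739904), .ofNat (nat_lit 25455541625710525440), .ofNat (nat_lit 0)]]],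
  [],
  [],
  [],
  [],
  []],
  [[],
  [],
  [],
  [],
  [],
  [],
  [],
  [[[.negSucc (nat_lit 17186940579549155327), .negSucc (nat_lit 200178646465525023743), .ofNat (nat_lit 115288468468427114496)],
  [],
  [.ofNat (nat_lit 4177148819674963968), .negSucc (nat_lit 7659127607689995263), .ofNat (nat_lit 0)],
  [],
  [],
  [],
  [],
  []],
  [[.ofNat (nat_lit 354751203652903088640), .negSucc (nat_lit 90654020424691808255), .ofNat (nat_lit 0)],
  [],
  [],
  [],
  [],
  [],
  [],
  []],
  [[],
  [.negSucc (nat_lit 30327512977351642751), .negSucc (nat_lit 22521736774618786943), .ofNat (nat_lit 0)],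
  [],
  [],
  [],
  [],
  [],
  []],
  [[],
  [],
  [.negSucc (nat_lit 554644529251896424319), .ofNat (nat_lit 32498280899711974656), .ofNat (nat_lit 0)],
  [],
  [],
  [],
  [],
  []],
  [[],
  [],
  [],
  [.negSucc (nat_lit 838389895239639936383), .ofNat (nat_lit 744107325421691860416), .ofNat (nat_lit 0)],
  [],
  [],
  [],
  []],
  [[],
  [],
  [],
  [],
  [.ofNat (nat_lit 503880073183275879744), .negSucc (nat_lit 173411140589414975807), .ofNat (nat_lit 0)],
  [],
  [],
  []],
  [[],
  [],
  [],
  [],
  [.negSucc (nat_lit 67427054618825965823), .ofNat (nat_lit 88378148354128270848), .ofNat (nat_lit 0)],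
  [],
  [],
  []],
  [[],
  [],
  [],
  [],
  [],
  [.ofNat (nat_lit 1447915146640331531904), .negSucc (nat_lit 914479395056681840927), .ofNat (nat_lit 0)],
  [],
  []],
  [[],
  [],
  [],
  [],
  [],
  [],
  [.ofNat (nat_lit 96930175855198036032), .negSucc (nat_lit 38888576653475365055), .ofNat (nat_lit 0)],
  []],
  [[],
  [],
  [],
  [],
  [],
  [],
  [.ofNat (nat_lit 335789169151057744320), .negSucc (nat_lit 158946522224212312703), .ofNat (nat_lit 0)],
  []],
  [[],
  [],
  [],
  [],
  [],
  [],
  [],
  [.ofNat (nat_lit 79486669817124533424), .negSucc (nat_lit 74559519961914922559), .ofNat (nat_lit 0)]],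
  [[],
  [],
  [],
  [],
  [],
  [],
  [],
  [.negSucc (nat_lit 276796008711717774335), .ofNat (nat_lit 168371371436575352832), .ofNat (nat_lit 0)]]],
  [],
  [],
  [],
  []],
  [[],
  [],
  [],
  [],
  [],
  [],
  [],
  [],
  [[[.ofNat (nat_lit 356310067781873664), .negSucc (nat_lit 3727732784891360255), .ofNat (nat_lit 4598682220101353472)],
  [],
  [.negSucc (nat_lit 313373181638863871), .ofNat (nat_lit 607601684391330816), .ofNat (nat_lit 0)],
  [],
  [],
  [],
  [],
  []],
  [[.ofNat (nat_lit 23539043721069892224), .negSucc (nat_lit 24665422952221092863), .ofNat (nat_lit 0)],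
  [],
  [],
  [],
  [],
  [],
  [],
  []],
  [[],
  [.negSucc (nat_lit 46750165087956407423), .ofNat (nat_lit 51820229945572932096), .ofNat (nat_lit 0)],
  [],
  [],
  [],
  [],
  [],
  []],
  [[],
  [],
  [.ofNat (nat_lit 6039774737844994656), .negSucc (nat_lit 27618854481419250239), .ofNat (nat_lit 0)],
  [],
  [],
  [],
  [],
  []],
  [[],
  [],
  [],
  [.ofNat (nat_lit 99227855966722157376), .negSucc (nat_lit 84606431874649505279), .ofNat (nat_lit 0)],
  [],
  [],
  [],
  []],
  [[],
  [],
  [],
  [],
  [.ofNat (nat_lit 77628027077776835712), .ofNat (nat_lit 24857947378868120640), .ofNat (nat_lit 0)],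
  [],
  [],
  []],
  [[],
  [],
  [],
  [],
  [.negSucc (nat_lit 138015281421042217343), .ofNat (nat_lit 131626552222518174720), .ofNat (nat_lit 0)],
  [],
  [],
  []],
  [[],
  [],
  [],
  [],
  [],
  [.negSucc (nat_lit 96930175855198036031), .ofNat (nat_lit 38888576653475365056), .ofNat (nat_lit 0)],
  [],
  []],
  [[],
  [],
  [],
  [],
  [],
  [],
  [.negSucc (nat_lit 300277258285455030095), .ofNat (nat_lit 71660186619316328088), .ofNat (nat_lit 0)],
  []],
  [[],
  [],
  [],
  [],
  [],
  [],
  [.ofNat (nat_lit 299576294440926433056), .negSucc (nat_lit 146194730848885108031), .ofNat (nat_lit 0)],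
  []],
  [[],
  [],
  [],
  [],
  [],
  [],
  [],
  [.negSucc (nat_lit 59358716879759961911), .negSucc (nat_lit 58881259384618687055), .ofNat (nat_lit 0)]],
  [[],
  [],
  [],
  [],
  [],
  [],
  [],
  [.ofNat (nat_lit 5023119219092058240), .ofNat (nat_lit 32012571530517679872), .ofNat (nat_lit 0)]]],
  [[[.ofNat (nat_lit 4077832293519916032), .ofNat (nat_lit 88096166172754117632), .negSucc (nat_lit 53135962048048886783)],
  [],
  [.negSucc (nat_lit 941472510695129087), .ofNat (nat_lit 1353391325247734784), .ofNat (nat_lit 0)],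
  [],
  [],
  [],
  [],
  []],
  [[.negSucc (nat_lit 175688420962984989695), .ofNat (nat_lit 74529809142484497408), .ofNat (nat_lit 0)],
  [],
  [],
  [],
  [],
  [],
  [],
  []],
  [[],
  [.ofNat (nat_lit 128947967038806409728), .negSucc (nat_lit 25695958327499727359), .ofNat (nat_lit 0)],
  [],
  [],
  [],
  [],
  [],
  []],
  [[],
  [],
  [.ofNat (nat_lit 494742582598214050560), .negSucc (nat_lit 313992642481181611775), .ofNat (nat_lit 0)],
  [],
  [],
  [],
  [],
  []],
  [[],
  [],
  [],
  [.ofNat (nat_lit 29107060853628039552), .negSucc (nat_lit 97617964018321778687), .ofNat (nat_lit 0)],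
  [],
  [],
  [],
  []],
  [[],
  [],
  [],
  [],
  [.negSucc (nat_lit 854468619816226343615), .ofNat (nat_lit 537006036468756570624), .ofNat (nat_lit 0)],
  [],
  [],
  []],
  [[],
  [],
  [],
  [],
  [.negSucc (nat_lit 28947117252788441855), .ofNat (nat_lit 40388610626348580864), .ofNat (nat_lit 0)],
  [],
  [],
  []],
  [[],
  [],
  [],
  [],
  [],
  [.negSucc (nat_lit 335789169151057744319), .ofNat (nat_lit 158946522224212312704), .ofNat (nat_lit 0)],
  [],
  []],
  [[],
  [],
  [],
  [],
  [],
  [],
  [.ofNat (nat_lit 299576294440926433056), .negSucc (nat_lit 146194730848885108031), .ofNat (nat_lit 0)],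
  []],
  [[],
  [],
  [],
  [],
  [],
  [],
  [.ofNat (nat_lit 316363885306476281856), .negSucc (nat_lit 337588493865608747519), .ofNat (nat_lit 0)],
  []],
  [[],
  [],
  [],
  [],
  [],
  [],
  [],
  [.ofNat (nat_lit 217456227289873506240), .negSucc (nat_lit 116374690193450363135), .ofNat (nat_lit 0)]],
  [[],
  [],
  [],
  [],
  [],
  [],
  [],
  [.ofNat (nat_lit 258344161916117755392), .negSucc (nat_lit 267254912836307377151), .ofNat (nat_lit 0)]]],
  [],
  []],
  [[],
  [],
  [],
  [],
  [],
  [],
  [],
  [],
  [],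
  [],
  [[[],
  [],
  [],
  [],
  [],
  [],
  [],
  []],
  [[.negSucc (nat_lit 9744419235221586431), .ofNat (nat_lit 5375303352139336704), .ofNat (nat_lit 0)],
  [],
  [],
  [],
  [],
  [],
  [],
  []],
  [[],
  [.ofNat (nat_lit 24965918914917329280), .negSucc (nat_lit 24264255017916223487), .ofNat (nat_lit 0)],
  [],
  [],
  [],
  [],
  [],
  []],
  [[],
  [],
  [.negSucc (nat_lit 60639007604194713023), .ofNat (nat_lit 89544954338388866304), .ofNat (nat_lit 0)],
  [],
  [],
  [],
  [],
  []],
  [[],
  [],
  [],
  [.negSucc (nat_lit 26630404371575790335), .negSucc (nat_lit 55101734684633805119), .ofNat (nat_lit 0)],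
  [],
  [],
  [],
  []],
  [[],
  [],
  [],
  [],
  [.ofNat (nat_lit 86487500846260757952), .negSucc (nat_lit 82502320338738446975), .ofNat (nat_lit 0)],
  [],
  [],
  []],
  [[],
  [],
  [],
  [],
  [.ofNat (nat_lit 100920513679718128128), .negSucc (nat_lit 62570537833386686975), .ofNat (nat_lit 0)],
  [],
  [],
  []],
  [[],
  [],
  [],
  [],
  [],
  [.ofNat (nat_lit 79486669817124533424), .negSucc (nat_lit 74559519961914922559), .ofNat (nat_lit 0)],
  [],
  []],
  [[],
  [],
  [],
  [],
  [],
  [],
  [.ofNat (nat_lit 59358716879759961912), .ofNat (nat_lit 58881259384618687056), .ofNat (nat_lit 0)],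
  []],
  [[],
  [],
  [],
  [],
  [],
  [],
  [.negSucc (nat_lit 217456227289873506239), .ofNat (nat_lit 116374690193450363136), .ofNat (nat_lit 0)],
  []],
  [[],
  [],
  [],
  [],
  [],
  [],
  [],
  [.ofNat (nat_lit 18079426524973914792), .ofNat (nat_lit 78342063504903506304), .ofNat (nat_lit 0)]],
  [[],
  [],
  [],
  [],
  [],
  [],
  [],
  [.ofNat (nat_lit 26368206261505103232), .negSucc (nat_lit 49514535437660529407), .ofNat (nat_lit 0)]]],
  [[[],
  [],
  [],
  [],
  [],
  [],
  [],
  []],
  [[.ofNat (nat_lit 14363555769929511936), .negSucc (nat_lit 11026162450315837439), .ofNat (nat_lit 0)],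
  [],
  [],
  [],
  [],
  [],
  [],
  []],
  [[],
  [.negSucc (nat_lit 78875903465403715583), .ofNat (nat_lit 38785975903758191616), .ofNat (nat_lit 0)],
  [],
  [],
  [],
  [],
  [],
  []],
  [[],
  [],
  [.negSucc (nat_lit 64917493407123996671), .ofNat (nat_lit 42560945164917061632), .ofNat (nat_lit 0)],
  [],
  [],
  [],
  [],
  []],
  [[],
  [],
  [],
  [.ofNat (nat_lit 262904089209110332416), .negSucc (nat_lit 128812538709075382271), .ofNat (nat_lit 0)],
  [],
  [],
  [],
  []],
  [[],
  [],
  [],
  [],
  [.ofNat (nat_lit 102929002795270217088), .negSucc (nat_lit 24400283707186760447), .ofNat (nat_lit 0)],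
  [],
  [],
  []],
  [[],
  [],
  [],
  [],
  [.negSucc (nat_lit 32871914038903739903), .negSucc (nat_lit 25455541625710525439), .ofNat (nat_lit 0)],
  [],
  [],
  []],
  [[],
  [],
  [],
  [],
  [],
  [.negSucc (nat_lit 276796008711717774335), .ofNat (nat_lit 168371371436575352832), .ofNat (nat_lit 0)],
  [],
  []],
  [[],
  [],
  [],
  [],
  [],
  [],
  [.negSucc (nat_lit 5023119219092058239), .negSucc (nat_lit 32012571530517679871), .ofNat (nat_lit 0)],
  []],
  [[],
  [],
  [],
  [],
  [],
  [],
  [.negSucc (nat_lit 258344161916117755391), .ofNat (nat_lit 267254912836307377152), .ofNat (nat_lit 0)],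
  []],
  [[],
  [],
  [],
  [],
  [],
  [],
  [],
  [.ofNat (nat_lit 26368206261505103232), .negSucc (nat_lit 49514535437660529407), .ofNat (nat_lit 0)]],
  [[],
  [],
  [],
  [],
  [],
  [],
  [],
  [.negSucc (nat_lit 85649879839513600511), .ofNat (nat_lit 153452600343584317440), .ofNat (nat_lit 0)]]]]],
  [[[[[.ofNat (nat_lit 46975998132860553216), .negSucc (nat_lit 51344743304438793215), .negSucc (nat_lit 3149730642242589695)],
  [],
  [.negSucc (nat_lit 17583010553764288511), .ofNat (nat_lit 16659992698966195200), .ofNat (nat_lit 0)],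
  [],
  [],
  [],
  [],
  []],
  [[.negSucc (nat_lit 29442334134753487871), .ofNat (nat_lit 18369391106898653184), .ofNat (nat_lit 0)],
  [],
  [],
  [],
  [],
  [],
  [],
  []],
  [[],
  [.negSucc (nat_lit 20811930157267190783), .negSucc (nat_lit 15395490600973811711), .ofNat (nat_lit 0)],
  [],
  [],
  [],
  [],
  [],
  []],
  [[],
  [],
  [.ofNat (nat_lit 25984522897735560192), .negSucc (nat_lit 14063795791089573887), .ofNat (nat_lit 0)],
  [],
  [],
  [],
  [],
  []],
  [[],
  [],
  [],
  [.ofNat (nat_lit 26331680155476197376), .negSucc (nat_lit 7068866994546886655), .ofNat (nat_lit 0)],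
  [],
  [],
  [],
  []],
  [[],
  [],
  [],
  [],
  [.negSucc (nat_lit 15343835378873859071), .ofNat (nat_lit 2927158148350255104), .ofNat (nat_lit 0)],
  [],
  [],
  []],
  [[],
  [],
  [],
  [],
  [.ofNat (nat_lit 8481220791809928192), .ofNat (nat_lit 3210015415253529600), .ofNat (nat_lit 0)],
  [],
  [],
  []],
  [[],
  [],
  [],
  [],
  [],
  [.negSucc (nat_lit 17186940579549155327), .ofNat (nat_lit 5927049304887647232), .ofNat (nat_lit 0)],
  [],
  []],
  [[],
  [],
  [],
  [],
  [],
  [],
  [.negSucc (nat_lit 356310067781873663), .ofNat (nat_lit 449454741843373056), .ofNat (nat_lit 0)],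
  []],
  [[],
  [],
  [],
  [],
  [],
  [],
  [.negSucc (nat_lit 4077832293519916031), .ofNat (nat_lit 896507909587307520), .ofNat (nat_lit 0)],
  []],
  [[],
  [],
  [],
  [],
  [],
  [],
  [],
  []],
  [[],
  [],
  [],
  [],
  [],
  [],
  [],
  []]],
  [],
  [],
  [],
  [],
  [],
  [],
  [],
  [],
  [],
  [],
  []],
  [[],
  [],
  [],
  [],
  [],
  [],
  [],
  [],
  [],
  [],
  [],
  []],
  [[],
  [[[.negSucc (nat_lit 30811469311580332031), .negSucc (nat_lit 98691933040657072127), .ofNat (nat_lit 105695726525791423488)],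
  [],
  [],
  [],
  [],
  [],
  [],
  []],
  [[.ofNat (nat_lit 293183033078686192128), .negSucc (nat_lit 123374268119556315647), .ofNat (nat_lit 0)],
  [],
  [],
  [],
  [],
  [],
  [],
  []],
  [[],
  [.ofNat (nat_lit 29796924398054280192), .ofNat (nat_lit 89385847453748247552), .ofNat (nat_lit 0)],
  [],
  [],
  [],
  [],
  [],
  []],
  [[],
  [],
  [.negSucc (nat_lit 376174059653288911103), .ofNat (nat_lit 109142107249651635456), .ofNat (nat_lit 0)],
  [],
  [],
  [],
  [],
  []],
  [[],
  [],
  [],
  [.negSucc (nat_lit 137006626465800875519), .negSucc (nat_lit 37392405381650999807), .ofNat (nat_lit 0)],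
  [],
  [],
  [],
  []],
  [[],
  [],
  [],
  [],
  [.ofNat (nat_lit 297126925686465925248), .negSucc (nat_lit 92465519277081532031), .ofNat (nat_lit 0)],
  [],
  [],
  []],
  [[],
  [],
  [],
  [],
  [.ofNat (nat_lit 18311345008313075712), .negSucc (nat_lit 93858341059429926911), .ofNat (nat_lit 0)],
  [],
  [],
  []],
  [[],
  [],
  [],
  [],
  [],
  [.ofNat (nat_lit 118997343818745864192), .negSucc (nat_lit 52429595350978584575), .ofNat (nat_lit 0)],
  [],
  []],
  [[],
  [],
  [],
  [],
  [],
  [],
  [.negSucc (nat_lit 80461820284604830079), .ofNat (nat_lit 18691198433412672384), .ofNat (nat_lit 0)],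
  []],
  [[],
  [],
  [],
  [],
  [],
  [],
  [.negSucc (nat_lit 74077203895858418687), .ofNat (nat_lit 49160147873762732544), .ofNat (nat_lit 0)],
  []],
  [[],
  [],
  [],
  [],
  [],
  [],
  [],
  [.negSucc (nat_lit 53016702862091659775), .ofNat (nat_lit 21998065822281174528), .ofNat (nat_lit 0)]],
  [[],
  [],
  [],
  [],
  [],
  [],
  [],
  [.negSucc (nat_lit 28544826054639412223), .ofNat (nat_lit 6275555367111152640), .ofNat (nat_lit 0)]]],
  [],
  [],
  [],
  [],
  [],
  [],
  [],
  [],
  [],
  []],
  [[],
  [],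
  [[[.ofNat (nat_lit 12575275382607814656), .ofNat (nat_lit 112391600690433235968), .negSucc (nat_lit 137846873056385479679)],
  [],
  [],
  [],
  [],
  [],
  [],
  []],
  [[.negSucc (nat_lit 114682066938914992127), .ofNat (nat_lit 48461025602637232128), .ofNat (nat_lit 0)],
  [],
  [],
  [],
  [],
  [],
  [],
  []],
  [[],
  [.ofNat (nat_lit 79198895810095031808), .negSucc (nat_lit 125257341011137219583), .ofNat (nat_lit 0)],
  [],
  [],
  [],
  [],
  [],
  []],
  [[],
  [],
  [.negSucc (nat_lit 128021221767738521087), .ofNat (nat_lit 89915933630761191936), .ofNat (nat_lit 0)],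
  [],
  [],
  [],
  [],
  []],
  [[],
  [],
  [],
  [.negSucc (nat_lit 287472318321244785407), .ofNat (nat_lit 283426520308925121792), .ofNat (nat_lit 0)],
  [],
  [],
  [],
  []],
  [[],
  [],
  [],
  [],
  [.ofNat (nat_lit 320971154227919688960), .negSucc (nat_lit 62749898085169467647), .ofNat (nat_lit 0)],
  [],
  [],
  []],
  [[],
  [],
  [],
  [],
  [.negSucc (nat_lit 111913554136133159423), .ofNat (nat_lit 45599412719763302400), .ofNat (nat_lit 0)],
  [],
  [],
  []],
  [[],
  [],
  [],
  [],
  [],
  [.ofNat (nat_lit 354167251519964266368), .negSucc (nat_lit 187459946173716810623), .ofNat (nat_lit 0)],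
  [],
  []],
  [[],
  [],
  [],
  [],
  [],
  [],
  [.negSucc (nat_lit 156872065611730769279), .ofNat (nat_lit 16784130181009032576), .ofNat (nat_lit 0)],
  []],
  [[],
  [],
  [],
  [],
  [],
  [],
  [.ofNat (nat_lit 138539930522629183488), .ofNat (nat_lit 2410715767391013888), .ofNat (nat_lit 0)],
  []],
  [[],
  [],
  [],
  [],
  [],
  [],
  [],
  [.negSucc (nat_lit 119089458540022525055), .ofNat (nat_lit 44763765046755172992), .ofNat (nat_lit 0)]],
  [[],
  [],
  [],
  [],
  [],
  [],
  [],
  [.ofNat (nat_lit 33947888803789819392), .ofNat (nat_lit 0), .ofNat (nat_lit 0)]]],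
  [],
  [],
  [],
  [],
  [],
  [],
  [],
  [],
  []],
  [[],
  [],
  [],
  [[[.ofNat (nat_lit 16986329130153572352), .ofNat (nat_lit 160617912214773666816), .negSucc (nat_lit 68222863459192716287)],
  [],
  [],
  [],
  [],
  [],
  [],
  []],
  [[.negSucc (nat_lit 561083354612725775615), .ofNat (nat_lit 177364970708844351744), .ofNat (nat_lit 0)],
  [],
  [],
  [],
  [],
  [],
  [],
  []],
  [[],
  [.ofNat (nat_lit 128021221767738521088), .negSucc (nat_lit 89915933630761191935), .ofNat (nat_lit 0)],
  [],
  [],
  [],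
  [],
  [],
  []],
  [[],
  [],
  [.ofNat (nat_lit 968881433389943777280), .negSucc (nat_lit 285730118977517793791), .ofNat (nat_lit 0)],
  [],
  [],
  [],
  [],
  []],
  [[],
  [],
  [],
  [.negSucc (nat_lit 177640139844025794431), .ofNat (nat_lit 280605400906341212928), .ofNat (nat_lit 0)],
  [],
  [],
  [],
  []],
  [[],
  [],
  [],
  [],
  [.negSucc (nat_lit 719158753941577174079), .ofNat (nat_lit 202965052373494185024), .ofNat (nat_lit 0)],
  [],
  [],
  []],
  [[],
  [],
  [],
  [],
  [.negSucc (nat_lit 49392613675748189951), .ofNat (nat_lit 194005728135447404544), .ofNat (nat_lit 0)],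
  [],
  [],
  []],
  [[],
  [],
  [],
  [],
  [],
  [.ofNat (nat_lit 55864645289578121472), .negSucc (nat_lit 258391835160928311167), .ofNat (nat_lit 0)],
  [],
  []],
  [[],
  [],
  [],
  [],
  [],
  [],
  [.ofNat (nat_lit 80160212444992761888), .negSucc (nat_lit 36839755729117524671), .ofNat (nat_lit 0)],
  []],
  [[],
  [],
  [],
  [],
  [],
  [],
  [.ofNat (nat_lit 87119549035743299328), .negSucc (nat_lit 90149320613705983487), .ofNat (nat_lit 0)],
  []],
  [[],
  [],
  [],
  [],
  [],
  [],
  [],
  [.negSucc (nat_lit 36871322721493390271), .ofNat (nat_lit 64817530835510182464), .ofNat (nat_lit 0)]],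
  [[],
  [],
  [],
  [],
  [],
  [],
  [],
  [.negSucc (nat_lit 445563764480157695), .ofNat (nat_lit 0), .ofNat (nat_lit 0)]]],
  [],
  [],
  [],
  [],
  [],
  [],
  [],
  []],
  [[],
  [],
  [],
  [],
  [[[.negSucc (nat_lit 29634538576795195391), .negSucc (nat_lit 11374647864529406975), .ofNat (nat_lit 16442524676483914752)],
  [],
  [],
  [],
  [],
  [],
  [],
  []],
  [[.ofNat (nat_lit 170438254217707332096), .ofNat (nat_lit 20949880705167085056), .ofNat (nat_lit 0)],
  [],
  [],
  [],
  [],
  [],
  [],
  []],
  [[],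
  [.negSucc (nat_lit 287472318321244785407), .ofNat (nat_lit 283426520308925121792), .ofNat (nat_lit 0)],
  [],
  [],
  [],
  [],
  [],
  []],
  [[],
  [],
  [.ofNat (nat_lit 177640139844025794432), .negSucc (nat_lit 280605400906341212927), .ofNat (nat_lit 0)],
  [],
  [],
  [],
  [],
  []],
  [[],
  [],
  [],
  [.ofNat (nat_lit 397336676122661004288), .negSucc (nat_lit 570966039140539004927), .ofNat (nat_lit 0)],
  [],
  [],
  [],
  []],
  [[],
  [],
  [],
  [],
  [.negSucc (nat_lit 619407903718032621695), .ofNat (nat_lit 408965774966145045504), .ofNat (nat_lit 0)],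
  [],
  [],
  []],
  [[],
  [],
  [],
  [],
  [.ofNat (nat_lit 236730321716867493120), .ofNat (nat_lit 57805976266842931200), .ofNat (nat_lit 0)],
  [],
  [],
  []],
  [[],
  [],
  [],
  [],
  [],
  [.negSucc (nat_lit 145162975929756643007), .ofNat (nat_lit 89615367078679141056), .ofNat (nat_lit 0)],
  [],
  []],
  [[],
  [],
  [],
  [],
  [],
  [],
  [.ofNat (nat_lit 234446958003006176256), .negSucc (nat_lit 123937507435766753663), .ofNat (nat_lit 0)],
  []],
  [[],
  [],
  [],
  [],
  [],
  [],
  [.negSucc (nat_lit 334633079933989757567), .negSucc (nat_lit 94308488060019674111), .ofNat (nat_lit 0)],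
  []],
  [[],
  [],
  [],
  [],
  [],
  [],
  [],
  [.negSucc (nat_lit 70698024008013983903), .ofNat (nat_lit 58103522956540389888), .ofNat (nat_lit 0)]],
  [[],
  [],
  [],
  [],
  [],
  [],
  [],
  [.negSucc (nat_lit 69898673866916127743), .ofNat (nat_lit 18860288138725598208), .ofNat (nat_lit 0)]]],
  [],
  [],
  [],
  [],
  [],
  [],
  []],
  [[],
  [],
  [],
  [],
  [],
  [[[.negSucc (nat_lit 824241104082395135), .negSucc (nat_lit 138370311254473786367), .ofNat (nat_lit 63724433893687996416)],
  [],
  [],
  [],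
  [],
  [],
  [],
  []],
  [[.ofNat (nat_lit 440516170851617324160), .negSucc (nat_lit 156189953170769528447), .ofNat (nat_lit 0)],
  [],
  [],
  [],
  [],
  [],
  [],
  []],
  [[],
  [.negSucc (nat_lit 320971154227919688959), .ofNat (nat_lit 62749898085169467648), .ofNat (nat_lit 0)],
  [],
  [],
  [],
  [],
  [],
  []],
  [[],
  [],
  [.negSucc (nat_lit 719158753941577174079), .ofNat (nat_lit 202965052373494185024), .ofNat (nat_lit 0)],
  [],
  [],
  [],
  [],
  []],
  [[],
  [],
  [],
  [.ofNat (nat_lit 619407903718032621696), .negSucc (nat_lit 408965774966145045503), .ofNat (nat_lit 0)],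
  [],
  [],
  [],
  []],
  [[],
  [],
  [],
  [],
  [.ofNat (nat_lit 452645133937463899872), .ofNat (nat_lit 33816702798114991488), .ofNat (nat_lit 0)],
  [],
  [],
  []],
  [[],
  [],
  [],
  [],
  [.ofNat (nat_lit 24221592666727500672), .negSucc (nat_lit 51069161770979204735), .ofNat (nat_lit 0)],
  [],
  [],
  []],
  [[],
  [],
  [],
  [],
  [],
  [.ofNat (nat_lit 84668815134118817280), .ofNat (nat_lit 241571825220548797632), .ofNat (nat_lit 0)],
  [],
  []],
  [[],
  [],
  [],
  [],
  [],
  [],
  [.negSucc (nat_lit 20551131610292360735), .negSucc (nat_lit 65325393642190294655), .ofNat (nat_lit 0)],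
  []],
  [[],
  [],
  [],
  [],
  [],
  [],
  [.negSucc (nat_lit 17106240751042140863), .negSucc (nat_lit 66255882794397159551), .ofNat (nat_lit 0)],
  []],
  [[],
  [],
  [],
  [],
  [],
  [],
  [],
  [.negSucc (nat_lit 195390706323856062815), .ofNat (nat_lit 24172098998421703392), .ofNat (nat_lit 0)]],
  [[],
  [],
  [],
  [],
  [],
  [],
  [],
  [.ofNat (nat_lit 54841477863856625280), .ofNat (nat_lit 0), .ofNat (nat_lit 0)]]],
  [[[.ofNat (nat_lit 2020520929338998784), .ofNat (nat_lit 22258212878693587968), .negSucc (nat_lit 13031096130983632895)],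
  [],
  [],
  [],
  [],
  [],
  [],
  []],
  [[.ofNat (nat_lit 2316858915795287040), .negSucc (nat_lit 80827244928446294015), .ofNat (nat_lit 0)],
  [],
  [],
  [],
  [],
  [],
  [],
  []],
  [[],
  [.ofNat (nat_lit 111913554136133159424), .negSucc (nat_lit 45599412719763302399), .ofNat (nat_lit 0)],
  [],
  [],
  [],
  [],
  [],
  []],
  [[],
  [],
  [.negSucc (nat_lit 49392613675748189951), .ofNat (nat_lit 194005728135447404544), .ofNat (nat_lit 0)],
  [],
  [],
  [],
  [],
  []],
  [[],
  [],
  [],
  [.negSucc (nat_lit 236730321716867493119), .negSucc (nat_lit 57805976266842931199), .ofNat (nat_lit 0)],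
  [],
  [],
  [],
  []],
  [[],
  [],
  [],
  [],
  [.ofNat (nat_lit 24221592666727500672), .negSucc (nat_lit 51069161770979204735), .ofNat (nat_lit 0)],
  [],
  [],
  []],
  [[],
  [],
  [],
  [],
  [.negSucc (nat_lit 205098483812014752767), .ofNat (nat_lit 10228733011605772800), .ofNat (nat_lit 0)],
  [],
  [],
  []],
  [[],
  [],
  [],
  [],
  [],
  [.ofNat (nat_lit 244699440972216473088), .ofNat (nat_lit 55842869799945133056), .ofNat (nat_lit 0)],
  [],
  []],
  [[],
  [],
  [],
  [],
  [],
  [],
  [.negSucc (nat_lit 10462206693629341439), .negSucc (nat_lit 18270284970606059519), .ofNat (nat_lit 0)],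
  []],
  [[],
  [],
  [],
  [],
  [],
  [],
  [.ofNat (nat_lit 127911682642731137280), .negSucc (nat_lit 36741079042020933119), .ofNat (nat_lit 0)],
  []],
  [[],
  [],
  [],
  [],
  [],
  [],
  [],
  [.negSucc (nat_lit 85596284904445215359), .ofNat (nat_lit 16473332838666775680), .ofNat (nat_lit 0)]],
  [[],
  [],
  [],
  [],
  [],
  [],
  [],
  [.negSucc (nat_lit 36248466887494700543), .ofNat (nat_lit 0), .ofNat (nat_lit 0)]]],
  [],
  [],
  [],
  [],
  []],
  [[],
  [],
  [],
  [],
  [],
  [],
  [],
  [[[.ofNat (nat_lit 8354297639349927936), .negSucc (nat_lit 44692929688748378111), .ofNat (nat_lit 56196305428190846976)],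
  [],
  [],
  [],
  [],
  [],
  [],
  []],
  [[.negSucc (nat_lit 89622669345377476607), .negSucc (nat_lit 3766710077212262399), .ofNat (nat_lit 0)],
  [],
  [],
  [],
  [],
  [],
  [],
  []],
  [[],
  [.ofNat (nat_lit 354167251519964266368), .negSucc (nat_lit 187459946173716810623), .ofNat (nat_lit 0)],
  [],
  [],
  [],
  [],
  [],
  []],
  [[],
  [],
  [.negSucc (nat_lit 55864645289578121471), .ofNat (nat_lit 258391835160928311168), .ofNat (nat_lit 0)],
  [],
  [],
  [],
  [],
  []],
  [[],
  [],
  [],
  [.negSucc (nat_lit 145162975929756643007), .ofNat (nat_lit 89615367078679141056), .ofNat (nat_lit 0)],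
  [],
  [],
  [],
  []],
  [[],
  [],
  [],
  [],
  [.negSucc (nat_lit 84668815134118817279), .negSucc (nat_lit 241571825220548797631), .ofNat (nat_lit 0)],
  [],
  [],
  []],
  [[],
  [],
  [],
  [],
  [.negSucc (nat_lit 244699440972216473087), .negSucc (nat_lit 55842869799945133055), .ofNat (nat_lit 0)],
  [],
  [],
  []],
  [[],
  [],
  [],
  [],
  [],
  [.negSucc (nat_lit 179458426237972252607), .ofNat (nat_lit 299001736493994614400), .ofNat (nat_lit 0)],
  [],
  []],
  [[],
  [],
  [],
  [],
  [],
  [],
  [.ofNat (nat_lit 120638844819432386784), .negSucc (nat_lit 48122717473134074591), .ofNat (nat_lit 0)],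
  []],
  [[],
  [],
  [],
  [],
  [],
  [],
  [.ofNat (nat_lit 430606963131127253568), .negSucc (nat_lit 71746382178847404287), .ofNat (nat_lit 0)],
  []],
  [[],
  [],
  [],
  [],
  [],
  [],
  [],
  [.negSucc (nat_lit 87863675448972873023), .ofNat (nat_lit 11190941261688793248), .ofNat (nat_lit 0)]],
  [[],
  [],
  [],
  [],
  [],
  [],
  [],
  [.negSucc (nat_lit 80087714118419959295), .ofNat (nat_lit 0), .ofNat (nat_lit 0)]]],
  [],
  [],
  [],
  []],
  [[],
  [],
  [],
  [],
  [],
  [],
  [],
  [],
  [[[.negSucc (nat_lit 626746363277727743), .ofNat (nat_lit 53084965078692605952), .negSucc (nat_lit 38840215992528079871)],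
  [],
  [],
  [],
  [],
  [],
  [],
  []],
  [[.negSucc (nat_lit 132331581994514774399), .ofNat (nat_lit 57531414425940752256), .ofNat (nat_lit 0)],
  [],
  [],
  [],
  [],
  [],
  [],
  []],
  [[],
  [.ofNat (nat_lit 156872065611730769280), .negSucc (nat_lit 16784130181009032575), .ofNat (nat_lit 0)],
  [],
  [],
  [],
  [],
  [],
  []],
  [[],
  [],
  [.ofNat (nat_lit 80160212444992761888), .negSucc (nat_lit 36839755729117524671), .ofNat (nat_lit 0)],
  [],
  [],
  [],
  [],
  []],
  [[],
  [],
  [],
  [.negSucc (nat_lit 234446958003006176255), .ofNat (nat_lit 123937507435766753664), .ofNat (nat_lit 0)],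
  [],
  [],
  [],
  []],
  [[],
  [],
  [],
  [],
  [.negSucc (nat_lit 20551131610292360735), .negSucc (nat_lit 65325393642190294655), .ofNat (nat_lit 0)],
  [],
  [],
  []],
  [[],
  [],
  [],
  [],
  [.negSucc (nat_lit 10462206693629341439), .negSucc (nat_lit 18270284970606059519), .ofNat (nat_lit 0)],
  [],
  [],
  []],
  [[],
  [],
  [],
  [],
  [],
  [.negSucc (nat_lit 120638844819432386783), .ofNat (nat_lit 48122717473134074592), .ofNat (nat_lit 0)],
  [],
  []],
  [[],
  [],
  [],
  [],
  [],
  [],
  [.ofNat (nat_lit 233680272451124573448), .negSucc (nat_lit 10746815012378549567), .ofNat (nat_lit 0)],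
  []],
  [[],
  [],
  [],
  [],
  [],
  [],
  [.negSucc (nat_lit 20721024119590900703), .ofNat (nat_lit 5435079201873051840), .ofNat (nat_lit 0)],
  []],
  [[],
  [],
  [],
  [],
  [],
  [],
  [],
  [.ofNat (nat_lit 81801930707482277880), .ofNat (nat_lit 1965313806896252736), .ofNat (nat_lit 0)]],
  [[],
  [],
  [],
  [],
  [],
  [],
  [],
  [.negSucc (nat_lit 50396148265054142591), .negSucc (nat_lit 784444420888894079), .ofNat (nat_lit 0)]]],
  [[[.negSucc (nat_lit 1882945021390258175), .negSucc (nat_lit 3253068229037054975), .negSucc (nat_lit 3494817205304435711)],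
  [],
  [],
  [],
  [],
  [],
  [],
  []],
  [[.negSucc (nat_lit 68117353016325894143), .ofNat (nat_lit 52654965079067168256), .ofNat (nat_lit 0)],
  [],
  [],
  [],
  [],
  [],
  [],
  []],
  [[],
  [.negSucc (nat_lit 138539930522629183487), .negSucc (nat_lit 2410715767391013887), .ofNat (nat_lit 0)],
  [],
  [],
  [],
  [],
  [],
  []],
  [[],
  [],
  [.ofNat (nat_lit 87119549035743299328), .negSucc (nat_lit 90149320613705983487), .ofNat (nat_lit 0)],
  [],
  [],
  [],
  [],
  []],
  [[],
  [],
  [],
  [.ofNat (nat_lit 334633079933989757568), .ofNat (nat_lit 94308488060019674112), .ofNat (nat_lit 0)],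
  [],
  [],
  [],
  []],
  [[],
  [],
  [],
  [],
  [.negSucc (nat_lit 17106240751042140863), .negSucc (nat_lit 66255882794397159551), .ofNat (nat_lit 0)],
  [],
  [],
  []],
  [[],
  [],
  [],
  [],
  [.ofNat (nat_lit 127911682642731137280), .negSucc (nat_lit 36741079042020933119), .ofNat (nat_lit 0)],
  [],
  [],
  []],
  [[],
  [],
  [],
  [],
  [],
  [.negSucc (nat_lit 430606963131127253567), .ofNat (nat_lit 71746382178847404288), .ofNat (nat_lit 0)],
  [],
  []],
  [[],
  [],
  [],
  [],
  [],
  [],
  [.negSucc (nat_lit 20721024119590900703), .ofNat (nat_lit 5435079201873051840), .ofNat (nat_lit 0)],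
  []],
  [[],
  [],
  [],
  [],
  [],
  [],
  [.ofNat (nat_lit 488193833155158973440), .negSucc (nat_lit 21740316807492207359), .ofNat (nat_lit 0)],
  []],
  [[],
  [],
  [],
  [],
  [],
  [],
  [],
  [.ofNat (nat_lit 11094540255153934848), .ofNat (nat_lit 1568888841777788160), .ofNat (nat_lit 0)]],
  [[],
  [],
  [],
  [],
  [],
  [],
  [],
  [.ofNat (nat_lit 170207427145832317440), .ofNat (nat_lit 3137777683555576320), .ofNat (nat_lit 0)]]],
  [],
  []],
  [[],
  [],
  [],
  [],
  [],
  [],
  [],
  [],
  [],
  [],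
  [[[],
  [],
  [],
  [],
  [],
  [],
  [],
  []],
  [[.ofNat (nat_lit 53016702862091659776), .negSucc (nat_lit 21998065822281174527), .ofNat (nat_lit 0)],
  [],
  [],
  [],
  [],
  [],
  [],
  []],
  [[],
  [.negSucc (nat_lit 119089458540022525055), .ofNat (nat_lit 44763765046755172992), .ofNat (nat_lit 0)],
  [],
  [],
  [],
  [],
  [],
  []],
  [[],
  [],
  [.ofNat (nat_lit 36871322721493390272), .negSucc (nat_lit 64817530835510182463), .ofNat (nat_lit 0)],
  [],
  [],
  [],
  [],
  []],
  [[],
  [],
  [],
  [.negSucc (nat_lit 70698024008013983903), .ofNat (nat_lit 58103522956540389888), .ofNat (nat_lit 0)],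
  [],
  [],
  [],
  []],
  [[],
  [],
  [],
  [],
  [.ofNat (nat_lit 195390706323856062816), .negSucc (nat_lit 24172098998421703391), .ofNat (nat_lit 0)],
  [],
  [],
  []],
  [[],
  [],
  [],
  [],
  [.ofNat (nat_lit 85596284904445215360), .negSucc (nat_lit 16473332838666775679), .ofNat (nat_lit 0)],
  [],
  [],
  []],
  [[],
  [],
  [],
  [],
  [],
  [.negSucc (nat_lit 87863675448972873023), .ofNat (nat_lit 11190941261688793248), .ofNat (nat_lit 0)],
  [],
  []],
  [[],
  [],
  [],
  [],
  [],
  [],
  [.negSucc (nat_lit 81801930707482277879), .negSucc (nat_lit 1965313806896252735), .ofNat (nat_lit 0)],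
  []],
  [[],
  [],
  [],
  [],
  [],
  [],
  [.negSucc (nat_lit 11094540255153934847), .negSucc (nat_lit 1568888841777788159), .ofNat (nat_lit 0)],
  []],
  [[],
  [],
  [],
  [],
  [],
  [],
  [],
  [.negSucc (nat_lit 195627147346271997575), .ofNat (nat_lit 0), .ofNat (nat_lit 0)]],
  [[],
  [],
  [],
  [],
  [],
  [],
  [],
  [.ofNat (nat_lit 71344022102439835968), .ofNat (nat_lit 0), .ofNat (nat_lit 0)]]],
  [[[],
  [],
  [],
  [],
  [],
  [],
  [],
  []],
  [[.ofNat (nat_lit 28544826054639412224), .negSucc (nat_lit 6275555367111152639), .ofNat (nat_lit 0)],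
  [],
  [],
  [],
  [],
  [],
  [],
  []],
  [[],
  [.ofNat (nat_lit 33947888803789819392), .ofNat (nat_lit 0), .ofNat (nat_lit 0)],
  [],
  [],
  [],
  [],
  [],
  []],
  [[],
  [],
  [.ofNat (nat_lit 445563764480157696), .ofNat (nat_lit 0), .ofNat (nat_lit 0)],
  [],
  [],
  [],
  [],
  []],
  [[],
  [],
  [],
  [.negSucc (nat_lit 69898673866916127743), .ofNat (nat_lit 18860288138725598208), .ofNat (nat_lit 0)],
  [],
  [],
  [],
  []],
  [[],
  [],
  [],
  [],
  [.negSucc (nat_lit 54841477863856625279), .ofNat (nat_lit 0), .ofNat (nat_lit 0)],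
  [],
  [],
  []],
  [[],
  [],
  [],
  [],
  [.ofNat (nat_lit 36248466887494700544), .ofNat (nat_lit 0), .ofNat (nat_lit 0)],
  [],
  [],
  []],
  [[],
  [],
  [],
  [],
  [],
  [.negSucc (nat_lit 80087714118419959295), .ofNat (nat_lit 0), .ofNat (nat_lit 0)],
  [],
  []],
  [[],
  [],
  [],
  [],
  [],
  [],
  [.ofNat (nat_lit 50396148265054142592), .ofNat (nat_lit 784444420888894080), .ofNat (nat_lit 0)],
  []],
  [[],
  [],
  [],
  [],
  [],
  [],
  [.negSucc (nat_lit 170207427145832317439), .negSucc (nat_lit 3137777683555576319), .ofNat (nat_lit 0)],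
  []],
  [[],
  [],
  [],
  [],
  [],
  [],
  [],
  [.ofNat (nat_lit 71344022102439835968), .ofNat (nat_lit 0), .ofNat (nat_lit 0)]],
  [[],
  [],
  [],
  [],
  [],
  [],
  [],
  [.negSucc (nat_lit 191017584967741189631), .ofNat (nat_lit 0), .ofNat (nat_lit 0)]]]]],
  [[[[[.negSucc (nat_lit 17583010553764288511), .ofNat (nat_lit 11741898020763939840), .ofNat (nat_lit 11276575573028686848)],
  [],
  [],
  [],
  [],
  [],
  [],
  []],
  [[.ofNat (nat_lit 20323829333992421376), .negSucc (nat_lit 16206661194101231615), .ofNat (nat_lit 0)],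
  [],
  [],
  [],
  [],
  [],
  [],
  []],
  [[],
  [.ofNat (nat_lit 6287637691303907328), .ofNat (nat_lit 13753229074786262016), .ofNat (nat_lit 0)],
  [],
  [],
  [],
  [],
  [],
  []],
  [[],
  [],
  [.negSucc (nat_lit 8493164565076786175), .ofNat (nat_lit 12145691372331598848), .ofNat (nat_lit 0)],
  [],
  [],
  [],
  [],
  []],
  [[],
  [],
  [],
  [.negSucc (nat_lit 14817269288397597695), .ofNat (nat_lit 11028489943688524800), .ofNat (nat_lit 0)],
  [],
  [],
  [],
  []],
  [[],
  [],
  [],
  [],
  [.ofNat (nat_lit 412120552041197568), .negSucc (nat_lit 2509466955338806271), .ofNat (nat_lit 0)],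
  [],
  [],
  []],
  [[],
  [],
  [],
  [],
  [.negSucc (nat_lit 1010260464669499391), .negSucc (nat_lit 3131863393087899647), .ofNat (nat_lit 0)],
  [],
  [],
  []],
  [[],
  [],
  [],
  [],
  [],
  [.ofNat (nat_lit 4177148819674963968), .negSucc (nat_lit 7659127607689995263), .ofNat (nat_lit 0)],
  [],
  []],
  [[],
  [],
  [],
  [],
  [],
  [],
  [.ofNat (nat_lit 313373181638863872), .negSucc (nat_lit 607601684391330815), .ofNat (nat_lit 0)],
  []],
  [[],
  [],
  [],
  [],
  [],
  [],
  [.ofNat (nat_lit 941472510695129088), .negSucc (nat_lit 1353391325247734783), .ofNat (nat_lit 0)],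
  []],
  [[],
  [],
  [],
  [],
  [],
  [],
  [],
  []],
  [[],
  [],
  [],
  [],
  [],
  [],
  [],
  []]],
  [],
  [],
  [],
  [],
  [],
  [],
  [],
  [],
  [],
  [],
  []],
  [[],
  [],
  [],
  [],
  [],
  [],
  [],
  [],
  [],
  [],
  [],
  []],
  [[],
  [[[.ofNat (nat_lit 0), .ofNat (nat_lit 81493837448306614272), .negSucc (nat_lit 82757014568895734783)],
  [],
  [],
  [],
  [],
  [],
  [],
  []],
  [[.negSucc (nat_lit 142032276110420563967), .ofNat (nat_lit 92545135644399616512), .ofNat (nat_lit 0)],
  [],
  [],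
  [],
  [],
  [],
  [],
  []],
  [[],
  [.negSucc (nat_lit 28753597311404802047), .negSucc (nat_lit 50658578560003627007), .ofNat (nat_lit 0)],
  [],
  [],
  [],
  [],
  [],
  []],
  [[],
  [],
  [.ofNat (nat_lit 133743729450512996352), .negSucc (nat_lit 123755756771775181823), .ofNat (nat_lit 0)],
  [],
  [],
  [],
  [],
  []],
  [[],
  [],
  [],
  [.ofNat (nat_lit 115012943368005076992), .negSucc (nat_lit 28946878300929936383), .ofNat (nat_lit 0)],
  [],
  [],
  [],
  []],
  [[],
  [],
  [],
  [],
  [.negSucc (nat_lit 80377672006167367679), .ofNat (nat_lit 112076917582040414208), .ofNat (nat_lit 0)],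
  [],
  [],
  []],
  [[],
  [],
  [],
  [],
  [.negSucc (nat_lit 54233457887381852159), .ofNat (nat_lit 112254681825098431488), .ofNat (nat_lit 0)],
  [],
  [],
  []],
  [[],
  [],
  [],
  [],
  [],
  [.negSucc (nat_lit 91284779105005068287), .ofNat (nat_lit 98328459236778146304), .ofNat (nat_lit 0)],
  [],
  []],
  [[],
  [],
  [],
  [],
  [],
  [],
  [.ofNat (nat_lit 13588862630292080640), .negSucc (nat_lit 23836605787682063999), .ofNat (nat_lit 0)],
  []],
  [[],
  [],
  [],
  [],
  [],
  [],
  [.ofNat (nat_lit 27059709324068904960), .negSucc (nat_lit 58751443823710440959), .ofNat (nat_lit 0)],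
  []],
  [[],
  [],
  [],
  [],
  [],
  [],
  [],
  [.ofNat (nat_lit 18659910448187043840), .negSucc (nat_lit 31223456078058478079), .ofNat (nat_lit 0)]],
  [[],
  [],
  [],
  [],
  [],
  [],
  [],
  [.ofNat (nat_lit 6590307574865903616), .negSucc (nat_lit 9473739276734143487), .ofNat (nat_lit 0)]]],
  [],
  [],
  [],
  [],
  [],
  [],
  [],
  [],
  [],
  []],
  [[],
  [],
  [[[.ofNat (nat_lit 0), .negSucc (nat_lit 105829827085472053247), .ofNat (nat_lit 126005046769139539968)],
  [],
  [],
  [],
  [],
  [],
  [],
  []],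
  [[.ofNat (nat_lit 134583424396876855296), .negSucc (nat_lit 75346468209135912959), .ofNat (nat_lit 0)],
  [],
  [],
  [],
  [],
  [],
  [],
  []],
  [[],
  [.negSucc (nat_lit 93281743111687501823), .ofNat (nat_lit 141827302089509598720), .ofNat (nat_lit 0)],
  [],
  [],
  [],
  [],
  [],
  []],
  [[],
  [],
  [.negSucc (nat_lit 60905482628721914879), .negSucc (nat_lit 8534557750697178623), .ofNat (nat_lit 0)],
  [],
  [],
  [],
  [],
  []],
  [[],
  [],
  [],
  [.ofNat (nat_lit 244107648465975770112), .negSucc (nat_lit 368852067107534333951), .ofNat (nat_lit 0)],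
  [],
  [],
  [],
  []],
  [[],
  [],
  [],
  [],
  [.ofNat (nat_lit 4082437207264204800), .ofNat (nat_lit 22139929499346337536), .ofNat (nat_lit 0)],
  [],
  [],
  []],
  [[],
  [],
  [],
  [],
  [.ofNat (nat_lit 28763442107442929664), .negSucc (nat_lit 56909204260025545727), .ofNat (nat_lit 0)],
  [],
  [],
  []],
  [[],
  [],
  [],
  [],
  [],
  [.negSucc (nat_lit 187409974178140406783), .ofNat (nat_lit 265818297747967794432), .ofNat (nat_lit 0)],
  [],
  []],
  [[],
  [],
  [],
  [],
  [],
  [],
  [.ofNat (nat_lit 8389497675651581952), .negSucc (nat_lit 16168209664479843455), .ofNat (nat_lit 0)],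
  []],
  [[],
  [],
  [],
  [],
  [],
  [],
  [.negSucc (nat_lit 12289399157009203199), .ofNat (nat_lit 5226217039746800640), .ofNat (nat_lit 0)],
  []],
  [[],
  [],
  [],
  [],
  [],
  [],
  [],
  [.ofNat (nat_lit 40346692375154135040), .negSucc (nat_lit 64598445260964236159), .ofNat (nat_lit 0)]],
  [[],
  [],
  [],
  [],
  [],
  [],
  [],
  []]],
  [],
  [],
  [],
  [],
  [],
  [],
  [],
  [],
  []],
  [[],
  [],
  [],
  [[[.ofNat (nat_lit 0), .ofNat (nat_lit 11865708927198056448), .negSucc (nat_lit 17246581899940924415)],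
  [],
  [],
  [],
  [],
  [],
  [],
  []],
  [[.ofNat (nat_lit 121878020523314939904), .negSucc (nat_lit 106509174871834257407), .ofNat (nat_lit 0)],
  [],
  [],
  [],
  [],
  [],
  [],
  []],
  [[],
  [.ofNat (nat_lit 60905482628721914880), .ofNat (nat_lit 8534557750697178624), .ofNat (nat_lit 0)],
  [],
  [],
  [],
  [],
  [],
  []],
  [[],
  [],
  [.negSucc (nat_lit 383560163258276770559), .ofNat (nat_lit 411142431617186883840), .ofNat (nat_lit 0)],
  [],
  [],
  [],
  [],
  []],
  [[],
  [],
  [],
  [.ofNat (nat_lit 63088751758333012992), .negSucc (nat_lit 229062330816094787327), .ofNat (nat_lit 0)],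
  [],
  [],
  [],
  []],
  [[],
  [],
  [],
  [],
  [.ofNat (nat_lit 268194005448310596096), .negSucc (nat_lit 330476643085453099775), .ofNat (nat_lit 0)],
  [],
  [],
  []],
  [[],
  [],
  [],
  [],
  [.ofNat (nat_lit 189813827991694675968), .negSucc (nat_lit 284003198324246121983), .ofNat (nat_lit 0)],
  [],
  [],
  []],
  [[],
  [],
  [],
  [],
  [],
  [.negSucc (nat_lit 174353146955055479807), .ofNat (nat_lit 317657837914604100864), .ofNat (nat_lit 0)],
  [],
  []],
  [[],
  [],
  [],
  [],
  [],
  [],
  [.negSucc (nat_lit 43159145044270749695), .ofNat (nat_lit 61813756152910191168), .ofNat (nat_lit 0)],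
  []],
  [[],
  [],
  [],
  [],
  [],
  [],
  [.negSucc (nat_lit 98729537205492080639), .ofNat (nat_lit 143506866928507015680), .ofNat (nat_lit 0)],
  []],
  [[],
  [],
  [],
  [],
  [],
  [],
  [],
  [.ofNat (nat_lit 54744048674273774592), .negSucc (nat_lit 91894042119787782335), .ofNat (nat_lit 0)]],
  [[],
  [],
  [],
  [],
  [],
  [],
  [],
  []]],
  [],
  [],
  [],
  [],
  [],
  [],
  [],
  []],
  [[],
  [],
  [],
  [],
  [[[.ofNat (nat_lit 0), .negSucc (nat_lit 115980964777632448511), .ofNat (nat_lit 40005874473881978880)],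
  [],
  [],
  [],
  [],
  [],
  [],
  []],
  [[.ofNat (nat_lit 968021409627371520), .negSucc (nat_lit 11058996172952042495), .ofNat (nat_lit 0)],
  [],
  [],
  [],
  [],
  [],
  [],
  []],
  [[],
  [.ofNat (nat_lit 244107648465975770112), .negSucc (nat_lit 368852067107534333951), .ofNat (nat_lit 0)],
  [],
  [],
  [],
  [],
  [],
  []],
  [[],
  [],
  [.negSucc (nat_lit 63088751758333012991), .ofNat (nat_lit 229062330816094787328), .ofNat (nat_lit 0)],
  [],
  [],
  [],
  [],
  []],
  [[],
  [],
  [],
  [.negSucc (nat_lit 600709737214844621567), .ofNat (nat_lit 894600407638372619520), .ofNat (nat_lit 0)],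
  [],
  [],
  [],
  []],
  [[],
  [],
  [],
  [],
  [.ofNat (nat_lit 365003235865122789888), .negSucc (nat_lit 547286215014589470335), .ofNat (nat_lit 0)],
  [],
  [],
  []],
  [[],
  [],
  [],
  [],
  [.ofNat (nat_lit 53652018021952813056), .negSucc (nat_lit 89226040330645046783), .ofNat (nat_lit 0)],
  [],
  [],
  []],
  [[],
  [],
  [],
  [],
  [],
  [.ofNat (nat_lit 146982217624341548544), .negSucc (nat_lit 199000532405060404991), .ofNat (nat_lit 0)],
  [],
  []],
  [[],
  [],
  [],
  [],
  [],
  [],
  [.negSucc (nat_lit 123997494675133771775), .ofNat (nat_lit 188548005118188498048), .ofNat (nat_lit 0)],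
  []],
  [[],
  [],
  [],
  [],
  [],
  [],
  [.negSucc (nat_lit 86600403837915291647), .ofNat (nat_lit 142411354155938018304), .ofNat (nat_lit 0)],
  []],
  [[],
  [],
  [],
  [],
  [],
  [],
  [],
  [.ofNat (nat_lit 53800325213763727872), .negSucc (nat_lit 84488312300210413055), .ofNat (nat_lit 0)]],
  [[],
  [],
  [],
  [],
  [],
  [],
  [],
  [.ofNat (nat_lit 15364756660754092032), .negSucc (nat_lit 26486586439691406335), .ofNat (nat_lit 0)]]],
  [],
  [],
  [],
  [],
  [],
  [],
  []],
  [[],
  [],
  [],
  [],
  [],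
  [[[.ofNat (nat_lit 0), .ofNat (nat_lit 24400932126902415360), .negSucc (nat_lit 22279581915294486527)],
  [],
  [],
  [],
  [],
  [],
  [],
  []],
  [[.negSucc (nat_lit 104778604133069783039), .ofNat (nat_lit 134356499497334900736), .ofNat (nat_lit 0)],
  [],
  [],
  [],
  [],
  [],
  [],
  []],
  [[],
  [.negSucc (nat_lit 4082437207264204799), .negSucc (nat_lit 22139929499346337535), .ofNat (nat_lit 0)],
  [],
  [],
  [],
  [],
  [],
  []],
  [[],
  [],
  [.ofNat (nat_lit 268194005448310596096), .negSucc (nat_lit 330476643085453099775), .ofNat (nat_lit 0)],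
  [],
  [],
  [],
  [],
  []],
  [[],
  [],
  [],
  [.negSucc (nat_lit 365003235865122789887), .ofNat (nat_lit 547286215014589470336), .ofNat (nat_lit 0)],
  [],
  [],
  [],
  []],
  [[],
  [],
  [],
  [],
  [.negSucc (nat_lit 23622538645313358335), .negSucc (nat_lit 4972124412201906431), .ofNat (nat_lit 0)],
  [],
  [],
  []],
  [[],
  [],
  [],
  [],
  [.negSucc (nat_lit 61344079672793287679), .ofNat (nat_lit 92148958550482184448), .ofNat (nat_lit 0)],
  [],
  [],
  []],
  [[],
  [],
  [],
  [],
  [],
  [.ofNat (nat_lit 257785735877120342016), .negSucc (nat_lit 380618902591135795007), .ofNat (nat_lit 0)],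
  [],
  []],
  [[],
  [],
  [],
  [],
  [],
  [],
  [.negSucc (nat_lit 60708115596357513215), .ofNat (nat_lit 96628551385100980608), .ofNat (nat_lit 0)],
  []],
  [[],
  [],
  [],
  [],
  [],
  [],
  [.negSucc (nat_lit 53183781658632959999), .ofNat (nat_lit 92132668140200979840), .ofNat (nat_lit 0)],
  []],
  [[],
  [],
  [],
  [],
  [],
  [],
  [],
  [.ofNat (nat_lit 18722245645125388800), .negSucc (nat_lit 33512738259180327839), .ofNat (nat_lit 0)]],
  [[],
  [],
  [],
  [],
  [],
  [],
  [],
  []]],
  [[[.ofNat (nat_lit 0), .negSucc (nat_lit 42510800013130948607), .ofNat (nat_lit 28890583144682268672)],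
  [],
  [],
  [],
  [],
  [],
  [],
  []],
  [[.negSucc (nat_lit 11722657874250903551), .ofNat (nat_lit 83364098680416162816), .ofNat (nat_lit 0)],
  [],
  [],
  [],
  [],
  [],
  [],
  []],
  [[],
  [.negSucc (nat_lit 28763442107442929663), .ofNat (nat_lit 56909204260025545728), .ofNat (nat_lit 0)],
  [],
  [],
  [],
  [],
  [],
  []],
  [[],
  [],
  [.ofNat (nat_lit 189813827991694675968), .negSucc (nat_lit 284003198324246121983), .ofNat (nat_lit 0)],
  [],
  [],
  [],
  [],
  []],
  [[],
  [],
  [],
  [.negSucc (nat_lit 53652018021952813055), .ofNat (nat_lit 89226040330645046784), .ofNat (nat_lit 0)],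
  [],
  [],
  [],
  []],
  [[],
  [],
  [],
  [],
  [.negSucc (nat_lit 61344079672793287679), .ofNat (nat_lit 92148958550482184448), .ofNat (nat_lit 0)],
  [],
  [],
  []],
  [[],
  [],
  [],
  [],
  [.ofNat (nat_lit 9125857335972409344), .negSucc (nat_lit 16334998019540665343), .ofNat (nat_lit 0)],
  [],
  [],
  []],
  [[],
  [],
  [],
  [],
  [],
  [.ofNat (nat_lit 50331407915140134912), .negSucc (nat_lit 92704392312126034175), .ofNat (nat_lit 0)],
  [],
  []],
  [[],
  [],
  [],
  [],
  [],
  [],
  [.negSucc (nat_lit 20557350655654920191), .ofNat (nat_lit 27633931717147232256), .ofNat (nat_lit 0)],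
  []],
  [[],
  [],
  [],
  [],
  [],
  [],
  [.negSucc (nat_lit 33100979937533632511), .ofNat (nat_lit 55254710474258582016), .ofNat (nat_lit 0)],
  []],
  [[],
  [],
  [],
  [],
  [],
  [],
  [],
  [.ofNat (nat_lit 17299557384022996992), .negSucc (nat_lit 24868565601427126655), .ofNat (nat_lit 0)]],
  [[],
  [],
  [],
  [],
  [],
  [],
  [],
  []]],
  [],
  [],
  [],
  [],
  []],
  [[],
  [],
  [],
  [],
  [],
  [],
  [],
  [[[.ofNat (nat_lit 0), .ofNat (nat_lit 188372264614947265536), .negSucc (nat_lit 84294989741462427647)],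
  [],
  [],
  [],
  [],
  [],
  [],
  []],
  [[.negSucc (nat_lit 97087485509942197247), .negSucc (nat_lit 14033469495315718655), .ofNat (nat_lit 0)],
  [],
  [],
  [],
  [],
  [],
  [],
  []],
  [[],
  [.negSucc (nat_lit 187409974178140406783), .ofNat (nat_lit 265818297747967794432), .ofNat (nat_lit 0)],
  [],
  [],
  [],
  [],
  [],
  []],
  [[],
  [],
  [.ofNat (nat_lit 174353146955055479808), .negSucc (nat_lit 317657837914604100863), .ofNat (nat_lit 0)],
  [],
  [],
  [],
  [],
  []],
  [[],
  [],
  [],
  [.ofNat (nat_lit 146982217624341548544), .negSucc (nat_lit 199000532405060404991), .ofNat (nat_lit 0)],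
  [],
  [],
  [],
  []],
  [[],
  [],
  [],
  [],
  [.negSucc (nat_lit 257785735877120342015), .ofNat (nat_lit 380618902591135795008), .ofNat (nat_lit 0)],
  [],
  [],
  []],
  [[],
  [],
  [],
  [],
  [.negSucc (nat_lit 50331407915140134911), .ofNat (nat_lit 92704392312126034176), .ofNat (nat_lit 0)],
  [],
  [],
  []],
  [[],
  [],
  [],
  [],
  [],
  [.ofNat (nat_lit 272117369933441823744), .negSucc (nat_lit 438213631774660267391), .ofNat (nat_lit 0)],
  [],
  []],
  [[],
  [],
  [],
  [],
  [],
  [],
  [.negSucc (nat_lit 42846078102579620351), .ofNat (nat_lit 69629725131724764576), .ofNat (nat_lit 0)],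
  []],
  [[],
  [],
  [],
  [],
  [],
  [],
  [.negSucc (nat_lit 68161938291283378175), .ofNat (nat_lit 106219507698858486528), .ofNat (nat_lit 0)],
  []],
  [[],
  [],
  [],
  [],
  [],
  [],
  [],
  [.ofNat (nat_lit 10086673093788533760), .negSucc (nat_lit 16149611315241059039), .ofNat (nat_lit 0)]],
  [[],
  [],
  [],
  [],
  [],
  [],
  [],
  []]],
  [],
  [],
  [],
  []],
  [[],
  [],
  [],
  [],
  [],
  [],
  [],
  [],
  [[[.ofNat (nat_lit 0), .negSucc (nat_lit 57007453943558725631), .ofNat (nat_lit 39690802407641333760)],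
  [],
  [],
  [],
  [],
  [],
  [],
  []],
  [[.ofNat (nat_lit 70596316573850806272), .negSucc (nat_lit 63527408195323397759), .ofNat (nat_lit 0)],
  [],
  [],
  [],
  [],
  [],
  [],
  []],
  [[],
  [.negSucc (nat_lit 8389497675651581951), .ofNat (nat_lit 16168209664479843456), .ofNat (nat_lit 0)],
  [],
  [],
  [],
  [],
  [],
  []],
  [[],
  [],
  [.negSucc (nat_lit 43159145044270749695), .ofNat (nat_lit 61813756152910191168), .ofNat (nat_lit 0)],
  [],
  [],
  [],
  [],
  []],
  [[],
  [],
  [],
  [.ofNat (nat_lit 123997494675133771776), .negSucc (nat_lit 188548005118188498047), .ofNat (nat_lit 0)],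
  [],
  [],
  [],
  []],
  [[],
  [],
  [],
  [],
  [.negSucc (nat_lit 60708115596357513215), .ofNat (nat_lit 96628551385100980608), .ofNat (nat_lit 0)],
  [],
  [],
  []],
  [[],
  [],
  [],
  [],
  [.negSucc (nat_lit 20557350655654920191), .ofNat (nat_lit 27633931717147232256), .ofNat (nat_lit 0)],
  [],
  [],
  []],
  [[],
  [],
  [],
  [],
  [],
  [.ofNat (nat_lit 42846078102579620352), .negSucc (nat_lit 69629725131724764575), .ofNat (nat_lit 0)],
  [],
  []],
  [[],
  [],
  [],
  [],
  [],
  [],
  [.negSucc (nat_lit 9075001272567310655), .ofNat (nat_lit 15235405102442847168), .ofNat (nat_lit 0)],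
  []],
  [[],
  [],
  [],
  [],
  [],
  [],
  [.ofNat (nat_lit 5707677096089220096), .negSucc (nat_lit 8204934909314392127), .ofNat (nat_lit 0)],
  []],
  [[],
  [],
  [],
  [],
  [],
  [],
  [],
  [.ofNat (nat_lit 1508700359165142528), .negSucc (nat_lit 2718714600165541823), .ofNat (nat_lit 0)]],
  [[],
  [],
  [],
  [],
  [],
  [],
  [],
  [.negSucc (nat_lit 823788446858237951), .ofNat (nat_lit 1184217409591767936), .ofNat (nat_lit 0)]]],
  [[[.ofNat (nat_lit 0), .negSucc (nat_lit 19607997726091155455), .negSucc (nat_lit 10804413939679494143)],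
  [],
  [],
  [],
  [],
  [],
  [],
  []],
  [[.ofNat (nat_lit 46667707050160060416), .negSucc (nat_lit 47947029884030946815), .ofNat (nat_lit 0)],
  [],
  [],
  [],
  [],
  [],
  [],
  []],
  [[],
  [.ofNat (nat_lit 12289399157009203200), .negSucc (nat_lit 5226217039746800639), .ofNat (nat_lit 0)],
  [],
  [],
  [],
  [],
  [],
  []],
  [[],
  [],
  [.negSucc (nat_lit 98729537205492080639), .ofNat (nat_lit 143506866928507015680), .ofNat (nat_lit 0)],
  [],
  [],
  [],
  [],
  []],
  [[],
  [],
  [],
  [.ofNat (nat_lit 86600403837915291648), .negSucc (nat_lit 142411354155938018303), .ofNat (nat_lit 0)],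
  [],
  [],
  [],
  []],
  [[],
  [],
  [],
  [],
  [.negSucc (nat_lit 53183781658632959999), .ofNat (nat_lit 92132668140200979840), .ofNat (nat_lit 0)],
  [],
  [],
  []],
  [[],
  [],
  [],
  [],
  [.negSucc (nat_lit 33100979937533632511), .ofNat (nat_lit 55254710474258582016), .ofNat (nat_lit 0)],
  [],
  [],
  []],
  [[],
  [],
  [],
  [],
  [],
  [.ofNat (nat_lit 68161938291283378176), .negSucc (nat_lit 106219507698858486527), .ofNat (nat_lit 0)],
  [],
  []],
  [[],
  [],
  [],
  [],
  [],
  [],
  [.ofNat (nat_lit 5707677096089220096), .negSucc (nat_lit 8204934909314392127), .ofNat (nat_lit 0)],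
  []],
  [[],
  [],
  [],
  [],
  [],
  [],
  [.negSucc (nat_lit 22830708384356880383), .ofNat (nat_lit 32819739637257568512), .ofNat (nat_lit 0)],
  []],
  [[],
  [],
  [],
  [],
  [],
  [],
  [],
  [.ofNat (nat_lit 1647576893716475904), .negSucc (nat_lit 2368434819183535871), .ofNat (nat_lit 0)]],
  [[],
  [],
  [],
  [],
  [],
  [],
  [],
  [.ofNat (nat_lit 3295153787432951808), .negSucc (nat_lit 4736869638367071743), .ofNat (nat_lit 0)]]],
  [],
  []],
  [[],
  [],
  [],
  [],
  [],
  [],
  [],
  [],
  [],
  [],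
  [[[],
  [],
  [],
  [],
  [],
  [],
  [],
  []],
  [[.negSucc (nat_lit 18659910448187043839), .ofNat (nat_lit 31223456078058478080), .ofNat (nat_lit 0)],
  [],
  [],
  [],
  [],
  [],
  [],
  []],
  [[],
  [.ofNat (nat_lit 40346692375154135040), .negSucc (nat_lit 64598445260964236159), .ofNat (nat_lit 0)],
  [],
  [],
  [],
  [],
  [],
  []],
  [[],
  [],
  [.negSucc (nat_lit 54744048674273774591), .ofNat (nat_lit 91894042119787782336), .ofNat (nat_lit 0)],
  [],
  [],
  [],
  [],
  []],
  [[],
  [],
  [],
  [.ofNat (nat_lit 53800325213763727872), .negSucc (nat_lit 84488312300210413055), .ofNat (nat_lit 0)],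
  [],
  [],
  [],
  []],
  [[],
  [],
  [],
  [],
  [.negSucc (nat_lit 18722245645125388799), .ofNat (nat_lit 33512738259180327840), .ofNat (nat_lit 0)],
  [],
  [],
  []],
  [[],
  [],
  [],
  [],
  [.negSucc (nat_lit 17299557384022996991), .ofNat (nat_lit 24868565601427126656), .ofNat (nat_lit 0)],
  [],
  [],
  []],
  [[],
  [],
  [],
  [],
  [],
  [.ofNat (nat_lit 10086673093788533760), .negSucc (nat_lit 16149611315241059039), .ofNat (nat_lit 0)],
  [],
  []],
  [[],
  [],
  [],
  [],
  [],
  [],
  [.negSucc (nat_lit 1508700359165142527), .ofNat (nat_lit 2718714600165541824), .ofNat (nat_lit 0)],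
  []],
  [[],
  [],
  [],
  [],
  [],
  [],
  [.negSucc (nat_lit 1647576893716475903), .ofNat (nat_lit 2368434819183535872), .ofNat (nat_lit 0)],
  []],
  [[],
  [],
  [],
  [],
  [],
  [],
  [],
  []],
  [[],
  [],
  [],
  [],
  [],
  [],
  [],
  []]],
  [[[],
  [],
  [],
  [],
  [],
  [],
  [],
  []],
  [[.negSucc (nat_lit 6590307574865903615), .ofNat (nat_lit 9473739276734143488), .ofNat (nat_lit 0)],
  [],
  [],
  [],
  [],
  [],
  [],
  []],
  [[],
  [],
  [],
  [],
  [],
  [],
  [],
  []],
  [[],
  [],
  [],
  [],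
  [],
  [],
  [],
  []],
  [[],
  [],
  [],
  [.ofNat (nat_lit 15364756660754092032), .negSucc (nat_lit 26486586439691406335), .ofNat (nat_lit 0)],
  [],
  [],
  [],
  []],
  [[],
  [],
  [],
  [],
  [],
  [],
  [],
  []],
  [[],
  [],
  [],
  [],
  [],
  [],
  [],
  []],
  [[],
  [],
  [],
  [],
  [],
  [],
  [],
  []],
  [[],
  [],
  [],
  [],
  [],
  [],
  [.ofNat (nat_lit 823788446858237952), .negSucc (nat_lit 1184217409591767935), .ofNat (nat_lit 0)],
  []],
  [[],
  [],
  [],
  [],
  [],
  [],
  [.negSucc (nat_lit 3295153787432951807), .ofNat (nat_lit 4736869638367071744), .ofNat (nat_lit 0)],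
  []],
  [[],
  [],
  [],
  [],
  [],
  [],
  [],
  []],
  [[],
  [],
  [],
  [],
  [],
  [],
  [],
  []]]]]]

noncomputable def BR5c_E : L5 := [[[[[]],
  [[]],
  [[]]],
  [[[.ofNat (nat_lit 1705793129065239552), .negSucc (nat_lit 221922685547013311), .ofNat (nat_lit 0)]],
  [[.negSucc (nat_lit 1079211524408718623), .ofNat (nat_lit 0), .ofNat (nat_lit 0)]],
  [[]]],
  [[[.negSucc (nat_lit 13513574561706548351), .negSucc (nat_lit 687402942523975871), .ofNat (nat_lit 0)]],
  [[.ofNat (nat_lit 16441255404159611328), .ofNat (nat_lit 0), .ofNat (nat_lit 0)]],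
  [[]]],
  [[[.ofNat (nat_lit 42926855278577696352), .ofNat (nat_lit 16335100502798625216), .ofNat (nat_lit 0)]],
  [[.negSucc (nat_lit 90080457254090168831), .ofNat (nat_lit 0), .ofNat (nat_lit 0)]],
  [[]]],
  [[[.negSucc (nat_lit 65788213668985685375), .negSucc (nat_lit 74121883791887524607), .ofNat (nat_lit 0)]],
  [[.ofNat (nat_lit 254046489775893083808), .ofNat (nat_lit 0), .ofNat (nat_lit 0)]],
  [[]]],
  [[[.ofNat (nat_lit 37376455552917166656), .ofNat (nat_lit 165183458050559073888), .ofNat (nat_lit 0)]],
  [[.negSucc (nat_lit 417809638846349875007), .ofNat (nat_lit 0), .ofNat (nat_lit 0)]],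
  [[]]],
  [[[.ofNat (nat_lit 26368144635441511008), .negSucc (nat_lit 209070799377593693471), .ofNat (nat_lit 0)]],
  [[.ofNat (nat_lit 417860054236466474976), .ofNat (nat_lit 0), .ofNat (nat_lit 0)]],
  [[]]],
  [[[.negSucc (nat_lit 52559299669767249023), .ofNat (nat_lit 152671921232514105888), .ofNat (nat_lit 0)]],
  [[.negSucc (nat_lit 251106515581585277951), .ofNat (nat_lit 0), .ofNat (nat_lit 0)]],
  [[]]],
  [[[.ofNat (nat_lit 28836956794427469216), .negSucc (nat_lit 59679258509793617567), .ofNat (nat_lit 0)]],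
  [[.ofNat (nat_lit 83666622850398694656), .ofNat (nat_lit 0), .ofNat (nat_lit 0)]],
  [[]]],
  [[[.negSucc (nat_lit 5353117489969600031), .ofNat (nat_lit 9590787521474019840), .ofNat (nat_lit 0)]],
  [[.negSucc (nat_lit 11938599060483824351), .ofNat (nat_lit 0), .ofNat (nat_lit 0)]],
  [[]]]],
  [[[[]],
  [[]],
  [[]]],
  [[[.negSucc (nat_lit 230844665274826751), .ofNat (nat_lit 0), .ofNat (nat_lit 0)]],
  [[.negSucc (nat_lit 1063359222022182527), .ofNat (nat_lit 475614389520501984), .ofNat (nat_lit 0)]],
  [[.ofNat (nat_lit 481429207993442688), .negSucc (nat_lit 154065175658517023), .ofNat (nat_lit 0)]]],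
  [[[.ofNat (nat_lit 5756360552481091104), .ofNat (nat_lit 1543823458369749216), .ofNat (nat_lit 0)]],
  [[.negSucc (nat_lit 1707203434787677727), .negSucc (nat_lit 951228779041003967), .ofNat (nat_lit 0)]],
  [[.negSucc (nat_lit 962858415986885375), .ofNat (nat_lit 308130351317034048), .ofNat (nat_lit 0)]]],
  [[[.negSucc (nat_lit 26630002934842855679), .negSucc (nat_lit 14480783425247770655), .ofNat (nat_lit 0)]],
  [[.ofNat (nat_lit 37513489490496600480), .ofNat (nat_lit 475614389520501984), .ofNat (nat_lit 0)]],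
  [[.ofNat (nat_lit 481429207993442688), .negSucc (nat_lit 154065175658517023), .ofNat (nat_lit 0)]]],
  [[[.ofNat (nat_lit 51447331398245207616), .ofNat (nat_lit 62766412262588304576), .ofNat (nat_lit 0)]],
  [[.negSucc (nat_lit 146061261392949634175), .ofNat (nat_lit 0), .ofNat (nat_lit 0)]],
  [[]]],
  [[[.negSucc (nat_lit 16733501464028876351), .negSucc (nat_lit 158592951546441278975), .ofNat (nat_lit 0)]],
  [[.ofNat (nat_lit 279059798183602561056), .ofNat (nat_lit 0), .ofNat (nat_lit 0)]],
  [[]]],
  [[[.negSucc (nat_lit 93195879435400887647), .ofNat (nat_lit 239768621046659035872), .ofNat (nat_lit 0)]],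
  [[.negSucc (nat_lit 302850461380058048735), .ofNat (nat_lit 0), .ofNat (nat_lit 0)]],
  [[]]],
  [[[.ofNat (nat_lit 147626072923726749888), .negSucc (nat_lit 208731059757168676127), .ofNat (nat_lit 0)]],
  [[.ofNat (nat_lit 194415851502327294144), .ofNat (nat_lit 0), .ofNat (nat_lit 0)]],
  [[]]],
  [[[.negSucc (nat_lit 84634907612473259135), .ofNat (nat_lit 94773937590082217088), .ofNat (nat_lit 0)]],
  [[.negSucc (nat_lit 70836843757430913983), .ofNat (nat_lit 0), .ofNat (nat_lit 0)]],
  [[]]],
  [[[.ofNat (nat_lit 16595371237567656960), .negSucc (nat_lit 17047999628841580991), .ofNat (nat_lit 0)]],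
  [[.ofNat (nat_lit 11529990010822001472), .ofNat (nat_lit 0), .ofNat (nat_lit 0)]],
  [[]]]],
  [[[[]],
  [[]],
  [[]]],
  [[[.negSucc (nat_lit 310782105543000095), .negSucc (nat_lit 95893013458577663), .ofNat (nat_lit 0)]],
  [[.ofNat (nat_lit 650372817414599712), .ofNat (nat_lit 481109081280431616), .ofNat (nat_lit 0)]],
  [[.negSucc (nat_lit 196488677853247103), .negSucc (nat_lit 429788408587070687), .ofNat (nat_lit 0)]]],
  [[[]],
  [[]],
  [[]]],
  [[[.ofNat (nat_lit 11560993885336937760), .negSucc (nat_lit 1486778937490285343), .ofNat (nat_lit 0)]],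
  [[.negSucc (nat_lit 23803461063692664479), .negSucc (nat_lit 1443327243841294847), .ofNat (nat_lit 0)]],
  [[.ofNat (nat_lit 589466033559741312), .ofNat (nat_lit 1289365225761212064), .ofNat (nat_lit 0)]]],
  [[[.negSucc (nat_lit 66939714041669726975), .ofNat (nat_lit 9220517768127567168), .ofNat (nat_lit 0)]],
  [[.ofNat (nat_lit 96367312290040007616), .ofNat (nat_lit 962218162560863232), .ofNat (nat_lit 0)]],
  [[.negSucc (nat_lit 392977355706494207), .negSucc (nat_lit 859576817174141375), .ofNat (nat_lit 0)]]],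
  [[[.ofNat (nat_lit 157853574321671416896), .negSucc (nat_lit 20575155614586380639), .ofNat (nat_lit 0)]],
  [[.negSucc (nat_lit 169381210535842883327), .ofNat (nat_lit 0), .ofNat (nat_lit 0)]],
  [[]]],
  [[[.negSucc (nat_lit 180790490773156539743), .ofNat (nat_lit 19041073067181307392), .ofNat (nat_lit 0)]],
  [[.ofNat (nat_lit 158191679280883675104), .ofNat (nat_lit 0), .ofNat (nat_lit 0)]],
  [[]]],
  [[[.ofNat (nat_lit 102204114687525532320), .negSucc (nat_lit 3542633229845363327), .ofNat (nat_lit 0)]],
  [[.negSucc (nat_lit 81509809698306025055), .ofNat (nat_lit 0), .ofNat (nat_lit 0)]],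
  [[]]],
  [[[.negSucc (nat_lit 25632190601596103903), .negSucc (nat_lit 4152101391535175423), .ofNat (nat_lit 0)]],
  [[.ofNat (nat_lit 21750646089971709216), .ofNat (nat_lit 0), .ofNat (nat_lit 0)]],
  [[]]],
  [[[.ofNat (nat_lit 2054494627431483744), .ofNat (nat_lit 1590971351606907840), .ofNat (nat_lit 0)]],
  [[.negSucc (nat_lit 2265529180468418783), .ofNat (nat_lit 0), .ofNat (nat_lit 0)]],
  [[]]]],
  [[[[]],
  [[]],
  [[]]],
  [[[.negSucc (nat_lit 442700783318572127), .ofNat (nat_lit 84246386379303168), .ofNat (nat_lit 0)]],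
  [[.ofNat (nat_lit 812016340554236256), .negSucc (nat_lit 439493618471549183), .ofNat (nat_lit 0)]],
  [[.negSucc (nat_lit 265411392658649567), .ofNat (nat_lit 379552855385362464), .ofNat (nat_lit 0)]]],
  [[[]],
  [[]],
  [[]]],
  [[[]],
  [[]],
  [[]]],
  [[[.ofNat (nat_lit 13982830152533622432), .negSucc (nat_lit 4791949738248723839), .ofNat (nat_lit 0)]],
  [[.ofNat (nat_lit 6486072105693396672), .ofNat (nat_lit 1757974473886196736), .ofNat (nat_lit 0)]],
  [[.ofNat (nat_lit 1061645570634598272), .negSucc (nat_lit 1518211421541449855), .ofNat (nat_lit 0)]]],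
  [[[.negSucc (nat_lit 78525452848433752799), .ofNat (nat_lit 35838294148521470880), .ofNat (nat_lit 0)]],
  [[.negSucc (nat_lit 25684486481095130879), .negSucc (nat_lit 1318480855414647551), .ofNat (nat_lit 0)]],
  [[.negSucc (nat_lit 796234177975948703), .ofNat (nat_lit 1138658566156087392), .ofNat (nat_lit 0)]]],
  [[[.ofNat (nat_lit 184132929008732584320), .negSucc (nat_lit 95077907397368870687), .ofNat (nat_lit 0)]],
  [[.ofNat (nat_lit 36718723785568771584), .ofNat (nat_lit 0), .ofNat (nat_lit 0)]],
  [[]]],
  [[[.negSucc (nat_lit 204850336812523380863), .ofNat (nat_lit 113072246848702719648), .ofNat (nat_lit 0)]],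
  [[.negSucc (nat_lit 33003949199266633535), .ofNat (nat_lit 0), .ofNat (nat_lit 0)]],
  [[]]],
  [[[.ofNat (nat_lit 105031153496464484832), .negSucc (nat_lit 60978170499175516895), .ofNat (nat_lit 0)]],
  [[.ofNat (nat_lit 19663181713306602432), .ofNat (nat_lit 0), .ofNat (nat_lit 0)]],
  [[]]],
  [[[.negSucc (nat_lit 19328422213454985791), .ofNat (nat_lit 11853240251189617728), .ofNat (nat_lit 0)]],
  [[.negSucc (nat_lit 4991558264761242527), .ofNat (nat_lit 0), .ofNat (nat_lit 0)]],
  [[]]]],
  [[[[]],
  [[]],
  [[]]],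
  [[[.ofNat (nat_lit 526089495016771776), .ofNat (nat_lit 159174697794815520), .ofNat (nat_lit 0)]],
  [[.negSucc (nat_lit 822865004858631167), .ofNat (nat_lit 220902093579590208), .ofNat (nat_lit 0)]],
  [[.ofNat (nat_lit 463039665262424928), .negSucc (nat_lit 344640310740266399), .ofNat (nat_lit 0)]]],
  [[[]],
  [[]],
  [[]]],
  [[[]],
  [[]],
  [[]]],
  [[[]],
  [[]],
  [[]]],
  [[[.ofNat (nat_lit 17415905027170041504), .negSucc (nat_lit 11221185947737924511), .ofNat (nat_lit 0)]],
  [[.negSucc (nat_lit 4039849497527968031), .negSucc (nat_lit 1104510467897951039), .ofNat (nat_lit 0)]],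
  [[.negSucc (nat_lit 2315198326312124639), .ofNat (nat_lit 1723201553701332000), .ofNat (nat_lit 0)]]],
  [[[.negSucc (nat_lit 85934862552742282943), .ofNat (nat_lit 44806102262457039072), .ofNat (nat_lit 0)]],
  [[.ofNat (nat_lit 19052073591968439072), .ofNat (nat_lit 883608374318360832), .ofNat (nat_lit 0)]],
  [[.ofNat (nat_lit 1852158661049699712), .negSucc (nat_lit 1378561242961065599), .ofNat (nat_lit 0)]]],
  [[[.ofNat (nat_lit 133341673483387413216), .negSucc (nat_lit 65763158735903804351), .ofNat (nat_lit 0)]],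
  [[.negSucc (nat_lit 22185616526991571679), .ofNat (nat_lit 0), .ofNat (nat_lit 0)]],
  [[]]],
  [[[.negSucc (nat_lit 82751095377362317823), .ofNat (nat_lit 40719356893029665376), .ofNat (nat_lit 0)]],
  [[.ofNat (nat_lit 9957330307058747616), .ofNat (nat_lit 0), .ofNat (nat_lit 0)]],
  [[]]],
  [[[.ofNat (nat_lit 17402289924530374272), .negSucc (nat_lit 8700289169639791103), .ofNat (nat_lit 0)]],
  [[.negSucc (nat_lit 1961072869649015807), .ofNat (nat_lit 0), .ofNat (nat_lit 0)]],
  [[]]]],
  [[[[]],
  [[]],
  [[]]],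
  [[[.negSucc (nat_lit 2410253806741919), .negSucc (nat_lit 49329753776661023), .ofNat (nat_lit 0)]],
  [[.negSucc (nat_lit 479494855589808095), .ofNat (nat_lit 91473692135945472), .ofNat (nat_lit 0)]],
  [[.ofNat (nat_lit 12878767251287424), .negSucc (nat_lit 78420842354337695), .ofNat (nat_lit 0)]]],
  [[[]],
  [[]],
  [[]]],
  [[[]],
  [[]],
  [[]]],
  [[[]],
  [[]],
  [[]]],
  [[[]],
  [[]],
  [[]]],
  [[[.negSucc (nat_lit 646499979093979583), .ofNat (nat_lit 2022419051195404608), .ofNat (nat_lit 0)]],
  [[.ofNat (nat_lit 2330501591789922240), .negSucc (nat_lit 548842152815672831), .ofNat (nat_lit 0)]],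
  [[.negSucc (nat_lit 77272603507724543), .ofNat (nat_lit 470525054126026176), .ofNat (nat_lit 0)]]],
  [[[.negSucc (nat_lit 417411782441173151), .negSucc (nat_lit 3344180414649954047), .ofNat (nat_lit 0)]],
  [[.negSucc (nat_lit 404369921323436543), .ofNat (nat_lit 457368460679727360), .ofNat (nat_lit 0)]],
  [[.ofNat (nat_lit 64393836256437120), .negSucc (nat_lit 392104211771688479), .ofNat (nat_lit 0)]]],
  [[[.ofNat (nat_lit 2793605532618220416), .ofNat (nat_lit 1015741705926982464), .ofNat (nat_lit 0)]],
  [[.negSucc (nat_lit 2346806088004428863), .ofNat (nat_lit 0), .ofNat (nat_lit 0)]],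
  [[]]],
  [[[.negSucc (nat_lit 1727283517276325759), .ofNat (nat_lit 355349411304228000), .ofNat (nat_lit 0)]],
  [[.ofNat (nat_lit 900169273127751264), .ofNat (nat_lit 0), .ofNat (nat_lit 0)]],
  [[]]]],
  [[[[]],
  [[]],
  [[]]],
  [[[.negSucc (nat_lit 304037577534429791), .negSucc (nat_lit 14287318023168863), .ofNat (nat_lit 0)]],
  [[.ofNat (nat_lit 265038149744060256), .ofNat (nat_lit 100312981726672800), .ofNat (nat_lit 0)]],
  [[.negSucc (nat_lit 31570639520921855), .negSucc (nat_lit 97870731033996863), .ofNat (nat_lit 0)]]],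
  [[[]],
  [[]],
  [[]]],
  [[[]],
  [[]],
  [[]]],
  [[[]],
  [[]],
  [[]]],
  [[[]],
  [[]],
  [[]]],
  [[[.ofNat (nat_lit 12568194502423008480), .negSucc (nat_lit 4251333704425490303), .ofNat (nat_lit 0)]],
  [[.negSucc (nat_lit 5728171440419569151), .negSucc (nat_lit 601877890360036799), .ofNat (nat_lit 0)]],
  [[.ofNat (nat_lit 189423837125531136), .ofNat (nat_lit 587224386203981184), .ofNat (nat_lit 0)]]],
  [[[.negSucc (nat_lit 27937869928692740639), .ofNat (nat_lit 11026802128998049632), .ofNat (nat_lit 0)]],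
  [[.ofNat (nat_lit 11722818882867580224), .ofNat (nat_lit 501564908633364000), .ofNat (nat_lit 0)]],
  [[.negSucc (nat_lit 157853197604609279), .negSucc (nat_lit 489353655169984319), .ofNat (nat_lit 0)]]],
  [[[.ofNat (nat_lit 20603456970391894176), .negSucc (nat_lit 9185304600534277439), .ofNat (nat_lit 0)]],
  [[.negSucc (nat_lit 8381428642428935039), .ofNat (nat_lit 0), .ofNat (nat_lit 0)]],
  [[]]],
  [[[.negSucc (nat_lit 4929743966587732223), .ofNat (nat_lit 2424123493984886976), .ofNat (nat_lit 0)]],
  [[.ofNat (nat_lit 2121743050236863712), .ofNat (nat_lit 0), .ofNat (nat_lit 0)]],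
  [[]]]],
  [[[[]],
  [[]],
  [[]]],
  [[[.ofNat (nat_lit 114428622253483584), .negSucc (nat_lit 76506431701216607), .ofNat (nat_lit 0)]],
  [[.ofNat (nat_lit 537091893110911104), .negSucc (nat_lit 185220290777738975), .ofNat (nat_lit 0)]],
  [[.negSucc (nat_lit 130535900614842623), .ofNat (nat_lit 239347737740312352), .ofNat (nat_lit 0)]]],
  [[[]],
  [[]],
  [[]]],
  [[[]],
  [[]],
  [[]]],
  [[[]],
  [[]],
  [[]]],
  [[[]],
  [[]],
  [[]]],
  [[[]],
  [[]],
  [[]]],
  [[[.ofNat (nat_lit 1227671313198239808), .negSucc (nat_lit 794484514495141919), .ofNat (nat_lit 0)]],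
  [[.negSucc (nat_lit 3773567119416382655), .ofNat (nat_lit 1296542035444172832), .ofNat (nat_lit 0)]],
  [[.ofNat (nat_lit 913751304303898368), .negSucc (nat_lit 1675434164182186463), .ofNat (nat_lit 0)]]],
  [[[.negSucc (nat_lit 3370771604424348287), .ofNat (nat_lit 2201020482600016704), .ofNat (nat_lit 0)]],
  [[.ofNat (nat_lit 3250399093945476480), .negSucc (nat_lit 1111321744666433855), .ofNat (nat_lit 0)]],
  [[.negSucc (nat_lit 783215403689055743), .ofNat (nat_lit 1436086426441874112), .ofNat (nat_lit 0)]]],
  [[[.ofNat (nat_lit 2028671668972624896), .negSucc (nat_lit 1330029536403658175), .ofNat (nat_lit 0)]],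
  [[.negSucc (nat_lit 13923867640004927), .ofNat (nat_lit 0), .ofNat (nat_lit 0)]],
  [[]]]],
  [[[[]],
  [[]],
  [[]]],
  [[[.negSucc (nat_lit 1304680595363999), .negSucc (nat_lit 707672371824287), .ofNat (nat_lit 0)]],
  [[.negSucc (nat_lit 11134689618183551), .ofNat (nat_lit 14045460682605408), .ofNat (nat_lit 0)]],
  [[.ofNat (nat_lit 9792911926214496), .negSucc (nat_lit 18987552637229087), .ofNat (nat_lit 0)]]],
  [[[]],
  [[]],
  [[]]],
  [[[]],
  [[]],
  [[]]],
  [[[]],
  [[]],
  [[]]],
  [[[]],
  [[]],
  [[]]],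
  [[[]],
  [[]],
  [[]]],
  [[[]],
  [[]],
  [[]]],
  [[[.ofNat (nat_lit 10437444762912000), .ofNat (nat_lit 5661378974594304), .ofNat (nat_lit 0)]],
  [[.ofNat (nat_lit 89077516945468416), .negSucc (nat_lit 112363685460843263), .ofNat (nat_lit 0)]],
  [[.negSucc (nat_lit 78343295409715967), .ofNat (nat_lit 151900421097832704), .ofNat (nat_lit 0)]]],
  [[[.negSucc (nat_lit 9132764167547999), .negSucc (nat_lit 4953706602770015), .ofNat (nat_lit 0)]],
  [[.negSucc (nat_lit 77942827327284863), .ofNat (nat_lit 98318224778237856), .ofNat (nat_lit 0)]],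
  [[.ofNat (nat_lit 68550383483501472), .negSucc (nat_lit 132912868460603615), .ofNat (nat_lit 0)]]]],
  [[[[]],
  [[]],
  [[]]],
  [[[.negSucc (nat_lit 64123016830042463), .ofNat (nat_lit 49223939510338560), .ofNat (nat_lit 0)]],
  [[.negSucc (nat_lit 127432259172497375), .ofNat (nat_lit 28015872174603360), .ofNat (nat_lit 0)]],
  [[.ofNat (nat_lit 29421015959222784), .negSucc (nat_lit 42293478913991711), .ofNat (nat_lit 0)]]],
  [[[]],
  [[]],
  [[]]],
  [[[]],
  [[]],
  [[]]],
  [[[]],
  [[]],
  [[]]],
  [[[]],
  [[]],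
  [[]]],
  [[[]],
  [[]],
  [[]]],
  [[[]],
  [[]],
  [[]]],
  [[[.ofNat (nat_lit 512984134640339712), .negSucc (nat_lit 393791516082708479), .ofNat (nat_lit 0)]],
  [[.ofNat (nat_lit 1019458073379979008), .negSucc (nat_lit 224126977396826879), .ofNat (nat_lit 0)]],
  [[.negSucc (nat_lit 235368127673782271), .ofNat (nat_lit 338347831311933696), .ofNat (nat_lit 0)]]],
  [[[.negSucc (nat_lit 448861117810297247), .ofNat (nat_lit 344567576572369920), .ofNat (nat_lit 0)]],
  [[.negSucc (nat_lit 892025814207481631), .ofNat (nat_lit 196111105222223520), .ofNat (nat_lit 0)]],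
  [[.ofNat (nat_lit 205947111714559488), .negSucc (nat_lit 296054352397941983), .ofNat (nat_lit 0)]]]],
  [[[[]],
  [[]],
  [[]]],
  [[[]],
  [[]],
  [[]]],
  [[[]],
  [[]],
  [[]]],
  [[[]],
  [[]],
  [[]]],
  [[[]],
  [[]],
  [[]]],
  [[[]],
  [[]],
  [[]]],
  [[[]],
  [[]],
  [[]]],
  [[[]],
  [[]],
  [[]]],
  [[[]],
  [[]],
  [[]]],
  [[[]],
  [[]],
  [[]]]],
  [[[[]],
  [[]],
  [[]]],
  [[[]],
  [[]],
  [[]]],
  [[[]],
  [[]],
  [[]]],
  [[[]],
  [[]],
  [[]]],
  [[[]],
  [[]],
  [[]]],
  [[[]],
  [[]],
  [[]]],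
  [[[]],
  [[]],
  [[]]],
  [[[]],
  [[]],
  [[]]],
  [[[]],
  [[]],
  [[]]],
  [[[]],
  [[]],
  [[]]]]]

noncomputable def BR5c_tn : List (List ℕ) := [[nat_lit 16384, nat_lit 0, nat_lit 0],
  [nat_lit 32768, nat_lit 13184, nat_lit 0],
  [nat_lit 16384, nat_lit 13184, nat_lit 10609]]

noncomputable def BR5c_zn : List (List ℕ) := [[nat_lit 18014398509481984, nat_lit 1688849860263936, nat_lit 158329674399744, nat_lit 14843406974976, nat_lit 1391569403904, nat_lit 130459631616, nat_lit 12230590464, nat_lit 1146617856, nat_lit 107495424, nat_lit 10077696],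
  [nat_lit 162129586585337856, nat_lit 23362423066984448, nat_lit 2955487255461888, nat_lit 348820063911936, nat_lit 39427799777280, nat_lit 4326911115264, nat_lit 464762437632, nat_lit 49113464832, nat_lit 5123948544, nat_lit 529079040],
  [nat_lit 648518346341351424, nat_lit 126100789566373888, nat_lit 21642786881142784, nat_lit 3296473299025920, nat_lit 460377544458240, nat_lit 60395561680896, nat_lit 7563600986112, nat_lit 914141085696, nat_lit 107435704320, nat_lit 12345177600],
  [nat_lit 1513209474796486656, nat_lit 370421069351223296, nat_lit 82045557664645120, nat_lit 16231196807659520, nat_lit 2864055991664640, nat_lit 459878657163264, nat_lit 68578845917184, nat_lit 9651470008320, nat_lit 1297310515200, nat_lit 168031584000],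
  [nat_lit 2269814212194729984, nat_lit 669910444571361280, nat_lit 183332568815370240, nat_lit 45824895866634240, nat_lit 10308463750021120, nat_lit 2072820439842816, nat_lit 377244210954240, nat_lit 63219231129600, nat_lit 9907640064000, nat_lit 1470276360000],
  [nat_lit 2269814212194729984, nat_lit 784189285115887616, nat_lit 256542451039207424, nat_lit 78485957489197056, nat_lit 22110084691656704, nat_lit 5637441113292800, nat_lit 1284839571456000, nat_lit 263539906560000, nat_lit 49372243200000, nat_lit 8576612100000],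
  [nat_lit 1513209474796486656, nat_lit 598978750440275968, nat_lit 228465322112319488, nat_lit 83229319370899456, nat_lit 28614672001269760, nat_lit 9136636952576000, nat_lit 2654695751680000, nat_lit 687984460800000, nat_lit 159249686400000, nat_lit 33353491500000],
  [nat_lit 648518346341351424, nat_lit 289356276058554368, nat_lit 126228332915195904, nat_lit 53546559870074880, nat_lit 21921352017510400, nat_lit 8567138549760000, nat_lit 3145071820800000, nat_lit 1058652761600000, nat_lit 316240512000000, nat_lit 83383728750000],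
  [nat_lit 162129586585337856, nat_lit 80501843339247616, nat_lit 39560428367380480, nat_lit 19193349852364800, nat_lit 9161299460096000, nat_lit 4279972659200000, nat_lit 1941329510400000, nat_lit 843308032000000, nat_lit 341770345000000, nat_lit 121601271093750],
  [nat_lit 18014398509481984, nat_lit 9851624184872960, nat_lit 5387606976102400, nat_lit 2946347565056000, nat_lit 1611283824640000, nat_lit 881170841600000, nat_lit 481890304000000, nat_lit 263533760000000, nat_lit 144120025000000, nat_lit 78815638671875],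
  [nat_lit 18014398509481984, nat_lit 9851624184872960, nat_lit 5387606976102400, nat_lit 2946347565056000, nat_lit 1611283824640000, nat_lit 881170841600000, nat_lit 481890304000000, nat_lit 263533760000000, nat_lit 144120025000000, nat_lit 78815638671875],
  [nat_lit 162129586585337856, nat_lit 96827391988465664, nat_lit 57416497202462720, nat_lit 33840906318643200, nat_lit 19841809383424000, nat_lit 11581102489600000, nat_lit 6732695961600000, nat_lit 3900299648000000, nat_lit 2252390105000000, nat_lit 1297080225000000],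
  [nat_lit 648518346341351424, nat_lit 419960665252298752, nat_lit 269076883595853824, nat_lit 170727011600302080, nat_lit 107365431404134400, nat_lit 66976177192960000, nat_lit 41476003430400000, nat_lit 25514585689600000, nat_lit 15601198592000000, nat_lit 9487215360000000],
  [nat_lit 1513209474796486656, nat_lit 1056094112618381312, nat_lit 728435249494622208, nat_lit 496712899062923264, nat_lit 335001446871203840, nat_lit 223593170468864000, nat_lit 147777688862720000, nat_lit 96777341337600000, nat_lit 62838495641600000, nat_lit 40478785536000000],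
  [nat_lit 2269814212194729984, nat_lit 1698420009472098304, nat_lit 1256482305803812864, nat_lit 918861111418159104, nat_lit 664213622498525184, nat_lit 474650101206220800, nat_lit 335389755703296000, nat_lit 234416620175360000, nat_lit 162135434854400000, nat_lit 111027526041600000],
  [nat_lit 2269814212194729984, nat_lit 1812698850016624640, nat_lit 1433257387271127040, nat_lit 1121433828049551360, nat_lit 867931613634232320, nat_lit 664213622498525184, nat_lit 502502170306805760, nat_lit 375779009914470400, nat_lit 277785331367936000, nat_lit 203021761904640000],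
  [nat_lit 1513209474796486656, nat_lit 1284651793707433984, nat_lit 1081985412429250560, nat_lit 903534331643822080, nat_lit 747622552033034240, nat_lit 612574074278772736, nat_lit 496712899062923264, nat_lit 398363027067371520, nat_lit 315848458974003200, nat_lit 247493195464704000],
  [nat_lit 648518346341351424, nat_lit 583216151744479232, nat_lit 521612714263445504, nat_lit 463708033898250240, nat_lit 409502110648893440, nat_lit 358994944515375104, nat_lit 312186535497695232, nat_lit 269076883595853824, nat_lit 229665988809850880, nat_lit 193953851139686400],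
  [nat_lit 162129586585337856, nat_lit 153966812260728832, nat_lit 145804037936119808, nat_lit 137641263611510784, nat_lit 129478489286901760, nat_lit 121315714962292736, nat_lit 113152940637683712, nat_lit 104990166313074688, nat_lit 96827391988465664, nat_lit 88664617663856640],
  [nat_lit 18014398509481984, nat_lit 18014398509481984, nat_lit 18014398509481984, nat_lit 18014398509481984, nat_lit 18014398509481984, nat_lit 18014398509481984, nat_lit 18014398509481984, nat_lit 18014398509481984, nat_lit 18014398509481984, nat_lit 18014398509481984],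
  [nat_lit 18014398509481984, nat_lit 18014398509481984, nat_lit 18014398509481984, nat_lit 18014398509481984, nat_lit 18014398509481984, nat_lit 18014398509481984, nat_lit 18014398509481984, nat_lit 18014398509481984, nat_lit 18014398509481984, nat_lit 18014398509481984],
  [nat_lit 162129586585337856, nat_lit 170292360909946880, nat_lit 178455135234555904, nat_lit 186617909559164928, nat_lit 194780683883773952, nat_lit 202943458208382976, nat_lit 211106232532992000, nat_lit 219269006857601024, nat_lit 227431781182210048, nat_lit 235594555506819072],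
  [nat_lit 648518346341351424, nat_lit 713820540938223616, nat_lit 782821492650934272, nat_lit 855521201479483392, nat_lit 931919667423870976, nat_lit 1012016890484097024, nat_lit 1095812870660161536, nat_lit 1183307607952064512, nat_lit 1274501102359805952, nat_lit 1369393353883385856],
  [nat_lit 1513209474796486656, nat_lit 1741767155885539328, nat_lit 1996216136785461248, nat_lit 2278232416814366720, nat_lit 2589491995290370048, nat_lit 2931670871531585536, nat_lit 3306445044856127488, nat_lit 3715490514582110208, nat_lit 4160483280027648000, nat_lit 4643099340510855168],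
  [nat_lit 2269814212194729984, nat_lit 2726929574372835328, nat_lit 3261718835983548416, nat_lit 3884237992935555072, nat_lit 4605302478328561664, nat_lit 5436487162453295104, nat_lit 6390126352791502848, nat_lit 7479313794015952896, nat_lit 8717902667990433792, nat_lit 10120505593769754624],
  [nat_lit 2269814212194729984, nat_lit 2841208414917361664, nat_lit 3542059116694339584, nat_lit 4397506307297378304, nat_lit 5436487162453295104, nat_lit 6692080163821191168, nat_lit 8201849218969632768, nat_lit 10008187781353832448, nat_lit 12158662970292830208, nat_lit 14706359690946674688],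
  [nat_lit 1513209474796486656, nat_lit 1970324836974592000, nat_lit 2556896698207043584, nat_lit 3306445044856127488, nat_lit 4260084235194335232, nat_lit 5467899479313088512, nat_lit 6990479248396124160, nat_lit 8900603613357539328, nat_lit 11285088512844496896, nat_lit 14246785950604591104],
  [nat_lit 648518346341351424, nat_lit 877076027430404096, nat_lit 1183307607952064512, nat_lit 1592353077678047232, nat_lit 2136946798290272256, nat_lit 2859482223243952128, nat_lit 3814544405724659712, nat_lit 5071980950192738304, nat_lit 6720582063008415744, nat_lit 8872440357630984192],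
  [nat_lit 162129586585337856, nat_lit 227431781182210048, nat_lit 318625275589951488, nat_lit 445766065717248000, nat_lit 622707333427888128, nat_lit 868475926449487872, nat_lit 1209116626376196096, nat_lit 1680145515752103936, nat_lit 2329785770992511040, nat_lit 3223191223670630976],
  [nat_lit 18014398509481984, nat_lit 26177172834091008, nat_lit 38038704274538496, nat_lit 55274992148938752, nat_lit 80321472966426624, nat_lit 116717140404338688, nat_lit 169604594650054656, nat_lit 246456676600860672, nat_lit 358132358185625664, nat_lit 520411082988487293]]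

noncomputable def BR5c_sn : List (List ℕ) := [[nat_lit 4096, nat_lit 4352, nat_lit 4624],
  [nat_lit 8192, nat_lit 12544, nat_lit 17408],
  [nat_lit 4096, nat_lit 8192, nat_lit 16384]]

noncomputable def BR5c_en : List (List ℕ) := [[nat_lit 320000000, nat_lit 143046875, nat_lit 64000000, nat_lit 28609375, nat_lit 12800000, nat_lit 5721875, nat_lit 2560000, nat_lit 1144375],
  [nat_lit 320000000, nat_lit 143125000, nat_lit 64000000, nat_lit 28625000, nat_lit 12800000, nat_lit 5725000, nat_lit 2560000, nat_lit 1145000]]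

noncomputable def BR5c_en1 : List (List ℕ) := [[nat_lit 1]]


end Crest.Agent.R163.Ck
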