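import Crest.Agent.R163.B8m1b_224D

/-! Row 163: Bellman certificate, data (generated). -/

set_option autoImplicit false
set_option Elab.async false
set_option maxRecDepth 100000

namespace Crest.Agent.R163.Ck

noncomputable def BR6a : Bell := ⟨true, 8, 3, 3, 1, 7, 32, fs3_8, lams3_8, TT3_8,
  [[[[.ofNat (nat_lit 6305875917086511), .negSucc (nat_lit 200173939072262), .negSucc (nat_lit 34353349126610741), .negSucc (nat_lit 1226835126228122), .ofNat (nat_lit 45458855243056098), .ofNat (nat_lit 9331076663011854), .ofNat (nat_lit 1534465732341330), .negSucc (nat_lit 16993719521695079), .negSucc (nat_lit 4339064762549819), .ofNat (nat_lit 59777493956622738), .negSucc (nat_lit 809603113196762), .ofNat (nat_lit 3572954454281814), .negSucc (nat_lit 8557381225193795), .negSucc (nat_lit 58725404281630601), .negSucc (nat_lit 160657734044978585), .ofNat (nat_lit 222822696104091), .negSucc (nat_lit 364143652875611), .ofNat (nat_lit 4737972720960846), .ofNat (nat_lit 21508546059324486), .ofNat (nat_lit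 4581875378736864), .ofNat (nat_lit 183734055186565032), .ofNat (nat_lit 71486463062544210), .negSucc (nat_lit 31493352568328), .ofNat (nat_lit 9795728042730), .negSucc (nat_lit 938829793352399), .negSucc (nat_lit 3656150309214053), .negSucc (nat_lit 2354377454143775), .negSucc (nat_lit 42264820628840339), .negSucc (nat_lit 33799085849353949), .negSucc (nat_lit 77800895154719279), .ofNat (nat_lit 1811064524974), .ofNat (nat_lit 421944572896), .ofNat (nat_lit 67238276878616), .ofNat (nat_lit 239364970774418), .ofNat (nat_lit 204425684420608), .ofNat (nat_lit 3550181974460436), .ofNat (nat_lit 133987223064940), .ofNat (nat_lit 7640973464474216), .ofNat (nat_lit 8901814606724580), .ofNat (nat_lit 14070589327649228)]],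
  [[.negSucc (nat_lit 203340187482569), .ofNat (nat_lit 3601779515451567), .negSucc (nat_lit 13131073053018305), .negSucc (nat_lit 3823534079483345), .ofNat (nat_lit 29011274378707572), .ofNat (nat_lit 49066607803750722), .ofNat (nat_lit 2256928847146818), .negSucc (nat_lit 17380519260578837), .negSucc (nat_lit 14506975072603097), .negSucc (nat_lit 196200196118512667), .negSucc (nat_lit 807800913695672), .ofNat (nat_lit 5852840414157648), .ofNat (nat_lit 12046685969387898), .ofNat (nat_lit 118438572826659330), .ofNat (nat_lit 222173263280838276), .ofNat (nat_lit 176697906921153), .negSucc (nat_lit 1099987482261545), .negSucc (nat_lit 2060737427085389), .negSucc (nat_lit 37175630166108719), .negSucc (nat_lit 1412525514747113), .negSucc (nat_lit 205664101295092181), .negSucc (nat_lit 66112636524801263), .negSucc (nat_lit 21966199339244), .ofNat (nat_lit 104592077889396), .ofNat (nat_lit 41398487585262), .ofNat (nat_lit 5966551058362452), .ofNat (nat_lit 68994284211984), .ofNat (nat_lit 43093406714680962),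 .ofNat (nat_lit 32224335754210206), .ofNat (nat_lit 62760292537801500), .ofNat (nat_lit 1197121516984), .negSucc (nat_lit 3465938540227), .ofNat (nat_lit 16003040243168), .negSucc (nat_lit 392077048000233), .ofNat (nat_lit 39808191741844), .negSucc (nat_lit 3397435407921011), .ofNat (nat_lit 17944969924480), .negSucc (nat_lit 6809948538551283), .negSucc (nat_lit 6652813480448123), .negSucc (nat_lit 10102411472918379)]],
  [[]]],
  [[[]],
  [[.ofNat (nat_lit 5682358109920194), .negSucc (nat_lit 18492954272771948), .negSucc (nat_lit 47579463251266067), .ofNat (nat_lit 19066076986718538), .ofNat (nat_lit 241761643342580862), .ofNat (nat_lit 43495355642428602), .negSucc (nat_lit 10594016025713261), .negSucc (nat_lit 232838953840565513), .negSucc (nat_lit 197954618545951325), .negSucc (nat_lit 289659029695235117), .ofNat (nat_lit 3177881652694914), .ofNat (nat_lit 113372131538854854), .ofNat (nat_lit 280048787930564982), .ofNat (nat_lit 226680140514015774), .ofNat (nat_lit 372956053834632366),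 .negSucc (nat_lit 456578955833687), .negSucc (nat_lit 30256035485600969), .negSucc (nat_lit 94737645763228853), .negSucc (nat_lit 82665471903953327), .negSucc (nat_lit 71723512653535691), .negSucc (nat_lit 399866777787738293), .negSucc (nat_lit 92197265954091479), .ofNat (nat_lit 15490597387914), .ofNat (nat_lit 4282655707151442), .ofNat (nat_lit 15269200111912572), .ofNat (nat_lit 14252486024526318), .ofNat (nat_lit 31522212947024478), .ofNat (nat_lit 96307655106888972), .ofNat (nat_lit 68105318465935458), .ofNat (nat_lit 84575662580856402), .ofNat (nat_lit 1813226078137), .negSucc (nat_lit 255122227369603), .negSucc (nat_lit 951940284727329), .negSucc (nat_lit 919323380773311), .negSucc (nat_lit 2423653182886195), .negSucc (nat_lit 8611629536518475), .negSucc (nat_lit 1730461577684743), .negSucc (nat_lit 16118665791097551), .negSucc (nat_lit 9946307806326335), .negSucc (nat_lit 10593496397303685)]],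
  [[.ofNat (nat_lit 181549366417890), .ofNat (nat_lit 0), .ofNat (nat_lit 0), .ofNat (nat_lit 0), .ofNat (nat_lit 0), .ofNat (nat_lit 0), .ofNat (nat_lit 0), .ofNat (nat_lit 0), .ofNat (nat_lit 0), .ofNat (nat_lit 0), .ofNat (nat_lit 0), .ofNat (nat_lit 0), .ofNat (nat_lit 0), .ofNat (nat_lit 0), .ofNat (nat_lit 0), .ofNat (nat_lit 0), .ofNat (nat_lit 0), .ofNat (nat_lit 0), .ofNat (nat_lit 0), .ofNat (nat_lit 0), .ofNat (nat_lit 0), .ofNat (nat_lit 0), .ofNat (nat_lit 0), .ofNat (nat_lit 0), .ofNat (nat_lit 0), .ofNat (nat_lit 0), .ofNat (nat_lit 0), .ofNat (nat_lit 0), .ofNat (nat_lit 0), .ofNat (nat_lit 0), .ofNat (nat_lit 0), .ofNat (nat_lit 0), .ofNat (nat_lit 0), .ofNat (nat_lit 0), .ofNat (nat_lit 0), .ofNat (nat_lit 0), .ofNat (nat_lit 0), .ofNat (nat_lit 0), .ofNat (nat_lit 0), .ofNat (nat_lit 0)]]],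
  [[[]],
  [[.ofNat (nat_lit 0), .ofNat (nat_lit 488108906152992), .negSucc (nat_lit 488108906152991), .ofNat (nat_lit 576087331853988), .negSucc (nat_lit 1972316448638459), .ofNat (nat_lit 1396229116784472), .negSucc (nat_lit 326202139247975), .ofNat (nat_lit 866516012850024), .negSucc (nat_lit 102021329460167), .negSucc (nat_lit 438292544141879), .ofNat (nat_lit 90519675270984), .negSucc (nat_lit 317519907954407), .ofNat (nat_lit 181039350541968), .ofNat (nat_lit 183843528565824), .negSucc (nat_lit 137882646424367), .negSucc (nat_lit 28416350245463), .ofNat (nat_lit 134103286162800), .negSucc (nat_lit 447102677128859), .ofNat (nat_lit 202831499996820), .ofNat (nat_lit 377810556521508), .negSucc (nat_lit 551242261233575), .ofNat (nat_lit 312015945926772), .ofNat (nat_lit 6423779380836), .negSucc (nat_lit 31395834714071), .ofNat (nat_lit 124265768679414), .negSucc (nat_lit 70790127392537), .negSucc (nat_lit 98570651156069), .ofNat (nat_lit 77297687103510), .ofNat (nat_lit 59221132350810),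 .negSucc (nat_lit 66451754251889), .negSucc (nat_lit 542925446735), .ofNat (nat_lit 2714627233680), .negSucc (nat_lit 1085850893471), .negSucc (nat_lit 2714627233679), .negSucc (nat_lit 2171701786943), .negSucc (nat_lit 1628776340207), .ofNat (nat_lit 2714627233680), .negSucc (nat_lit 2714627233679), .ofNat (nat_lit 16287763402080), .negSucc (nat_lit 10858508934719)]],
  [[.negSucc (nat_lit 440776114375913), .ofNat (nat_lit 0), .ofNat (nat_lit 0), .ofNat (nat_lit 0), .ofNat (nat_lit 0), .ofNat (nat_lit 0), .ofNat (nat_lit 0), .ofNat (nat_lit 0), .ofNat (nat_lit 0), .ofNat (nat_lit 0), .ofNat (nat_lit 0), .ofNat (nat_lit 0), .ofNat (nat_lit 0), .ofNat (nat_lit 0), .ofNat (nat_lit 0), .ofNat (nat_lit 0), .ofNat (nat_lit 0), .ofNat (nat_lit 0), .ofNat (nat_lit 0), .ofNat (nat_lit 0), .ofNat (nat_lit 0), .ofNat (nat_lit 0), .ofNat (nat_lit 0), .ofNat (nat_lit 0), .ofNat (nat_lit 0), .ofNat (nat_lit 0), .ofNat (nat_lit 0), .ofNat (nat_lit 0), .ofNat (nat_lit 0), .ofNat (nat_lit 0), .ofNat (nat_lit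 0), .ofNat (nat_lit 0), .ofNat (nat_lit 0), .ofNat (nat_lit 0), .ofNat (nat_lit 0), .ofNat (nat_lit 0), .ofNat (nat_lit 0), .ofNat (nat_lit 0), .ofNat (nat_lit 0), .ofNat (nat_lit 0)]]]],
  [[.ofNat (nat_lit 0)],
  [.ofNat (nat_lit 0)],
  [.ofNat (nat_lit 255351693497256)]],
  [[[[.ofNat (nat_lit 0), .negSucc (nat_lit 707908480787146751), .negSucc (nat_lit 2411068142526031871), .ofNat (nat_lit 2284533766405592064), .negSucc (nat_lit 2040477060719655935), .ofNat (nat_lit 463360800819640320), .negSucc (nat_lit 939715760728820735), .ofNat (nat_lit 921925501328609280), .negSucc (nat_lit 184595254778142719), .negSucc (nat_lit 185320188474089471)]],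
  [[.ofNat (nat_lit 106137774092685312), .negSucc (nat_lit 238166388300165119), .negSucc (nat_lit 14175746259526655), .negSucc (nat_lit 96615661370148863), .ofNat (nat_lit 761479196581951488), .ofNat (nat_lit 824408623699282944), .ofNat (nat_lit 1321682569446905856), .negSucc (nat_lit 4032004484487951359), .ofNat (nat_lit 543403591650929664), .ofNat (nat_lit 1190432927890547712)]]],
  [[[.ofNat (nat_lit 0), .ofNat (nat_lit 235181093872859136), .ofNat (nat_lit 1683325137002148864), .ofNat (nat_lit 785424644014150656), .negSucc (nat_lit 2958849464505560063), .negSucc (nat_lit 1302295219696816127), .ofNat (nat_lit 1140161716516322304), .ofNat (nat_lit 2968986892575154176), .ofNat (nat_lit 456942353833764864), .negSucc (nat_lit 2543706421525380095)]],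
  [[.negSucc (nat_lit 753606207337927679), .ofNat (nat_lit 145443435256212480), .negSucc (nat_lit 1283489244695328767), .ofNat (nat_lit 2107603541527584768), .negSucc (nat_lit 2064100523623704575), .negSucc (nat_lit 4603065805217488895), .negSucc (nat_lit 9243753098050068479), .ofNat (nat_lit 21247414594025038848), .negSucc (nat_lit 3300246640703987711), .negSucc (nat_lit 5161269089737211903)]]],
  [[[.ofNat (nat_lit 0), .negSucc (nat_lit 327698573355334655), .negSucc (nat_lit 2220348055221033983), .ofNat (nat_lit 1577851710159946752), .ofNat (nat_lit 13094828191952815104), .negSucc (nat_lit 2771493978570117119), .negSucc (nat_lit 1568087936947842047), .negSucc (nat_lit 15138185513430721535), .ofNat (nat_lit 632706840449869824), .ofNat (nat_lit 10923467832426811392)]],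
  [[.ofNat (nat_lit 772837825835870208), .ofNat (nat_lit 1485200826831790080), .ofNat (nat_lit 4353681893502468096), .negSucc (nat_lit 11487613928049718271), .negSucc (nat_lit 8569835725025313791), .ofNat (nat_lit 16125166165048556544), .ofNat (nat_lit 10466658185745208320), .negSucc (nat_lit 14643809996254156799), .ofNat (nat_lit 2607460840720862208), .negSucc (nat_lit 3441567324311516159)]]]]⟩

noncomputable def BR6a_A : L6 := [[[[[[.ofNat (nat_lit 0), .ofNat (nat_lit 0), .ofNat (nat_lit 79768777119234048)],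
  [],
  [.ofNat (nat_lit 0), .ofNat (nat_lit 0), .negSucc (nat_lit 451354741120935935)],
  [],
  [.ofNat (nat_lit 0), .ofNat (nat_lit 0), .ofNat (nat_lit 261480134141190144)],
  [],
  []],
  [[.ofNat (nat_lit 0), .ofNat (nat_lit 106137774092685312), .ofNat (nat_lit 0)],
  [],
  [],
  [],
  [],
  [],
  []],
  [[.ofNat (nat_lit 0), .ofNat (nat_lit 353555201056057344), .ofNat (nat_lit 0)],
  [.ofNat (nat_lit 0), .ofNat (nat_lit 353555201056057344), .ofNat (nat_lit 0)],
  [],
  [],
  [],
  [],
  []],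
  [[.ofNat (nat_lit 49083037229537280), .ofNat (nat_lit 223351129511709696), .ofNat (nat_lit 0)],
  [],
  [.negSucc (nat_lit 49083037229537279), .negSucc (nat_lit 223351129511709695), .ofNat (nat_lit 0)],
  [],
  [],
  [],
  []],
  [[.negSucc (nat_lit 62603635936591871), .negSucc (nat_lit 178389364218273791), .ofNat (nat_lit 0)],
  [],
  [],
  [.negSucc (nat_lit 62603635936591871), .negSucc (nat_lit 178389364218273791), .ofNat (nat_lit 0)],
  [],
  [],
  []],
  [[.negSucc (nat_lit 26967194411028479), .negSucc (nat_lit 20469774854873087), .ofNat (nat_lit 0)],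
  [],
  [],
  [],
  [.ofNat (nat_lit 26967194411028480), .ofNat (nat_lit 20469774854873088), .ofNat (nat_lit 0)],
  [],
  []],
  [[.ofNat (nat_lit 139926890442138624), .ofNat (nat_lit 10591519493219328), .ofNat (nat_lit 0)],
  [],
  [],
  [],
  [.negSucc (nat_lit 139926890442138623), .negSucc (nat_lit 10591519493219327), .ofNat (nat_lit 0)],
  [],
  []],
  [[.ofNat (nat_lit 73249610822258688), .ofNat (nat_lit 62734198221361152), .ofNat (nat_lit 0)],
  [],
  [],
  [],
  [],
  [.ofNat (nat_lit 73249610822258688), .ofNat (nat_lit 62734198221361152), .ofNat (nat_lit 0)],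
  []],
  [[],
  [],
  [],
  [],
  [],
  [],
  []],
  [[],
  [],
  [],
  [],
  [],
  [],
  []]],
  [],
  [],
  [],
  [],
  [],
  [],
  [],
  [],
  []],
  [[],
  [],
  [],
  [],
  [],
  [],
  [],
  [],
  [],
  []],
  [[],
  [[[.ofNat (nat_lit 0), .ofNat (nat_lit 154365131381004288), .ofNat (nat_lit 238166388300165120)],
  [],
  [.ofNat (nat_lit 0), .ofNat (nat_lit 374867639925497856), .ofNat (nat_lit 0)],
  [],
  [],
  [],
  []],
  [[.ofNat (nat_lit 325571394847684608), .negSucc (nat_lit 2249134368431058431), .ofNat (nat_lit 0)],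
  [],
  [],
  [],
  [],
  [],
  []],
  [[],
  [.negSucc (nat_lit 2516425491093037055), .negSucc (nat_lit 880818541994428415), .ofNat (nat_lit 0)],
  [],
  [],
  [],
  [],
  []],
  [[],
  [],
  [.negSucc (nat_lit 1002170036840046335), .ofNat (nat_lit 2119949650532323584), .ofNat (nat_lit 0)],
  [],
  [],
  [],
  []],
  [[],
  [],
  [],
  [.ofNat (nat_lit 2029073530764860928), .ofNat (nat_lit 465116268794402304), .ofNat (nat_lit 0)],
  [],
  [],
  []],
  [[],
  [],
  [],
  [],
  [.negSucc (nat_lit 597407548488930431), .negSucc (nat_lit 719388461994454655), .ofNat (nat_lit 0)],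
  [],
  []],
  [[],
  [],
  [],
  [],
  [.ofNat (nat_lit 1555490369596677120), .negSucc (nat_lit 805621457360249855), .ofNat (nat_lit 0)],
  [],
  []],
  [[],
  [],
  [],
  [],
  [],
  [.negSucc (nat_lit 1984897003160770559), .negSucc (nat_lit 225941994201235967), .ofNat (nat_lit 0)],
  []],
  [[],
  [],
  [],
  [],
  [],
  [],
  [.negSucc (nat_lit 307628893622200319), .negSucc (nat_lit 242884149617465855), .ofNat (nat_lit 0)]],
  [[],
  [],
  [],
  [],
  [],
  [],
  [.negSucc (nat_lit 619055714331353087), .ofNat (nat_lit 841765709752381440), .ofNat (nat_lit 0)]]],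
  [],
  [],
  [],
  [],
  [],
  [],
  [],
  []],
  [[],
  [],
  [[[.ofNat (nat_lit 0), .ofNat (nat_lit 430109778578088960), .ofNat (nat_lit 14175746259526656)],
  [],
  [.ofNat (nat_lit 0), .ofNat (nat_lit 1009826021702891520), .ofNat (nat_lit 0)],
  [],
  [],
  [],
  []],
  [[.ofNat (nat_lit 105357348567005184), .ofNat (nat_lit 866642795734901760), .ofNat (nat_lit 0)],
  [],
  [],
  [],
  [],
  [],
  []],
  [[],
  [.ofNat (nat_lit 3966765904428235776), .ofNat (nat_lit 503531678832182784), .ofNat (nat_lit 0)],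
  [],
  [],
  [],
  [],
  []],
  [[],
  [],
  [.negSucc (nat_lit 2270117952645742079), .ofNat (nat_lit 936184555745597952), .ofNat (nat_lit 0)],
  [],
  [],
  [],
  []],
  [[],
  [],
  [],
  [.negSucc (nat_lit 4745147773093482239), .ofNat (nat_lit 1135597431780000000), .ofNat (nat_lit 0)],
  [],
  [],
  []],
  [[],
  [],
  [],
  [],
  [.ofNat (nat_lit 2703982167836216064), .negSucc (nat_lit 304126693835862527), .ofNat (nat_lit 0)],
  [],
  []],
  [[],
  [],
  [],
  [],
  [.negSucc (nat_lit 3400580301014716415), .negSucc (nat_lit 1517350029226495487), .ofNat (nat_lit 0)],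
  [],
  []],
  [[],
  [],
  [],
  [],
  [],
  [.ofNat (nat_lit 2954569954424086656), .negSucc (nat_lit 1515035943520377983), .ofNat (nat_lit 0)],
  []],
  [[],
  [],
  [],
  [],
  [],
  [],
  [.negSucc (nat_lit 922886680866600959), .negSucc (nat_lit 728652448852397567), .ofNat (nat_lit 0)]],
  [[],
  [],
  [],
  [],
  [],
  [],
  [.ofNat (nat_lit 2912458380896305152), .ofNat (nat_lit 1065416299290676224), .ofNat (nat_lit 0)]]],
  [],
  [],
  [],
  [],
  [],
  [],
  []],
  [[],
  [],
  [],
  [[[.ofNat (nat_lit 0), .negSucc (nat_lit 752331461007771647), .ofNat (nat_lit 96615661370148864)],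
  [],
  [.ofNat (nat_lit 0), .negSucc (nat_lit 311220791194779647), .ofNat (nat_lit 0)],
  [],
  [],
  [],
  []],
  [[.ofNat (nat_lit 1282363729565545728), .ofNat (nat_lit 2023333989162174720), .ofNat (nat_lit 0)],
  [],
  [],
  [],
  [],
  [],
  []],
  [[],
  [.ofNat (nat_lit 2270117952645742080), .negSucc (nat_lit 936184555745597951), .ofNat (nat_lit 0)],
  [],
  [],
  [],
  [],
  []],
  [[],
  [],
  [.negSucc (nat_lit 3028913257588691327), .negSucc (nat_lit 2682602895704402303), .ofNat (nat_lit 0)],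
  [],
  [],
  [],
  []],
  [[],
  [],
  [],
  [.negSucc (nat_lit 8278556441758778879), .ofNat (nat_lit 3192469014787509888), .ofNat (nat_lit 0)],
  [],
  [],
  []],
  [[],
  [],
  [],
  [],
  [.ofNat (nat_lit 5640589204201770048), .ofNat (nat_lit 178658286595168896), .ofNat (nat_lit 0)],
  [],
  []],
  [[],
  [],
  [],
  [],
  [.negSucc (nat_lit 4547686165182890495), .ofNat (nat_lit 2910251244305926656), .ofNat (nat_lit 0)],
  [],
  []],
  [[],
  [],
  [],
  [],
  [],
  [.ofNat (nat_lit 8260795784343452544), .negSucc (nat_lit 3134810382261573887), .ofNat (nat_lit 0)],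
  []],
  [[],
  [],
  [],
  [],
  [],
  [],
  [.negSucc (nat_lit 1138264816861192319), .negSucc (nat_lit 623422494733484159), .ofNat (nat_lit 0)]],
  [[],
  [],
  [],
  [],
  [],
  [],
  [.ofNat (nat_lit 5478825514939195392), .negSucc (nat_lit 1443464604705507839), .ofNat (nat_lit 0)]]],
  [],
  [],
  [],
  [],
  [],
  []],
  [[],
  [],
  [],
  [],
  [[[.ofNat (nat_lit 0), .negSucc (nat_lit 1157181056049954815), .negSucc (nat_lit 761479196581951487)],
  [],
  [.ofNat (nat_lit 0), .ofNat (nat_lit 188670722566957056), .ofNat (nat_lit 0)],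
  [],
  [],
  [],
  []],
  [[.negSucc (nat_lit 4069550591484516863), .ofNat (nat_lit 296362927787549184), .ofNat (nat_lit 0)],
  [],
  [],
  [],
  [],
  [],
  []],
  [[],
  [.negSucc (nat_lit 4745147773093482239), .ofNat (nat_lit 1135597431780000000), .ofNat (nat_lit 0)],
  [],
  [],
  [],
  [],
  []],
  [[],
  [],
  [.ofNat (nat_lit 8278556441758778880), .negSucc (nat_lit 3192469014787509887), .ofNat (nat_lit 0)],
  [],
  [],
  [],
  []],
  [[],
  [],
  [],
  [.ofNat (nat_lit 32345937818917913088), .negSucc (nat_lit 17171450438878603007), .ofNat (nat_lit 0)],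
  [],
  [],
  []],
  [[],
  [],
  [],
  [],
  [.negSucc (nat_lit 6755178101813936639), .ofNat (nat_lit 2839709400459602688), .ofNat (nat_lit 0)],
  [],
  []],
  [[],
  [],
  [],
  [],
  [.ofNat (nat_lit 12483317129595162624), .ofNat (nat_lit 3689820373703728896), .ofNat (nat_lit 0)],
  [],
  []],
  [[],
  [],
  [],
  [],
  [],
  [.negSucc (nat_lit 39203202281323560767), .ofNat (nat_lit 27716802145207997184), .ofNat (nat_lit 0)],
  []],
  [[],
  [],
  [],
  [],
  [],
  [],
  [.negSucc (nat_lit 1507457399666883839), .negSucc (nat_lit 639634615423303679), .ofNat (nat_lit 0)]],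
  [[],
  [],
  [],
  [],
  [],
  [],
  [.negSucc (nat_lit 23998512882634161407), .ofNat (nat_lit 16891202423232529920), .ofNat (nat_lit 0)]]],
  [],
  [],
  [],
  [],
  []],
  [[],
  [],
  [],
  [],
  [],
  [[[.ofNat (nat_lit 0), .ofNat (nat_lit 1137340968236909568), .negSucc (nat_lit 824408623699282943)],
  [],
  [.ofNat (nat_lit 0), .negSucc (nat_lit 195043050298386431), .ofNat (nat_lit 0)],
  [],
  [],
  [],
  []],
  [[.negSucc (nat_lit 134046747669290111), .ofNat (nat_lit 105020161704828288), .ofNat (nat_lit 0)],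
  [],
  [],
  [],
  [],
  [],
  []],
  [[],
  [.negSucc (nat_lit 2703982167836216063), .ofNat (nat_lit 304126693835862528), .ofNat (nat_lit 0)],
  [],
  [],
  [],
  [],
  []],
  [[],
  [],
  [.ofNat (nat_lit 5640589204201770048), .ofNat (nat_lit 178658286595168896), .ofNat (nat_lit 0)],
  [],
  [],
  [],
  []],
  [[],
  [],
  [],
  [.ofNat (nat_lit 6755178101813936640), .negSucc (nat_lit 2839709400459602687), .ofNat (nat_lit 0)],
  [],
  [],
  []],
  [[],
  [],
  [],
  [],
  [.negSucc (nat_lit 10546007575812035903), .negSucc (nat_lit 1602992293671810815), .ofNat (nat_lit 0)],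
  [],
  []],
  [[],
  [],
  [],
  [],
  [.ofNat (nat_lit 4413084485014553472), .negSucc (nat_lit 1176575005268849663), .ofNat (nat_lit 0)],
  [],
  []],
  [[],
  [],
  [],
  [],
  [],
  [.negSucc (nat_lit 17186519183724301823), .negSucc (nat_lit 2312802258479762975), .ofNat (nat_lit 0)],
  []],
  [[],
  [],
  [],
  [],
  [],
  [],
  [.ofNat (nat_lit 783074377678641984), .negSucc (nat_lit 74717597533016735), .ofNat (nat_lit 0)]],
  [[],
  [],
  [],
  [],
  [],
  [],
  [.negSucc (nat_lit 11635175774653641215), .negSucc (nat_lit 2423441741433247871), .ofNat (nat_lit 0)]]],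
  [[[.ofNat (nat_lit 0), .ofNat (nat_lit 1656866413242206208), .negSucc (nat_lit 1321682569446905855)],
  [],
  [.ofNat (nat_lit 0), .ofNat (nat_lit 221245862963106816), .ofNat (nat_lit 0)],
  [],
  [],
  [],
  []],
  [[.ofNat (nat_lit 615774608867856384), .ofNat (nat_lit 516061112086656000), .ofNat (nat_lit 0)],
  [],
  [],
  [],
  [],
  [],
  []],
  [[],
  [.ofNat (nat_lit 3400580301014716416), .ofNat (nat_lit 1517350029226495488), .ofNat (nat_lit 0)],
  [],
  [],
  [],
  [],
  []],
  [[],
  [],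
  [.negSucc (nat_lit 4547686165182890495), .ofNat (nat_lit 2910251244305926656), .ofNat (nat_lit 0)],
  [],
  [],
  [],
  []],
  [[],
  [],
  [],
  [.negSucc (nat_lit 12483317129595162623), .negSucc (nat_lit 3689820373703728895), .ofNat (nat_lit 0)],
  [],
  [],
  []],
  [[],
  [],
  [],
  [],
  [.ofNat (nat_lit 4413084485014553472), .negSucc (nat_lit 1176575005268849663), .ofNat (nat_lit 0)],
  [],
  []],
  [[],
  [],
  [],
  [],
  [.negSucc (nat_lit 4751866133340802559), .negSucc (nat_lit 3987972706573693439), .ofNat (nat_lit 0)],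
  [],
  []],
  [[],
  [],
  [],
  [],
  [],
  [.ofNat (nat_lit 9794563553168494848), .ofNat (nat_lit 1405798176960275328), .ofNat (nat_lit 0)],
  []],
  [[],
  [],
  [],
  [],
  [],
  [],
  [.negSucc (nat_lit 687509864034806015), .ofNat (nat_lit 9484085623112064), .ofNat (nat_lit 0)]],
  [[],
  [],
  [],
  [],
  [],
  [],
  [.ofNat (nat_lit 5088156141049952256), .ofNat (nat_lit 1308093167781997056), .ofNat (nat_lit 0)]]],
  [],
  [],
  []],
  [[],
  [],
  [],
  [],
  [],
  [],
  [],
  [[[.ofNat (nat_lit 0), .negSucc (nat_lit 1737709549697129471), .ofNat (nat_lit 4032004484487951360)],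
  [],
  [.ofNat (nat_lit 0), .ofNat (nat_lit 25330729642914816), .ofNat (nat_lit 0)],
  [],
  [],
  [],
  []],
  [[.ofNat (nat_lit 2906822504489379840), .negSucc (nat_lit 3806062490286715391), .ofNat (nat_lit 0)],
  [],
  [],
  [],
  [],
  [],
  []],
  [[],
  [.ofNat (nat_lit 2954569954424086656), .negSucc (nat_lit 1515035943520377983), .ofNat (nat_lit 0)],
  [],
  [],
  [],
  [],
  []],
  [[],
  [],
  [.negSucc (nat_lit 8260795784343452543), .ofNat (nat_lit 3134810382261573888), .ofNat (nat_lit 0)],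
  [],
  [],
  [],
  []],
  [[],
  [],
  [],
  [.negSucc (nat_lit 39203202281323560767), .ofNat (nat_lit 27716802145207997184), .ofNat (nat_lit 0)],
  [],
  [],
  []],
  [[],
  [],
  [],
  [],
  [.ofNat (nat_lit 17186519183724301824), .ofNat (nat_lit 2312802258479762976), .ofNat (nat_lit 0)],
  [],
  []],
  [[],
  [],
  [],
  [],
  [.negSucc (nat_lit 9794563553168494847), .negSucc (nat_lit 1405798176960275327), .ofNat (nat_lit 0)],
  [],
  []],
  [[],
  [],
  [],
  [],
  [],
  [.ofNat (nat_lit 70110621340608428064), .negSucc (nat_lit 32547507184763017055), .ofNat (nat_lit 0)],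
  []],
  [[],
  [],
  [],
  [],
  [],
  [],
  [.ofNat (nat_lit 777730183875184896), .ofNat (nat_lit 59572580432181984), .ofNat (nat_lit 0)]],
  [[],
  [],
  [],
  [],
  [],
  [],
  [.ofNat (nat_lit 35181259587139008384), .negSucc (nat_lit 25726916058996660479), .ofNat (nat_lit 0)]]],
  [],
  []],
  [[],
  [],
  [],
  [],
  [],
  [],
  [],
  [],
  [[[.ofNat (nat_lit 0), .ofNat (nat_lit 184595254778142720), .negSucc (nat_lit 543403591650929663)],
  [],
  [],
  [],
  [],
  [],
  []],
  [[.negSucc (nat_lit 492224148400343039), .ofNat (nat_lit 300519442033463808), .ofNat (nat_lit 0)],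
  [],
  [],
  [],
  [],
  [],
  []],
  [[],
  [.ofNat (nat_lit 922886680866600960), .ofNat (nat_lit 728652448852397568), .ofNat (nat_lit 0)],
  [],
  [],
  [],
  [],
  []],
  [[],
  [],
  [.negSucc (nat_lit 1138264816861192319), .negSucc (nat_lit 623422494733484159), .ofNat (nat_lit 0)],
  [],
  [],
  [],
  []],
  [[],
  [],
  [],
  [.ofNat (nat_lit 1507457399666883840), .ofNat (nat_lit 639634615423303680), .ofNat (nat_lit 0)],
  [],
  [],
  []],
  [[],
  [],
  [],
  [],
  [.ofNat (nat_lit 783074377678641984), .negSucc (nat_lit 74717597533016735), .ofNat (nat_lit 0)],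
  [],
  []],
  [[],
  [],
  [],
  [],
  [.negSucc (nat_lit 687509864034806015), .ofNat (nat_lit 9484085623112064), .ofNat (nat_lit 0)],
  [],
  []],
  [[],
  [],
  [],
  [],
  [],
  [.negSucc (nat_lit 777730183875184895), .negSucc (nat_lit 59572580432181983), .ofNat (nat_lit 0)],
  []],
  [[],
  [],
  [],
  [],
  [],
  [],
  [.negSucc (nat_lit 1205233500599763695), .negSucc (nat_lit 218929633358875199), .ofNat (nat_lit 0)]],
  [[],
  [],
  [],
  [],
  [],
  [],
  [.ofNat (nat_lit 1112842587386306304), .ofNat (nat_lit 191653690400677440), .ofNat (nat_lit 0)]]],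
  [[[.ofNat (nat_lit 0), .ofNat (nat_lit 185320188474089472), .negSucc (nat_lit 1190432927890547711)],
  [],
  [],
  [],
  [],
  [],
  []],
  [[.negSucc (nat_lit 804375902805442559), .ofNat (nat_lit 2032198637642929152), .ofNat (nat_lit 0)],
  [],
  [],
  [],
  [],
  [],
  []],
  [[],
  [.negSucc (nat_lit 2912458380896305151), .negSucc (nat_lit 1065416299290676223), .ofNat (nat_lit 0)],
  [],
  [],
  [],
  [],
  []],
  [[],
  [],
  [.ofNat (nat_lit 5478825514939195392), .negSucc (nat_lit 1443464604705507839), .ofNat (nat_lit 0)],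
  [],
  [],
  [],
  []],
  [[],
  [],
  [],
  [.ofNat (nat_lit 23998512882634161408), .negSucc (nat_lit 16891202423232529919), .ofNat (nat_lit 0)],
  [],
  [],
  []],
  [[],
  [],
  [],
  [],
  [.negSucc (nat_lit 11635175774653641215), .negSucc (nat_lit 2423441741433247871), .ofNat (nat_lit 0)],
  [],
  []],
  [[],
  [],
  [],
  [],
  [.ofNat (nat_lit 5088156141049952256), .ofNat (nat_lit 1308093167781997056), .ofNat (nat_lit 0)],
  [],
  []],
  [[],
  [],
  [],
  [],
  [],
  [.negSucc (nat_lit 35181259587139008383), .ofNat (nat_lit 25726916058996660480), .ofNat (nat_lit 0)],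
  []],
  [[],
  [],
  [],
  [],
  [],
  [],
  [.ofNat (nat_lit 1112842587386306304), .ofNat (nat_lit 191653690400677440), .ofNat (nat_lit 0)]],
  [[],
  [],
  [],
  [],
  [],
  [],
  [.negSucc (nat_lit 21657282676029197567), .ofNat (nat_lit 17571869788299547392), .ofNat (nat_lit 0)]]]]],
  [[[[[.ofNat (nat_lit 0), .ofNat (nat_lit 0), .negSucc (nat_lit 149103274903944191)],
  [],
  [.ofNat (nat_lit 0), .ofNat (nat_lit 0), .ofNat (nat_lit 784440402423570432)],
  [],
  [],
  [],
  []],
  [[.ofNat (nat_lit 0), .negSucc (nat_lit 200062857931785215), .ofNat (nat_lit 0)],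
  [],
  [],
  [],
  [],
  [],
  []],
  [[],
  [.ofNat (nat_lit 0), .negSucc (nat_lit 1980958363947942911), .ofNat (nat_lit 0)],
  [],
  [],
  [],
  [],
  []],
  [[],
  [],
  [.ofNat (nat_lit 0), .negSucc (nat_lit 1532202305397820415), .ofNat (nat_lit 0)],
  [],
  [],
  [],
  []],
  [[],
  [],
  [],
  [.ofNat (nat_lit 0), .negSucc (nat_lit 3197658116769610751), .ofNat (nat_lit 0)],
  [],
  [],
  []],
  [[],
  [],
  [],
  [],
  [.ofNat (nat_lit 0), .negSucc (nat_lit 1600701769056549887), .ofNat (nat_lit 0)],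
  [],
  []],
  [[],
  [],
  [],
  [],
  [.ofNat (nat_lit 0), .negSucc (nat_lit 717150652513385471), .ofNat (nat_lit 0)],
  [],
  []],
  [[],
  [],
  [],
  [],
  [],
  [.ofNat (nat_lit 0), .negSucc (nat_lit 815784048368520191), .ofNat (nat_lit 0)],
  []],
  [[],
  [],
  [],
  [],
  [],
  [],
  []],
  [[],
  [],
  [],
  [],
  [],
  [],
  []]],
  [],
  [],
  [],
  [],
  [],
  [],
  [],
  [],
  []],
  [[],
  [],
  [],
  [],
  [],
  [],
  [],
  [],
  [],
  []],
  [[],
  [[[.ofNat (nat_lit 0), .ofNat (nat_lit 514554185978136576), .negSucc (nat_lit 145443435256212479)],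
  [],
  [],
  [],
  [],
  [],
  []],
  [[.ofNat (nat_lit 235181093872859136), .negSucc (nat_lit 1339217660611339775), .ofNat (nat_lit 0)],
  [],
  [],
  [],
  [],
  [],
  []],
  [[],
  [.ofNat (nat_lit 0), .negSucc (nat_lit 165404804237190143), .ofNat (nat_lit 0)],
  [],
  [],
  [],
  [],
  []],
  [[],
  [],
  [.ofNat (nat_lit 0), .ofNat (nat_lit 14090664092875478784), .ofNat (nat_lit 0)],
  [],
  [],
  [],
  []],
  [[],
  [],
  [],
  [.ofNat (nat_lit 0), .ofNat (nat_lit 34038445051689887232), .ofNat (nat_lit 0)],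
  [],
  [],
  []],
  [[],
  [],
  [],
  [],
  [.ofNat (nat_lit 0), .negSucc (nat_lit 8070169488053367167), .ofNat (nat_lit 0)],
  [],
  []],
  [[],
  [],
  [],
  [],
  [.ofNat (nat_lit 0), .ofNat (nat_lit 1229763514096419840), .ofNat (nat_lit 0)],
  [],
  []],
  [[],
  [],
  [],
  [],
  [],
  [.ofNat (nat_lit 0), .negSucc (nat_lit 38092746579402442751), .ofNat (nat_lit 0)],
  []],
  [[],
  [],
  [],
  [],
  [],
  [],
  [.ofNat (nat_lit 0), .negSucc (nat_lit 2514279721891180031), .ofNat (nat_lit 0)]],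
  [[],
  [],
  [],
  [],
  [],
  [],
  [.ofNat (nat_lit 0), .negSucc (nat_lit 15516305448927459839), .ofNat (nat_lit 0)]]],
  [],
  [],
  [],
  [],
  [],
  [],
  [],
  []],
  [[],
  [],
  [[[.ofNat (nat_lit 0), .ofNat (nat_lit 336326906403634176), .ofNat (nat_lit 1283489244695328768)],
  [],
  [],
  [],
  [],
  [],
  []],
  [[.ofNat (nat_lit 1683325137002148864), .negSucc (nat_lit 1118084440458138623), .ofNat (nat_lit 0)],
  [],
  [],
  [],
  [],
  [],
  []],
  [[],
  [.ofNat (nat_lit 0), .negSucc (nat_lit 14621428359326476799), .ofNat (nat_lit 0)],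
  [],
  [],
  [],
  [],
  []],
  [[],
  [],
  [.ofNat (nat_lit 0), .negSucc (nat_lit 28083250651768952831), .ofNat (nat_lit 0)],
  [],
  [],
  [],
  []],
  [[],
  [],
  [],
  [.ofNat (nat_lit 0), .ofNat (nat_lit 22154953456441416960), .ofNat (nat_lit 0)],
  [],
  [],
  []],
  [[],
  [],
  [],
  [],
  [.ofNat (nat_lit 0), .ofNat (nat_lit 33987450662663281920), .ofNat (nat_lit 0)],
  [],
  []],
  [[],
  [],
  [],
  [],
  [.ofNat (nat_lit 0), .ofNat (nat_lit 9471743211867609600), .ofNat (nat_lit 0)],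
  [],
  []],
  [[],
  [],
  [],
  [],
  [],
  [.ofNat (nat_lit 0), .negSucc (nat_lit 1940479183780615295), .ofNat (nat_lit 0)],
  []],
  [[],
  [],
  [],
  [],
  [],
  [],
  [.ofNat (nat_lit 0), .negSucc (nat_lit 7542839165673540095), .ofNat (nat_lit 0)]],
  [[],
  [],
  [],
  [],
  [],
  [],
  [.ofNat (nat_lit 0), .negSucc (nat_lit 4385863332997728767), .ofNat (nat_lit 0)]]],
  [],
  [],
  [],
  [],
  [],
  [],
  []],
  [[],
  [],
  [],
  [[[.ofNat (nat_lit 0), .negSucc (nat_lit 1407866226403709951), .negSucc (nat_lit 2107603541527584767)],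
  [],
  [],
  [],
  [],
  [],
  []],
  [[.ofNat (nat_lit 785424644014150656), .ofNat (nat_lit 16198267634403063552), .ofNat (nat_lit 0)],
  [],
  [],
  [],
  [],
  [],
  []],
  [[],
  [.ofNat (nat_lit 0), .ofNat (nat_lit 28083250651768952832), .ofNat (nat_lit 0)],
  [],
  [],
  [],
  [],
  []],
  [[],
  [],
  [.ofNat (nat_lit 0), .negSucc (nat_lit 48111622907151967487), .ofNat (nat_lit 0)],
  [],
  [],
  [],
  []],
  [[],
  [],
  [],
  [.ofNat (nat_lit 0), .negSucc (nat_lit 87573129681280844159), .ofNat (nat_lit 0)],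
  [],
  [],
  []],
  [[],
  [],
  [],
  [],
  [.ofNat (nat_lit 0), .ofNat (nat_lit 35961976743771053376), .ofNat (nat_lit 0)],
  [],
  []],
  [[],
  [],
  [],
  [],
  [.ofNat (nat_lit 0), .ofNat (nat_lit 4885801915892186880), .ofNat (nat_lit 0)],
  [],
  []],
  [[],
  [],
  [],
  [],
  [],
  [.ofNat (nat_lit 0), .ofNat (nat_lit 61286159475884764800), .ofNat (nat_lit 0)],
  []],
  [[],
  [],
  [],
  [],
  [],
  [],
  [.ofNat (nat_lit 0), .negSucc (nat_lit 3825601655353617887), .ofNat (nat_lit 0)]],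
  [[],
  [],
  [],
  [],
  [],
  [],
  [.ofNat (nat_lit 0), .ofNat (nat_lit 12647682290410903296), .ofNat (nat_lit 0)]]],
  [],
  [],
  [],
  [],
  [],
  []],
  [[],
  [],
  [],
  [],
  [[[.ofNat (nat_lit 0), .ofNat (nat_lit 3336190909639474176), .ofNat (nat_lit 2064100523623704576)],
  [],
  [],
  [],
  [],
  [],
  []],
  [[.negSucc (nat_lit 2958849464505560063), .negSucc (nat_lit 36102545575313591807), .ofNat (nat_lit 0)],
  [],
  [],
  [],
  [],
  [],
  []],
  [[],
  [.ofNat (nat_lit 0), .ofNat (nat_lit 22154953456441416960), .ofNat (nat_lit 0)],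
  [],
  [],
  [],
  [],
  []],
  [[],
  [],
  [.ofNat (nat_lit 0), .ofNat (nat_lit 87573129681280844160), .ofNat (nat_lit 0)],
  [],
  [],
  [],
  []],
  [[],
  [],
  [],
  [.ofNat (nat_lit 0), .negSucc (nat_lit 25150184847495247103), .ofNat (nat_lit 0)],
  [],
  [],
  []],
  [[],
  [],
  [],
  [],
  [.ofNat (nat_lit 0), .negSucc (nat_lit 44226578806313096447), .ofNat (nat_lit 0)],
  [],
  []],
  [[],
  [],
  [],
  [],
  [.ofNat (nat_lit 0), .negSucc (nat_lit 5955427595344617215), .ofNat (nat_lit 0)],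
  [],
  []],
  [[],
  [],
  [],
  [],
  [],
  [.ofNat (nat_lit 0), .negSucc (nat_lit 3569701007959494911), .ofNat (nat_lit 0)],
  []],
  [[],
  [],
  [],
  [],
  [],
  [],
  [.ofNat (nat_lit 0), .negSucc (nat_lit 1365504005979285695), .ofNat (nat_lit 0)]],
  [[],
  [],
  [],
  [],
  [],
  [],
  [.ofNat (nat_lit 0), .negSucc (nat_lit 12645423587068065791), .ofNat (nat_lit 0)]]],
  [],
  [],
  [],
  [],
  []],
  [[],
  [],
  [],
  [],
  [],
  [[[.ofNat (nat_lit 0), .ofNat (nat_lit 912209119100043264), .ofNat (nat_lit 4603065805217488896)],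
  [],
  [],
  [],
  [],
  [],
  []],
  [[.negSucc (nat_lit 1302295219696816127), .negSucc (nat_lit 12673235293270856063), .ofNat (nat_lit 0)],
  [],
  [],
  [],
  [],
  [],
  []],
  [[],
  [.ofNat (nat_lit 0), .negSucc (nat_lit 33987450662663281919), .ofNat (nat_lit 0)],
  [],
  [],
  [],
  [],
  []],
  [[],
  [],
  [.ofNat (nat_lit 0), .ofNat (nat_lit 35961976743771053376), .ofNat (nat_lit 0)],
  [],
  [],
  [],
  []],
  [[],
  [],
  [],
  [.ofNat (nat_lit 0), .ofNat (nat_lit 44226578806313096448), .ofNat (nat_lit 0)],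
  [],
  [],
  []],
  [[],
  [],
  [],
  [],
  [.ofNat (nat_lit 0), .negSucc (nat_lit 3255038022020283647), .ofNat (nat_lit 0)],
  [],
  []],
  [[],
  [],
  [],
  [],
  [.ofNat (nat_lit 0), .negSucc (nat_lit 3674845092815875583), .ofNat (nat_lit 0)],
  [],
  []],
  [[],
  [],
  [],
  [],
  [],
  [.ofNat (nat_lit 0), .negSucc (nat_lit 1530508003436748959), .ofNat (nat_lit 0)],
  []],
  [[],
  [],
  [],
  [],
  [],
  [],
  [.ofNat (nat_lit 0), .negSucc (nat_lit 10549460053083493295), .ofNat (nat_lit 0)]],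
  [[],
  [],
  [],
  [],
  [],
  [],
  [.ofNat (nat_lit 0), .negSucc (nat_lit 276807635326980863), .ofNat (nat_lit 0)]]],
  [[[.ofNat (nat_lit 0), .negSucc (nat_lit 697669990590108671), .ofNat (nat_lit 9243753098050068480)],
  [],
  [],
  [],
  [],
  [],
  []],
  [[.ofNat (nat_lit 1140161716516322304), .negSucc (nat_lit 8013989583953648639), .ofNat (nat_lit 0)],
  [],
  [],
  [],
  [],
  [],
  []],
  [[],
  [.ofNat (nat_lit 0), .negSucc (nat_lit 9471743211867609599), .ofNat (nat_lit 0)],
  [],
  [],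
  [],
  [],
  []],
  [[],
  [],
  [.ofNat (nat_lit 0), .ofNat (nat_lit 4885801915892186880), .ofNat (nat_lit 0)],
  [],
  [],
  [],
  []],
  [[],
  [],
  [],
  [.ofNat (nat_lit 0), .ofNat (nat_lit 5955427595344617216), .ofNat (nat_lit 0)],
  [],
  [],
  []],
  [[],
  [],
  [],
  [],
  [.ofNat (nat_lit 0), .negSucc (nat_lit 3674845092815875583), .ofNat (nat_lit 0)],
  [],
  []],
  [[],
  [],
  [],
  [],
  [.ofNat (nat_lit 0), .ofNat (nat_lit 11924182487877594624), .ofNat (nat_lit 0)],
  [],
  []],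
  [[],
  [],
  [],
  [],
  [],
  [.ofNat (nat_lit 0), .ofNat (nat_lit 6954337498103372160), .ofNat (nat_lit 0)],
  []],
  [[],
  [],
  [],
  [],
  [],
  [],
  [.ofNat (nat_lit 0), .ofNat (nat_lit 6519910182256905408), .ofNat (nat_lit 0)]],
  [[],
  [],
  [],
  [],
  [],
  [],
  [.ofNat (nat_lit 0), .negSucc (nat_lit 20552870701172224511), .ofNat (nat_lit 0)]]],
  [],
  [],
  []],
  [[],
  [],
  [],
  [],
  [],
  [],
  [],
  [[[.ofNat (nat_lit 0), .negSucc (nat_lit 2918325433289324543), .negSucc (nat_lit 21247414594025038847)],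
  [],
  [],
  [],
  [],
  [],
  []],
  [[.ofNat (nat_lit 2968986892575154176), .ofNat (nat_lit 59340161173427481600), .ofNat (nat_lit 0)],
  [],
  [],
  [],
  [],
  [],
  []],
  [[],
  [.ofNat (nat_lit 0), .negSucc (nat_lit 1940479183780615295), .ofNat (nat_lit 0)],
  [],
  [],
  [],
  [],
  []],
  [[],
  [],
  [.ofNat (nat_lit 0), .negSucc (nat_lit 61286159475884764799), .ofNat (nat_lit 0)],
  [],
  [],
  [],
  []],
  [[],
  [],
  [],
  [.ofNat (nat_lit 0), .negSucc (nat_lit 3569701007959494911), .ofNat (nat_lit 0)],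
  [],
  [],
  []],
  [[],
  [],
  [],
  [],
  [.ofNat (nat_lit 0), .ofNat (nat_lit 1530508003436748960), .ofNat (nat_lit 0)],
  [],
  []],
  [[],
  [],
  [],
  [],
  [.ofNat (nat_lit 0), .negSucc (nat_lit 6954337498103372159), .ofNat (nat_lit 0)],
  [],
  []],
  [[],
  [],
  [],
  [],
  [],
  [.ofNat (nat_lit 0), .negSucc (nat_lit 15802266390845454143), .ofNat (nat_lit 0)],
  []],
  [[],
  [],
  [],
  [],
  [],
  [],
  [.ofNat (nat_lit 0), .negSucc (nat_lit 7262413925696616671), .ofNat (nat_lit 0)]],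
  [[],
  [],
  [],
  [],
  [],
  [],
  [.ofNat (nat_lit 0), .negSucc (nat_lit 9490150507079979647), .ofNat (nat_lit 0)]]],
  [],
  []],
  [[],
  [],
  [],
  [],
  [],
  [],
  [],
  [],
  [[[.ofNat (nat_lit 0), .negSucc (nat_lit 456942353833764863), .ofNat (nat_lit 3300246640703987712)],
  [],
  [],
  [],
  [],
  [],
  []],
  [[.ofNat (nat_lit 456942353833764864), .negSucc (nat_lit 5814526362595167743), .ofNat (nat_lit 0)],
  [],
  [],
  [],
  [],
  [],
  []],
  [[],
  [.ofNat (nat_lit 0), .ofNat (nat_lit 7542839165673540096), .ofNat (nat_lit 0)],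
  [],
  [],
  [],
  [],
  []],
  [[],
  [],
  [.ofNat (nat_lit 0), .negSucc (nat_lit 3825601655353617887), .ofNat (nat_lit 0)],
  [],
  [],
  [],
  []],
  [[],
  [],
  [],
  [.ofNat (nat_lit 0), .ofNat (nat_lit 1365504005979285696), .ofNat (nat_lit 0)],
  [],
  [],
  []],
  [[],
  [],
  [],
  [],
  [.ofNat (nat_lit 0), .negSucc (nat_lit 10549460053083493295), .ofNat (nat_lit 0)],
  [],
  []],
  [[],
  [],
  [],
  [],
  [.ofNat (nat_lit 0), .ofNat (nat_lit 6519910182256905408), .ofNat (nat_lit 0)],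
  [],
  []],
  [[],
  [],
  [],
  [],
  [],
  [.ofNat (nat_lit 0), .ofNat (nat_lit 7262413925696616672), .ofNat (nat_lit 0)],
  []],
  [[],
  [],
  [],
  [],
  [],
  [],
  [.ofNat (nat_lit 0), .ofNat (nat_lit 15612043458124130616), .ofNat (nat_lit 0)]],
  [[],
  [],
  [],
  [],
  [],
  [],
  [.ofNat (nat_lit 0), .negSucc (nat_lit 13275442463045559551), .ofNat (nat_lit 0)]]],
  [[[.ofNat (nat_lit 0), .ofNat (nat_lit 2543706421525380096), .ofNat (nat_lit 5161269089737211904)],
  [],
  [],
  [],
  [],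
  [],
  []],
  [[.negSucc (nat_lit 2543706421525380095), .negSucc (nat_lit 20677574538664671743), .ofNat (nat_lit 0)],
  [],
  [],
  [],
  [],
  [],
  []],
  [[],
  [.ofNat (nat_lit 0), .ofNat (nat_lit 4385863332997728768), .ofNat (nat_lit 0)],
  [],
  [],
  [],
  [],
  []],
  [[],
  [],
  [.ofNat (nat_lit 0), .ofNat (nat_lit 12647682290410903296), .ofNat (nat_lit 0)],
  [],
  [],
  [],
  []],
  [[],
  [],
  [],
  [.ofNat (nat_lit 0), .ofNat (nat_lit 12645423587068065792), .ofNat (nat_lit 0)],
  [],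
  [],
  []],
  [[],
  [],
  [],
  [],
  [.ofNat (nat_lit 0), .negSucc (nat_lit 276807635326980863), .ofNat (nat_lit 0)],
  [],
  []],
  [[],
  [],
  [],
  [],
  [.ofNat (nat_lit 0), .negSucc (nat_lit 20552870701172224511), .ofNat (nat_lit 0)],
  [],
  []],
  [[],
  [],
  [],
  [],
  [],
  [.ofNat (nat_lit 0), .ofNat (nat_lit 9490150507079979648), .ofNat (nat_lit 0)],
  []],
  [[],
  [],
  [],
  [],
  [],
  [],
  [.ofNat (nat_lit 0), .negSucc (nat_lit 13275442463045559551), .ofNat (nat_lit 0)]],
  [[],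
  [],
  [],
  [],
  [],
  [],
  [.ofNat (nat_lit 0), .ofNat (nat_lit 49538342241256633344), .ofNat (nat_lit 0)]]]]],
  [[[[[.ofNat (nat_lit 0), .ofNat (nat_lit 0), .ofNat (nat_lit 11602576587700224)],
  [],
  [],
  [],
  [],
  [],
  []],
  [[.ofNat (nat_lit 0), .ofNat (nat_lit 397970185910372352), .ofNat (nat_lit 0)],
  [],
  [],
  [],
  [],
  [],
  []],
  [[],
  [.ofNat (nat_lit 0), .ofNat (nat_lit 1009826021702891520), .ofNat (nat_lit 0)],
  [],
  [],
  [],
  [],
  []],
  [[],
  [],
  [.ofNat (nat_lit 0), .ofNat (nat_lit 311220791194779648), .ofNat (nat_lit 0)],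
  [],
  [],
  [],
  []],
  [[],
  [],
  [],
  [.ofNat (nat_lit 0), .ofNat (nat_lit 188670722566957056), .ofNat (nat_lit 0)],
  [],
  [],
  []],
  [[],
  [],
  [],
  [],
  [.ofNat (nat_lit 0), .ofNat (nat_lit 195043050298386432), .ofNat (nat_lit 0)],
  [],
  []],
  [[],
  [],
  [],
  [],
  [.ofNat (nat_lit 0), .negSucc (nat_lit 221245862963106815), .ofNat (nat_lit 0)],
  [],
  []],
  [[],
  [],
  [],
  [],
  [],
  [.ofNat (nat_lit 0), .ofNat (nat_lit 25330729642914816), .ofNat (nat_lit 0)],
  []],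
  [[],
  [],
  [],
  [],
  [],
  [],
  []],
  [[],
  [],
  [],
  [],
  [],
  [],
  []]],
  [],
  [],
  [],
  [],
  [],
  [],
  [],
  [],
  []],
  [[],
  [],
  [],
  [],
  [],
  [],
  [],
  [],
  [],
  []],
  [[],
  [[[.ofNat (nat_lit 0), .ofNat (nat_lit 327698573355334656), .negSucc (nat_lit 1485200826831790079)],
  [],
  [],
  [],
  [],
  [],
  []],
  [[.negSucc (nat_lit 327698573355334655), .negSucc (nat_lit 111960253535016959), .ofNat (nat_lit 0)],
  [],
  [],
  [],
  [],
  [],
  []],
  [[],
  [.ofNat (nat_lit 0), .negSucc (nat_lit 3894545979545462783), .ofNat (nat_lit 0)],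
  [],
  [],
  [],
  [],
  []],
  [[],
  [],
  [.ofNat (nat_lit 0), .ofNat (nat_lit 395415793391963904), .ofNat (nat_lit 0)],
  [],
  [],
  [],
  []],
  [[],
  [],
  [],
  [.ofNat (nat_lit 0), .ofNat (nat_lit 593831220594153984), .ofNat (nat_lit 0)],
  [],
  [],
  []],
  [[],
  [],
  [],
  [],
  [.ofNat (nat_lit 0), .negSucc (nat_lit 1958818023051914879), .ofNat (nat_lit 0)],
  [],
  []],
  [[],
  [],
  [],
  [],
  [.ofNat (nat_lit 0), .ofNat (nat_lit 3972047916142771200), .ofNat (nat_lit 0)],
  [],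
  []],
  [[],
  [],
  [],
  [],
  [],
  [.ofNat (nat_lit 0), .ofNat (nat_lit 861010107965858304), .ofNat (nat_lit 0)],
  []],
  [[],
  [],
  [],
  [],
  [],
  [],
  [.ofNat (nat_lit 0), .ofNat (nat_lit 113988283393116672), .ofNat (nat_lit 0)]],
  [[],
  [],
  [],
  [],
  [],
  [],
  [.ofNat (nat_lit 0), .ofNat (nat_lit 303968755714977792), .ofNat (nat_lit 0)]]],
  [],
  [],
  [],
  [],
  [],
  [],
  [],
  []],
  [[],
  [],
  [[[.ofNat (nat_lit 0), .ofNat (nat_lit 2220348055221033984), .negSucc (nat_lit 4353681893502468095)],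
  [],
  [],
  [],
  [],
  [],
  []],
  [[.negSucc (nat_lit 2220348055221033983), .ofNat (nat_lit 8248227873047930880), .ofNat (nat_lit 0)],
  [],
  [],
  [],
  [],
  [],
  []],
  [[],
  [.ofNat (nat_lit 0), .ofNat (nat_lit 3912911220043376640), .ofNat (nat_lit 0)],
  [],
  [],
  [],
  [],
  []],
  [[],
  [],
  [.ofNat (nat_lit 0), .ofNat (nat_lit 1739987266927421952), .ofNat (nat_lit 0)],
  [],
  [],
  [],
  []],
  [[],
  [],
  [],
  [.ofNat (nat_lit 0), .negSucc (nat_lit 3546040417147125503), .ofNat (nat_lit 0)],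
  [],
  [],
  []],
  [[],
  [],
  [],
  [],
  [.ofNat (nat_lit 0), .negSucc (nat_lit 5354793983619233279), .ofNat (nat_lit 0)],
  [],
  []],
  [[],
  [],
  [],
  [],
  [.ofNat (nat_lit 0), .ofNat (nat_lit 609587797516268544), .ofNat (nat_lit 0)],
  [],
  []],
  [[],
  [],
  [],
  [],
  [],
  [.ofNat (nat_lit 0), .negSucc (nat_lit 1371396327275295359), .ofNat (nat_lit 0)],
  []],
  [[],
  [],
  [],
  [],
  [],
  [],
  [.ofNat (nat_lit 0), .ofNat (nat_lit 341964850179350016), .ofNat (nat_lit 0)]],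
  [[],
  [],
  [],
  [],
  [],
  [],
  [.ofNat (nat_lit 0), .ofNat (nat_lit 151984377857488896), .ofNat (nat_lit 0)]]],
  [],
  [],
  [],
  [],
  [],
  [],
  []],
  [[],
  [],
  [],
  [[[.ofNat (nat_lit 0), .negSucc (nat_lit 1577851710159946751), .ofNat (nat_lit 11487613928049718272)],
  [],
  [],
  [],
  [],
  [],
  []],
  [[.ofNat (nat_lit 1577851710159946752), .negSucc (nat_lit 11092198134657754367), .ofNat (nat_lit 0)],
  [],
  [],
  [],
  [],
  [],
  []],
  [[],
  [.ofNat (nat_lit 0), .negSucc (nat_lit 1739987266927421951), .ofNat (nat_lit 0)],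
  [],
  [],
  [],
  [],
  []],
  [[],
  [],
  [.ofNat (nat_lit 0), .negSucc (nat_lit 4849125006141743615), .ofNat (nat_lit 0)],
  [],
  [],
  [],
  []],
  [[],
  [],
  [],
  [.ofNat (nat_lit 0), .ofNat (nat_lit 509848102674805248), .ofNat (nat_lit 0)],
  [],
  [],
  []],
  [[],
  [],
  [],
  [],
  [.ofNat (nat_lit 0), .ofNat (nat_lit 1688638465821992256), .ofNat (nat_lit 0)],
  [],
  []],
  [[],
  [],
  [],
  [],
  [.ofNat (nat_lit 0), .negSucc (nat_lit 2672103758153402879), .ofNat (nat_lit 0)],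
  [],
  []],
  [[],
  [],
  [],
  [],
  [],
  [.ofNat (nat_lit 0), .ofNat (nat_lit 167599919503728000), .ofNat (nat_lit 0)],
  []],
  [[],
  [],
  [],
  [],
  [],
  [],
  [.ofNat (nat_lit 0), .ofNat (nat_lit 284970708482791680), .ofNat (nat_lit 0)]],
  [[],
  [],
  [],
  [],
  [],
  [],
  [.ofNat (nat_lit 0), .ofNat (nat_lit 379960944643722240), .ofNat (nat_lit 0)]]],
  [],
  [],
  [],
  [],
  [],
  []],
  [[],
  [],
  [],
  [],
  [[[.ofNat (nat_lit 0), .negSucc (nat_lit 13094828191952815103), .ofNat (nat_lit 8569835725025313792)],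
  [],
  [],
  [],
  [],
  [],
  []],
  [[.ofNat (nat_lit 13094828191952815104), .negSucc (nat_lit 9163666945619467775), .ofNat (nat_lit 0)],
  [],
  [],
  [],
  [],
  [],
  []],
  [[],
  [.ofNat (nat_lit 0), .negSucc (nat_lit 3546040417147125503), .ofNat (nat_lit 0)],
  [],
  [],
  [],
  [],
  []],
  [[],
  [],
  [.ofNat (nat_lit 0), .negSucc (nat_lit 509848102674805247), .ofNat (nat_lit 0)],
  [],
  [],
  [],
  []],
  [[],
  [],
  [],
  [.ofNat (nat_lit 0), .ofNat (nat_lit 12200048717351851008), .ofNat (nat_lit 0)],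
  [],
  [],
  []],
  [[],
  [],
  [],
  [],
  [.ofNat (nat_lit 0), .ofNat (nat_lit 3655972693062059904), .ofNat (nat_lit 0)],
  [],
  []],
  [[],
  [],
  [],
  [],
  [.ofNat (nat_lit 0), .negSucc (nat_lit 2421415961234062847), .ofNat (nat_lit 0)],
  [],
  []],
  [[],
  [],
  [],
  [],
  [],
  [.ofNat (nat_lit 0), .negSucc (nat_lit 2965463831499981119), .ofNat (nat_lit 0)],
  []],
  [[],
  [],
  [],
  [],
  [],
  [],
  [.ofNat (nat_lit 0), .ofNat (nat_lit 284970708482791680), .ofNat (nat_lit 0)]],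
  [[],
  [],
  [],
  [],
  [],
  [],
  [.ofNat (nat_lit 0), .ofNat (nat_lit 379960944643722240), .ofNat (nat_lit 0)]]],
  [],
  [],
  [],
  [],
  []],
  [[],
  [],
  [],
  [],
  [],
  [[[.ofNat (nat_lit 0), .ofNat (nat_lit 2771493978570117120), .negSucc (nat_lit 16125166165048556543)],
  [],
  [],
  [],
  [],
  [],
  []],
  [[.negSucc (nat_lit 2771493978570117119), .ofNat (nat_lit 14166348141996641664), .ofNat (nat_lit 0)],
  [],
  [],
  [],
  [],
  [],
  []],
  [[],
  [.ofNat (nat_lit 0), .ofNat (nat_lit 5354793983619233280), .ofNat (nat_lit 0)],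
  [],
  [],
  [],
  [],
  []],
  [[],
  [],
  [.ofNat (nat_lit 0), .ofNat (nat_lit 1688638465821992256), .ofNat (nat_lit 0)],
  [],
  [],
  [],
  []],
  [[],
  [],
  [],
  [.ofNat (nat_lit 0), .negSucc (nat_lit 3655972693062059903), .ofNat (nat_lit 0)],
  [],
  [],
  []],
  [[],
  [],
  [],
  [],
  [.ofNat (nat_lit 0), .ofNat (nat_lit 268717405279590144), .ofNat (nat_lit 0)],
  [],
  []],
  [[],
  [],
  [],
  [],
  [.ofNat (nat_lit 0), .ofNat (nat_lit 812908351800747648), .ofNat (nat_lit 0)],
  [],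
  []],
  [[],
  [],
  [],
  [],
  [],
  [.ofNat (nat_lit 0), .negSucc (nat_lit 408471395312217599), .ofNat (nat_lit 0)],
  []],
  [[],
  [],
  [],
  [],
  [],
  [],
  [.ofNat (nat_lit 0), .ofNat (nat_lit 104489259777023616), .ofNat (nat_lit 0)]],
  [[],
  [],
  [],
  [],
  [],
  [],
  [.ofNat (nat_lit 0), .negSucc (nat_lit 37996094464372223), .ofNat (nat_lit 0)]]],
  [[[.ofNat (nat_lit 0), .ofNat (nat_lit 1568087936947842048), .negSucc (nat_lit 10466658185745208319)],
  [],
  [],
  [],
  [],
  [],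
  []],
  [[.negSucc (nat_lit 1568087936947842047), .ofNat (nat_lit 14438706101887979520), .ofNat (nat_lit 0)],
  [],
  [],
  [],
  [],
  [],
  []],
  [[],
  [.ofNat (nat_lit 0), .negSucc (nat_lit 609587797516268543), .ofNat (nat_lit 0)],
  [],
  [],
  [],
  [],
  []],
  [[],
  [],
  [.ofNat (nat_lit 0), .negSucc (nat_lit 2672103758153402879), .ofNat (nat_lit 0)],
  [],
  [],
  [],
  []],
  [[],
  [],
  [],
  [.ofNat (nat_lit 0), .ofNat (nat_lit 2421415961234062848), .ofNat (nat_lit 0)],
  [],
  [],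
  []],
  [[],
  [],
  [],
  [],
  [.ofNat (nat_lit 0), .ofNat (nat_lit 812908351800747648), .ofNat (nat_lit 0)],
  [],
  []],
  [[],
  [],
  [],
  [],
  [.ofNat (nat_lit 0), .negSucc (nat_lit 211945850053212671), .ofNat (nat_lit 0)],
  [],
  []],
  [[],
  [],
  [],
  [],
  [],
  [.ofNat (nat_lit 0), .negSucc (nat_lit 1589593875399095039), .ofNat (nat_lit 0)],
  []],
  [[],
  [],
  [],
  [],
  [],
  [],
  [.ofNat (nat_lit 0), .negSucc (nat_lit 37996094464372223), .ofNat (nat_lit 0)]],
  [[],
  [],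
  [],
  [],
  [],
  [],
  [.ofNat (nat_lit 0), .ofNat (nat_lit 151984377857488896), .ofNat (nat_lit 0)]]],
  [],
  [],
  []],
  [[],
  [],
  [],
  [],
  [],
  [],
  [],
  [[[.ofNat (nat_lit 0), .ofNat (nat_lit 15138185513430721536), .ofNat (nat_lit 14643809996254156800)],
  [],
  [],
  [],
  [],
  [],
  []],
  [[.negSucc (nat_lit 15138185513430721535), .negSucc (nat_lit 15504820104220015103), .ofNat (nat_lit 0)],
  [],
  [],
  [],
  [],
  [],
  []],
  [[],
  [.ofNat (nat_lit 0), .negSucc (nat_lit 1371396327275295359), .ofNat (nat_lit 0)],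
  [],
  [],
  [],
  [],
  []],
  [[],
  [],
  [.ofNat (nat_lit 0), .negSucc (nat_lit 167599919503727999), .ofNat (nat_lit 0)],
  [],
  [],
  [],
  []],
  [[],
  [],
  [],
  [.ofNat (nat_lit 0), .negSucc (nat_lit 2965463831499981119), .ofNat (nat_lit 0)],
  [],
  [],
  []],
  [[],
  [],
  [],
  [],
  [.ofNat (nat_lit 0), .ofNat (nat_lit 408471395312217600), .ofNat (nat_lit 0)],
  [],
  []],
  [[],
  [],
  [],
  [],
  [.ofNat (nat_lit 0), .ofNat (nat_lit 1589593875399095040), .ofNat (nat_lit 0)],
  [],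
  []],
  [[],
  [],
  [],
  [],
  [],
  [.ofNat (nat_lit 0), .negSucc (nat_lit 376794603438357887), .ofNat (nat_lit 0)],
  []],
  [[],
  [],
  [],
  [],
  [],
  [],
  [.ofNat (nat_lit 0), .ofNat (nat_lit 28497070848279168), .ofNat (nat_lit 0)]],
  [[],
  [],
  [],
  [],
  [],
  [],
  [.ofNat (nat_lit 0), .ofNat (nat_lit 75992188928744448), .ofNat (nat_lit 0)]]],
  [],
  []],
  [[],
  [],
  [],
  [],
  [],
  [],
  [],
  [],
  [[[.ofNat (nat_lit 0), .negSucc (nat_lit 632706840449869823), .negSucc (nat_lit 2607460840720862207)],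
  [],
  [],
  [],
  [],
  [],
  []],
  [[.ofNat (nat_lit 632706840449869824), .ofNat (nat_lit 2721449124113978880), .ofNat (nat_lit 0)],
  [],
  [],
  [],
  [],
  [],
  []],
  [[],
  [.ofNat (nat_lit 0), .negSucc (nat_lit 341964850179350015), .ofNat (nat_lit 0)],
  [],
  [],
  [],
  [],
  []],
  [[],
  [],
  [.ofNat (nat_lit 0), .ofNat (nat_lit 284970708482791680), .ofNat (nat_lit 0)],
  [],
  [],
  [],
  []],
  [[],
  [],
  [],
  [.ofNat (nat_lit 0), .negSucc (nat_lit 284970708482791679), .ofNat (nat_lit 0)],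
  [],
  [],
  []],
  [[],
  [],
  [],
  [],
  [.ofNat (nat_lit 0), .ofNat (nat_lit 104489259777023616), .ofNat (nat_lit 0)],
  [],
  []],
  [[],
  [],
  [],
  [],
  [.ofNat (nat_lit 0), .negSucc (nat_lit 37996094464372223), .ofNat (nat_lit 0)],
  [],
  []],
  [[],
  [],
  [],
  [],
  [],
  [.ofNat (nat_lit 0), .negSucc (nat_lit 28497070848279167), .ofNat (nat_lit 0)],
  []],
  [[],
  [],
  [],
  [],
  [],
  [],
  []],
  [[],
  [],
  [],
  [],
  [],
  [],
  []]],
  [[[.ofNat (nat_lit 0), .negSucc (nat_lit 10923467832426811391), .ofNat (nat_lit 3441567324311516160)],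
  [],
  [],
  [],
  [],
  [],
  []],
  [[.ofNat (nat_lit 10923467832426811392), .negSucc (nat_lit 3137598568596538367), .ofNat (nat_lit 0)],
  [],
  [],
  [],
  [],
  [],
  []],
  [[],
  [.ofNat (nat_lit 0), .negSucc (nat_lit 151984377857488895), .ofNat (nat_lit 0)],
  [],
  [],
  [],
  [],
  []],
  [[],
  [],
  [.ofNat (nat_lit 0), .ofNat (nat_lit 379960944643722240), .ofNat (nat_lit 0)],
  [],
  [],
  [],
  []],
  [[],
  [],
  [],
  [.ofNat (nat_lit 0), .negSucc (nat_lit 379960944643722239), .ofNat (nat_lit 0)],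
  [],
  [],
  []],
  [[],
  [],
  [],
  [],
  [.ofNat (nat_lit 0), .negSucc (nat_lit 37996094464372223), .ofNat (nat_lit 0)],
  [],
  []],
  [[],
  [],
  [],
  [],
  [.ofNat (nat_lit 0), .ofNat (nat_lit 151984377857488896), .ofNat (nat_lit 0)],
  [],
  []],
  [[],
  [],
  [],
  [],
  [],
  [.ofNat (nat_lit 0), .negSucc (nat_lit 75992188928744447), .ofNat (nat_lit 0)],
  []],
  [[],
  [],
  [],
  [],
  [],
  [],
  []],
  [[],
  [],
  [],
  [],
  [],
  [],
  []]]]]]

noncomputable def BR6a_E : L5 := [[[[[]],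
  [[]],
  [[]]],
  [[[.ofNat (nat_lit 201788029346768352), .negSucc (nat_lit 6506885999442239), .ofNat (nat_lit 0)]],
  [[.ofNat (nat_lit 0), .ofNat (nat_lit 181835459517446208), .ofNat (nat_lit 0)]],
  [[]]],
  [[[.negSucc (nat_lit 1105712738101856159), .negSucc (nat_lit 304937393202135647), .ofNat (nat_lit 0)]],
  [[.ofNat (nat_lit 0), .negSucc (nat_lit 2114317360769216543), .ofNat (nat_lit 0)]],
  [[]]],
  [[[.ofNat (nat_lit 1714019096954874528), .ofNat (nat_lit 2376139139295198336), .ofNat (nat_lit 0)]],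
  [[.ofNat (nat_lit 0), .ofNat (nat_lit 9738338431095296064), .ofNat (nat_lit 0)]],
  [[]]],
  [[[.ofNat (nat_lit 1279333612951013376), .negSucc (nat_lit 7226584371345529151), .ofNat (nat_lit 0)]],
  [[.ofNat (nat_lit 0), .negSucc (nat_lit 23393491779438887039), .ofNat (nat_lit 0)]],
  [[]]],
  [[[.negSucc (nat_lit 7205669382742973855), .ofNat (nat_lit 11446513970475119328), .ofNat (nat_lit 0)]],
  [[.ofNat (nat_lit 0), .ofNat (nat_lit 31879519855064412480), .ofNat (nat_lit 0)]],
  [[]]],
  [[[.ofNat (nat_lit 9149042926443517344), .negSucc (nat_lit 10027165456101602015), .ofNat (nat_lit 0)]],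
  [[.ofNat (nat_lit 0), .negSucc (nat_lit 24700905232127433791), .ofNat (nat_lit 0)]],
  [[]]],
  [[[.negSucc (nat_lit 5146747418052780767), .ofNat (nat_lit 4615603350892880544), .ofNat (nat_lit 0)]],
  [[.ofNat (nat_lit 0), .ofNat (nat_lit 10058581809333873792), .ofNat (nat_lit 0)]],
  [[]]],
  [[[.ofNat (nat_lit 1113945873201437184), .negSucc (nat_lit 873062354014489151), .ofNat (nat_lit 0)]],
  [[.ofNat (nat_lit 0), .negSucc (nat_lit 1649561182675491167), .ofNat (nat_lit 0)]],
  [[]]]],
  [[[[]],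
  [[]],
  [[]]],
  [[[.negSucc (nat_lit 76948221758275583), .ofNat (nat_lit 0), .ofNat (nat_lit 0)]],
  [[.ofNat (nat_lit 0), .ofNat (nat_lit 17298229668941952), .ofNat (nat_lit 0)]],
  [[.ofNat (nat_lit 0), .negSucc (nat_lit 11714613747671807), .ofNat (nat_lit 0)]]],
  [[[.ofNat (nat_lit 543248019975459456), .ofNat (nat_lit 325354113342743040), .ofNat (nat_lit 0)]],
  [[.ofNat (nat_lit 0), .ofNat (nat_lit 169496875291554720), .ofNat (nat_lit 0)]],
  [[.ofNat (nat_lit 0), .ofNat (nat_lit 23429227495343616), .ofNat (nat_lit 0)]]],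
  [[[.negSucc (nat_lit 565667851942468799), .negSucc (nat_lit 2722256446210435871), .ofNat (nat_lit 0)]],
  [[.ofNat (nat_lit 0), .negSucc (nat_lit 257433680111593247), .ofNat (nat_lit 0)]],
  [[.ofNat (nat_lit 0), .negSucc (nat_lit 11714613747671807), .ofNat (nat_lit 0)]]],
  [[[.negSucc (nat_lit 3390400826349719903), .ofNat (nat_lit 9016674827833012896), .ofNat (nat_lit 0)]],
  [[.ofNat (nat_lit 0), .ofNat (nat_lit 693312564087194688), .ofNat (nat_lit 0)]],
  [[]]],
  [[[.ofNat (nat_lit 11146130422103625696), .negSucc (nat_lit 15237944783550222623), .ofNat (nat_lit 0)]],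
  [[.ofNat (nat_lit 0), .negSucc (nat_lit 3005953514026850591), .ofNat (nat_lit 0)]],
  [[]]],
  [[[.negSucc (nat_lit 13955189075280362879), .ofNat (nat_lit 13989445702443451008), .ofNat (nat_lit 0)]],
  [[.ofNat (nat_lit 0), .ofNat (nat_lit 4058451198030374208), .ofNat (nat_lit 0)]],
  [[]]],
  [[[.ofNat (nat_lit 8141078881816244640), .negSucc (nat_lit 6672598814572564607), .ofNat (nat_lit 0)]],
  [[.ofNat (nat_lit 0), .negSucc (nat_lit 1723192569202931135), .ofNat (nat_lit 0)]],
  [[]]],
  [[[.negSucc (nat_lit 1842251348564502623), .ofNat (nat_lit 1301325400714016160), .ofNat (nat_lit 0)]],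
  [[.ofNat (nat_lit 0), .ofNat (nat_lit 48020896263309408), .ofNat (nat_lit 0)]],
  [[]]]],
  [[[[]],
  [[]],
  [[]]],
  [[[.ofNat (nat_lit 0), .negSucc (nat_lit 11048600033001791), .ofNat (nat_lit 0)]],
  [[.ofNat (nat_lit 0), .ofNat (nat_lit 61904948873373216), .ofNat (nat_lit 0)]],
  [[.ofNat (nat_lit 0), .negSucc (nat_lit 31557063178215359), .ofNat (nat_lit 0)]]],
  [[[]],
  [[]],
  [[]]],
  [[[.negSucc (nat_lit 468005954711818175), .ofNat (nat_lit 983597969117234880), .ofNat (nat_lit 0)]],
  [[.ofNat (nat_lit 0), .negSucc (nat_lit 1866220449348585311), .ofNat (nat_lit 0)]],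
  [[.ofNat (nat_lit 0), .ofNat (nat_lit 94671189534646080), .ofNat (nat_lit 0)]]],
  [[[.ofNat (nat_lit 2658891077501927616), .negSucc (nat_lit 4782984670541752991), .ofNat (nat_lit 0)]],
  [[.ofNat (nat_lit 0), .ofNat (nat_lit 5769395846851111776), .ofNat (nat_lit 0)]],
  [[.ofNat (nat_lit 0), .negSucc (nat_lit 63114126356430719), .ofNat (nat_lit 0)]]],
  [[[.negSucc (nat_lit 6206572182915734975), .ofNat (nat_lit 9479144527738908192), .ofNat (nat_lit 0)]],
  [[.ofNat (nat_lit 0), .negSucc (nat_lit 7532275690960809695), .ofNat (nat_lit 0)]],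
  [[]]],
  [[[.ofNat (nat_lit 7342968414711111552), .negSucc (nat_lit 9383805919701739871), .ofNat (nat_lit 0)]],
  [[.ofNat (nat_lit 0), .ofNat (nat_lit 5470225615136892384), .ofNat (nat_lit 0)]],
  [[]]],
  [[[.negSucc (nat_lit 4361754817123637759), .ofNat (nat_lit 4621467292998605280), .ofNat (nat_lit 0)]],
  [[.ofNat (nat_lit 0), .negSucc (nat_lit 2523439940166488735), .ofNat (nat_lit 0)]],
  [[]]],
  [[[.ofNat (nat_lit 1034473462538151744), .negSucc (nat_lit 906370599578253695), .ofNat (nat_lit 0)]],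
  [[.ofNat (nat_lit 0), .ofNat (nat_lit 620409669614506368), .ofNat (nat_lit 0)]],
  [[]]]],
  [[[[]],
  [[]],
  [[]]],
  [[[.negSucc (nat_lit 1533844913423039), .negSucc (nat_lit 6979722797240927), .ofNat (nat_lit 0)]],
  [[.ofNat (nat_lit 0), .negSucc (nat_lit 47881322043681887), .ofNat (nat_lit 0)]],
  [[.ofNat (nat_lit 0), .ofNat (nat_lit 9725649724836864), .ofNat (nat_lit 0)]]],
  [[[]],
  [[]],
  [[]]],
  [[[]],
  [[]],
  [[]]],
  [[[.ofNat (nat_lit 377366069371870080), .ofNat (nat_lit 177297645174465024), .ofNat (nat_lit 0)]],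
  [[.ofNat (nat_lit 0), .ofNat (nat_lit 328711277836503936), .ofNat (nat_lit 0)]],
  [[.ofNat (nat_lit 0), .negSucc (nat_lit 38902598899347455), .ofNat (nat_lit 0)]]],
  [[[.negSucc (nat_lit 1608149921938618463), .negSucc (nat_lit 538581272840748287), .ofNat (nat_lit 0)]],
  [[.ofNat (nat_lit 0), .ofNat (nat_lit 112298740473725568), .ofNat (nat_lit 0)]],
  [[.ofNat (nat_lit 0), .ofNat (nat_lit 29176949174510592), .ofNat (nat_lit 0)]]],
  [[[.ofNat (nat_lit 2540122076424456864), .ofNat (nat_lit 618701570055402624), .ofNat (nat_lit 0)]],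
  [[.ofNat (nat_lit 0), .negSucc (nat_lit 227204953780132511), .ofNat (nat_lit 0)]],
  [[]]],
  [[[.negSucc (nat_lit 1754521750126577375), .negSucc (nat_lit 281991842705733983), .ofNat (nat_lit 0)]],
  [[.ofNat (nat_lit 0), .negSucc (nat_lit 862162170901154207), .ofNat (nat_lit 0)]],
  [[]]],
  [[[.ofNat (nat_lit 446717371182291936), .ofNat (nat_lit 31553623113855552), .ofNat (nat_lit 0)]],
  [[.ofNat (nat_lit 0), .ofNat (nat_lit 696238428414739104), .ofNat (nat_lit 0)]],
  [[]]]],
  [[[[]],
  [[]],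
  [[]]],
  [[[.ofNat (nat_lit 1956363623018496), .ofNat (nat_lit 5574667631821056), .ofNat (nat_lit 0)]],
  [[.ofNat (nat_lit 0), .ofNat (nat_lit 99926816149050336), .ofNat (nat_lit 0)]],
  [[.ofNat (nat_lit 0), .negSucc (nat_lit 5895960080217407), .ofNat (nat_lit 0)]]],
  [[[]],
  [[]],
  [[]]],
  [[[]],
  [[]],
  [[]]],
  [[[]],
  [[]],
  [[]]],
  [[[.ofNat (nat_lit 415165330678914144), .ofNat (nat_lit 32897916052829568), .ofNat (nat_lit 0)]],
  [[.ofNat (nat_lit 0), .negSucc (nat_lit 753796790799694271), .ofNat (nat_lit 0)]],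
  [[.ofNat (nat_lit 0), .ofNat (nat_lit 29479800401087040), .ofNat (nat_lit 0)]]],
  [[[.negSucc (nat_lit 1277513458630822079), .negSucc (nat_lit 125627907688733375), .ofNat (nat_lit 0)]],
  [[.ofNat (nat_lit 0), .negSucc (nat_lit 197563037965478783), .ofNat (nat_lit 0)]],
  [[.ofNat (nat_lit 0), .negSucc (nat_lit 23583840320869631), .ofNat (nat_lit 0)]]],
  [[[.ofNat (nat_lit 1295836379863772256), .ofNat (nat_lit 113539393796230656), .ofNat (nat_lit 0)]],
  [[.ofNat (nat_lit 0), .ofNat (nat_lit 1957028735286688032), .ofNat (nat_lit 0)]],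
  [[]]],
  [[[.negSucc (nat_lit 435444615534882815), .negSucc (nat_lit 26384069792147903), .ofNat (nat_lit 0)]],
  [[.ofNat (nat_lit 0), .negSucc (nat_lit 1105595722670565311), .ofNat (nat_lit 0)]],
  [[]]]],
  [[[[]],
  [[]],
  [[]]],
  [[[.ofNat (nat_lit 842724825344640), .ofNat (nat_lit 639680464214784), .ofNat (nat_lit 0)]],
  [[.ofNat (nat_lit 0), .negSucc (nat_lit 50021930283017183), .ofNat (nat_lit 0)]],
  [[.ofNat (nat_lit 0), .ofNat (nat_lit 6095095321824576), .ofNat (nat_lit 0)]]],
  [[[]],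
  [[]],
  [[]]],
  [[[]],
  [[]],
  [[]]],
  [[[]],
  [[]],
  [[]]],
  [[[]],
  [[]],
  [[]]],
  [[[.ofNat (nat_lit 34771909943079936), .ofNat (nat_lit 28986169815560736), .ofNat (nat_lit 0)]],
  [[.ofNat (nat_lit 0), .ofNat (nat_lit 227834800712655552), .ofNat (nat_lit 0)]],
  [[.ofNat (nat_lit 0), .negSucc (nat_lit 36570571930947455), .ofNat (nat_lit 0)]]],
  [[[.negSucc (nat_lit 75442893663572351), .negSucc (nat_lit 62450102880624959), .ofNat (nat_lit 0)]],
  [[.ofNat (nat_lit 0), .negSucc (nat_lit 105516089444190815), .ofNat (nat_lit 0)]],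
  [[.ofNat (nat_lit 0), .ofNat (nat_lit 30475476609122880), .ofNat (nat_lit 0)]]],
  [[[.ofNat (nat_lit 39828258895147776), .ofNat (nat_lit 32824252600849440), .ofNat (nat_lit 0)]],
  [[.ofNat (nat_lit 0), .negSucc (nat_lit 72296780985447551), .ofNat (nat_lit 0)]],
  [[]]]],
  [[[[]],
  [[]],
  [[]]],
  [[[.negSucc (nat_lit 4372715326316831), .negSucc (nat_lit 330984984163103), .ofNat (nat_lit 0)]],
  [[.ofNat (nat_lit 0), .negSucc (nat_lit 22410957891043295), .ofNat (nat_lit 0)]],
  [[.ofNat (nat_lit 0), .negSucc (nat_lit 6913933217597087), .ofNat (nat_lit 0)]]],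
  [[[]],
  [[]],
  [[]]],
  [[[]],
  [[]],
  [[]]],
  [[[]],
  [[]],
  [[]]],
  [[[]],
  [[]],
  [[]]],
  [[[.ofNat (nat_lit 119864482220304576), .negSucc (nat_lit 3573798288524351), .ofNat (nat_lit 0)]],
  [[.ofNat (nat_lit 0), .ofNat (nat_lit 492396801627835872), .ofNat (nat_lit 0)]],
  [[.ofNat (nat_lit 0), .ofNat (nat_lit 41483599305582528), .ofNat (nat_lit 0)]]],
  [[[.negSucc (nat_lit 209119957156391327), .ofNat (nat_lit 9464491466190432), .ofNat (nat_lit 0)]],
  [[.ofNat (nat_lit 0), .negSucc (nat_lit 827916898018368671), .ofNat (nat_lit 0)]],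
  [[.ofNat (nat_lit 0), .negSucc (nat_lit 34569666087985439), .ofNat (nat_lit 0)]]],
  [[[.ofNat (nat_lit 93628190262403584), .negSucc (nat_lit 5559708193502975), .ofNat (nat_lit 0)]],
  [[.ofNat (nat_lit 0), .ofNat (nat_lit 357931054281576096), .ofNat (nat_lit 0)]],
  [[]]]],
  [[[[]],
  [[]],
  [[]]],
  [[[.negSucc (nat_lit 2289050338195583), .negSucc (nat_lit 1960443694417535), .ofNat (nat_lit 0)]],
  [[.ofNat (nat_lit 0), .ofNat (nat_lit 25493251511516256), .ofNat (nat_lit 0)]],
  [[.ofNat (nat_lit 0), .negSucc (nat_lit 791585301341087), .ofNat (nat_lit 0)]]],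
  [[[]],
  [[]],
  [[]]],
  [[[]],
  [[]],
  [[]]],
  [[[]],
  [[]],
  [[]]],
  [[[]],
  [[]],
  [[]]],
  [[[]],
  [[]],
  [[]]],
  [[[.ofNat (nat_lit 16023352367369088), .ofNat (nat_lit 13723105860922752), .ofNat (nat_lit 0)]],
  [[.ofNat (nat_lit 0), .negSucc (nat_lit 178452760580613791), .ofNat (nat_lit 0)]],
  [[.ofNat (nat_lit 0), .ofNat (nat_lit 5541097109387616), .ofNat (nat_lit 0)]]],
  [[[.negSucc (nat_lit 13734302029173503), .negSucc (nat_lit 11762662166505215), .ofNat (nat_lit 0)]],
  [[.ofNat (nat_lit 0), .ofNat (nat_lit 152959509069097536), .ofNat (nat_lit 0)]],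
  [[.ofNat (nat_lit 0), .negSucc (nat_lit 4749511808046527), .ofNat (nat_lit 0)]]]],
  [[[[]],
  [[]],
  [[]]],
  [[[]],
  [[]],
  [[]]],
  [[[]],
  [[]],
  [[]]],
  [[[]],
  [[]],
  [[]]],
  [[[]],
  [[]],
  [[]]],
  [[[]],
  [[]],
  [[]]],
  [[[]],
  [[]],
  [[]]],
  [[[]],
  [[]],
  [[]]],
  [[[]],
  [[]],
  [[]]]],
  [[[[]],
  [[]],
  [[]]],
  [[[]],
  [[]],
  [[]]],
  [[[]],
  [[]],
  [[]]],
  [[[]],
  [[]],
  [[]]],
  [[[]],
  [[]],
  [[]]],
  [[[]],
  [[]],
  [[]]],
  [[[]],
  [[]],
  [[]]],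
  [[[]],
  [[]],
  [[]]],
  [[[]],
  [[]],
  [[]]]]]

noncomputable def BR6a_tn : List (List ℕ) := [[nat_lit 16384, nat_lit 0, nat_lit 0],
  [nat_lit 32768, nat_lit 13696, nat_lit 0],
  [nat_lit 16384, nat_lit 13696, nat_lit 11449]]

noncomputable def BR6a_zn : List (List ℕ) := [[nat_lit 281474976710656, nat_lit 43980465111040, nat_lit 6871947673600, nat_lit 1073741824000, nat_lit 167772160000, nat_lit 26214400000, nat_lit 4096000000, nat_lit 640000000, nat_lit 100000000],
  [nat_lit 2251799813685248, nat_lit 470590976688128, nat_lit 92084098826240, nat_lit 17287243366400, nat_lit 3154116608000, nat_lit 563609600000, nat_lit 99123200000, nat_lit 17216000000, nat_lit 2960000000],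
  [nat_lit 7881299347898368, nat_lit 2062683813707776, nat_lit 502270655463424, nat_lit 114428666183680, nat_lit 24719550054400, nat_lit 5122293760000, nat_lit 1027072000000, nat_lit 200569600000, nat_lit 38332000000],
  [nat_lit 15762598695796736, nat_lit 4956598418014208, nat_lit 1464686927151104, nat_lit 404803888873472, nat_lit 104685130219520, nat_lit 25525747712000, nat_lit 5922652160000, nat_lit 1318620800000, nat_lit 283656800000],
  [nat_lit 19703248369745920, nat_lit 7234786510766080, nat_lit 2531281925570560, nat_lit 837481041756160, nat_lit 260198530809856, nat_lit 75651363635200, nat_lit 20654946304000, nat_lit 5332747840000, nat_lit 1311912700000],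
  [nat_lit 15762598695796736, nat_lit 6619059999211520, nat_lit 2685557150842880, nat_lit 1045534626283520, nat_lit 387334981812224, nat_lit 135297002897408, nat_lit 44221155000320, nat_lit 13517948460800, nat_lit 3883261592000],
  [nat_lit 7881299347898368, nat_lit 3725145394905088, nat_lit 1723140879155200, nat_lit 776293863915520, nat_lit 338410640244736, nat_lit 141507696001024, nat_lit 56108002299904, nat_lit 20814282133120, nat_lit 7184033945200],
  [nat_lit 2251799813685248, nat_lit 1183074511486976, nat_lit 615314194694144, nat_lit 316039799767040, nat_lit 159765468545024, nat_lit 79099309850624, nat_lit 38060401614848, nat_lit 17570094448832, nat_lit 7594550170640],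
  [nat_lit 281474976710656, nat_lit 162727720910848, nat_lit 94076963651584, nat_lit 54388244611072, nat_lit 31443203915776, nat_lit 18178102263808, nat_lit 10509215371264, nat_lit 6075640136512, nat_lit 3512479453921],
  [nat_lit 281474976710656, nat_lit 162727720910848, nat_lit 94076963651584, nat_lit 54388244611072, nat_lit 31443203915776, nat_lit 18178102263808, nat_lit 10509215371264, nat_lit 6075640136512, nat_lit 3512479453921],
  [nat_lit 2251799813685248, nat_lit 1420569023086592, nat_lit 889917223731200, nat_lit 554172114010112, nat_lit 343325794107392, nat_lit 211750326370304, nat_lit 130087044325376, nat_lit 79640147735360, nat_lit 48605121092096],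
  [nat_lit 7881299347898368, nat_lit 5387606976102400, nat_lit 3645362082414592, nat_lit 2443220063617024, nat_lit 1623332919181312, nat_lit 1070064811638784, nat_lit 700294501273600, nat_lit 455304655138816, nat_lit 294258030395392],
  [nat_lit 15762598695796736, nat_lit 11606444742803456, nat_lit 8452220760621056, nat_lit 6088582146031616, nat_lit 4339848697610240, nat_lit 3062243135848448, nat_lit 2140129623277568, nat_lit 1482252284592128, nat_lit 1017973726773248],
  [nat_lit 19703248369745920, nat_lit 15547094416752640, nat_lit 12142387941867520, nat_lit 9383456643481600, nat_lit 7173544320434176, nat_lit 5424810872012800, nat_lit 4058332297953280, nat_lit 3004100698439680, nat_lit 2201024274104320],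
  [nat_lit 15762598695796736, nat_lit 13268906324000768, nat_lit 11075792943448064, nat_lit 9162124093816832, nat_lit 7506765314785280, nat_lit 6088582146031616, nat_lit 4886440127234048, nat_lit 3879204798070784, nat_lit 3045741698220032],
  [nat_lit 7881299347898368, nat_lit 7050068557299712, nat_lit 6268934265241600, nat_lit 5537896471724032, nat_lit 4856955176747008, nat_lit 4226110380310528, nat_lit 3645362082414592, nat_lit 3114710283059200, nat_lit 2634154982244352],
  [nat_lit 2251799813685248, nat_lit 2133052557885440, nat_lit 2014305302085632, nat_lit 1895558046285824, nat_lit 1776810790486016, nat_lit 1658063534686208, nat_lit 1539316278886400, nat_lit 1420569023086592, nat_lit 1301821767286784],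
  [nat_lit 281474976710656, nat_lit 281474976710656, nat_lit 281474976710656, nat_lit 281474976710656, nat_lit 281474976710656, nat_lit 281474976710656, nat_lit 281474976710656, nat_lit 281474976710656, nat_lit 281474976710656],
  [nat_lit 281474976710656, nat_lit 281474976710656, nat_lit 281474976710656, nat_lit 281474976710656, nat_lit 281474976710656, nat_lit 281474976710656, nat_lit 281474976710656, nat_lit 281474976710656, nat_lit 281474976710656],
  [nat_lit 2251799813685248, nat_lit 2370547069485056, nat_lit 2489294325284864, nat_lit 2608041581084672, nat_lit 2726788836884480, nat_lit 2845536092684288, nat_lit 2964283348484096, nat_lit 3083030604283904, nat_lit 3201777860083712],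
  [nat_lit 7881299347898368, nat_lit 8712530138497024, nat_lit 9593857427636224, nat_lit 10525281215315968, nat_lit 11506801501536256, nat_lit 12538418286297088, nat_lit 13620131569598464, nat_lit 14751941351440384, nat_lit 15933847631822848],
  [nat_lit 15762598695796736, nat_lit 18256291067592704, nat_lit 21050562430631936, nat_lit 24166547245236224, nat_lit 27625379971727360, nat_lit 31448195070427136, nat_lit 35656127001657344, nat_lit 40270310225739776, nat_lit 45311879202996224],
  [nat_lit 19703248369745920, nat_lit 23859402322739200, nat_lit 28767003753840640, nat_lit 34531724964659200, nat_lit 41268154357252096, nat_lit 49099796434124800, nat_lit 58159071798231040, nat_lit 68587317152972800, nat_lit 80534785302200320],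
  [nat_lit 15762598695796736, nat_lit 19918752648790016, nat_lit 25076836572594176, nat_lit 31448195070427136, nat_lit 39279837147299840, nat_lit 48858197689892864, nat_lit 60512898946433024, nat_lit 74620512006569984, nat_lit 91608318281252864],
  [nat_lit 7881299347898368, nat_lit 10374991719694336, nat_lit 13620131569598464, nat_lit 17828063500828672, nat_lit 23263628719292416, nat_lit 30256449473216512, nat_lit 39213800367099904, nat_lit 50635066549989376, nat_lit 65127788778078208],
  [nat_lit 2251799813685248, nat_lit 3083030604283904, nat_lit 4214840386125824, nat_lit 5752901460819968, nat_lit 7838550531768320, nat_lit 10660073143795712, nat_lit 14467161871425536, nat_lit 19589217718406336, nat_lit 26458164191094272],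
  [nat_lit 281474976710656, nat_lit 400222232510464, nat_lit 569065986850816, nat_lit 809140700053504, nat_lit 1150496932888576, nat_lit 1635862826450944, nat_lit 2325992456359936, nat_lit 3307270523886784, nat_lit 4702525276151521]]

noncomputable def BR6a_sn : List (List ℕ) := [[nat_lit 4096, nat_lit 0, nat_lit 0],
  [nat_lit 8192, nat_lit 4096, nat_lit 0],
  [nat_lit 4096, nat_lit 4096, nat_lit 4096]]

noncomputable def BR6a_en : List (List ℕ) := [[nat_lit 191102976, nat_lit 78008832, nat_lit 31850496, nat_lit 13001472, nat_lit 5308416, nat_lit 2166912, nat_lit 884736],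
  [nat_lit 191102976, nat_lit 78055488, nat_lit 31850496, nat_lit 13009248, nat_lit 5308416, nat_lit 2168208, nat_lit 884736]]

noncomputable def BR6a_en1 : List (List ℕ) := [[nat_lit 1]]


end Crest.Agent.R163.Ck
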