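import Crest.Agent.R163.B8m1b_224D

/-! Row 163: Bellman certificate, data (generated). -/

set_option autoImplicit false
set_option Elab.async false
set_option maxRecDepth 100000

namespace Crest.Agent.R163.Ck

noncomputable def BR6b : Bell := ⟨true, 8, 3, 3, 1, 7, 32, fs3_8, lams3_8, TT3_8,
  [[[[.negSucc (nat_lit 24611203191043682), .ofNat (nat_lit 154934559780565626), .negSucc (nat_lit 22955350530234311), .negSucc (nat_lit 161767086725043917), .negSucc (nat_lit 281591548193098421), .ofNat (nat_lit 157309002577153152), .ofNat (nat_lit 85017140516413449), .ofNat (nat_lit 378542744376574572), .ofNat (nat_lit 120549468353161050), .negSucc (nat_lit 256165953835892813), .negSucc (nat_lit 23238467097797618), .negSucc (nat_lit 201412665218853701), .negSucc (nat_lit 160265328036223283), .negSucc (nat_lit 110147205769298819), .ofNat (nat_lit 240705385514025642), .ofNat (nat_lit 2913388864650819), .ofNat (nat_lit 51341703735703302), .ofNat (nat_lit 56640182622047316), .ofNat (nat_lit 130883546149976556), .ofNat (nat_lit 20043638067524364),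 .negSucc (nat_lit 101573211595853717), .ofNat (nat_lit 11428204332263922), .negSucc (nat_lit 58108654808591), .negSucc (nat_lit 6005127012378635), .negSucc (nat_lit 8597396804441759), .negSucc (nat_lit 36467426341132415), .negSucc (nat_lit 5982183330385235), .negSucc (nat_lit 30343853333696003), .ofNat (nat_lit 59135949008294496), .negSucc (nat_lit 53084185160394815), .negSucc (nat_lit 12784726295115), .ofNat (nat_lit 239241347722298), .ofNat (nat_lit 383799651025774), .ofNat (nat_lit 3203915036101144), .ofNat (nat_lit 243615361580990), .ofNat (nat_lit 8387361568826736), .ofNat (nat_lit 124626510867746), .negSucc (nat_lit 18233050293870985), .ofNat (nat_lit 11879637164991642), .ofNat (nat_lit 8605025311273258)]],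
  [[.ofNat (nat_lit 61480658288638197), .negSucc (nat_lit 141444778968339299), .negSucc (nat_lit 268581998709757709), .ofNat (nat_lit 140376012955871832), .ofNat (nat_lit 789173255303491878), .ofNat (nat_lit 235549847179501038), .negSucc (nat_lit 68070927349249091), .negSucc (nat_lit 660968303686446041), .negSucc (nat_lit 321563812709389121), .negSucc (nat_lit 783892243828145861), .ofNat (nat_lit 15771424739477922), .ofNat (nat_lit 310059670688833626), .ofNat (nat_lit 324512399899650402), .ofNat (nat_lit 533819629202907852), .ofNat (nat_lit 577686608894409174), .negSucc (nat_lit 1053065045707766), .negSucc (nat_lit 79339143992615423), .negSucc (nat_lit 101908766723687945), .negSucc (nat_lit 211399510394690009), .negSucc (nat_lit 38101334288986583), .negSucc (nat_lit 482243768734159475), .negSucc (nat_lit 134756444376299501), .negSucc (nat_lit 187065645283472), .ofNat (nat_lit 10246250779030968), .ofNat (nat_lit 16811396852400576), .ofNat (nat_lit 42046366486345560), .ofNat (nat_lit 10269793334122122), .ofNat (nat_lit 122052644722085472),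 .ofNat (nat_lit 30173750797499736), .ofNat (nat_lit 122923360656966942), .ofNat (nat_lit 26067592030995), .negSucc (nat_lit 516400871225213), .negSucc (nat_lit 1075446759659867), .negSucc (nat_lit 3186466921108391), .negSucc (nat_lit 599193205696961), .negSucc (nat_lit 13064403446156555), .negSucc (nat_lit 92282501324297), .negSucc (nat_lit 287244227001893), .negSucc (nat_lit 16284377550282929), .negSucc (nat_lit 14362158438050867)]],
  [[]]],
  [[[.negSucc (nat_lit 10069495923574817), .negSucc (nat_lit 21219192402902072), .negSucc (nat_lit 4798505705030819), .ofNat (nat_lit 68194762762384017), .ofNat (nat_lit 278374881096851382), .negSucc (nat_lit 186381669644900189), .negSucc (nat_lit 57410615298618161), .negSucc (nat_lit 375844517384308001), .negSucc (nat_lit 328767531474266549), .ofNat (nat_lit 356681841618157128), .ofNat (nat_lit 21500605473967053), .ofNat (nat_lit 220933527949765440), .ofNat (nat_lit 495320381684883990), .ofNat (nat_lit 29937453756430338), .negSucc (nat_lit 250327804915849607), .negSucc (nat_lit 3754637890916435),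 .negSucc (nat_lit 67342047053637257), .negSucc (nat_lit 165317500172277107), .negSucc (nat_lit 70106765572619297), .negSucc (nat_lit 135124933592572649), .ofNat (nat_lit 41333796442468458), .ofNat (nat_lit 65245037381561358), .ofNat (nat_lit 239835263717961), .ofNat (nat_lit 10528472029442256), .ofNat (nat_lit 25832637646939404), .ofNat (nat_lit 16293487209126516), .ofNat (nat_lit 59938439474629746), .ofNat (nat_lit 28634346185988600), .negSucc (nat_lit 11021755105451807), .negSucc (nat_lit 37823025110739533), .ofNat (nat_lit 2159586326321), .negSucc (nat_lit 673379508490575), .negSucc (nat_lit 1568612433838411), .negSucc (nat_lit 939039030050311), .negSucc (nat_lit 4504473854916591), .negSucc (nat_lit 4335525999803171), .negSucc (nat_lit 3613560102221397), .ofNat (nat_lit 2071174480313236), .negSucc (nat_lit 204446994529523), .ofNat (nat_lit 9738302175442744)]],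
  [[.ofNat (nat_lit 11597604265342449), .negSucc (nat_lit 7356480188588027), .ofNat (nat_lit 7356480188588028), .negSucc (nat_lit 16436545943010965), .ofNat (nat_lit 52987877923326912), .negSucc (nat_lit 36551331980315945), .ofNat (nat_lit 8919214429128624), .negSucc (nat_lit 23901773733552959), .ofNat (nat_lit 3207475321462800), .ofNat (nat_lit 11775083982961536), .ofNat (nat_lit 652668861334212), .negSucc (nat_lit 7008984132777143), .ofNat (nat_lit 1305337722668424), .ofNat (nat_lit 20203910195098032), .negSucc (nat_lit 15152932646323523), .negSucc (nat_lit 1401418332930527), .ofNat (nat_lit 6887537621554176), .negSucc (nat_lit 4632293018981663), .negSucc (nat_lit 8784120094831295), .ofNat (nat_lit 667146106387008), .ofNat (nat_lit 11484350685546624), .negSucc (nat_lit 4221202966744319), .ofNat (nat_lit 341362266289608), .negSucc (nat_lit 1644179579926535), .ofNat (nat_lit 1054719363605832), .ofNat (nat_lit 1641750523871616), .ofNat (nat_lit 310729701552600), .negSucc (nat_lit 1078064760178079), .negSucc (nat_lit 2643858548215679),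 .ofNat (nat_lit 2017541033000640), .negSucc (nat_lit 26545763311247), .ofNat (nat_lit 132728816556240), .negSucc (nat_lit 53091526622495), .negSucc (nat_lit 132728816556239), .negSucc (nat_lit 106183053244991), .negSucc (nat_lit 79637289933743), .ofNat (nat_lit 132728816556240), .negSucc (nat_lit 132728816556239), .ofNat (nat_lit 796372899337440), .negSucc (nat_lit 530915266224959)]],
  [[]]],
  [[[.ofNat (nat_lit 15348831933058542), .negSucc (nat_lit 21451006206792251), .ofNat (nat_lit 21451006206792252), .negSucc (nat_lit 2758691798683091), .ofNat (nat_lit 19001578499445402), .negSucc (nat_lit 16242886700762309), .ofNat (nat_lit 9659043017501148), .negSucc (nat_lit 34413599070127835), .ofNat (nat_lit 20531983052749932), .ofNat (nat_lit 4222572999876756), .negSucc (nat_lit 1765868992879463), .ofNat (nat_lit 2640705951240648), .negSucc (nat_lit 3531737985758927), .ofNat (nat_lit 10627604109590976), .negSucc (nat_lit 7970703082193231), .negSucc (nat_lit 968256242031095), .ofNat (nat_lit 5571928909648368), .negSucc (nat_lit 6483134559773771),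 .negSucc (nat_lit 6852666358001627), .ofNat (nat_lit 2117070434694708), .ofNat (nat_lit 12754898545850424), .negSucc (nat_lit 6139840730387003), .ofNat (nat_lit 363820383225204), .negSucc (nat_lit 1805864853811127), .ofNat (nat_lit 1436867389175886), .ofNat (nat_lit 1758093685961598), .ofNat (nat_lit 18414143724930), .negSucc (nat_lit 1638960125127569), .negSucc (nat_lit 1969886682999869), .ofNat (nat_lit 1837516059850950), .negSucc (nat_lit 33388887705743), .ofNat (nat_lit 166944438528720), .negSucc (nat_lit 66777775411487), .negSucc (nat_lit 166944438528719), .negSucc (nat_lit 133555550822975), .negSucc (nat_lit 100166663117231), .ofNat (nat_lit 166944438528720), .negSucc (nat_lit 166944438528719), .ofNat (nat_lit 1001666631172320), .negSucc (nat_lit 667777754114879)]],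
  [[.negSucc (nat_lit 17626788385400132), .ofNat (nat_lit 4813134044816700), .negSucc (nat_lit 4813134044816699), .ofNat (nat_lit 14934031483938570), .negSucc (nat_lit 47208661474224059), .ofNat (nat_lit 32274629990285490), .negSucc (nat_lit 8095177618519607), .ofNat (nat_lit 21889896813139752), .negSucc (nat_lit 3303905533681463), .negSucc (nat_lit 10490813660938679), .negSucc (nat_lit 329176349042507), .ofNat (nat_lit 5094561543867576), .negSucc (nat_lit 658352698085015), .negSucc (nat_lit 16428129986960207), .ofNat (nat_lit 12321097490220156), .ofNat (nat_lit 1133333059533840), .negSucc (nat_lit 5617009331661023), .ofNat (nat_lit 3010183454136456), .ofNat (nat_lit 8074867311161064), .ofNat (nat_lit 290503792448712), .negSucc (nat_lit 11417778520154063), .ofNat (nat_lit 4525900234535016), .negSucc (nat_lit 282610297077791), .ofNat (nat_lit 1362435925916904), .negSucc (nat_lit 629082038805947), .negSucc (nat_lit 1610717278061843), .negSucc (nat_lit 501359149505219), .ofNat (nat_lit 1155177242813340), .ofNat (nat_lit 2420566229614740),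 .negSucc (nat_lit 1914410634894179), .ofNat (nat_lit 22094736914832), .negSucc (nat_lit 110473684574159), .ofNat (nat_lit 44189473829664), .ofNat (nat_lit 110473684574160), .ofNat (nat_lit 88378947659328), .ofNat (nat_lit 66284210744496), .negSucc (nat_lit 110473684574159), .ofNat (nat_lit 110473684574160), .negSucc (nat_lit 662842107444959), .ofNat (nat_lit 441894738296640)]],
  [[]]]],
  [[.negSucc (nat_lit 4909052819621861)],
  [.ofNat (nat_lit 5892218246413305)],
  [.ofNat (nat_lit 0)]],
  [[[[.negSucc (nat_lit 13997186120006701055), .ofNat (nat_lit 63381905286983460864), .negSucc (nat_lit 12507951900266302463), .negSucc (nat_lit 41351637351163041791), .negSucc (nat_lit 57472576147801423871), .negSucc (nat_lit 13406487151298697215), .ofNat (nat_lit 24917840122698436608), .ofNat (nat_lit 86088411859424956416), .ofNat (nat_lit 3145689846511561728), .negSucc (nat_lit 55722627847184154623)]],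
  [[.negSucc (nat_lit 208107550648968191), .negSucc (nat_lit 15496731057375876095), .negSucc (nat_lit 20110708513653405695), .ofNat (nat_lit 23321110207003573248), .ofNat (nat_lit 43563818694126329856), .ofNat (nat_lit 694435899701486592), .negSucc (nat_lit 18073902872559624191), .negSucc (nat_lit 43045545113146626047), .negSucc (nat_lit 948043050127948799), .ofNat (nat_lit 28717285050878349312)]]],
  [[[.ofNat (nat_lit 21537700204438803456), .negSucc (nat_lit 106146022309312748543), .negSucc (nat_lit 11790198663095642111), .ofNat (nat_lit 146736007561109910528), .negSucc (nat_lit 127734448136520729599), .negSucc (nat_lit 5147392759919354879), .ofNat (nat_lit 45081958642747822080), .ofNat (nat_lit 41036855777913618432), .negSucc (nat_lit 16112629088147202047), .negSucc (nat_lit 9141581396911647743)]],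
  [[.ofNat (nat_lit 37113821291796480), .ofNat (nat_lit 3068802176538193920), .ofNat (nat_lit 62133502936137790464), .negSucc (nat_lit 73794397823496299519), .ofNat (nat_lit 76699788343955785728), .negSucc (nat_lit 9531732244712076287), .negSucc (nat_lit 24353156877200713727), .negSucc (nat_lit 29275327278912199679), .ofNat (nat_lit 13279132814490611712), .ofNat (nat_lit 7253964231169370112)]]],
  [[[.negSucc (nat_lit 8947426998054813695), .ofNat (nat_lit 49389056457515652096), .ofNat (nat_lit 64876206017262587904), .negSucc (nat_lit 185684932559280162815), .ofNat (nat_lit 82827719670426845184), .ofNat (nat_lit 114390641202806725632), .negSucc (nat_lit 51201381791975639039), .negSucc (nat_lit 85259511596379534335), .negSucc (nat_lit 12882236991335626751), .ofNat (nat_lit 50825560138537826304)]],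
  [[.negSucc (nat_lit 3191166506310958079), .ofNat (nat_lit 4077763751364996096), .negSucc (nat_lit 73427300102567605247), .ofNat (nat_lit 108844558745941463040), .negSucc (nat_lit 39968223031569641471), .negSucc (nat_lit 57109515622427483135), .ofNat (nat_lit 16131827613912367104), .ofNat (nat_lit 42606916927413534720), .ofNat (nat_lit 5887428499884506112), .negSucc (nat_lit 26278622100611601407)]]]]⟩

noncomputable def BR6b_A : L6 := [[[[[[.negSucc (nat_lit 10596242383993193471), .ofNat (nat_lit 25873132887717368832), .ofNat (nat_lit 208107550648968192)],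
  [],
  [.ofNat (nat_lit 15717203899451947008), .negSucc (nat_lit 18049831306649736191), .ofNat (nat_lit 0)],
  [],
  [.negSucc (nat_lit 5026870087292786687), .ofNat (nat_lit 6033631484327224320), .ofNat (nat_lit 0)],
  [],
  []],
  [[.negSucc (nat_lit 13997186120006701055), .negSucc (nat_lit 208107550648968191), .ofNat (nat_lit 0)],
  [],
  [],
  [],
  [],
  [],
  []],
  [[.ofNat (nat_lit 10852083931826045952), .ofNat (nat_lit 2478438314380735488), .ofNat (nat_lit 0)],
  [.ofNat (nat_lit 10852083931826045952), .ofNat (nat_lit 2478438314380735488), .ofNat (nat_lit 0)],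
  [],
  [],
  [],
  [],
  []],
  [[.ofNat (nat_lit 16743134968912106496), .negSucc (nat_lit 1459777173289159679), .ofNat (nat_lit 0)],
  [],
  [.negSucc (nat_lit 16743134968912106495), .ofNat (nat_lit 1459777173289159680), .ofNat (nat_lit 0)],
  [],
  [],
  [],
  []],
  [[.negSucc (nat_lit 17345061740016147455), .negSucc (nat_lit 4466731101636031487), .ofNat (nat_lit 0)],
  [],
  [],
  [.negSucc (nat_lit 17345061740016147455), .negSucc (nat_lit 4466731101636031487), .ofNat (nat_lit 0)],
  [],
  [],
  []],
  [[.negSucc (nat_lit 5099201734913095679), .ofNat (nat_lit 5134266342782337024), .ofNat (nat_lit 0)],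
  [],
  [],
  [],
  [.ofNat (nat_lit 5099201734913095680), .negSucc (nat_lit 5134266342782337023), .ofNat (nat_lit 0)],
  [],
  []],
  [[.ofNat (nat_lit 7140782390557132800), .ofNat (nat_lit 1117419104879050752), .ofNat (nat_lit 0)],
  [],
  [],
  [],
  [.negSucc (nat_lit 7140782390557132799), .negSucc (nat_lit 1117419104879050751), .ofNat (nat_lit 0)],
  [],
  []],
  [[.ofNat (nat_lit 2989838271406159872), .negSucc (nat_lit 2729175725781669887), .ofNat (nat_lit 0)],
  [],
  [],
  [],
  [],
  [.ofNat (nat_lit 2989838271406159872), .negSucc (nat_lit 2729175725781669887), .ofNat (nat_lit 0)],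
  []],
  [[],
  [],
  [],
  [],
  [],
  [],
  []],
  [[],
  [],
  [],
  [],
  [],
  [],
  []]],
  [],
  [],
  [],
  [],
  [],
  [],
  [],
  [],
  []],
  [[],
  [],
  [],
  [],
  [],
  [],
  [],
  [],
  [],
  []],
  [[],
  [[[.ofNat (nat_lit 28930032460094552064), .negSucc (nat_lit 69031682071819066367), .ofNat (nat_lit 15496731057375876096)],
  [],
  [.negSucc (nat_lit 16474372766816449535), .ofNat (nat_lit 3696486946419225600), .ofNat (nat_lit 0)],
  [],
  [],
  [],
  []],
  [[.negSucc (nat_lit 23968927071053121023), .negSucc (nat_lit 28079819641520280575), .ofNat (nat_lit 0)],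
  [],
  [],
  [],
  [],
  [],
  []],
  [[],
  [.negSucc (nat_lit 37426301976159120383), .negSucc (nat_lit 31141348042842971135), .ofNat (nat_lit 0)],
  [],
  [],
  [],
  [],
  []],
  [[],
  [],
  [.ofNat (nat_lit 177377366183711685120), .negSucc (nat_lit 5536298454111710207), .ofNat (nat_lit 0)],
  [],
  [],
  [],
  []],
  [[],
  [],
  [],
  [.ofNat (nat_lit 106987222041939786240), .ofNat (nat_lit 53708925442246258176), .ofNat (nat_lit 0)],
  [],
  [],
  []],
  [[],
  [],
  [],
  [],
  [.negSucc (nat_lit 123343551183806491391), .ofNat (nat_lit 32026479768511852032), .ofNat (nat_lit 0)],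
  [],
  []],
  [[],
  [],
  [],
  [],
  [.ofNat (nat_lit 25772135812667762688), .ofNat (nat_lit 9811065069768314880), .ofNat (nat_lit 0)],
  [],
  []],
  [[],
  [],
  [],
  [],
  [],
  [.negSucc (nat_lit 107967203789448872447), .ofNat (nat_lit 1680486316031061504), .ofNat (nat_lit 0)],
  []],
  [[],
  [],
  [],
  [],
  [],
  [],
  [.ofNat (nat_lit 3293654732870570496), .negSucc (nat_lit 4611626662373655551), .ofNat (nat_lit 0)]],
  [[],
  [],
  [],
  [],
  [],
  [],
  [.negSucc (nat_lit 25676586868589895167), .negSucc (nat_lit 1972820031951237119), .ofNat (nat_lit 0)]]],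
  [],
  [],
  [],
  [],
  [],
  [],
  [],
  []],
  [[],
  [],
  [[[.negSucc (nat_lit 4584128082198478847), .negSucc (nat_lit 14621841596477076479), .ofNat (nat_lit 20110708513653405696)],
  [],
  [.negSucc (nat_lit 9728808191716045823), .ofNat (nat_lit 24170834674802718720), .ofNat (nat_lit 0)],
  [],
  [],
  [],
  []],
  [[.ofNat (nat_lit 24918350075892817920), .ofNat (nat_lit 11030639529189565440), .ofNat (nat_lit 0)],
  [],
  [],
  [],
  [],
  [],
  []],
  [[],
  [.negSucc (nat_lit 47376941389661781503), .ofNat (nat_lit 25706265246913185792), .ofNat (nat_lit 0)],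
  [],
  [],
  [],
  [],
  []],
  [[],
  [],
  [.ofNat (nat_lit 13575150947175687936), .negSucc (nat_lit 50392426377100163327), .ofNat (nat_lit 0)],
  [],
  [],
  [],
  []],
  [[],
  [],
  [],
  [.ofNat (nat_lit 164151330837385335552), .negSucc (nat_lit 58117921973865342719), .ofNat (nat_lit 0)],
  [],
  [],
  []],
  [[],
  [],
  [],
  [],
  [.negSucc (nat_lit 57121484356739255039), .ofNat (nat_lit 37524023621880410880), .ofNat (nat_lit 0)],
  [],
  []],
  [[],
  [],
  [],
  [],
  [.ofNat (nat_lit 111408735419727929856), .negSucc (nat_lit 68253848759209632767), .ofNat (nat_lit 0)],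
  [],
  []],
  [[],
  [],
  [],
  [],
  [],
  [.negSucc (nat_lit 115049287827329001983), .ofNat (nat_lit 11565344319979366656), .ofNat (nat_lit 0)],
  []],
  [[],
  [],
  [],
  [],
  [],
  [],
  [.ofNat (nat_lit 9880964198611711488), .negSucc (nat_lit 13834879987120966655), .ofNat (nat_lit 0)]],
  [[],
  [],
  [],
  [],
  [],
  [],
  [.negSucc (nat_lit 79671347035668582911), .ofNat (nat_lit 32430026187587727360), .ofNat (nat_lit 0)]]],
  [],
  [],
  [],
  [],
  [],
  [],
  []],
  [[],
  [],
  [],
  [[[.negSucc (nat_lit 26289690945369919487), .ofNat (nat_lit 49981591510511459328), .negSucc (nat_lit 23321110207003573247)],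
  [],
  [.ofNat (nat_lit 14258624286312972288), .negSucc (nat_lit 7945758256101202943), .ofNat (nat_lit 0)],
  [],
  [],
  [],
  []],
  [[.ofNat (nat_lit 136025728832548643328), .ofNat (nat_lit 17784811752891863040), .ofNat (nat_lit 0)],
  [],
  [],
  [],
  [],
  [],
  []],
  [[],
  [.negSucc (nat_lit 13575150947175687935), .ofNat (nat_lit 50392426377100163328), .ofNat (nat_lit 0)],
  [],
  [],
  [],
  [],
  []],
  [[],
  [],
  [.negSucc (nat_lit 500454247381648813439), .ofNat (nat_lit 67787112197590707456), .ofNat (nat_lit 0)],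
  [],
  [],
  [],
  []],
  [[],
  [],
  [],
  [.negSucc (nat_lit 203681534578581664511), .ofNat (nat_lit 22725679573415712384), .ofNat (nat_lit 0)],
  [],
  [],
  []],
  [[],
  [],
  [],
  [],
  [.ofNat (nat_lit 370159873456933566720), .negSucc (nat_lit 75259858003112648447), .ofNat (nat_lit 0)],
  [],
  []],
  [[],
  [],
  [],
  [],
  [.negSucc (nat_lit 15091581839227031807), .negSucc (nat_lit 7722714553211685887), .ofNat (nat_lit 0)],
  [],
  []],
  [[],
  [],
  [],
  [],
  [],
  [.ofNat (nat_lit 320746131733880457216), .negSucc (nat_lit 155785849233974168831), .ofNat (nat_lit 0)],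
  []],
  [[],
  [],
  [],
  [],
  [],
  [],
  [.ofNat (nat_lit 13290787150376140512), .negSucc (nat_lit 28840443311573220095), .ofNat (nat_lit 0)]],
  [[],
  [],
  [],
  [],
  [],
  [],
  [.ofNat (nat_lit 22132242520582632192), .negSucc (nat_lit 14043896483731679231), .ofNat (nat_lit 0)]]],
  [],
  [],
  [],
  [],
  [],
  []],
  [[],
  [],
  [],
  [],
  [[[.ofNat (nat_lit 11982551499817850880), .ofNat (nat_lit 65357296945135718400), .negSucc (nat_lit 43563818694126329855)],
  [],
  [.ofNat (nat_lit 1231762684518070272), .negSucc (nat_lit 6132615108409810943), .ofNat (nat_lit 0)],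
  [],
  [],
  [],
  []],
  [[.negSucc (nat_lit 164459798189741210111), .negSucc (nat_lit 10145106748119928319), .ofNat (nat_lit 0)],
  [],
  [],
  [],
  [],
  [],
  []],
  [[],
  [.ofNat (nat_lit 164151330837385335552), .negSucc (nat_lit 58117921973865342719), .ofNat (nat_lit 0)],
  [],
  [],
  [],
  [],
  []],
  [[],
  [],
  [.ofNat (nat_lit 203681534578581664512), .negSucc (nat_lit 22725679573415712383), .ofNat (nat_lit 0)],
  [],
  [],
  [],
  []],
  [[],
  [],
  [],
  [.negSucc (nat_lit 156445625810081909375), .ofNat (nat_lit 50749508477038760064), .ofNat (nat_lit 0)],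
  [],
  [],
  []],
  [[],
  [],
  [],
  [],
  [.negSucc (nat_lit 71537563460500576127), .ofNat (nat_lit 117234299233687809024), .ofNat (nat_lit 0)],
  [],
  []],
  [[],
  [],
  [],
  [],
  [.negSucc (nat_lit 280879648570268289791), .ofNat (nat_lit 225639874419658988544), .ofNat (nat_lit 0)],
  [],
  []],
  [[],
  [],
  [],
  [],
  [],
  [.negSucc (nat_lit 19394960277046227263), .ofNat (nat_lit 75619772955570701952), .ofNat (nat_lit 0)],
  []],
  [[],
  [],
  [],
  [],
  [],
  [],
  [.ofNat (nat_lit 18347437468575854784), .negSucc (nat_lit 46151819967212301311), .ofNat (nat_lit 0)]],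
  [[],
  [],
  [],
  [],
  [],
  [],
  [.ofNat (nat_lit 70224882812520568704), .negSucc (nat_lit 49735015194862078847), .ofNat (nat_lit 0)]]],
  [],
  [],
  [],
  [],
  []],
  [[],
  [],
  [],
  [],
  [],
  [[[.ofNat (nat_lit 7430863317590366208), .ofNat (nat_lit 10528442976044187648), .negSucc (nat_lit 694435899701486591)],
  [],
  [.negSucc (nat_lit 3092860106530375679), .ofNat (nat_lit 2035844181583958016), .ofNat (nat_lit 0)],
  [],
  [],
  [],
  []],
  [[.negSucc (nat_lit 136750038335105188607), .ofNat (nat_lit 32720915668213338624), .ofNat (nat_lit 0)],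
  [],
  [],
  [],
  [],
  [],
  []],
  [[],
  [.ofNat (nat_lit 57121484356739255040), .negSucc (nat_lit 37524023621880410879), .ofNat (nat_lit 0)],
  [],
  [],
  [],
  [],
  []],
  [[],
  [],
  [.ofNat (nat_lit 370159873456933566720), .negSucc (nat_lit 75259858003112648447), .ofNat (nat_lit 0)],
  [],
  [],
  [],
  []],
  [[],
  [],
  [],
  [.ofNat (nat_lit 71537563460500576128), .negSucc (nat_lit 117234299233687809023), .ofNat (nat_lit 0)],
  [],
  [],
  []],
  [[],
  [],
  [],
  [],
  [.negSucc (nat_lit 269303955446499195167), .ofNat (nat_lit 50943799678759039296), .ofNat (nat_lit 0)],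
  [],
  []],
  [[],
  [],
  [],
  [],
  [.negSucc (nat_lit 74719921465645493759), .ofNat (nat_lit 65767543537925106432), .ofNat (nat_lit 0)],
  [],
  []],
  [[],
  [],
  [],
  [],
  [],
  [.negSucc (nat_lit 236119589055305462015), .ofNat (nat_lit 168266075458649655456), .ofNat (nat_lit 0)],
  []],
  [[],
  [],
  [],
  [],
  [],
  [],
  [.negSucc (nat_lit 2286263706658055999), .ofNat (nat_lit 8757628967754620208), .ofNat (nat_lit 0)]],
  [[],
  [],
  [],
  [],
  [],
  [],
  [.ofNat (nat_lit 77265173793704364864), .negSucc (nat_lit 81915687321599430719), .ofNat (nat_lit 0)]]],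
  [[[.negSucc (nat_lit 3075776806406529023), .negSucc (nat_lit 28435176516456935423), .ofNat (nat_lit 18073902872559624192)],
  [],
  [.negSucc (nat_lit 3031985381305605119), .ofNat (nat_lit 3590298725805729792), .ofNat (nat_lit 0)],
  [],
  [],
  [],
  []],
  [[.ofNat (nat_lit 50689975935366199296), .negSucc (nat_lit 8262837802791309311), .ofNat (nat_lit 0)],
  [],
  [],
  [],
  [],
  [],
  []],
  [[],
  [.negSucc (nat_lit 111408735419727929855), .ofNat (nat_lit 68253848759209632768), .ofNat (nat_lit 0)],
  [],
  [],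
  [],
  [],
  []],
  [[],
  [],
  [.negSucc (nat_lit 15091581839227031807), .negSucc (nat_lit 7722714553211685887), .ofNat (nat_lit 0)],
  [],
  [],
  [],
  []],
  [[],
  [],
  [],
  [.ofNat (nat_lit 280879648570268289792), .negSucc (nat_lit 225639874419658988543), .ofNat (nat_lit 0)],
  [],
  [],
  []],
  [[],
  [],
  [],
  [],
  [.negSucc (nat_lit 74719921465645493759), .ofNat (nat_lit 65767543537925106432), .ofNat (nat_lit 0)],
  [],
  []],
  [[],
  [],
  [],
  [],
  [.ofNat (nat_lit 224069337136822270464), .negSucc (nat_lit 172035512050511840255), .ofNat (nat_lit 0)],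
  [],
  []],
  [[],
  [],
  [],
  [],
  [],
  [.negSucc (nat_lit 208089103028801741567), .ofNat (nat_lit 159893032602082241664), .ofNat (nat_lit 0)],
  []],
  [[],
  [],
  [],
  [],
  [],
  [],
  [.ofNat (nat_lit 6347714422275345024), .negSucc (nat_lit 22069730521698859583), .ofNat (nat_lit 0)]],
  [[],
  [],
  [],
  [],
  [],
  [],
  [.negSucc (nat_lit 95969343520064818943), .ofNat (nat_lit 80694112742510489856), .ofNat (nat_lit 0)]]],
  [],
  [],
  []],
  [[],
  [],
  [],
  [],
  [],
  [],
  [],
  [[[.negSucc (nat_lit 3671061437854937087), .negSucc (nat_lit 84849892726375369727), .ofNat (nat_lit 43045545113146626048)],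
  [],
  [.ofNat (nat_lit 1557791944799192064), .negSucc (nat_lit 1030852045498401791), .ofNat (nat_lit 0)],
  [],
  [],
  [],
  []],
  [[.ofNat (nat_lit 194055615648873828864), .negSucc (nat_lit 44726031429177687551), .ofNat (nat_lit 0)],
  [],
  [],
  [],
  [],
  [],
  []],
  [[],
  [.negSucc (nat_lit 115049287827329001983), .ofNat (nat_lit 11565344319979366656), .ofNat (nat_lit 0)],
  [],
  [],
  [],
  [],
  []],
  [[],
  [],
  [.negSucc (nat_lit 320746131733880457215), .ofNat (nat_lit 155785849233974168832), .ofNat (nat_lit 0)],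
  [],
  [],
  [],
  []],
  [[],
  [],
  [],
  [.negSucc (nat_lit 19394960277046227263), .ofNat (nat_lit 75619772955570701952), .ofNat (nat_lit 0)],
  [],
  [],
  []],
  [[],
  [],
  [],
  [],
  [.ofNat (nat_lit 236119589055305462016), .negSucc (nat_lit 168266075458649655455), .ofNat (nat_lit 0)],
  [],
  []],
  [[],
  [],
  [],
  [],
  [.ofNat (nat_lit 208089103028801741568), .negSucc (nat_lit 159893032602082241663), .ofNat (nat_lit 0)],
  [],
  []],
  [[],
  [],
  [],
  [],
  [],
  [.ofNat (nat_lit 72277497555394798080), .negSucc (nat_lit 4848669762179825951), .ofNat (nat_lit 0)],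
  []],
  [[],
  [],
  [],
  [],
  [],
  [],
  [.negSucc (nat_lit 3287559021055525871), .ofNat (nat_lit 8684265365911558800), .ofNat (nat_lit 0)]],
  [[],
  [],
  [],
  [],
  [],
  [],
  [.ofNat (nat_lit 12764416209102339264), .negSucc (nat_lit 25960933940725866815), .ofNat (nat_lit 0)]]],
  [],
  []],
  [[],
  [],
  [],
  [],
  [],
  [],
  [],
  [],
  [[[.ofNat (nat_lit 0), .negSucc (nat_lit 3145689846511561727), .ofNat (nat_lit 948043050127948800)],
  [],
  [],
  [],
  [],
  [],
  []],
  [[.ofNat (nat_lit 6439344579382132224), .negSucc (nat_lit 5559669712501604351), .ofNat (nat_lit 0)],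
  [],
  [],
  [],
  [],
  [],
  []],
  [[],
  [.negSucc (nat_lit 9880964198611711487), .ofNat (nat_lit 13834879987120966656), .ofNat (nat_lit 0)],
  [],
  [],
  [],
  [],
  []],
  [[],
  [],
  [.ofNat (nat_lit 13290787150376140512), .negSucc (nat_lit 28840443311573220095), .ofNat (nat_lit 0)],
  [],
  [],
  [],
  []],
  [[],
  [],
  [],
  [.negSucc (nat_lit 18347437468575854783), .ofNat (nat_lit 46151819967212301312), .ofNat (nat_lit 0)],
  [],
  [],
  []],
  [[],
  [],
  [],
  [],
  [.negSucc (nat_lit 2286263706658055999), .ofNat (nat_lit 8757628967754620208), .ofNat (nat_lit 0)],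
  [],
  []],
  [[],
  [],
  [],
  [],
  [.ofNat (nat_lit 6347714422275345024), .negSucc (nat_lit 22069730521698859583), .ofNat (nat_lit 0)],
  [],
  []],
  [[],
  [],
  [],
  [],
  [],
  [.ofNat (nat_lit 3287559021055525872), .negSucc (nat_lit 8684265365911558799), .ofNat (nat_lit 0)],
  []],
  [[],
  [],
  [],
  [],
  [],
  [],
  [.negSucc (nat_lit 2741459804903659103), .ofNat (nat_lit 6354118459885367592), .ofNat (nat_lit 0)]],
  [[],
  [],
  [],
  [],
  [],
  [],
  [.ofNat (nat_lit 848922932041534368), .negSucc (nat_lit 1635751560232648223), .ofNat (nat_lit 0)]]],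
  [[[.ofNat (nat_lit 0), .ofNat (nat_lit 55722627847184154624), .negSucc (nat_lit 28717285050878349311)],
  [],
  [],
  [],
  [],
  [],
  []],
  [[.negSucc (nat_lit 81399214715774049791), .ofNat (nat_lit 26744465018927112192), .ofNat (nat_lit 0)],
  [],
  [],
  [],
  [],
  [],
  []],
  [[],
  [.ofNat (nat_lit 79671347035668582912), .negSucc (nat_lit 32430026187587727359), .ofNat (nat_lit 0)],
  [],
  [],
  [],
  [],
  []],
  [[],
  [],
  [.ofNat (nat_lit 22132242520582632192), .negSucc (nat_lit 14043896483731679231), .ofNat (nat_lit 0)],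
  [],
  [],
  [],
  []],
  [[],
  [],
  [],
  [.negSucc (nat_lit 70224882812520568703), .ofNat (nat_lit 49735015194862078848), .ofNat (nat_lit 0)],
  [],
  [],
  []],
  [[],
  [],
  [],
  [],
  [.ofNat (nat_lit 77265173793704364864), .negSucc (nat_lit 81915687321599430719), .ofNat (nat_lit 0)],
  [],
  []],
  [[],
  [],
  [],
  [],
  [.negSucc (nat_lit 95969343520064818943), .ofNat (nat_lit 80694112742510489856), .ofNat (nat_lit 0)],
  [],
  []],
  [[],
  [],
  [],
  [],
  [],
  [.negSucc (nat_lit 12764416209102339263), .ofNat (nat_lit 25960933940725866816), .ofNat (nat_lit 0)],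
  []],
  [[],
  [],
  [],
  [],
  [],
  [],
  [.ofNat (nat_lit 848922932041534368), .negSucc (nat_lit 1635751560232648223), .ofNat (nat_lit 0)]],
  [[],
  [],
  [],
  [],
  [],
  [],
  [.negSucc (nat_lit 49268722736745974015), .ofNat (nat_lit 65887192540768640256), .ofNat (nat_lit 0)]]]]],
  [[[[[.ofNat (nat_lit 31434407798903894016), .negSucc (nat_lit 57637362817738275839), .negSucc (nat_lit 37113821291796479)],
  [],
  [.negSucc (nat_lit 15080610261878360063), .ofNat (nat_lit 18100894452981672960), .ofNat (nat_lit 0)],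
  [],
  [],
  [],
  []],
  [[.negSucc (nat_lit 7392332255655748607), .ofNat (nat_lit 5686890606127401984), .ofNat (nat_lit 0)],
  [],
  [],
  [],
  [],
  [],
  []],
  [[],
  [.negSucc (nat_lit 4584128082198478847), .negSucc (nat_lit 27129793496743378943), .ofNat (nat_lit 0)],
  [],
  [],
  [],
  [],
  []],
  [[],
  [],
  [.ofNat (nat_lit 26289690945369919488), .negSucc (nat_lit 8629954159348417535), .ofNat (nat_lit 0)],
  [],
  [],
  [],
  []],
  [[],
  [],
  [],
  [.ofNat (nat_lit 11982551499817850880), .ofNat (nat_lit 7884720797334294528), .ofNat (nat_lit 0)],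
  [],
  [],
  []],
  [[],
  [],
  [],
  [],
  [.negSucc (nat_lit 7430863317590366207), .ofNat (nat_lit 2878044175254509568), .ofNat (nat_lit 0)],
  [],
  []],
  [[],
  [],
  [],
  [],
  [.ofNat (nat_lit 3075776806406529024), .ofNat (nat_lit 3517336393758498816), .ofNat (nat_lit 0)],
  [],
  []],
  [[],
  [],
  [],
  [],
  [],
  [.negSucc (nat_lit 3671061437854937087), .ofNat (nat_lit 1238519133049586688), .ofNat (nat_lit 0)],
  []],
  [[],
  [],
  [],
  [],
  [],
  [],
  []],
  [[],
  [],
  [],
  [],
  [],
  [],
  []]],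
  [],
  [],
  [],
  [],
  [],
  [],
  [],
  [],
  []],
  [[],
  [],
  [],
  [],
  [],
  [],
  [],
  [],
  [],
  []],
  [[],
  [[[.negSucc (nat_lit 32948745533632899071), .ofNat (nat_lit 113538996202151199744), .negSucc (nat_lit 3068802176538193919)],
  [],
  [],
  [],
  [],
  [],
  []],
  [[.ofNat (nat_lit 25980291427128685056), .ofNat (nat_lit 47113477636956857856), .ofNat (nat_lit 0)],
  [],
  [],
  [],
  [],
  [],
  []],
  [[],
  [.negSucc (nat_lit 72406205995707389951), .ofNat (nat_lit 153097857101796590592), .ofNat (nat_lit 0)],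
  [],
  [],
  [],
  [],
  []],
  [[],
  [],
  [.negSucc (nat_lit 218815548325672421375), .negSucc (nat_lit 19666793928479956991), .ofNat (nat_lit 0)],
  [],
  [],
  [],
  []],
  [[],
  [],
  [],
  [.ofNat (nat_lit 78911345076162766848), .negSucc (nat_lit 173940862241787346943), .ofNat (nat_lit 0)],
  [],
  [],
  []],
  [[],
  [],
  [],
  [],
  [.ofNat (nat_lit 119698978263251268096), .negSucc (nat_lit 13754970202637435903), .ofNat (nat_lit 0)],
  [],
  []],
  [[],
  [],
  [],
  [],
  [.ofNat (nat_lit 16477799654593216512), .negSucc (nat_lit 26175239249238650879), .ofNat (nat_lit 0)],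
  [],
  []],
  [[],
  [],
  [],
  [],
  [],
  [.negSucc (nat_lit 23290205960380571135), .ofNat (nat_lit 49734379453212997632), .ofNat (nat_lit 0)],
  []],
  [[],
  [],
  [],
  [],
  [],
  [],
  [.negSucc (nat_lit 11299944420225676799), .ofNat (nat_lit 5573336098723140096), .ofNat (nat_lit 0)]],
  [[],
  [],
  [],
  [],
  [],
  [],
  [.negSucc (nat_lit 28663914440672907263), .ofNat (nat_lit 14862229596595040256), .ofNat (nat_lit 0)]]],
  [],
  [],
  [],
  [],
  [],
  [],
  [],
  []],
  [[],
  [],
  [[[.negSucc (nat_lit 19457616383432091647), .ofNat (nat_lit 60131868012701079552), .negSucc (nat_lit 62133502936137790463)],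
  [],
  [],
  [],
  [],
  [],
  []],
  [[.ofNat (nat_lit 60616007332611747840), .negSucc (nat_lit 90964354165658800127), .ofNat (nat_lit 0)],
  [],
  [],
  [],
  [],
  [],
  []],
  [[],
  [.ofNat (nat_lit 81945139631074034688), .negSucc (nat_lit 33719357315424282623), .ofNat (nat_lit 0)],
  [],
  [],
  [],
  [],
  []],
  [[],
  [],
  [.negSucc (nat_lit 267945744712542630911), .ofNat (nat_lit 189074864439073142784), .ofNat (nat_lit 0)],
  [],
  [],
  [],
  []],
  [[],
  [],
  [],
  [.negSucc (nat_lit 146093077659414458879), .ofNat (nat_lit 5725621352815755264), .ofNat (nat_lit 0)],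
  [],
  [],
  []],
  [[],
  [],
  [],
  [],
  [.ofNat (nat_lit 243351094350007657728), .negSucc (nat_lit 92586611727061221887), .ofNat (nat_lit 0)],
  [],
  []],
  [[],
  [],
  [],
  [],
  [.negSucc (nat_lit 90244157701167134207), .ofNat (nat_lit 17506551360875710464), .ofNat (nat_lit 0)],
  [],
  []],
  [[],
  [],
  [],
  [],
  [],
  [.ofNat (nat_lit 79994820018379223808), .ofNat (nat_lit 21217150479170672640), .ofNat (nat_lit 0)],
  []],
  [[],
  [],
  [],
  [],
  [],
  [],
  [.negSucc (nat_lit 33899833260677030399), .ofNat (nat_lit 16720008296169420288), .ofNat (nat_lit 0)]],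
  [[],
  [],
  [],
  [],
  [],
  [],
  [.ofNat (nat_lit 16752506670580732416), .ofNat (nat_lit 7431114798297520128), .ofNat (nat_lit 0)]]],
  [],
  [],
  [],
  [],
  [],
  [],
  []],
  [[],
  [],
  [],
  [[[.ofNat (nat_lit 28517248572625944576), .negSucc (nat_lit 162627524073312316415), .ofNat (nat_lit 73794397823496299520)],
  [],
  [],
  [],
  [],
  [],
  []],
  [[.negSucc (nat_lit 72079540764562510847), .negSucc (nat_lit 93461191751976256511), .ofNat (nat_lit 0)],
  [],
  [],
  [],
  [],
  [],
  []],
  [[],
  [.ofNat (nat_lit 267945744712542630912), .negSucc (nat_lit 189074864439073142783), .ofNat (nat_lit 0)],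
  [],
  [],
  [],
  [],
  []],
  [[],
  [],
  [.ofNat (nat_lit 341175808879283980800), .ofNat (nat_lit 116166620208827471616), .ofNat (nat_lit 0)],
  [],
  [],
  [],
  []],
  [[],
  [],
  [],
  [.negSucc (nat_lit 292077134090408467583), .ofNat (nat_lit 227944502104528806912), .ofNat (nat_lit 0)],
  [],
  [],
  []],
  [[],
  [],
  [],
  [],
  [.negSucc (nat_lit 117914180606077669055), .negSucc (nat_lit 81854544159968200703), .ofNat (nat_lit 0)],
  [],
  []],
  [[],
  [],
  [],
  [],
  [.ofNat (nat_lit 7995233473669665792), .negSucc (nat_lit 38410200227848826879), .ofNat (nat_lit 0)],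
  [],
  []],
  [[],
  [],
  [],
  [],
  [],
  [.ofNat (nat_lit 31812571508018706432), .negSucc (nat_lit 60984986975208414719), .ofNat (nat_lit 0)],
  []],
  [[],
  [],
  [],
  [],
  [],
  [],
  [.negSucc (nat_lit 12887156059983043775), .ofNat (nat_lit 13933340246807850240), .ofNat (nat_lit 0)]],
  [[],
  [],
  [],
  [],
  [],
  [],
  [.negSucc (nat_lit 11745084761288296703), .ofNat (nat_lit 18577786995743800320), .ofNat (nat_lit 0)]]],
  [],
  [],
  [],
  [],
  [],
  []],
  [[],
  [],
  [],
  [],
  [[[.ofNat (nat_lit 2463525369036140544), .ofNat (nat_lit 115469217919701107712), .negSucc (nat_lit 76699788343955785727)],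
  [],
  [],
  [],
  [],
  [],
  []],
  [[.negSucc (nat_lit 206645793212683496447), .ofNat (nat_lit 250640650585743132672), .ofNat (nat_lit 0)],
  [],
  [],
  [],
  [],
  [],
  []],
  [[],
  [.negSucc (nat_lit 146093077659414458879), .ofNat (nat_lit 5725621352815755264), .ofNat (nat_lit 0)],
  [],
  [],
  [],
  [],
  []],
  [[],
  [],
  [.ofNat (nat_lit 292077134090408467584), .negSucc (nat_lit 227944502104528806911), .ofNat (nat_lit 0)],
  [],
  [],
  [],
  []],
  [[],
  [],
  [],
  [.ofNat (nat_lit 14887101169000094976), .ofNat (nat_lit 156508777375442896896), .ofNat (nat_lit 0)],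
  [],
  [],
  []],
  [[],
  [],
  [],
  [],
  [.negSucc (nat_lit 188041565712637673855), .ofNat (nat_lit 23264335749489207552), .ofNat (nat_lit 0)],
  [],
  []],
  [[],
  [],
  [],
  [],
  [.ofNat (nat_lit 150172042523120964864), .negSucc (nat_lit 28833354298428171263), .ofNat (nat_lit 0)],
  [],
  []],
  [[],
  [],
  [],
  [],
  [],
  [.ofNat (nat_lit 9932276172714266304), .negSucc (nat_lit 100858146734877465599), .ofNat (nat_lit 0)],
  []],
  [[],
  [],
  [],
  [],
  [],
  [],
  [.ofNat (nat_lit 2475548930598104448), .ofNat (nat_lit 13933340246807850240), .ofNat (nat_lit 0)]],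
  [[],
  [],
  [],
  [],
  [],
  [],
  [.negSucc (nat_lit 101048358226642410239), .ofNat (nat_lit 18577786995743800320), .ofNat (nat_lit 0)]]],
  [],
  [],
  [],
  [],
  []],
  [[],
  [],
  [],
  [],
  [],
  [[[.negSucc (nat_lit 6185720213060751359), .ofNat (nat_lit 9219081123087270912), .ofNat (nat_lit 9531732244712076288)],
  [],
  [],
  [],
  [],
  [],
  []],
  [[.ofNat (nat_lit 114551585503331913216), .negSucc (nat_lit 23286702447349512191), .ofNat (nat_lit 0)],
  [],
  [],
  [],
  [],
  [],
  []],
  [[],
  [.negSucc (nat_lit 243351094350007657727), .ofNat (nat_lit 92586611727061221888), .ofNat (nat_lit 0)],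
  [],
  [],
  [],
  [],
  []],
  [[],
  [],
  [.negSucc (nat_lit 117914180606077669055), .negSucc (nat_lit 81854544159968200703), .ofNat (nat_lit 0)],
  [],
  [],
  [],
  []],
  [[],
  [],
  [],
  [.ofNat (nat_lit 188041565712637673856), .negSucc (nat_lit 23264335749489207551), .ofNat (nat_lit 0)],
  [],
  [],
  []],
  [[],
  [],
  [],
  [],
  [.ofNat (nat_lit 43608675584778782688), .ofNat (nat_lit 47792090830290347520), .ofNat (nat_lit 0)],
  [],
  []],
  [[],
  [],
  [],
  [],
  [.ofNat (nat_lit 768874854291989760), .ofNat (nat_lit 37954426075317374976), .ofNat (nat_lit 0)],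
  [],
  []],
  [[],
  [],
  [],
  [],
  [],
  [.ofNat (nat_lit 78480848066352639264), .negSucc (nat_lit 44940695330026990079), .ofNat (nat_lit 0)],
  []],
  [[],
  [],
  [],
  [],
  [],
  [],
  [.negSucc (nat_lit 21672378905997396383), .ofNat (nat_lit 5108891423829545088), .ofNat (nat_lit 0)]],
  [[],
  [],
  [],
  [],
  [],
  [],
  [.ofNat (nat_lit 13177635584032098432), .negSucc (nat_lit 1857778699574380031), .ofNat (nat_lit 0)]]],
  [[[.negSucc (nat_lit 6063970762611210239), .negSucc (nat_lit 37901361191136362495), .ofNat (nat_lit 24353156877200713728)],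
  [],
  [],
  [],
  [],
  [],
  []],
  [[.ofNat (nat_lit 61559758297341038592), .negSucc (nat_lit 50528396126439364607), .ofNat (nat_lit 0)],
  [],
  [],
  [],
  [],
  [],
  []],
  [[],
  [.ofNat (nat_lit 90244157701167134208), .negSucc (nat_lit 17506551360875710463), .ofNat (nat_lit 0)],
  [],
  [],
  [],
  [],
  []],
  [[],
  [],
  [.ofNat (nat_lit 7995233473669665792), .negSucc (nat_lit 38410200227848826879), .ofNat (nat_lit 0)],
  [],
  [],
  [],
  []],
  [[],
  [],
  [],
  [.negSucc (nat_lit 150172042523120964863), .ofNat (nat_lit 28833354298428171264), .ofNat (nat_lit 0)],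
  [],
  [],
  []],
  [[],
  [],
  [],
  [],
  [.ofNat (nat_lit 768874854291989760), .ofNat (nat_lit 37954426075317374976), .ofNat (nat_lit 0)],
  [],
  []],
  [[],
  [],
  [],
  [],
  [.negSucc (nat_lit 59859790149010116095), .negSucc (nat_lit 3195408335319097343), .ofNat (nat_lit 0)],
  [],
  []],
  [[],
  [],
  [],
  [],
  [],
  [.ofNat (nat_lit 112171040479573778304), .negSucc (nat_lit 23965562514893230079), .ofNat (nat_lit 0)],
  []],
  [[],
  [],
  [],
  [],
  [],
  [],
  [.ofNat (nat_lit 24640179591905760384), .negSucc (nat_lit 1857778699574380031), .ofNat (nat_lit 0)]],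
  [[],
  [],
  [],
  [],
  [],
  [],
  [.negSucc (nat_lit 25774405828525011455), .ofNat (nat_lit 7431114798297520128), .ofNat (nat_lit 0)]]],
  [],
  [],
  []],
  [[],
  [],
  [],
  [],
  [],
  [],
  [],
  [[[.ofNat (nat_lit 3115583889598384128), .negSucc (nat_lit 43098559868910422015), .ofNat (nat_lit 29275327278912199680)],
  [],
  [],
  [],
  [],
  [],
  []],
  [[.ofNat (nat_lit 64327061738294189568), .negSucc (nat_lit 79009706732125197311), .ofNat (nat_lit 0)],
  [],
  [],
  [],
  [],
  [],
  []],
  [[],
  [.ofNat (nat_lit 79994820018379223808), .ofNat (nat_lit 21217150479170672640), .ofNat (nat_lit 0)],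
  [],
  [],
  [],
  [],
  []],
  [[],
  [],
  [.negSucc (nat_lit 31812571508018706431), .ofNat (nat_lit 60984986975208414720), .ofNat (nat_lit 0)],
  [],
  [],
  [],
  []],
  [[],
  [],
  [],
  [.ofNat (nat_lit 9932276172714266304), .negSucc (nat_lit 100858146734877465599), .ofNat (nat_lit 0)],
  [],
  [],
  []],
  [[],
  [],
  [],
  [],
  [.negSucc (nat_lit 78480848066352639263), .ofNat (nat_lit 44940695330026990080), .ofNat (nat_lit 0)],
  [],
  []],
  [[],
  [],
  [],
  [],
  [.negSucc (nat_lit 112171040479573778303), .ofNat (nat_lit 23965562514893230080), .ofNat (nat_lit 0)],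
  [],
  []],
  [[],
  [],
  [],
  [],
  [],
  [.ofNat (nat_lit 15379758366261901344), .negSucc (nat_lit 18422972104112601983), .ofNat (nat_lit 0)],
  []],
  [[],
  [],
  [],
  [],
  [],
  [],
  [.negSucc (nat_lit 11383669395222251903), .ofNat (nat_lit 1393334024680785024), .ofNat (nat_lit 0)]],
  [[],
  [],
  [],
  [],
  [],
  [],
  [.ofNat (nat_lit 64419812236225928448), .ofNat (nat_lit 3715557399148760064), .ofNat (nat_lit 0)]]],
  [],
  []],
  [[],
  [],
  [],
  [],
  [],
  [],
  [],
  [],
  [[[.ofNat (nat_lit 0), .ofNat (nat_lit 16112629088147202048), .negSucc (nat_lit 13279132814490611711)],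
  [],
  [],
  [],
  [],
  [],
  []],
  [[.negSucc (nat_lit 27412573508372878847), .ofNat (nat_lit 18852468913213751808), .ofNat (nat_lit 0)],
  [],
  [],
  [],
  [],
  [],
  []],
  [[],
  [.ofNat (nat_lit 33899833260677030400), .negSucc (nat_lit 16720008296169420287), .ofNat (nat_lit 0)],
  [],
  [],
  [],
  [],
  []],
  [[],
  [],
  [.negSucc (nat_lit 12887156059983043775), .ofNat (nat_lit 13933340246807850240), .ofNat (nat_lit 0)],
  [],
  [],
  [],
  []],
  [[],
  [],
  [],
  [.negSucc (nat_lit 2475548930598104447), .negSucc (nat_lit 13933340246807850239), .ofNat (nat_lit 0)],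
  [],
  [],
  []],
  [[],
  [],
  [],
  [],
  [.negSucc (nat_lit 21672378905997396383), .ofNat (nat_lit 5108891423829545088), .ofNat (nat_lit 0)],
  [],
  []],
  [[],
  [],
  [],
  [],
  [.ofNat (nat_lit 24640179591905760384), .negSucc (nat_lit 1857778699574380031), .ofNat (nat_lit 0)],
  [],
  []],
  [[],
  [],
  [],
  [],
  [],
  [.ofNat (nat_lit 11383669395222251904), .negSucc (nat_lit 1393334024680785023), .ofNat (nat_lit 0)],
  []],
  [[],
  [],
  [],
  [],
  [],
  [],
  [.ofNat (nat_lit 30184646107935499704), .ofNat (nat_lit 0), .ofNat (nat_lit 0)]],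
  [[],
  [],
  [],
  [],
  [],
  [],
  [.negSucc (nat_lit 25167928333412944511), .ofNat (nat_lit 0), .ofNat (nat_lit 0)]]],
  [[[.ofNat (nat_lit 0), .ofNat (nat_lit 9141581396911647744), .negSucc (nat_lit 7253964231169370111)],
  [],
  [],
  [],
  [],
  [],
  []],
  [[.negSucc (nat_lit 37805495837584555007), .ofNat (nat_lit 22116193827764410368), .ofNat (nat_lit 0)],
  [],
  [],
  [],
  [],
  [],
  []],
  [[],
  [.negSucc (nat_lit 16752506670580732415), .negSucc (nat_lit 7431114798297520127), .ofNat (nat_lit 0)],
  [],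
  [],
  [],
  [],
  []],
  [[],
  [],
  [.negSucc (nat_lit 11745084761288296703), .ofNat (nat_lit 18577786995743800320), .ofNat (nat_lit 0)],
  [],
  [],
  [],
  []],
  [[],
  [],
  [],
  [.ofNat (nat_lit 101048358226642410240), .negSucc (nat_lit 18577786995743800319), .ofNat (nat_lit 0)],
  [],
  [],
  []],
  [[],
  [],
  [],
  [],
  [.ofNat (nat_lit 13177635584032098432), .negSucc (nat_lit 1857778699574380031), .ofNat (nat_lit 0)],
  [],
  []],
  [[],
  [],
  [],
  [],
  [.negSucc (nat_lit 25774405828525011455), .ofNat (nat_lit 7431114798297520128), .ofNat (nat_lit 0)],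
  [],
  []],
  [[],
  [],
  [],
  [],
  [],
  [.negSucc (nat_lit 64419812236225928447), .negSucc (nat_lit 3715557399148760063), .ofNat (nat_lit 0)],
  []],
  [[],
  [],
  [],
  [],
  [],
  [],
  [.negSucc (nat_lit 25167928333412944511), .ofNat (nat_lit 0), .ofNat (nat_lit 0)]],
  [[],
  [],
  [],
  [],
  [],
  [],
  [.ofNat (nat_lit 42582001365938783232), .ofNat (nat_lit 0), .ofNat (nat_lit 0)]]]]],
  [[[[[.negSucc (nat_lit 15080610261878360063), .ofNat (nat_lit 27048321451036486656), .ofNat (nat_lit 3191166506310958080)],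
  [],
  [],
  [],
  [],
  [],
  []],
  [[.ofNat (nat_lit 7526945768761635840), .negSucc (nat_lit 6887653452730183679), .ofNat (nat_lit 0)],
  [],
  [],
  [],
  [],
  [],
  []],
  [[],
  [.negSucc (nat_lit 9728808191716045823), .ofNat (nat_lit 24170834674802718720), .ofNat (nat_lit 0)],
  [],
  [],
  [],
  [],
  []],
  [[],
  [],
  [.negSucc (nat_lit 14258624286312972287), .ofNat (nat_lit 7945758256101202944), .ofNat (nat_lit 0)],
  [],
  [],
  [],
  []],
  [[],
  [],
  [],
  [.ofNat (nat_lit 1231762684518070272), .negSucc (nat_lit 6132615108409810943), .ofNat (nat_lit 0)],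
  [],
  [],
  []],
  [[],
  [],
  [],
  [],
  [.ofNat (nat_lit 3092860106530375680), .negSucc (nat_lit 2035844181583958015), .ofNat (nat_lit 0)],
  [],
  []],
  [[],
  [],
  [],
  [],
  [.ofNat (nat_lit 3031985381305605120), .negSucc (nat_lit 3590298725805729791), .ofNat (nat_lit 0)],
  [],
  []],
  [[],
  [],
  [],
  [],
  [],
  [.ofNat (nat_lit 1557791944799192064), .negSucc (nat_lit 1030852045498401791), .ofNat (nat_lit 0)],
  []],
  [[],
  [],
  [],
  [],
  [],
  [],
  []],
  [[],
  [],
  [],
  [],
  [],
  [],
  []]],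
  [],
  [],
  [],
  [],
  [],
  [],
  [],
  [],
  []],
  [[],
  [],
  [],
  [],
  [],
  [],
  [],
  [],
  [],
  []],
  [[],
  [[[.ofNat (nat_lit 0), .negSucc (nat_lit 49389056457515652095), .negSucc (nat_lit 4077763751364996095)],
  [],
  [],
  [],
  [],
  [],
  []],
  [[.ofNat (nat_lit 13303797504003675648), .negSucc (nat_lit 34803463775428735487), .ofNat (nat_lit 0)],
  [],
  [],
  [],
  [],
  [],
  []],
  [[],
  [.ofNat (nat_lit 107622345225288757248), .negSucc (nat_lit 132522484428871437311), .ofNat (nat_lit 0)],
  [],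
  [],
  [],
  [],
  []],
  [[],
  [],
  [.ofNat (nat_lit 69708416817280391424), .ofNat (nat_lit 14868139870939617792), .ofNat (nat_lit 0)],
  [],
  [],
  [],
  []],
  [[],
  [],
  [],
  [.negSucc (nat_lit 148778095528103837183), .ofNat (nat_lit 148555216748869346304), .ofNat (nat_lit 0)],
  [],
  [],
  []],
  [[],
  [],
  [],
  [],
  [.negSucc (nat_lit 39388887014238656639), .ofNat (nat_lit 8217100924356296448), .ofNat (nat_lit 0)],
  [],
  []],
  [[],
  [],
  [],
  [],
  [.negSucc (nat_lit 46783897760708563967), .ofNat (nat_lit 33447428635440310272), .ofNat (nat_lit 0)],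
  [],
  []],
  [[],
  [],
  [],
  [],
  [],
  [.ofNat (nat_lit 44208120840960600576), .negSucc (nat_lit 40971270439327915007), .ofNat (nat_lit 0)],
  []],
  [[],
  [],
  [],
  [],
  [],
  [],
  [.ofNat (nat_lit 7010063751596364288), .negSucc (nat_lit 4638834204742808063), .ofNat (nat_lit 0)]],
  [[],
  [],
  [],
  [],
  [],
  [],
  [.ofNat (nat_lit 18693503337590304768), .negSucc (nat_lit 12370224545980821503), .ofNat (nat_lit 0)]]],
  [],
  [],
  [],
  [],
  [],
  [],
  [],
  []],
  [[],
  [],
  [[[.ofNat (nat_lit 0), .negSucc (nat_lit 64876206017262587903), .ofNat (nat_lit 73427300102567605248)],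
  [],
  [],
  [],
  [],
  [],
  []],
  [[.negSucc (nat_lit 42746139208026169343), .ofNat (nat_lit 59095184326303832064), .ofNat (nat_lit 0)],
  [],
  [],
  [],
  [],
  [],
  []],
  [[],
  [.negSucc (nat_lit 71714356181858704895), .ofNat (nat_lit 38817905909343759360), .ofNat (nat_lit 0)],
  [],
  [],
  [],
  [],
  []],
  [[],
  [],
  [.ofNat (nat_lit 221333639994274295808), .negSucc (nat_lit 156779402116351666175), .ofNat (nat_lit 0)],
  [],
  [],
  [],
  []],
  [[],
  [],
  [],
  [.ofNat (nat_lit 81984251499549320448), .negSucc (nat_lit 18596542316701201919), .ofNat (nat_lit 0)],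
  [],
  [],
  []],
  [[],
  [],
  [],
  [],
  [.negSucc (nat_lit 131791914301455060479), .ofNat (nat_lit 69064215347435936256), .ofNat (nat_lit 0)],
  [],
  []],
  [[],
  [],
  [],
  [],
  [.ofNat (nat_lit 18519009697025491968), .negSucc (nat_lit 13795379543138365439), .ofNat (nat_lit 0)],
  [],
  []],
  [[],
  [],
  [],
  [],
  [],
  [.ofNat (nat_lit 509152763636138880), .negSucc (nat_lit 20963470997547475199), .ofNat (nat_lit 0)],
  []],
  [[],
  [],
  [],
  [],
  [],
  [],
  [.ofNat (nat_lit 21030191254789092864), .negSucc (nat_lit 13916502614228424191), .ofNat (nat_lit 0)]],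
  [[],
  [],
  [],
  [],
  [],
  [],
  [.ofNat (nat_lit 9346751668795152384), .negSucc (nat_lit 6185112272990410751), .ofNat (nat_lit 0)]]],
  [],
  [],
  [],
  [],
  [],
  [],
  []],
  [[],
  [],
  [],
  [[[.ofNat (nat_lit 0), .ofNat (nat_lit 185684932559280162816), .negSucc (nat_lit 108844558745941463039)],
  [],
  [],
  [],
  [],
  [],
  []],
  [[.negSucc (nat_lit 115976515741999771391), .ofNat (nat_lit 123712698616881080832), .ofNat (nat_lit 0)],
  [],
  [],
  [],
  [],
  [],
  []],
  [[],
  [.negSucc (nat_lit 221333639994274295807), .ofNat (nat_lit 156779402116351666176), .ofNat (nat_lit 0)],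
  [],
  [],
  [],
  [],
  []],
  [[],
  [],
  [.negSucc (nat_lit 8742940983241615871), .negSucc (nat_lit 104736017247594810623), .ofNat (nat_lit 0)],
  [],
  [],
  [],
  []],
  [[],
  [],
  [],
  [.ofNat (nat_lit 348731816097870494208), .negSucc (nat_lit 203990293879037208575), .ofNat (nat_lit 0)],
  [],
  [],
  []],
  [[],
  [],
  [],
  [],
  [.negSucc (nat_lit 72062731913937868223), .ofNat (nat_lit 75009367293245380224), .ofNat (nat_lit 0)],
  [],
  []],
  [[],
  [],
  [],
  [],
  [.negSucc (nat_lit 22058176867751784959), .ofNat (nat_lit 26151443161157606400), .ofNat (nat_lit 0)],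
  [],
  []],
  [[],
  [],
  [],
  [],
  [],
  [.negSucc (nat_lit 96396283347127585919), .ofNat (nat_lit 55123190927765925120), .ofNat (nat_lit 0)],
  []],
  [[],
  [],
  [],
  [],
  [],
  [],
  [.ofNat (nat_lit 17525159378990910720), .negSucc (nat_lit 11597085511857020159), .ofNat (nat_lit 0)]],
  [[],
  [],
  [],
  [],
  [],
  [],
  [.ofNat (nat_lit 23366879171987880960), .negSucc (nat_lit 15462780682476026879), .ofNat (nat_lit 0)]]],
  [],
  [],
  [],
  [],
  [],
  []],
  [[],
  [],
  [],
  [],
  [[[.ofNat (nat_lit 0), .negSucc (nat_lit 82827719670426845183), .ofNat (nat_lit 39968223031569641472)],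
  [],
  [],
  [],
  [],
  [],
  []],
  [[.ofNat (nat_lit 231605815198530682368), .negSucc (nat_lit 188523439780438987775), .ofNat (nat_lit 0)],
  [],
  [],
  [],
  [],
  [],
  []],
  [[],
  [.ofNat (nat_lit 81984251499549320448), .negSucc (nat_lit 18596542316701201919), .ofNat (nat_lit 0)],
  [],
  [],
  [],
  [],
  []],
  [[],
  [],
  [.negSucc (nat_lit 348731816097870494207), .ofNat (nat_lit 203990293879037208576), .ofNat (nat_lit 0)],
  [],
  [],
  [],
  []],
  [[],
  [],
  [],
  [.ofNat (nat_lit 156497027620778790912), .negSucc (nat_lit 106094976692445480959), .ofNat (nat_lit 0)],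
  [],
  [],
  []],
  [[],
  [],
  [],
  [],
  [.ofNat (nat_lit 75151631453525474688), .negSucc (nat_lit 13565287209023456255), .ofNat (nat_lit 0)],
  [],
  []],
  [[],
  [],
  [],
  [],
  [.negSucc (nat_lit 27383611222711604735), .ofNat (nat_lit 19040473171829993472), .ofNat (nat_lit 0)],
  [],
  []],
  [[],
  [],
  [],
  [],
  [],
  [.negSucc (nat_lit 139946698650109216319), .ofNat (nat_lit 82294948596082423680), .ofNat (nat_lit 0)],
  []],
  [[],
  [],
  [],
  [],
  [],
  [],
  [.ofNat (nat_lit 17525159378990910720), .negSucc (nat_lit 11597085511857020159), .ofNat (nat_lit 0)]],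
  [[],
  [],
  [],
  [],
  [],
  [],
  [.ofNat (nat_lit 23366879171987880960), .negSucc (nat_lit 15462780682476026879), .ofNat (nat_lit 0)]]],
  [],
  [],
  [],
  [],
  []],
  [[],
  [],
  [],
  [],
  [],
  [[[.ofNat (nat_lit 0), .negSucc (nat_lit 114390641202806725631), .ofNat (nat_lit 57109515622427483136)],
  [],
  [],
  [],
  [],
  [],
  []],
  [[.ofNat (nat_lit 75001754188568068992), .negSucc (nat_lit 48892414698071186687), .ofNat (nat_lit 0)],
  [],
  [],
  [],
  [],
  [],
  []],
  [[],
  [.ofNat (nat_lit 131791914301455060480), .negSucc (nat_lit 69064215347435936255), .ofNat (nat_lit 0)],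
  [],
  [],
  [],
  [],
  []],
  [[],
  [],
  [.negSucc (nat_lit 72062731913937868223), .ofNat (nat_lit 75009367293245380224), .ofNat (nat_lit 0)],
  [],
  [],
  [],
  []],
  [[],
  [],
  [],
  [.negSucc (nat_lit 75151631453525474687), .ofNat (nat_lit 13565287209023456256), .ofNat (nat_lit 0)],
  [],
  [],
  []],
  [[],
  [],
  [],
  [],
  [.ofNat (nat_lit 69804439528000783104), .negSucc (nat_lit 41956972271172239615), .ofNat (nat_lit 0)],
  [],
  []],
  [[],
  [],
  [],
  [],
  [.ofNat (nat_lit 47912552116111753344), .negSucc (nat_lit 31507626069724739327), .ofNat (nat_lit 0)],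
  [],
  []],
  [[],
  [],
  [],
  [],
  [],
  [.negSucc (nat_lit 58502412116474734079), .ofNat (nat_lit 38753926366488238080), .ofNat (nat_lit 0)],
  []],
  [[],
  [],
  [],
  [],
  [],
  [],
  [.ofNat (nat_lit 6425891772296667264), .negSucc (nat_lit 4252264687680907391), .ofNat (nat_lit 0)]],
  [[],
  [],
  [],
  [],
  [],
  [],
  [.negSucc (nat_lit 2336687917198788095), .ofNat (nat_lit 1546278068247602688), .ofNat (nat_lit 0)]]],
  [[[.ofNat (nat_lit 0), .ofNat (nat_lit 51201381791975639040), .negSucc (nat_lit 16131827613912367103)],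
  [],
  [],
  [],
  [],
  [],
  []],
  [[.negSucc (nat_lit 97985279552684203007), .ofNat (nat_lit 49579256249352677376), .ofNat (nat_lit 0)],
  [],
  [],
  [],
  [],
  [],
  []],
  [[],
  [.negSucc (nat_lit 18519009697025491967), .ofNat (nat_lit 13795379543138365440), .ofNat (nat_lit 0)],
  [],
  [],
  [],
  [],
  []],
  [[],
  [],
  [.negSucc (nat_lit 22058176867751784959), .ofNat (nat_lit 26151443161157606400), .ofNat (nat_lit 0)],
  [],
  [],
  [],
  []],
  [[],
  [],
  [],
  [.ofNat (nat_lit 27383611222711604736), .negSucc (nat_lit 19040473171829993471), .ofNat (nat_lit 0)],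
  [],
  [],
  []],
  [[],
  [],
  [],
  [],
  [.ofNat (nat_lit 47912552116111753344), .negSucc (nat_lit 31507626069724739327), .ofNat (nat_lit 0)],
  [],
  []],
  [[],
  [],
  [],
  [],
  [.negSucc (nat_lit 4715175088543965695), .ofNat (nat_lit 2328258819090742272), .ofNat (nat_lit 0)],
  [],
  []],
  [[],
  [],
  [],
  [],
  [],
  [.negSucc (nat_lit 35363813164079742719), .ofNat (nat_lit 17461941143180567040), .ofNat (nat_lit 0)],
  []],
  [[],
  [],
  [],
  [],
  [],
  [],
  [.negSucc (nat_lit 2336687917198788095), .ofNat (nat_lit 1546278068247602688), .ofNat (nat_lit 0)]],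
  [[],
  [],
  [],
  [],
  [],
  [],
  [.ofNat (nat_lit 9346751668795152384), .negSucc (nat_lit 6185112272990410751), .ofNat (nat_lit 0)]]],
  [],
  [],
  []],
  [[],
  [],
  [],
  [],
  [],
  [],
  [],
  [[[.ofNat (nat_lit 0), .ofNat (nat_lit 85259511596379534336), .negSucc (nat_lit 42606916927413534719)],
  [],
  [],
  [],
  [],
  [],
  []],
  [[.negSucc (nat_lit 129467632437340134911), .ofNat (nat_lit 83578187366741449728), .ofNat (nat_lit 0)],
  [],
  [],
  [],
  [],
  [],
  []],
  [[],
  [.ofNat (nat_lit 509152763636138880), .negSucc (nat_lit 20963470997547475199), .ofNat (nat_lit 0)],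
  [],
  [],
  [],
  [],
  []],
  [[],
  [],
  [.ofNat (nat_lit 96396283347127585920), .negSucc (nat_lit 55123190927765925119), .ofNat (nat_lit 0)],
  [],
  [],
  [],
  []],
  [[],
  [],
  [],
  [.negSucc (nat_lit 139946698650109216319), .ofNat (nat_lit 82294948596082423680), .ofNat (nat_lit 0)],
  [],
  [],
  []],
  [[],
  [],
  [],
  [],
  [.ofNat (nat_lit 58502412116474734080), .negSucc (nat_lit 38753926366488238079), .ofNat (nat_lit 0)],
  [],
  []],
  [[],
  [],
  [],
  [],
  [.ofNat (nat_lit 35363813164079742720), .negSucc (nat_lit 17461941143180567039), .ofNat (nat_lit 0)],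
  [],
  []],
  [[],
  [],
  [],
  [],
  [],
  [.negSucc (nat_lit 23172155178887981951), .ofNat (nat_lit 15333924176788726656), .ofNat (nat_lit 0)],
  []],
  [[],
  [],
  [],
  [],
  [],
  [],
  [.ofNat (nat_lit 1752515937899091072), .negSucc (nat_lit 1159708551185702015), .ofNat (nat_lit 0)]],
  [[],
  [],
  [],
  [],
  [],
  [],
  [.ofNat (nat_lit 4673375834397576192), .negSucc (nat_lit 3092556136495205375), .ofNat (nat_lit 0)]]],
  [],
  []],
  [[],
  [],
  [],
  [],
  [],
  [],
  [],
  [],
  [[[.ofNat (nat_lit 0), .ofNat (nat_lit 12882236991335626752), .negSucc (nat_lit 5887428499884506111)],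
  [],
  [],
  [],
  [],
  [],
  []],
  [[.negSucc (nat_lit 5872173239739262463), .ofNat (nat_lit 1248594295141698048), .ofNat (nat_lit 0)],
  [],
  [],
  [],
  [],
  [],
  []],
  [[],
  [.negSucc (nat_lit 21030191254789092863), .ofNat (nat_lit 13916502614228424192), .ofNat (nat_lit 0)],
  [],
  [],
  [],
  [],
  []],
  [[],
  [],
  [.ofNat (nat_lit 17525159378990910720), .negSucc (nat_lit 11597085511857020159), .ofNat (nat_lit 0)],
  [],
  [],
  [],
  []],
  [[],
  [],
  [],
  [.negSucc (nat_lit 17525159378990910719), .ofNat (nat_lit 11597085511857020160), .ofNat (nat_lit 0)],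
  [],
  [],
  []],
  [[],
  [],
  [],
  [],
  [.ofNat (nat_lit 6425891772296667264), .negSucc (nat_lit 4252264687680907391), .ofNat (nat_lit 0)],
  [],
  []],
  [[],
  [],
  [],
  [],
  [.negSucc (nat_lit 2336687917198788095), .ofNat (nat_lit 1546278068247602688), .ofNat (nat_lit 0)],
  [],
  []],
  [[],
  [],
  [],
  [],
  [],
  [.negSucc (nat_lit 1752515937899091071), .ofNat (nat_lit 1159708551185702016), .ofNat (nat_lit 0)],
  []],
  [[],
  [],
  [],
  [],
  [],
  [],
  []],
  [[],
  [],
  [],
  [],
  [],
  [],
  []]],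
  [[[.ofNat (nat_lit 0), .negSucc (nat_lit 50825560138537826303), .ofNat (nat_lit 26278622100611601408)],
  [],
  [],
  [],
  [],
  [],
  []],
  [[.ofNat (nat_lit 69519063476128131072), .negSucc (nat_lit 38648846646592422911), .ofNat (nat_lit 0)],
  [],
  [],
  [],
  [],
  [],
  []],
  [[],
  [.negSucc (nat_lit 9346751668795152383), .ofNat (nat_lit 6185112272990410752), .ofNat (nat_lit 0)],
  [],
  [],
  [],
  [],
  []],
  [[],
  [],
  [.ofNat (nat_lit 23366879171987880960), .negSucc (nat_lit 15462780682476026879), .ofNat (nat_lit 0)],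
  [],
  [],
  [],
  []],
  [[],
  [],
  [],
  [.negSucc (nat_lit 23366879171987880959), .ofNat (nat_lit 15462780682476026880), .ofNat (nat_lit 0)],
  [],
  [],
  []],
  [[],
  [],
  [],
  [],
  [.negSucc (nat_lit 2336687917198788095), .ofNat (nat_lit 1546278068247602688), .ofNat (nat_lit 0)],
  [],
  []],
  [[],
  [],
  [],
  [],
  [.ofNat (nat_lit 9346751668795152384), .negSucc (nat_lit 6185112272990410751), .ofNat (nat_lit 0)],
  [],
  []],
  [[],
  [],
  [],
  [],
  [],
  [.negSucc (nat_lit 4673375834397576191), .ofNat (nat_lit 3092556136495205376), .ofNat (nat_lit 0)],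
  []],
  [[],
  [],
  [],
  [],
  [],
  [],
  []],
  [[],
  [],
  [],
  [],
  [],
  [],
  []]]]]]

noncomputable def BR6b_E : L5 := [[[[[]],
  [[]],
  [[]]],
  [[[.negSucc (nat_lit 787558502113397855), .ofNat (nat_lit 1967381065236422304), .ofNat (nat_lit 0)]],
  [[.ofNat (nat_lit 8908704945393120), .ofNat (nat_lit 0), .ofNat (nat_lit 0)]],
  [[]]],
  [[[.ofNat (nat_lit 4223334696010602048), .negSucc (nat_lit 13120856885699104319), .ofNat (nat_lit 0)]],
  [[.negSucc (nat_lit 832566339453852575), .ofNat (nat_lit 0), .ofNat (nat_lit 0)]],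
  [[]]],
  [[[.negSucc (nat_lit 9153588234911654015), .ofNat (nat_lit 37283171694043671936), .ofNat (nat_lit 0)]],
  [[.ofNat (nat_lit 5126015174858726688), .ofNat (nat_lit 0), .ofNat (nat_lit 0)]],
  [[]]],
  [[[.ofNat (nat_lit 10494188781128200224), .negSucc (nat_lit 58703849202343363775), .ofNat (nat_lit 0)]],
  [[.negSucc (nat_lit 12970906321249138751), .ofNat (nat_lit 0), .ofNat (nat_lit 0)]],
  [[]]],
  [[[.negSucc (nat_lit 8139464979460729055), .ofNat (nat_lit 56379191469608927232), .ofNat (nat_lit 0)]],
  [[.ofNat (nat_lit 16555653246374310816), .ofNat (nat_lit 0), .ofNat (nat_lit 0)]],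
  [[]]],
  [[[.ofNat (nat_lit 5493678469642001952), .negSucc (nat_lit 33561665073796694687), .ofNat (nat_lit 0)]],
  [[.negSucc (nat_lit 10722145614655773887), .ofNat (nat_lit 0), .ofNat (nat_lit 0)]],
  [[]]],
  [[[.negSucc (nat_lit 2604874612126174847), .ofNat (nat_lit 11338767935461372896), .ofNat (nat_lit 0)]],
  [[.ofNat (nat_lit 2963918002996900512), .ofNat (nat_lit 0), .ofNat (nat_lit 0)]],
  [[]]],
  [[[.ofNat (nat_lit 474284381831151552), .negSucc (nat_lit 1582141002511231583), .ofNat (nat_lit 0)]],
  [[.negSucc (nat_lit 128876853816565919), .ofNat (nat_lit 0), .ofNat (nat_lit 0)]],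
  [[]]]],
  [[[[]],
  [[]],
  [[]]],
  [[[.negSucc (nat_lit 76948221758275583), .ofNat (nat_lit 0), .ofNat (nat_lit 0)]],
  [[.negSucc (nat_lit 904063514377954751), .ofNat (nat_lit 176555524526112672), .ofNat (nat_lit 0)]],
  [[.ofNat (nat_lit 514824148963014048), .negSucc (nat_lit 115515217075600799), .ofNat (nat_lit 0)]]],
  [[[.ofNat (nat_lit 5325191521461849024), .negSucc (nat_lit 228920947630734239), .ofNat (nat_lit 0)]],
  [[.negSucc (nat_lit 602238065612373215), .negSucc (nat_lit 353111049052225343), .ofNat (nat_lit 0)]],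
  [[.negSucc (nat_lit 1029648297926028095), .ofNat (nat_lit 231030434151201600), .ofNat (nat_lit 0)]]],
  [[[.negSucc (nat_lit 23080472449307567423), .ofNat (nat_lit 2169704579147646048), .ofNat (nat_lit 0)]],
  [[.ofNat (nat_lit 15493017368144074752), .ofNat (nat_lit 176555524526112672), .ofNat (nat_lit 0)]],
  [[.ofNat (nat_lit 514824148963014048), .negSucc (nat_lit 115515217075600799), .ofNat (nat_lit 0)]]],
  [[[.ofNat (nat_lit 46789308493349816736), .negSucc (nat_lit 7169268924254234303), .ofNat (nat_lit 0)]],
  [[.negSucc (nat_lit 46184103369453013343), .ofNat (nat_lit 0), .ofNat (nat_lit 0)]],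
  [[]]],
  [[[.negSucc (nat_lit 51988410497056516991), .ofNat (nat_lit 9605833525103739264), .ofNat (nat_lit 0)]],
  [[.ofNat (nat_lit 66551917797667210464), .ofNat (nat_lit 0), .ofNat (nat_lit 0)]],
  [[]]],
  [[[.ofNat (nat_lit 30180804466461414048), .negSucc (nat_lit 5221828371093542207), .ofNat (nat_lit 0)]],
  [[.negSucc (nat_lit 51933464874849023423), .ofNat (nat_lit 0), .ofNat (nat_lit 0)]],
  [[]]],
  [[[.negSucc (nat_lit 7563760745077871999), .ofNat (nat_lit 828234653938979040), .ofNat (nat_lit 0)]],
  [[.ofNat (nat_lit 21424375988108017632), .ofNat (nat_lit 0), .ofNat (nat_lit 0)]],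
  [[]]],
  [[[.ofNat (nat_lit 414287431927152192), .ofNat (nat_lit 16245484788146400), .ofNat (nat_lit 0)]],
  [[.negSucc (nat_lit 3845441329626938111), .ofNat (nat_lit 0), .ofNat (nat_lit 0)]],
  [[]]]],
  [[[[]],
  [[]],
  [[]]],
  [[[.negSucc (nat_lit 339127622869563935), .negSucc (nat_lit 77451197324397983), .ofNat (nat_lit 0)]],
  [[.ofNat (nat_lit 143254002568702464), .ofNat (nat_lit 847806046773230592), .ofNat (nat_lit 0)]],
  [[.ofNat (nat_lit 304025255991126432), .negSucc (nat_lit 755338583587584959), .ofNat (nat_lit 0)]]],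
  [[[]],
  [[]],
  [[]]],
  [[[.ofNat (nat_lit 4362806078357070240), .negSucc (nat_lit 597144560523938207), .ofNat (nat_lit 0)]],
  [[.negSucc (nat_lit 8235979117790139647), .negSucc (nat_lit 2543418140319691775), .ofNat (nat_lit 0)]],
  [[.negSucc (nat_lit 912075767973379295), .ofNat (nat_lit 2266015750762754880), .ofNat (nat_lit 0)]]],
  [[[.negSucc (nat_lit 11086966421275148927), .negSucc (nat_lit 2642053630820510879), .ofNat (nat_lit 0)]],
  [[.ofNat (nat_lit 31119894466059890592), .ofNat (nat_lit 1695612093546461184), .ofNat (nat_lit 0)]],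
  [[.ofNat (nat_lit 608050511982252864), .negSucc (nat_lit 1510677167175169919), .ofNat (nat_lit 0)]]],
  [[[.ofNat (nat_lit 8246063733589709568), .ofNat (nat_lit 14191576209028910880), .ofNat (nat_lit 0)]],
  [[.negSucc (nat_lit 48578307339746472479), .ofNat (nat_lit 0), .ofNat (nat_lit 0)]],
  [[]]],
  [[[.ofNat (nat_lit 5822303813671269600), .negSucc (nat_lit 21659085051796267199), .ofNat (nat_lit 0)]],
  [[.ofNat (nat_lit 38601119506871050272), .ofNat (nat_lit 0), .ofNat (nat_lit 0)]],
  [[]]],
  [[[.negSucc (nat_lit 11475070174709475839), .ofNat (nat_lit 14839537183678322208), .ofNat (nat_lit 0)]],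
  [[.negSucc (nat_lit 15769777287772464479), .ofNat (nat_lit 0), .ofNat (nat_lit 0)]],
  [[]]],
  [[[.ofNat (nat_lit 4469990593236139296), .negSucc (nat_lit 4055378952242118815), .ofNat (nat_lit 0)]],
  [[.ofNat (nat_lit 2719795769809433280), .ofNat (nat_lit 0), .ofNat (nat_lit 0)]],
  [[]]]],
  [[[[]],
  [[]],
  [[]]],
  [[[.negSucc (nat_lit 523222967778503327), .ofNat (nat_lit 45618036665286240), .ofNat (nat_lit 0)]],
  [[.ofNat (nat_lit 821552842042809984), .negSucc (nat_lit 269686067479638047), .ofNat (nat_lit 0)]],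
  [[.negSucc (nat_lit 445582008947280383), .ofNat (nat_lit 248304945503162592), .ofNat (nat_lit 0)]]],
  [[[]],
  [[]],
  [[]]],
  [[[]],
  [[]],
  [[]]],
  [[[.negSucc (nat_lit 2111015879774078975), .ofNat (nat_lit 4878303270685409664), .ofNat (nat_lit 0)]],
  [[.negSucc (nat_lit 1625861872492676927), .ofNat (nat_lit 1078744269918552192), .ofNat (nat_lit 0)]],
  [[.ofNat (nat_lit 1782328035789121536), .negSucc (nat_lit 993219782012650367), .ofNat (nat_lit 0)]]],
  [[[.ofNat (nat_lit 11308203083427149088), .negSucc (nat_lit 15068288246271459839), .ofNat (nat_lit 0)]],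
  [[.negSucc (nat_lit 1001839965688479455), .negSucc (nat_lit 809058202438914143), .ofNat (nat_lit 0)]],
  [[.negSucc (nat_lit 1336746026841841151), .ofNat (nat_lit 744914836509487776), .ofNat (nat_lit 0)]]],
  [[[.negSucc (nat_lit 14483618010263277791), .ofNat (nat_lit 17237562600025171008), .ofNat (nat_lit 0)]],
  [[.ofNat (nat_lit 2360682433804531968), .ofNat (nat_lit 0), .ofNat (nat_lit 0)]],
  [[]]],
  [[[.ofNat (nat_lit 7149251063790947520), .negSucc (nat_lit 9102799800634604831), .ofNat (nat_lit 0)]],
  [[.negSucc (nat_lit 963267374872587743), .ofNat (nat_lit 0), .ofNat (nat_lit 0)]],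
  [[]]],
  [[[.negSucc (nat_lit 1339597289402236511), .ofNat (nat_lit 2009604139530197760), .ofNat (nat_lit 0)]],
  [[.ofNat (nat_lit 408733937206402176), .ofNat (nat_lit 0), .ofNat (nat_lit 0)]],
  [[]]]],
  [[[[]],
  [[]],
  [[]]],
  [[[.ofNat (nat_lit 542033179375504608), .ofNat (nat_lit 139585346926125984), .ofNat (nat_lit 0)]],
  [[.negSucc (nat_lit 374454734369307839), .negSucc (nat_lit 246397524916696703), .ofNat (nat_lit 0)]],
  [[.negSucc (nat_lit 38492583891189695), .ofNat (nat_lit 191644222137806592), .ofNat (nat_lit 0)]]],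
  [[[]],
  [[]],
  [[]]],
  [[[]],
  [[]],
  [[]]],
  [[[]],
  [[]],
  [[]]],
  [[[.negSucc (nat_lit 2460690136201420223), .negSucc (nat_lit 705331257015403583), .ofNat (nat_lit 0)]],
  [[.ofNat (nat_lit 1808513772265183104), .ofNat (nat_lit 1231987624583483520), .ofNat (nat_lit 0)]],
  [[.ofNat (nat_lit 192462919455948480), .negSucc (nat_lit 958221110689032959), .ofNat (nat_lit 0)]]],
  [[[.negSucc (nat_lit 3771666410868055871), .ofNat (nat_lit 3293574525599592384), .ofNat (nat_lit 0)]],
  [[.negSucc (nat_lit 908574566873978015), .negSucc (nat_lit 985590099666786815), .ofNat (nat_lit 0)]],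
  [[.negSucc (nat_lit 153970335564758783), .ofNat (nat_lit 766576888551226368), .ofNat (nat_lit 0)]]],
  [[[.ofNat (nat_lit 11131170974711840160), .negSucc (nat_lit 5448252708635855903), .ofNat (nat_lit 0)]],
  [[.negSucc (nat_lit 987209042462438399), .ofNat (nat_lit 0), .ofNat (nat_lit 0)]],
  [[]]],
  [[[.negSucc (nat_lit 5440847607017868671), .ofNat (nat_lit 2720424093125541120), .ofNat (nat_lit 0)]],
  [[.ofNat (nat_lit 461724571440541152), .ofNat (nat_lit 0), .ofNat (nat_lit 0)]],
  [[]]]],
  [[[[]],
  [[]],
  [[]]],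
  [[[.ofNat (nat_lit 159350054216034240), .negSucc (nat_lit 160445823211948031), .ofNat (nat_lit 0)]],
  [[.negSucc (nat_lit 232214478674698943), .ofNat (nat_lit 89938880476703424), .ofNat (nat_lit 0)]],
  [[.ofNat (nat_lit 96651878329074240), .negSucc (nat_lit 63620130674498687), .ofNat (nat_lit 0)]]],
  [[[]],
  [[]],
  [[]]],
  [[[]],
  [[]],
  [[]]],
  [[[]],
  [[]],
  [[]]],
  [[[]],
  [[]],
  [[]]],
  [[[.negSucc (nat_lit 321061732267633631), .ofNat (nat_lit 483320932793947008), .ofNat (nat_lit 0)]],
  [[.ofNat (nat_lit 1067047368915597408), .negSucc (nat_lit 539633282860220543), .ofNat (nat_lit 0)]],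
  [[.negSucc (nat_lit 579911269974445439), .ofNat (nat_lit 381720784046992128), .ofNat (nat_lit 0)]]],
  [[[.negSucc (nat_lit 473326914976972415), .ofNat (nat_lit 156478896895742208), .ofNat (nat_lit 0)]],
  [[.negSucc (nat_lit 508593387108302207), .ofNat (nat_lit 449694402383517120), .ofNat (nat_lit 0)]],
  [[.ofNat (nat_lit 483259391645371200), .negSucc (nat_lit 318100653372493439), .ofNat (nat_lit 0)]]],
  [[[.ofNat (nat_lit 635038593028571808), .negSucc (nat_lit 479354006477741183), .ofNat (nat_lit 0)]],
  [[.negSucc (nat_lit 326239503132596255), .ofNat (nat_lit 0), .ofNat (nat_lit 0)]],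
  [[]]]],
  [[[[]],
  [[]],
  [[]]],
  [[[.negSucc (nat_lit 223149449704910399), .negSucc (nat_lit 34919347027470335), .ofNat (nat_lit 0)]],
  [[.ofNat (nat_lit 96118025200204032), .ofNat (nat_lit 109916762304953088), .ofNat (nat_lit 0)]],
  [[.ofNat (nat_lit 94749543165800160), .negSucc (nat_lit 112196835181429055), .ofNat (nat_lit 0)]]],
  [[[]],
  [[]],
  [[]]],
  [[[]],
  [[]],
  [[]]],
  [[[]],
  [[]],
  [[]]],
  [[[]],
  [[]],
  [[]]],
  [[[.ofNat (nat_lit 5186062081070950752), .negSucc (nat_lit 1714064460174478079), .ofNat (nat_lit 0)]],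
  [[.negSucc (nat_lit 1538509577050370303), .negSucc (nat_lit 659500573829718527), .ofNat (nat_lit 0)]],
  [[.negSucc (nat_lit 568497258994800959), .ofNat (nat_lit 673181011088574336), .ofNat (nat_lit 0)]]],
  [[[.negSucc (nat_lit 8810078014207528703), .ofNat (nat_lit 3672564349541248512), .ofNat (nat_lit 0)]],
  [[.ofNat (nat_lit 2404192977699312384), .ofNat (nat_lit 549583811524765440), .ofNat (nat_lit 0)]],
  [[.ofNat (nat_lit 473747715829000800), .negSucc (nat_lit 560984175907145279), .ofNat (nat_lit 0)]]],
  [[[.ofNat (nat_lit 3847165382841488352), .negSucc (nat_lit 1923580542339300095), .ofNat (nat_lit 0)]],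
  [[.negSucc (nat_lit 961801425849146111), .ofNat (nat_lit 0), .ofNat (nat_lit 0)]],
  [[]]]],
  [[[[]],
  [[]],
  [[]]],
  [[[.negSucc (nat_lit 93432445981442495), .ofNat (nat_lit 85286741430677184), .ofNat (nat_lit 0)]],
  [[.ofNat (nat_lit 114720669932966784), .negSucc (nat_lit 38703722907799583), .ofNat (nat_lit 0)]],
  [[.negSucc (nat_lit 48680998274974751), .ofNat (nat_lit 32214126421825056), .ofNat (nat_lit 0)]]],
  [[[]],
  [[]],
  [[]]],
  [[[]],
  [[]],
  [[]]],
  [[[]],
  [[]],
  [[]]],
  [[[]],
  [[]],
  [[]]],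
  [[[]],
  [[]],
  [[]]],
  [[[.ofNat (nat_lit 654027121870097472), .negSucc (nat_lit 597007190014740287), .ofNat (nat_lit 0)]],
  [[.negSucc (nat_lit 803044689530767487), .ofNat (nat_lit 270926060354597088), .ofNat (nat_lit 0)]],
  [[.ofNat (nat_lit 340766987924823264), .negSucc (nat_lit 225498884952775391), .ofNat (nat_lit 0)]]],
  [[[.negSucc (nat_lit 560594675888654975), .ofNat (nat_lit 511720448584063104), .ofNat (nat_lit 0)]],
  [[.ofNat (nat_lit 688324019597800704), .negSucc (nat_lit 232222337446797503), .ofNat (nat_lit 0)]],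
  [[.negSucc (nat_lit 292085989649848511), .ofNat (nat_lit 193284758530950336), .ofNat (nat_lit 0)]]]],
  [[[[]],
  [[]],
  [[]]],
  [[[]],
  [[]],
  [[]]],
  [[[]],
  [[]],
  [[]]],
  [[[]],
  [[]],
  [[]]],
  [[[]],
  [[]],
  [[]]],
  [[[]],
  [[]],
  [[]]],
  [[[]],
  [[]],
  [[]]],
  [[[]],
  [[]],
  [[]]],
  [[[]],
  [[]],
  [[]]]],
  [[[[]],
  [[]],
  [[]]],
  [[[]],
  [[]],
  [[]]],
  [[[]],
  [[]],
  [[]]],
  [[[]],
  [[]],
  [[]]],
  [[[]],
  [[]],
  [[]]],
  [[[]],
  [[]],
  [[]]],
  [[[]],
  [[]],
  [[]]],
  [[[]],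
  [[]],
  [[]]],
  [[[]],
  [[]],
  [[]]]]]

noncomputable def BR6b_tn : List (List ℕ) := [[nat_lit 16384, nat_lit 0, nat_lit 0],
  [nat_lit 32768, nat_lit 13696, nat_lit 0],
  [nat_lit 16384, nat_lit 13696, nat_lit 11449]]

noncomputable def BR6b_zn : List (List ℕ) := [[nat_lit 281474976710656, nat_lit 43980465111040, nat_lit 6871947673600, nat_lit 1073741824000, nat_lit 167772160000, nat_lit 26214400000, nat_lit 4096000000, nat_lit 640000000, nat_lit 100000000],
  [nat_lit 2251799813685248, nat_lit 470590976688128, nat_lit 92084098826240, nat_lit 17287243366400, nat_lit 3154116608000, nat_lit 563609600000, nat_lit 99123200000, nat_lit 17216000000, nat_lit 2960000000],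
  [nat_lit 7881299347898368, nat_lit 2062683813707776, nat_lit 502270655463424, nat_lit 114428666183680, nat_lit 24719550054400, nat_lit 5122293760000, nat_lit 1027072000000, nat_lit 200569600000, nat_lit 38332000000],
  [nat_lit 15762598695796736, nat_lit 4956598418014208, nat_lit 1464686927151104, nat_lit 404803888873472, nat_lit 104685130219520, nat_lit 25525747712000, nat_lit 5922652160000, nat_lit 1318620800000, nat_lit 283656800000],
  [nat_lit 19703248369745920, nat_lit 7234786510766080, nat_lit 2531281925570560, nat_lit 837481041756160, nat_lit 260198530809856, nat_lit 75651363635200, nat_lit 20654946304000, nat_lit 5332747840000, nat_lit 1311912700000],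
  [nat_lit 15762598695796736, nat_lit 6619059999211520, nat_lit 2685557150842880, nat_lit 1045534626283520, nat_lit 387334981812224, nat_lit 135297002897408, nat_lit 44221155000320, nat_lit 13517948460800, nat_lit 3883261592000],
  [nat_lit 7881299347898368, nat_lit 3725145394905088, nat_lit 1723140879155200, nat_lit 776293863915520, nat_lit 338410640244736, nat_lit 141507696001024, nat_lit 56108002299904, nat_lit 20814282133120, nat_lit 7184033945200],
  [nat_lit 2251799813685248, nat_lit 1183074511486976, nat_lit 615314194694144, nat_lit 316039799767040, nat_lit 159765468545024, nat_lit 79099309850624, nat_lit 38060401614848, nat_lit 17570094448832, nat_lit 7594550170640],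
  [nat_lit 281474976710656, nat_lit 162727720910848, nat_lit 94076963651584, nat_lit 54388244611072, nat_lit 31443203915776, nat_lit 18178102263808, nat_lit 10509215371264, nat_lit 6075640136512, nat_lit 3512479453921],
  [nat_lit 281474976710656, nat_lit 162727720910848, nat_lit 94076963651584, nat_lit 54388244611072, nat_lit 31443203915776, nat_lit 18178102263808, nat_lit 10509215371264, nat_lit 6075640136512, nat_lit 3512479453921],
  [nat_lit 2251799813685248, nat_lit 1420569023086592, nat_lit 889917223731200, nat_lit 554172114010112, nat_lit 343325794107392, nat_lit 211750326370304, nat_lit 130087044325376, nat_lit 79640147735360, nat_lit 48605121092096],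
  [nat_lit 7881299347898368, nat_lit 5387606976102400, nat_lit 3645362082414592, nat_lit 2443220063617024, nat_lit 1623332919181312, nat_lit 1070064811638784, nat_lit 700294501273600, nat_lit 455304655138816, nat_lit 294258030395392],
  [nat_lit 15762598695796736, nat_lit 11606444742803456, nat_lit 8452220760621056, nat_lit 6088582146031616, nat_lit 4339848697610240, nat_lit 3062243135848448, nat_lit 2140129623277568, nat_lit 1482252284592128, nat_lit 1017973726773248],
  [nat_lit 19703248369745920, nat_lit 15547094416752640, nat_lit 12142387941867520, nat_lit 9383456643481600, nat_lit 7173544320434176, nat_lit 5424810872012800, nat_lit 4058332297953280, nat_lit 3004100698439680, nat_lit 2201024274104320],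
  [nat_lit 15762598695796736, nat_lit 13268906324000768, nat_lit 11075792943448064, nat_lit 9162124093816832, nat_lit 7506765314785280, nat_lit 6088582146031616, nat_lit 4886440127234048, nat_lit 3879204798070784, nat_lit 3045741698220032],
  [nat_lit 7881299347898368, nat_lit 7050068557299712, nat_lit 6268934265241600, nat_lit 5537896471724032, nat_lit 4856955176747008, nat_lit 4226110380310528, nat_lit 3645362082414592, nat_lit 3114710283059200, nat_lit 2634154982244352],
  [nat_lit 2251799813685248, nat_lit 2133052557885440, nat_lit 2014305302085632, nat_lit 1895558046285824, nat_lit 1776810790486016, nat_lit 1658063534686208, nat_lit 1539316278886400, nat_lit 1420569023086592, nat_lit 1301821767286784],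
  [nat_lit 281474976710656, nat_lit 281474976710656, nat_lit 281474976710656, nat_lit 281474976710656, nat_lit 281474976710656, nat_lit 281474976710656, nat_lit 281474976710656, nat_lit 281474976710656, nat_lit 281474976710656],
  [nat_lit 281474976710656, nat_lit 281474976710656, nat_lit 281474976710656, nat_lit 281474976710656, nat_lit 281474976710656, nat_lit 281474976710656, nat_lit 281474976710656, nat_lit 281474976710656, nat_lit 281474976710656],
  [nat_lit 2251799813685248, nat_lit 2370547069485056, nat_lit 2489294325284864, nat_lit 2608041581084672, nat_lit 2726788836884480, nat_lit 2845536092684288, nat_lit 2964283348484096, nat_lit 3083030604283904, nat_lit 3201777860083712],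
  [nat_lit 7881299347898368, nat_lit 8712530138497024, nat_lit 9593857427636224, nat_lit 10525281215315968, nat_lit 11506801501536256, nat_lit 12538418286297088, nat_lit 13620131569598464, nat_lit 14751941351440384, nat_lit 15933847631822848],
  [nat_lit 15762598695796736, nat_lit 18256291067592704, nat_lit 21050562430631936, nat_lit 24166547245236224, nat_lit 27625379971727360, nat_lit 31448195070427136, nat_lit 35656127001657344, nat_lit 40270310225739776, nat_lit 45311879202996224],
  [nat_lit 19703248369745920, nat_lit 23859402322739200, nat_lit 28767003753840640, nat_lit 34531724964659200, nat_lit 41268154357252096, nat_lit 49099796434124800, nat_lit 58159071798231040, nat_lit 68587317152972800, nat_lit 80534785302200320],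
  [nat_lit 15762598695796736, nat_lit 19918752648790016, nat_lit 25076836572594176, nat_lit 31448195070427136, nat_lit 39279837147299840, nat_lit 48858197689892864, nat_lit 60512898946433024, nat_lit 74620512006569984, nat_lit 91608318281252864],
  [nat_lit 7881299347898368, nat_lit 10374991719694336, nat_lit 13620131569598464, nat_lit 17828063500828672, nat_lit 23263628719292416, nat_lit 30256449473216512, nat_lit 39213800367099904, nat_lit 50635066549989376, nat_lit 65127788778078208],
  [nat_lit 2251799813685248, nat_lit 3083030604283904, nat_lit 4214840386125824, nat_lit 5752901460819968, nat_lit 7838550531768320, nat_lit 10660073143795712, nat_lit 14467161871425536, nat_lit 19589217718406336, nat_lit 26458164191094272],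
  [nat_lit 281474976710656, nat_lit 400222232510464, nat_lit 569065986850816, nat_lit 809140700053504, nat_lit 1150496932888576, nat_lit 1635862826450944, nat_lit 2325992456359936, nat_lit 3307270523886784, nat_lit 4702525276151521]]

noncomputable def BR6b_sn : List (List ℕ) := [[nat_lit 4096, nat_lit 4096, nat_lit 4096],
  [nat_lit 8192, nat_lit 12288, nat_lit 16384],
  [nat_lit 4096, nat_lit 8192, nat_lit 16384]]

noncomputable def BR6b_en : List (List ℕ) := [[nat_lit 191102976, nat_lit 78008832, nat_lit 31850496, nat_lit 13001472, nat_lit 5308416, nat_lit 2166912, nat_lit 884736],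
  [nat_lit 191102976, nat_lit 78055488, nat_lit 31850496, nat_lit 13009248, nat_lit 5308416, nat_lit 2168208, nat_lit 884736]]

noncomputable def BR6b_en1 : List (List ℕ) := [[nat_lit 1]]


end Crest.Agent.R163.Ck
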