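import Crest.Agent.R163.BR7D

/-! Row 163: Bellman certificate, kernel checks (generated). -/

set_option autoImplicit false
set_option Elab.async false
set_option maxRecDepth 100000

namespace Crest.Agent.R163.Ck

theorem BR7_p0_0_0 : pcAll 224 BR7_A B8m1b_224_degs B8m1b_224_rp 10 B8m1b_224_cp B8m1b_224_rw BR7_tn (chunk 10 0 B8m1b_224_sw)
    (chunk 1 0 BR7_en) (chunk 1 0 BR7_sn) = true := by decide +kernel

theorem BR7_p0_1_0 : pcAll 224 BR7_A B8m1b_224_degs B8m1b_224_rp 10 B8m1b_224_cp B8m1b_224_rw BR7_tn (chunk 10 0 B8m1b_224_sw)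
    (chunk 1 1 BR7_en) (chunk 1 0 BR7_sn) = true := by decide +kernel

theorem BR7_p1_0_0 : pcAll 224 BR7_A B8m1b_224_degs B8m1b_224_rp 10 B8m1b_224_cp B8m1b_224_rw BR7_tn (chunk 10 0 B8m1b_224_sw)
    (chunk 1 0 BR7_en) (chunk 1 1 BR7_sn) = true := by decide +kernel

theorem BR7_p1_1_0 : pcAll 224 BR7_A B8m1b_224_degs B8m1b_224_rp 10 B8m1b_224_cp B8m1b_224_rw BR7_tn (chunk 10 0 B8m1b_224_sw)
    (chunk 1 1 BR7_en) (chunk 1 1 BR7_sn) = true := by decide +kernel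

theorem BR7_p2_0_0 : pcAll 224 BR7_A B8m1b_224_degs B8m1b_224_rp 10 B8m1b_224_cp B8m1b_224_rw BR7_tn (chunk 10 0 B8m1b_224_sw)
    (chunk 1 0 BR7_en) (chunk 1 2 BR7_sn) = true := by decide +kernel

theorem BR7_p2_1_0 : pcAll 224 BR7_A B8m1b_224_degs B8m1b_224_rp 10 B8m1b_224_cp B8m1b_224_rw BR7_tn (chunk 10 0 B8m1b_224_sw)
    (chunk 1 1 BR7_en) (chunk 1 2 BR7_sn) = true := by decide +kernel

theorem BR7_e0_0 : ecAll 224 BR7_E B8m1b_224_degs B8m1b_224_re 15 B8m1b_224_ce BR7_zn (chunk 1 0 BR7_tn) BR7_en1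
    (chunk 1 0 BR7_sn) = true := by decide +kernel

theorem BR7_e0_1 : ecAll 224 BR7_E B8m1b_224_degs B8m1b_224_re 15 B8m1b_224_ce BR7_zn (chunk 1 1 BR7_tn) BR7_en1
    (chunk 1 0 BR7_sn) = true := by decide +kernel

theorem BR7_e0_2 : ecAll 224 BR7_E B8m1b_224_degs B8m1b_224_re 15 B8m1b_224_ce BR7_zn (chunk 1 2 BR7_tn) BR7_en1
    (chunk 1 0 BR7_sn) = true := by decide +kernel

theorem BR7_e1_0 : ecAll 224 BR7_E B8m1b_224_degs B8m1b_224_re 15 B8m1b_224_ce BR7_zn (chunk 1 0 BR7_tn) BR7_en1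
    (chunk 1 1 BR7_sn) = true := by decide +kernel

theorem BR7_e1_1 : ecAll 224 BR7_E B8m1b_224_degs B8m1b_224_re 15 B8m1b_224_ce BR7_zn (chunk 1 1 BR7_tn) BR7_en1
    (chunk 1 1 BR7_sn) = true := by decide +kernel

theorem BR7_e1_2 : ecAll 224 BR7_E B8m1b_224_degs B8m1b_224_re 15 B8m1b_224_ce BR7_zn (chunk 1 2 BR7_tn) BR7_en1
    (chunk 1 1 BR7_sn) = true := by decide +kernel

theorem BR7_e2_0 : ecAll 224 BR7_E B8m1b_224_degs B8m1b_224_re 15 B8m1b_224_ce BR7_zn (chunk 1 0 BR7_tn) BR7_en1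
    (chunk 1 2 BR7_sn) = true := by decide +kernel

theorem BR7_e2_1 : ecAll 224 BR7_E B8m1b_224_degs B8m1b_224_re 15 B8m1b_224_ce BR7_zn (chunk 1 1 BR7_tn) BR7_en1
    (chunk 1 2 BR7_sn) = true := by decide +kernel

theorem BR7_e2_2 : ecAll 224 BR7_E B8m1b_224_degs B8m1b_224_re 15 B8m1b_224_ce BR7_zn (chunk 1 2 BR7_tn) BR7_en1
    (chunk 1 2 BR7_sn) = true := by decide +kernel

theorem BR7_A_eq : BR7.arrP = BR7_A := by decide +kernel

theorem BR7_E_eq : BR7.arrE = BR7_E := by decide +kernel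

theorem BR7_G : sc BR7.arrG BR7_en1 BR7_sn = true := by decide +kernel


end Crest.Agent.R163.Ck
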