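import Crest.Agent.R163.B8m1b_224D

/-! Row 163: Bellman certificate, data (generated). -/

set_option autoImplicit false
set_option Elab.async false
set_option maxRecDepth 100000

namespace Crest.Agent.R163.Ck

noncomputable def BR7 : Bell := ⟨true, 8, 3, 3, 1, 7, 32, fs3_8, lams3_8, TT3_8,
  [[[[.ofNat (nat_lit 5234505901597269), .ofNat (nat_lit 1164868725268485), .negSucc (nat_lit 37182735902144699), .negSucc (nat_lit 1533932419498154), .ofNat (nat_lit 66403153931011650), .ofNat (nat_lit 34773968251188756), .ofNat (nat_lit 1024877936985417), .negSucc (nat_lit 35953785081332675), .negSucc (nat_lit 28728123614612189), .negSucc (nat_lit 74343151382784965), .negSucc (nat_lit 388620597147893), .ofNat (nat_lit 12098967500317482), .ofNat (nat_lit 25118598085300602), .ofNat (nat_lit 29343307362105636), .ofNat (nat_lit 26556375621088926), .ofNat (nat_lit 85057116113853), .negSucc (nat_lit 2471647160577383), .negSucc (nat_lit 6158825977497641), .negSucc (nat_lit 6727665260403827), .negSucc (nat_lit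 4057332982539767), .negSucc (nat_lit 3247551066992651), .ofNat (nat_lit 6306846079413294), .negSucc (nat_lit 10043693985881), .ofNat (nat_lit 283854711622386), .ofNat (nat_lit 782622995298588), .ofNat (nat_lit 807061145997852), .ofNat (nat_lit 1320425650224222), .negSucc (nat_lit 1682655007117643), .negSucc (nat_lit 2396172413469929), .negSucc (nat_lit 11498297295052781), .ofNat (nat_lit 496496137643), .negSucc (nat_lit 14271584860599), .negSucc (nat_lit 39930935395267), .negSucc (nat_lit 38671506720757), .negSucc (nat_lit 81760980953271), .ofNat (nat_lit 282821284936104), .negSucc (nat_lit 57094622693889), .ofNat (nat_lit 802236666147532), .ofNat (nat_lit 1559437378839516), .ofNat (nat_lit 2662786646186668)]],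
  [[.ofNat (nat_lit 4123914293930166), .negSucc (nat_lit 8534431310757281), .negSucc (nat_lit 18835134891315047), .ofNat (nat_lit 10737566648940933), .ofNat (nat_lit 40747754638907532), .ofNat (nat_lit 17719528477174434), .negSucc (nat_lit 7313619813774065), .negSucc (nat_lit 32483799049644935), .negSucc (nat_lit 6336082297063187), .negSucc (nat_lit 26833915399540607), .ofNat (nat_lit 2906935453276560), .ofNat (nat_lit 16678933967672676), .ofNat (nat_lit 102598001975052), .ofNat (nat_lit 7071113909218302), .negSucc (nat_lit 26241677567960471), .negSucc (nat_lit 674626139986562), .negSucc (nat_lit 5067253584607913), .ofNat (nat_lit 388146689086662), .negSucc (nat_lit 1194110808501869), .ofNat (nat_lit 2820650204538882), .ofNat (nat_lit 47586843122232546), .ofNat (nat_lit 24585491561348772), .ofNat (nat_lit 84736948007367), .ofNat (nat_lit 825229458860472), .ofNat (nat_lit 14762986195860), .ofNat (nat_lit 189874069213104), .negSucc (nat_lit 1628410121095121), .negSucc (nat_lit 13474734155011007),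 .negSucc (nat_lit 11169127455868655), .negSucc (nat_lit 32090910541169885), .negSucc (nat_lit 4447412515194), .negSucc (nat_lit 55264964185389), .negSucc (nat_lit 12938930762467), .negSucc (nat_lit 24192865945255), .ofNat (nat_lit 145321610109038), .ofNat (nat_lit 1345013872465992), .ofNat (nat_lit 111890401716506), .ofNat (nat_lit 2873243863820470), .ofNat (nat_lit 4234173564698850), .ofNat (nat_lit 6680953566314752)]],
  [[]]],
  [[[]],
  [[.negSucc (nat_lit 5057832704301935), .ofNat (nat_lit 12140985546558540), .ofNat (nat_lit 21944041701520824), .negSucc (nat_lit 20065538922485615), .negSucc (nat_lit 24718184691806519), .negSucc (nat_lit 48331585846296161), .ofNat (nat_lit 17383775701393863), .ofNat (nat_lit 6989391341191620), .negSucc (nat_lit 5981953560553997), .ofNat (nat_lit 113751854098274232), .negSucc (nat_lit 8693222484213377), .negSucc (nat_lit 4433039446562135), .ofNat (nat_lit 24154091299999296), .negSucc (nat_lit 46956027145787873), .negSucc (nat_lit 68565489593410655), .ofNat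 (nat_lit 2506476329774415), .ofNat (nat_lit 2408782078292490), .negSucc (nat_lit 6916653086439653), .ofNat (nat_lit 11191158160870554), .negSucc (nat_lit 11904300636472313), .ofNat (nat_lit 34905537050523786), .ofNat (nat_lit 15061301217860976), .negSucc (nat_lit 385790992799627), .negSucc (nat_lit 548090778565301), .ofNat (nat_lit 179002245173328), .negSucc (nat_lit 1400830801806851), .ofNat (nat_lit 5807507311220694), .negSucc (nat_lit 2703816528487955), .negSucc (nat_lit 1374667767268313), .negSucc (nat_lit 12697910383006241), .ofNat (nat_lit 24518653005876), .ofNat (nat_lit 42928344117750), .ofNat (nat_lit 78501772110648), .ofNat (nat_lit 74444870882400), .negSucc (nat_lit 348735067418837), .negSucc (nat_lit 221766471954395), .negSucc (nat_lit 433345801423487), .negSucc (nat_lit 436941994491929), .ofNat (nat_lit 788170966845498), .ofNat (nat_lit 2743256015936400)]],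
  [[.ofNat (nat_lit 264151398365361), .ofNat (nat_lit 0), .ofNat (nat_lit 0), .ofNat (nat_lit 0), .ofNat (nat_lit 0), .ofNat (nat_lit 0), .ofNat (nat_lit 0), .ofNat (nat_lit 0), .ofNat (nat_lit 0), .ofNat (nat_lit 0), .ofNat (nat_lit 0), .ofNat (nat_lit 0), .ofNat (nat_lit 0), .ofNat (nat_lit 0), .ofNat (nat_lit 0), .ofNat (nat_lit 0), .ofNat (nat_lit 0), .ofNat (nat_lit 0), .ofNat (nat_lit 0), .ofNat (nat_lit 0), .ofNat (nat_lit 0), .ofNat (nat_lit 0), .ofNat (nat_lit 0), .ofNat (nat_lit 0), .ofNat (nat_lit 0), .ofNat (nat_lit 0), .ofNat (nat_lit 0), .ofNat (nat_lit 0), .ofNat (nat_lit 0), .ofNat (nat_lit 0), .ofNat (nat_lit 0), .ofNat (nat_lit 0), .ofNat (nat_lit 0), .ofNat (nat_lit 0), .ofNat (nat_lit 0), .ofNat (nat_lit 0), .ofNat (nat_lit 0), .ofNat (nat_lit 0), .ofNat (nat_lit 0), .ofNat (nat_lit 0)]]],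
  [[[]],
  [[.ofNat (nat_lit 0), .ofNat (nat_lit 558764489739744), .negSucc (nat_lit 558764489739743), .ofNat (nat_lit 560490822160236), .negSucc (nat_lit 1960854711350579), .ofNat (nat_lit 1400363889190344), .negSucc (nat_lit 348043817903831), .ofNat (nat_lit 956429780204088), .negSucc (nat_lit 172640470889015), .negSucc (nat_lit 435745491411239), .negSucc (nat_lit 23464786761611), .ofNat (nat_lit 269420424383124), .negSucc (nat_lit 46929573523223), .negSucc (nat_lit 796104256393151), .ofNat (nat_lit 597078192294864), .ofNat (nat_lit 58990047797592), .negSucc (nat_lit 294609393222911), .negSucc (nat_lit 617842385439011), .ofNat (nat_lit 1206038634589692), .ofNat (nat_lit 794130837301692), .negSucc (nat_lit 2174753694928823), .ofNat (nat_lit 1028045953901772), .negSucc (nat_lit 15477780015395), .ofNat (nat_lit 75666890710512), .ofNat (nat_lit 179229907924506), .negSucc (nat_lit 308197871864261), .negSucc (nat_lit 241141027986089), .ofNat (nat_lit 292699787566050), .ofNat (nat_lit 335750021727750),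 .negSucc (nat_lit 318529928063069), .ofNat (nat_lit 1310073395136), .negSucc (nat_lit 6550366975679), .ofNat (nat_lit 2620146790272), .ofNat (nat_lit 6550366975680), .ofNat (nat_lit 5240293580544), .ofNat (nat_lit 3930220185408), .negSucc (nat_lit 6550366975679), .ofNat (nat_lit 6550366975680), .negSucc (nat_lit 39302201854079), .ofNat (nat_lit 26201467902720)]],
  [[.negSucc (nat_lit 552827718892007), .ofNat (nat_lit 0), .ofNat (nat_lit 0), .ofNat (nat_lit 0), .ofNat (nat_lit 0), .ofNat (nat_lit 0), .ofNat (nat_lit 0), .ofNat (nat_lit 0), .ofNat (nat_lit 0), .ofNat (nat_lit 0), .ofNat (nat_lit 0), .ofNat (nat_lit 0), .ofNat (nat_lit 0), .ofNat (nat_lit 0), .ofNat (nat_lit 0), .ofNat (nat_lit 0), .ofNat (nat_lit 0), .ofNat (nat_lit 0), .ofNat (nat_lit 0), .ofNat (nat_lit 0), .ofNat (nat_lit 0), .ofNat (nat_lit 0), .ofNat (nat_lit 0), .ofNat (nat_lit 0), .ofNat (nat_lit 0), .ofNat (nat_lit 0), .ofNat (nat_lit 0), .ofNat (nat_lit 0), .ofNat (nat_lit 0), .ofNat (nat_lit 0), .ofNat (nat_lit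 0), .ofNat (nat_lit 0), .ofNat (nat_lit 0), .ofNat (nat_lit 0), .ofNat (nat_lit 0), .ofNat (nat_lit 0), .ofNat (nat_lit 0), .ofNat (nat_lit 0), .ofNat (nat_lit 0), .ofNat (nat_lit 0)]]]],
  [[.ofNat (nat_lit 0)],
  [.ofNat (nat_lit 0)],
  [.ofNat (nat_lit 280806198639480)]],
  [[[[.ofNat (nat_lit 0), .negSucc (nat_lit 809532725624644607), .negSucc (nat_lit 2171243077897761791), .ofNat (nat_lit 2015017204086549504), .negSucc (nat_lit 1935284140382542847), .ofNat (nat_lit 459554663664423936), .negSucc (nat_lit 170282436843967487), .ofNat (nat_lit 76916634758691840), .negSucc (nat_lit 65036002660107263), .ofNat (nat_lit 78870659617207296)]],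
  [[.ofNat (nat_lit 182961100035182592), .ofNat (nat_lit 85277043005266944), .negSucc (nat_lit 141848138440940543), .negSucc (nat_lit 644881342190413823), .ofNat (nat_lit 1087391415310184448), .ofNat (nat_lit 596105435984090112), .ofNat (nat_lit 30267987515864064), .negSucc (nat_lit 1628733945632550911), .ofNat (nat_lit 172147287180450816), .ofNat (nat_lit 466495488248647680)]]],
  [[[.ofNat (nat_lit 0), .negSucc (nat_lit 230523581795715071), .negSucc (nat_lit 238887442663179263), .ofNat (nat_lit 1044061621178287104), .negSucc (nat_lit 379775052045573119), .negSucc (nat_lit 667254601667137535), .negSucc (nat_lit 958073097390538751), .ofNat (nat_lit 1434374058106653696), .ofNat (nat_lit 1112201934988778496), .negSucc (nat_lit 2692200678256023551)]],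
  [[.negSucc (nat_lit 998651650117865471), .negSucc (nat_lit 674477525254127615), .ofNat (nat_lit 1413178565425984512), .ofNat (nat_lit 3446576422482631680), .negSucc (nat_lit 7496179595544102911), .negSucc (nat_lit 3765629280665392127), .ofNat (nat_lit 1344262549219273728), .ofNat (nat_lit 10827894475989227520), .negSucc (nat_lit 1756494441804745727), .negSucc (nat_lit 2387180713567675391)]]],
  [[[.ofNat (nat_lit 0), .ofNat (nat_lit 44823288711822336), .ofNat (nat_lit 301931371608440832), .ofNat (nat_lit 2374077044128555008), .ofNat (nat_lit 6735978569317174272), .negSucc (nat_lit 4398681942016892927), .ofNat (nat_lit 1165527333805814784), .negSucc (nat_lit 8499035786464834559), .ofNat (nat_lit 225981025302601728), .ofNat (nat_lit 7254694479452516352)]],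
  [[.ofNat (nat_lit 692314830266277888), .ofNat (nat_lit 2392869968554033152), .negSucc (nat_lit 4263859028107229183), .negSucc (nat_lit 8542909523479145471), .ofNat (nat_lit 21678056459537531904), .ofNat (nat_lit 4847570977297545216), .negSucc (nat_lit 14653295732032524287), .negSucc (nat_lit 10275140797814817791), .ofNat (nat_lit 915799031554627584), .ofNat (nat_lit 4835276716380945408)]]]]⟩

noncomputable def BR7_A : L6 := [[[[[[.ofNat (nat_lit 0), .ofNat (nat_lit 0), .ofNat (nat_lit 87529931890947072)],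
  [],
  [.ofNat (nat_lit 0), .ofNat (nat_lit 0), .negSucc (nat_lit 566095584145416191)],
  [],
  [.ofNat (nat_lit 0), .ofNat (nat_lit 0), .ofNat (nat_lit 287545547406827520)],
  [],
  []],
  [[.ofNat (nat_lit 0), .ofNat (nat_lit 182961100035182592), .ofNat (nat_lit 0)],
  [],
  [],
  [],
  [],
  [],
  []],
  [[.ofNat (nat_lit 0), .ofNat (nat_lit 292986223222671360), .ofNat (nat_lit 0)],
  [.ofNat (nat_lit 0), .ofNat (nat_lit 292986223222671360), .ofNat (nat_lit 0)],
  [],
  [],
  [],
  [],
  []],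
  [[.ofNat (nat_lit 36529094273762304), .ofNat (nat_lit 317034278461255680), .ofNat (nat_lit 0)],
  [],
  [.negSucc (nat_lit 36529094273762303), .negSucc (nat_lit 317034278461255679), .ofNat (nat_lit 0)],
  [],
  [],
  [],
  []],
  [[.ofNat (nat_lit 43296252652753920), .negSucc (nat_lit 332627683847768063), .ofNat (nat_lit 0)],
  [],
  [],
  [.ofNat (nat_lit 43296252652753920), .negSucc (nat_lit 332627683847768063), .ofNat (nat_lit 0)],
  [],
  [],
  []],
  [[.negSucc (nat_lit 11298703526839295), .negSucc (nat_lit 91544625110587391), .ofNat (nat_lit 0)],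
  [],
  [],
  [],
  [.ofNat (nat_lit 11298703526839296), .ofNat (nat_lit 91544625110587392), .ofNat (nat_lit 0)],
  [],
  []],
  [[.ofNat (nat_lit 55489402959234048), .ofNat (nat_lit 106976562749411328), .ofNat (nat_lit 0)],
  [],
  [],
  [],
  [.negSucc (nat_lit 55489402959234047), .negSucc (nat_lit 106976562749411327), .ofNat (nat_lit 0)],
  [],
  []],
  [[.ofNat (nat_lit 38458061337563136), .ofNat (nat_lit 134571144131638272), .ofNat (nat_lit 0)],
  [],
  [],
  [],
  [],
  [.ofNat (nat_lit 38458061337563136), .ofNat (nat_lit 134571144131638272), .ofNat (nat_lit 0)],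
  []],
  [[],
  [],
  [],
  [],
  [],
  [],
  []],
  [[],
  [],
  [],
  [],
  [],
  [],
  []]],
  [],
  [],
  [],
  [],
  [],
  [],
  [],
  [],
  []],
  [[],
  [],
  [],
  [],
  [],
  [],
  [],
  [],
  [],
  []],
  [[],
  [[[.ofNat (nat_lit 0), .ofNat (nat_lit 183668144217255936), .negSucc (nat_lit 85277043005266943)],
  [],
  [.ofNat (nat_lit 0), .ofNat (nat_lit 429131128120123392), .ofNat (nat_lit 0)],
  [],
  [],
  [],
  []],
  [[.ofNat (nat_lit 274403357046342144), .negSucc (nat_lit 2216216317824944639), .ofNat (nat_lit 0)],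
  [],
  [],
  [],
  [],
  [],
  []],
  [[],
  [.negSucc (nat_lit 2143041708558753791), .negSucc (nat_lit 941332291214063615), .ofNat (nat_lit 0)],
  [],
  [],
  [],
  [],
  []],
  [[],
  [],
  [.negSucc (nat_lit 1463009085663761663), .ofNat (nat_lit 4137070747938628608), .ofNat (nat_lit 0)],
  [],
  [],
  [],
  []],
  [[],
  [],
  [],
  [.ofNat (nat_lit 280308823680476160), .ofNat (nat_lit 3021250030401093120), .ofNat (nat_lit 0)],
  [],
  [],
  []],
  [[],
  [],
  [],
  [],
  [.negSucc (nat_lit 135386078134783103), .negSucc (nat_lit 2662992690919971839), .ofNat (nat_lit 0)],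
  [],
  []],
  [[],
  [],
  [],
  [],
  [.ofNat (nat_lit 851693809649273856), .negSucc (nat_lit 264146870676455423), .ofNat (nat_lit 0)],
  [],
  []],
  [[],
  [],
  [],
  [],
  [],
  [.negSucc (nat_lit 589378025490430463), .negSucc (nat_lit 3550408549749591551), .ofNat (nat_lit 0)],
  []],
  [[],
  [],
  [],
  [],
  [],
  [],
  [.negSucc (nat_lit 172029431721480191), .negSucc (nat_lit 409510453308549119), .ofNat (nat_lit 0)]],
  [[],
  [],
  [],
  [],
  [],
  [],
  [.negSucc (nat_lit 163544587291643903), .negSucc (nat_lit 154987374642416639), .ofNat (nat_lit 0)]]],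
  [],
  [],
  [],
  [],
  [],
  [],
  [],
  []],
  [[],
  [],
  [[[.ofNat (nat_lit 0), .ofNat (nat_lit 351196922362263552), .ofNat (nat_lit 141848138440940544)],
  [],
  [.ofNat (nat_lit 0), .ofNat (nat_lit 1003957612211496960), .ofNat (nat_lit 0)],
  [],
  [],
  [],
  []],
  [[.negSucc (nat_lit 28201369339007999), .ofNat (nat_lit 799484152773123072), .ofNat (nat_lit 0)],
  [],
  [],
  [],
  [],
  [],
  []],
  [[],
  [.ofNat (nat_lit 3405790774216650240), .ofNat (nat_lit 759725285318968320), .ofNat (nat_lit 0)],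
  [],
  [],
  [],
  [],
  []],
  [[],
  [],
  [.negSucc (nat_lit 950403742604054783), .negSucc (nat_lit 416583935887613183), .ofNat (nat_lit 0)],
  [],
  [],
  [],
  []],
  [[],
  [],
  [],
  [.negSucc (nat_lit 2760491072561918975), .ofNat (nat_lit 451513079843113728), .ofNat (nat_lit 0)],
  [],
  [],
  []],
  [[],
  [],
  [],
  [],
  [.ofNat (nat_lit 1104231951206083584), .ofNat (nat_lit 1587476325785091840), .ofNat (nat_lit 0)],
  [],
  []],
  [[],
  [],
  [],
  [],
  [.negSucc (nat_lit 1883266349094494207), .negSucc (nat_lit 2277300842287520255), .ofNat (nat_lit 0)],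
  [],
  []],
  [[],
  [],
  [],
  [],
  [],
  [.ofNat (nat_lit 896618293973502336), .negSucc (nat_lit 727707092769029375), .ofNat (nat_lit 0)],
  []],
  [[],
  [],
  [],
  [],
  [],
  [],
  [.negSucc (nat_lit 516088295164440575), .negSucc (nat_lit 1228531359925647359), .ofNat (nat_lit 0)]],
  [[],
  [],
  [],
  [],
  [],
  [],
  [.ofNat (nat_lit 1174491041929348608), .ofNat (nat_lit 1695360125478569472), .ofNat (nat_lit 0)]]],
  [],
  [],
  [],
  [],
  [],
  [],
  []],
  [[],
  [],
  [],
  [[[.ofNat (nat_lit 0), .negSucc (nat_lit 629987498032435199), .ofNat (nat_lit 644881342190413824)],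
  [],
  [.ofNat (nat_lit 0), .negSucc (nat_lit 350430314284947455), .ofNat (nat_lit 0)],
  [],
  [],
  [],
  []],
  [[.ofNat (nat_lit 552008118422787840), .ofNat (nat_lit 3492189405748214784), .ofNat (nat_lit 0)],
  [],
  [],
  [],
  [],
  [],
  []],
  [[],
  [.ofNat (nat_lit 950403742604054784), .ofNat (nat_lit 416583935887613184), .ofNat (nat_lit 0)],
  [],
  [],
  [],
  [],
  []],
  [[],
  [],
  [.ofNat (nat_lit 172653667962050304), .negSucc (nat_lit 14332532125168952063), .ofNat (nat_lit 0)],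
  [],
  [],
  [],
  []],
  [[],
  [],
  [],
  [.negSucc (nat_lit 3393586190076815231), .negSucc (nat_lit 5427816449038311167), .ofNat (nat_lit 0)],
  [],
  [],
  []],
  [[],
  [],
  [],
  [],
  [.ofNat (nat_lit 1459472987905803072), .ofNat (nat_lit 13500246614162614848), .ofNat (nat_lit 0)],
  [],
  []],
  [[],
  [],
  [],
  [],
  [.negSucc (nat_lit 2869861166622180863), .ofNat (nat_lit 1984103141386775040), .ofNat (nat_lit 0)],
  [],
  []],
  [[],
  [],
  [],
  [],
  [],
  [.ofNat (nat_lit 1994549265938521728), .ofNat (nat_lit 11836189758778210944), .ofNat (nat_lit 0)],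
  []],
  [[],
  [],
  [],
  [],
  [],
  [],
  [.negSucc (nat_lit 506629254830322239), .negSucc (nat_lit 1027493102084704127), .ofNat (nat_lit 0)]],
  [[],
  [],
  [],
  [],
  [],
  [],
  [.ofNat (nat_lit 1797064654503520512), .ofNat (nat_lit 2569506754268383488), .ofNat (nat_lit 0)]]],
  [],
  [],
  [],
  [],
  [],
  []],
  [[],
  [],
  [],
  [],
  [[[.ofNat (nat_lit 0), .negSucc (nat_lit 705103849077184511), .negSucc (nat_lit 1087391415310184447)],
  [],
  [.ofNat (nat_lit 0), .negSucc (nat_lit 307571352228725759), .ofNat (nat_lit 0)],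
  [],
  [],
  [],
  []],
  [[.negSucc (nat_lit 2215592964063019007), .negSucc (nat_lit 1933858615090908671), .ofNat (nat_lit 0)],
  [],
  [],
  [],
  [],
  [],
  []],
  [[],
  [.negSucc (nat_lit 2760491072561918975), .ofNat (nat_lit 451513079843113728), .ofNat (nat_lit 0)],
  [],
  [],
  [],
  [],
  []],
  [[],
  [],
  [.ofNat (nat_lit 3393586190076815232), .ofNat (nat_lit 5427816449038311168), .ofNat (nat_lit 0)],
  [],
  [],
  [],
  []],
  [[],
  [],
  [],
  [.ofNat (nat_lit 14306725597798907136), .ofNat (nat_lit 7190495846662663296), .ofNat (nat_lit 0)],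
  [],
  [],
  []],
  [[],
  [],
  [],
  [],
  [.negSucc (nat_lit 2400280626059782847), .negSucc (nat_lit 4560954852858313535), .ofNat (nat_lit 0)],
  [],
  []],
  [[],
  [],
  [],
  [],
  [.ofNat (nat_lit 5897203191708597504), .ofNat (nat_lit 6820496070943910400), .ofNat (nat_lit 0)],
  [],
  []],
  [[],
  [],
  [],
  [],
  [],
  [.negSucc (nat_lit 11912121952485484031), .negSucc (nat_lit 11878340919722211455), .ofNat (nat_lit 0)],
  []],
  [[],
  [],
  [],
  [],
  [],
  [],
  [.negSucc (nat_lit 583184930356943999), .negSucc (nat_lit 1031210070898035455), .ofNat (nat_lit 0)]],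
  [[],
  [],
  [],
  [],
  [],
  [],
  [.negSucc (nat_lit 6318687501004382207), .negSucc (nat_lit 8368875096267323519), .ofNat (nat_lit 0)]]],
  [],
  [],
  [],
  [],
  []],
  [[],
  [],
  [],
  [],
  [],
  [[[.ofNat (nat_lit 0), .ofNat (nat_lit 886135662260877312), .negSucc (nat_lit 596105435984090111)],
  [],
  [.ofNat (nat_lit 0), .negSucc (nat_lit 191881676913140735), .ofNat (nat_lit 0)],
  [],
  [],
  [],
  []],
  [[.ofNat (nat_lit 324168585529640832), .negSucc (nat_lit 2066887254935881727), .ofNat (nat_lit 0)],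
  [],
  [],
  [],
  [],
  [],
  []],
  [[],
  [.negSucc (nat_lit 1104231951206083583), .negSucc (nat_lit 1587476325785091839), .ofNat (nat_lit 0)],
  [],
  [],
  [],
  [],
  []],
  [[],
  [],
  [.ofNat (nat_lit 1459472987905803072), .ofNat (nat_lit 13500246614162614848), .ofNat (nat_lit 0)],
  [],
  [],
  [],
  []],
  [[],
  [],
  [],
  [.ofNat (nat_lit 2400280626059782848), .ofNat (nat_lit 4560954852858313536), .ofNat (nat_lit 0)],
  [],
  [],
  []],
  [[],
  [],
  [],
  [],
  [.negSucc (nat_lit 4308893797869724319), .negSucc (nat_lit 19076983416238501439), .ofNat (nat_lit 0)],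
  [],
  []],
  [[],
  [],
  [],
  [],
  [.ofNat (nat_lit 2104717310461168128), .negSucc (nat_lit 62006190045153407), .ofNat (nat_lit 0)],
  [],
  []],
  [[],
  [],
  [],
  [],
  [],
  [.negSucc (nat_lit 8462565021182453279), .negSucc (nat_lit 18660787406517608351), .ofNat (nat_lit 0)],
  []],
  [[],
  [],
  [],
  [],
  [],
  [],
  [.negSucc (nat_lit 287619172245695519), .ofNat (nat_lit 3281208455605843440), .ofNat (nat_lit 0)]],
  [[],
  [],
  [],
  [],
  [],
  [],
  [.negSucc (nat_lit 4351983252823760255), .negSucc (nat_lit 9214809048676327103), .ofNat (nat_lit 0)]]],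
  [[[.ofNat (nat_lit 0), .ofNat (nat_lit 375012122818406400), .negSucc (nat_lit 30267987515864063)],
  [],
  [.ofNat (nat_lit 0), .ofNat (nat_lit 790324601239231488), .ofNat (nat_lit 0)],
  [],
  [],
  [],
  []],
  [[.ofNat (nat_lit 681411372805306368), .negSucc (nat_lit 233878883160591359), .ofNat (nat_lit 0)],
  [],
  [],
  [],
  [],
  [],
  []],
  [[],
  [.ofNat (nat_lit 1883266349094494208), .ofNat (nat_lit 2277300842287520256), .ofNat (nat_lit 0)],
  [],
  [],
  [],
  [],
  []],
  [[],
  [],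
  [.negSucc (nat_lit 2869861166622180863), .ofNat (nat_lit 1984103141386775040), .ofNat (nat_lit 0)],
  [],
  [],
  [],
  []],
  [[],
  [],
  [],
  [.negSucc (nat_lit 5897203191708597503), .negSucc (nat_lit 6820496070943910399), .ofNat (nat_lit 0)],
  [],
  [],
  []],
  [[],
  [],
  [],
  [],
  [.ofNat (nat_lit 2104717310461168128), .negSucc (nat_lit 62006190045153407), .ofNat (nat_lit 0)],
  [],
  []],
  [[],
  [],
  [],
  [],
  [.negSucc (nat_lit 1207382357781900287), .negSucc (nat_lit 6972938299025353727), .ofNat (nat_lit 0)],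
  [],
  []],
  [[],
  [],
  [],
  [],
  [],
  [.ofNat (nat_lit 3884312293512918912), .ofNat (nat_lit 4336498420007946624), .ofNat (nat_lit 0)],
  []],
  [[],
  [],
  [],
  [],
  [],
  [],
  [.ofNat (nat_lit 21073507514847360), .negSucc (nat_lit 1197221586198486335), .ofNat (nat_lit 0)]],
  [[],
  [],
  [],
  [],
  [],
  [],
  [.ofNat (nat_lit 1115421119427608064), .ofNat (nat_lit 7020348491181696768), .ofNat (nat_lit 0)]]],
  [],
  [],
  []],
  [[],
  [],
  [],
  [],
  [],
  [],
  [],
  [[[.ofNat (nat_lit 0), .negSucc (nat_lit 613417555977974783), .ofNat (nat_lit 1628733945632550912)],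
  [],
  [.ofNat (nat_lit 0), .negSucc (nat_lit 61122784323465215), .ofNat (nat_lit 0)],
  [],
  [],
  [],
  []],
  [[.ofNat (nat_lit 666294660249122304), .ofNat (nat_lit 1921674604117040640), .ofNat (nat_lit 0)],
  [],
  [],
  [],
  [],
  [],
  []],
  [[],
  [.ofNat (nat_lit 896618293973502336), .negSucc (nat_lit 727707092769029375), .ofNat (nat_lit 0)],
  [],
  [],
  [],
  [],
  []],
  [[],
  [],
  [.negSucc (nat_lit 1994549265938521727), .negSucc (nat_lit 11836189758778210943), .ofNat (nat_lit 0)],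
  [],
  [],
  [],
  []],
  [[],
  [],
  [],
  [.negSucc (nat_lit 11912121952485484031), .negSucc (nat_lit 11878340919722211455), .ofNat (nat_lit 0)],
  [],
  [],
  []],
  [[],
  [],
  [],
  [],
  [.ofNat (nat_lit 8462565021182453280), .ofNat (nat_lit 18660787406517608352), .ofNat (nat_lit 0)],
  [],
  []],
  [[],
  [],
  [],
  [],
  [.negSucc (nat_lit 3884312293512918911), .negSucc (nat_lit 4336498420007946623), .ofNat (nat_lit 0)],
  [],
  []],
  [[],
  [],
  [],
  [],
  [],
  [.ofNat (nat_lit 20112873632047819008), .ofNat (nat_lit 32469725076102958176), .ofNat (nat_lit 0)],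
  []],
  [[],
  [],
  [],
  [],
  [],
  [],
  [.negSucc (nat_lit 152789864864220863), .ofNat (nat_lit 2889211373567540496), .ofNat (nat_lit 0)]],
  [[],
  [],
  [],
  [],
  [],
  [],
  [.ofNat (nat_lit 8103700631156814720), .ofNat (nat_lit 19902983582788392384), .ofNat (nat_lit 0)]]],
  [],
  []],
  [[],
  [],
  [],
  [],
  [],
  [],
  [],
  [],
  [[[.ofNat (nat_lit 0), .ofNat (nat_lit 65036002660107264), .negSucc (nat_lit 172147287180450815)],
  [],
  [],
  [],
  [],
  [],
  []],
  [[.negSucc (nat_lit 237065434381587455), .negSucc (nat_lit 237363166128098303), .ofNat (nat_lit 0)],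
  [],
  [],
  [],
  [],
  [],
  []],
  [[],
  [.ofNat (nat_lit 516088295164440576), .ofNat (nat_lit 1228531359925647360), .ofNat (nat_lit 0)],
  [],
  [],
  [],
  [],
  []],
  [[],
  [],
  [.negSucc (nat_lit 506629254830322239), .negSucc (nat_lit 1027493102084704127), .ofNat (nat_lit 0)],
  [],
  [],
  [],
  []],
  [[],
  [],
  [],
  [.ofNat (nat_lit 583184930356944000), .ofNat (nat_lit 1031210070898035456), .ofNat (nat_lit 0)],
  [],
  [],
  []],
  [[],
  [],
  [],
  [],
  [.negSucc (nat_lit 287619172245695519), .ofNat (nat_lit 3281208455605843440), .ofNat (nat_lit 0)],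
  [],
  []],
  [[],
  [],
  [],
  [],
  [.ofNat (nat_lit 21073507514847360), .negSucc (nat_lit 1197221586198486335), .ofNat (nat_lit 0)],
  [],
  []],
  [[],
  [],
  [],
  [],
  [],
  [.ofNat (nat_lit 152789864864220864), .negSucc (nat_lit 2889211373567540495), .ofNat (nat_lit 0)],
  []],
  [[],
  [],
  [],
  [],
  [],
  [],
  [.ofNat (nat_lit 557166358351767528), .negSucc (nat_lit 499273049238097895), .ofNat (nat_lit 0)]],
  [[],
  [],
  [],
  [],
  [],
  [],
  [.negSucc (nat_lit 436605515942833151), .ofNat (nat_lit 1067443287957966816), .ofNat (nat_lit 0)]]],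
  [[[.ofNat (nat_lit 0), .negSucc (nat_lit 78870659617207295), .negSucc (nat_lit 466495488248647679)],
  [],
  [],
  [],
  [],
  [],
  []],
  [[.negSucc (nat_lit 84673927674436607), .ofNat (nat_lit 311508113606231040), .ofNat (nat_lit 0)],
  [],
  [],
  [],
  [],
  [],
  []],
  [[],
  [.negSucc (nat_lit 1174491041929348607), .negSucc (nat_lit 1695360125478569471), .ofNat (nat_lit 0)],
  [],
  [],
  [],
  [],
  []],
  [[],
  [],
  [.ofNat (nat_lit 1797064654503520512), .ofNat (nat_lit 2569506754268383488), .ofNat (nat_lit 0)],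
  [],
  [],
  [],
  []],
  [[],
  [],
  [],
  [.ofNat (nat_lit 6318687501004382208), .ofNat (nat_lit 8368875096267323520), .ofNat (nat_lit 0)],
  [],
  [],
  []],
  [[],
  [],
  [],
  [],
  [.negSucc (nat_lit 4351983252823760255), .negSucc (nat_lit 9214809048676327103), .ofNat (nat_lit 0)],
  [],
  []],
  [[],
  [],
  [],
  [],
  [.ofNat (nat_lit 1115421119427608064), .ofNat (nat_lit 7020348491181696768), .ofNat (nat_lit 0)],
  [],
  []],
  [[],
  [],
  [],
  [],
  [],
  [.negSucc (nat_lit 8103700631156814719), .negSucc (nat_lit 19902983582788392383), .ofNat (nat_lit 0)],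
  []],
  [[],
  [],
  [],
  [],
  [],
  [],
  [.negSucc (nat_lit 436605515942833151), .ofNat (nat_lit 1067443287957966816), .ofNat (nat_lit 0)]],
  [[],
  [],
  [],
  [],
  [],
  [],
  [.negSucc (nat_lit 1984090667719110911), .negSucc (nat_lit 8838680892913905407), .ofNat (nat_lit 0)]]]]],
  [[[[[.ofNat (nat_lit 0), .ofNat (nat_lit 0), .negSucc (nat_lit 133539518172966911)],
  [],
  [.ofNat (nat_lit 0), .ofNat (nat_lit 0), .ofNat (nat_lit 862636642220482560)],
  [],
  [],
  [],
  []],
  [[.ofNat (nat_lit 0), .negSucc (nat_lit 372787068710476799), .ofNat (nat_lit 0)],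
  [],
  [],
  [],
  [],
  [],
  []],
  [[],
  [.ofNat (nat_lit 0), .negSucc (nat_lit 1820046155535498239), .ofNat (nat_lit 0)],
  [],
  [],
  [],
  [],
  []],
  [[],
  [],
  [.ofNat (nat_lit 0), .negSucc (nat_lit 1385029706054114303), .ofNat (nat_lit 0)],
  [],
  [],
  [],
  []],
  [[],
  [],
  [],
  [.ofNat (nat_lit 0), .negSucc (nat_lit 2640387989459727359), .ofNat (nat_lit 0)],
  [],
  [],
  []],
  [[],
  [],
  [],
  [],
  [.ofNat (nat_lit 0), .negSucc (nat_lit 1345690325925301247), .ofNat (nat_lit 0)],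
  [],
  []],
  [[],
  [],
  [],
  [],
  [.ofNat (nat_lit 0), .negSucc (nat_lit 204729685974438911), .ofNat (nat_lit 0)],
  [],
  []],
  [[],
  [],
  [],
  [],
  [],
  [.ofNat (nat_lit 0), .negSucc (nat_lit 536500921219282943), .ofNat (nat_lit 0)],
  []],
  [[],
  [],
  [],
  [],
  [],
  [],
  []],
  [[],
  [],
  [],
  [],
  [],
  [],
  []]],
  [],
  [],
  [],
  [],
  [],
  [],
  [],
  [],
  []],
  [[],
  [],
  [],
  [],
  [],
  [],
  [],
  [],
  [],
  []],
  [[],
  [[[.ofNat (nat_lit 0), .ofNat (nat_lit 1088785838035961856), .ofNat (nat_lit 674477525254127616)],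
  [],
  [],
  [],
  [],
  [],
  []],
  [[.negSucc (nat_lit 230523581795715071), .negSucc (nat_lit 1342575740946797567), .ofNat (nat_lit 0)],
  [],
  [],
  [],
  [],
  [],
  []],
  [[],
  [.ofNat (nat_lit 0), .ofNat (nat_lit 1064569914391431168), .ofNat (nat_lit 0)],
  [],
  [],
  [],
  [],
  []],
  [[],
  [],
  [.ofNat (nat_lit 0), .ofNat (nat_lit 8990218225100623104), .ofNat (nat_lit 0)],
  [],
  [],
  [],
  []],
  [[],
  [],
  [],
  [.ofNat (nat_lit 0), .ofNat (nat_lit 21137464800853724160), .ofNat (nat_lit 0)],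
  [],
  [],
  []],
  [[],
  [],
  [],
  [],
  [.ofNat (nat_lit 0), .negSucc (nat_lit 2843564297648040575), .ofNat (nat_lit 0)],
  [],
  []],
  [[],
  [],
  [],
  [],
  [.ofNat (nat_lit 0), .negSucc (nat_lit 5344602983345193983), .ofNat (nat_lit 0)],
  [],
  []],
  [[],
  [],
  [],
  [],
  [],
  [.ofNat (nat_lit 0), .negSucc (nat_lit 24017467754885810687), .ofNat (nat_lit 0)],
  []],
  [[],
  [],
  [],
  [],
  [],
  [],
  [.ofNat (nat_lit 0), .negSucc (nat_lit 2750070411333333503), .ofNat (nat_lit 0)]],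
  [[],
  [],
  [],
  [],
  [],
  [],
  [.ofNat (nat_lit 0), .negSucc (nat_lit 6671592646740882431), .ofNat (nat_lit 0)]]],
  [],
  [],
  [],
  [],
  [],
  [],
  [],
  []],
  [[],
  [],
  [[[.ofNat (nat_lit 0), .ofNat (nat_lit 2246802667086173184), .negSucc (nat_lit 1413178565425984511)],
  [],
  [],
  [],
  [],
  [],
  []],
  [[.negSucc (nat_lit 238887442663179263), .ofNat (nat_lit 348608651034553344), .ofNat (nat_lit 0)],
  [],
  [],
  [],
  [],
  [],
  []],
  [[],
  [.ofNat (nat_lit 0), .negSucc (nat_lit 14828067013407671807), .ofNat (nat_lit 0)],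
  [],
  [],
  [],
  [],
  []],
  [[],
  [],
  [.ofNat (nat_lit 0), .negSucc (nat_lit 19829613562727037695), .ofNat (nat_lit 0)],
  [],
  [],
  [],
  []],
  [[],
  [],
  [],
  [.ofNat (nat_lit 0), .ofNat (nat_lit 23860478070610481664), .ofNat (nat_lit 0)],
  [],
  [],
  []],
  [[],
  [],
  [],
  [],
  [.ofNat (nat_lit 0), .ofNat (nat_lit 26460536415385568256), .ofNat (nat_lit 0)],
  [],
  []],
  [[],
  [],
  [],
  [],
  [.ofNat (nat_lit 0), .ofNat (nat_lit 5538259929329137152), .ofNat (nat_lit 0)],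
  [],
  []],
  [[],
  [],
  [],
  [],
  [],
  [.ofNat (nat_lit 0), .negSucc (nat_lit 4057336044242722943), .ofNat (nat_lit 0)],
  []],
  [[],
  [],
  [],
  [],
  [],
  [],
  [.ofNat (nat_lit 0), .negSucc (nat_lit 8250211234000000511), .ofNat (nat_lit 0)]],
  [[],
  [],
  [],
  [],
  [],
  [],
  [.ofNat (nat_lit 0), .ofNat (nat_lit 1874698220387976192), .ofNat (nat_lit 0)]]],
  [],
  [],
  [],
  [],
  [],
  [],
  []],
  [[],
  [],
  [],
  [[[.ofNat (nat_lit 0), .negSucc (nat_lit 1744922249748182015), .negSucc (nat_lit 3446576422482631679)],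
  [],
  [],
  [],
  [],
  [],
  []],
  [[.ofNat (nat_lit 1044061621178287104), .ofNat (nat_lit 12436794647583254784), .ofNat (nat_lit 0)],
  [],
  [],
  [],
  [],
  [],
  []],
  [[],
  [.ofNat (nat_lit 0), .ofNat (nat_lit 19829613562727037696), .ofNat (nat_lit 0)],
  [],
  [],
  [],
  [],
  []],
  [[],
  [],
  [.ofNat (nat_lit 0), .negSucc (nat_lit 23025322325405564927), .ofNat (nat_lit 0)],
  [],
  [],
  [],
  []],
  [[],
  [],
  [],
  [.ofNat (nat_lit 0), .negSucc (nat_lit 43942730980142412287), .ofNat (nat_lit 0)],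
  [],
  [],
  []],
  [[],
  [],
  [],
  [],
  [.ofNat (nat_lit 0), .ofNat (nat_lit 16334321288368040064), .ofNat (nat_lit 0)],
  [],
  []],
  [[],
  [],
  [],
  [],
  [.ofNat (nat_lit 0), .ofNat (nat_lit 24186212759941659648), .ofNat (nat_lit 0)],
  [],
  []],
  [[],
  [],
  [],
  [],
  [],
  [.ofNat (nat_lit 0), .ofNat (nat_lit 22835476014625717632), .ofNat (nat_lit 0)],
  []],
  [[],
  [],
  [],
  [],
  [],
  [],
  [.ofNat (nat_lit 0), .negSucc (nat_lit 5225664564583488575), .ofNat (nat_lit 0)]],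
  [[],
  [],
  [],
  [],
  [],
  [],
  [.ofNat (nat_lit 0), .negSucc (nat_lit 1721111015484633599), .ofNat (nat_lit 0)]]],
  [],
  [],
  [],
  [],
  [],
  []],
  [[],
  [],
  [],
  [],
  [[[.ofNat (nat_lit 0), .negSucc (nat_lit 235367652411878399), .ofNat (nat_lit 7496179595544102912)],
  [],
  [],
  [],
  [],
  [],
  []],
  [[.negSucc (nat_lit 379775052045573119), .negSucc (nat_lit 28633644396397827071), .ofNat (nat_lit 0)],
  [],
  [],
  [],
  [],
  [],
  []],
  [[],
  [.ofNat (nat_lit 0), .ofNat (nat_lit 23860478070610481664), .ofNat (nat_lit 0)],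
  [],
  [],
  [],
  [],
  []],
  [[],
  [],
  [.ofNat (nat_lit 0), .ofNat (nat_lit 43942730980142412288), .ofNat (nat_lit 0)],
  [],
  [],
  [],
  []],
  [[],
  [],
  [],
  [.ofNat (nat_lit 0), .negSucc (nat_lit 68783198371984767743), .ofNat (nat_lit 0)],
  [],
  [],
  []],
  [[],
  [],
  [],
  [],
  [.ofNat (nat_lit 0), .negSucc (nat_lit 16629794919482412095), .ofNat (nat_lit 0)],
  [],
  []],
  [[],
  [],
  [],
  [],
  [.ofNat (nat_lit 0), .ofNat (nat_lit 1853686697273906688), .ofNat (nat_lit 0)],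
  [],
  []],
  [[],
  [],
  [],
  [],
  [],
  [.ofNat (nat_lit 0), .ofNat (nat_lit 14011968764106986688), .ofNat (nat_lit 0)],
  []],
  [[],
  [],
  [],
  [],
  [],
  [],
  [.ofNat (nat_lit 0), .negSucc (nat_lit 3576153100833643391), .ofNat (nat_lit 0)]],
  [[],
  [],
  [],
  [],
  [],
  [],
  [.ofNat (nat_lit 0), .negSucc (nat_lit 23637302442165511295), .ofNat (nat_lit 0)]]],
  [],
  [],
  [],
  [],
  []],
  [[],
  [],
  [],
  [],
  [],
  [[[.ofNat (nat_lit 0), .ofNat (nat_lit 283491247840856064), .ofNat (nat_lit 3765629280665392128)],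
  [],
  [],
  [],
  [],
  [],
  []],
  [[.negSucc (nat_lit 667254601667137535), .negSucc (nat_lit 6609193578313432703), .ofNat (nat_lit 0)],
  [],
  [],
  [],
  [],
  [],
  []],
  [[],
  [.ofNat (nat_lit 0), .negSucc (nat_lit 26460536415385568255), .ofNat (nat_lit 0)],
  [],
  [],
  [],
  [],
  []],
  [[],
  [],
  [.ofNat (nat_lit 0), .ofNat (nat_lit 16334321288368040064), .ofNat (nat_lit 0)],
  [],
  [],
  [],
  []],
  [[],
  [],
  [],
  [.ofNat (nat_lit 0), .ofNat (nat_lit 16629794919482412096), .ofNat (nat_lit 0)],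
  [],
  [],
  []],
  [[],
  [],
  [],
  [],
  [.ofNat (nat_lit 0), .ofNat (nat_lit 10872867645881811936), .ofNat (nat_lit 0)],
  [],
  []],
  [[],
  [],
  [],
  [],
  [.ofNat (nat_lit 0), .negSucc (nat_lit 15484512454802587007), .ofNat (nat_lit 0)],
  [],
  []],
  [[],
  [],
  [],
  [],
  [],
  [.ofNat (nat_lit 0), .ofNat (nat_lit 23326813634375098080), .ofNat (nat_lit 0)],
  []],
  [[],
  [],
  [],
  [],
  [],
  [],
  [.ofNat (nat_lit 0), .negSucc (nat_lit 11411182307326695119), .ofNat (nat_lit 0)]],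
  [[],
  [],
  [],
  [],
  [],
  [],
  [.ofNat (nat_lit 0), .negSucc (nat_lit 3410013728381685695), .ofNat (nat_lit 0)]]],
  [[[.ofNat (nat_lit 0), .ofNat (nat_lit 2538722299869001728), .negSucc (nat_lit 1344262549219273727)],
  [],
  [],
  [],
  [],
  [],
  []],
  [[.negSucc (nat_lit 958073097390538751), .negSucc (nat_lit 4000340434125920255), .ofNat (nat_lit 0)],
  [],
  [],
  [],
  [],
  [],
  []],
  [[],
  [.ofNat (nat_lit 0), .negSucc (nat_lit 5538259929329137151), .ofNat (nat_lit 0)],
  [],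
  [],
  [],
  [],
  []],
  [[],
  [],
  [.ofNat (nat_lit 0), .ofNat (nat_lit 24186212759941659648), .ofNat (nat_lit 0)],
  [],
  [],
  [],
  []],
  [[],
  [],
  [],
  [.ofNat (nat_lit 0), .negSucc (nat_lit 1853686697273906687), .ofNat (nat_lit 0)],
  [],
  [],
  []],
  [[],
  [],
  [],
  [],
  [.ofNat (nat_lit 0), .negSucc (nat_lit 15484512454802587007), .ofNat (nat_lit 0)],
  [],
  []],
  [[],
  [],
  [],
  [],
  [.ofNat (nat_lit 0), .ofNat (nat_lit 5842441597247502336), .ofNat (nat_lit 0)],
  [],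
  []],
  [[],
  [],
  [],
  [],
  [],
  [.ofNat (nat_lit 0), .ofNat (nat_lit 16672899383246588544), .ofNat (nat_lit 0)],
  []],
  [[],
  [],
  [],
  [],
  [],
  [],
  [.ofNat (nat_lit 0), .ofNat (nat_lit 5948987890391356608), .ofNat (nat_lit 0)]],
  [[],
  [],
  [],
  [],
  [],
  [],
  [.ofNat (nat_lit 0), .negSucc (nat_lit 13855795556066751743), .ofNat (nat_lit 0)]]],
  [],
  [],
  []],
  [[],
  [],
  [],
  [],
  [],
  [],
  [],
  [[[.ofNat (nat_lit 0), .negSucc (nat_lit 1556619626753584127), .negSucc (nat_lit 10827894475989227519)],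
  [],
  [],
  [],
  [],
  [],
  []],
  [[.ofNat (nat_lit 1434374058106653696), .ofNat (nat_lit 34845362230875038208), .ofNat (nat_lit 0)],
  [],
  [],
  [],
  [],
  [],
  []],
  [[],
  [.ofNat (nat_lit 0), .negSucc (nat_lit 4057336044242722943), .ofNat (nat_lit 0)],
  [],
  [],
  [],
  [],
  []],
  [[],
  [],
  [.ofNat (nat_lit 0), .negSucc (nat_lit 22835476014625717631), .ofNat (nat_lit 0)],
  [],
  [],
  [],
  []],
  [[],
  [],
  [],
  [.ofNat (nat_lit 0), .ofNat (nat_lit 14011968764106986688), .ofNat (nat_lit 0)],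
  [],
  [],
  []],
  [[],
  [],
  [],
  [],
  [.ofNat (nat_lit 0), .negSucc (nat_lit 23326813634375098079), .ofNat (nat_lit 0)],
  [],
  []],
  [[],
  [],
  [],
  [],
  [.ofNat (nat_lit 0), .negSucc (nat_lit 16672899383246588543), .ofNat (nat_lit 0)],
  [],
  []],
  [[],
  [],
  [],
  [],
  [],
  [.ofNat (nat_lit 0), .ofNat (nat_lit 42542204019296402304), .ofNat (nat_lit 0)],
  []],
  [[],
  [],
  [],
  [],
  [],
  [],
  [.ofNat (nat_lit 0), .negSucc (nat_lit 7886408888339272655), .ofNat (nat_lit 0)]],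
  [[],
  [],
  [],
  [],
  [],
  [],
  [.ofNat (nat_lit 0), .ofNat (nat_lit 2037168617207344704), .ofNat (nat_lit 0)]]],
  [],
  []],
  [[],
  [],
  [],
  [],
  [],
  [],
  [],
  [],
  [[[.ofNat (nat_lit 0), .negSucc (nat_lit 1112201934988778495), .ofNat (nat_lit 1756494441804745728)],
  [],
  [],
  [],
  [],
  [],
  []],
  [[.ofNat (nat_lit 1112201934988778496), .negSucc (nat_lit 4506564853138079231), .ofNat (nat_lit 0)],
  [],
  [],
  [],
  [],
  [],
  []],
  [[],
  [.ofNat (nat_lit 0), .ofNat (nat_lit 8250211234000000512), .ofNat (nat_lit 0)],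
  [],
  [],
  [],
  [],
  []],
  [[],
  [],
  [.ofNat (nat_lit 0), .negSucc (nat_lit 5225664564583488575), .ofNat (nat_lit 0)],
  [],
  [],
  [],
  []],
  [[],
  [],
  [],
  [.ofNat (nat_lit 0), .ofNat (nat_lit 3576153100833643392), .ofNat (nat_lit 0)],
  [],
  [],
  []],
  [[],
  [],
  [],
  [],
  [.ofNat (nat_lit 0), .negSucc (nat_lit 11411182307326695119), .ofNat (nat_lit 0)],
  [],
  []],
  [[],
  [],
  [],
  [],
  [.ofNat (nat_lit 0), .ofNat (nat_lit 5948987890391356608), .ofNat (nat_lit 0)],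
  [],
  []],
  [[],
  [],
  [],
  [],
  [],
  [.ofNat (nat_lit 0), .ofNat (nat_lit 7886408888339272656), .ofNat (nat_lit 0)],
  []],
  [[],
  [],
  [],
  [],
  [],
  [],
  [.ofNat (nat_lit 0), .ofNat (nat_lit 1640472025961676384), .ofNat (nat_lit 0)]],
  [[],
  [],
  [],
  [],
  [],
  [],
  [.ofNat (nat_lit 0), .negSucc (nat_lit 2971698618914714591), .ofNat (nat_lit 0)]]],
  [[[.ofNat (nat_lit 0), .ofNat (nat_lit 2692200678256023552), .ofNat (nat_lit 2387180713567675392)],
  [],
  [],
  [],
  [],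
  [],
  []],
  [[.negSucc (nat_lit 2692200678256023551), .negSucc (nat_lit 9058773360308557823), .ofNat (nat_lit 0)],
  [],
  [],
  [],
  [],
  [],
  []],
  [[],
  [.ofNat (nat_lit 0), .negSucc (nat_lit 1874698220387976191), .ofNat (nat_lit 0)],
  [],
  [],
  [],
  [],
  []],
  [[],
  [],
  [.ofNat (nat_lit 0), .negSucc (nat_lit 1721111015484633599), .ofNat (nat_lit 0)],
  [],
  [],
  [],
  []],
  [[],
  [],
  [],
  [.ofNat (nat_lit 0), .ofNat (nat_lit 23637302442165511296), .ofNat (nat_lit 0)],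
  [],
  [],
  []],
  [[],
  [],
  [],
  [],
  [.ofNat (nat_lit 0), .negSucc (nat_lit 3410013728381685695), .ofNat (nat_lit 0)],
  [],
  []],
  [[],
  [],
  [],
  [],
  [.ofNat (nat_lit 0), .negSucc (nat_lit 13855795556066751743), .ofNat (nat_lit 0)],
  [],
  []],
  [[],
  [],
  [],
  [],
  [],
  [.ofNat (nat_lit 0), .negSucc (nat_lit 2037168617207344703), .ofNat (nat_lit 0)],
  []],
  [[],
  [],
  [],
  [],
  [],
  [],
  [.ofNat (nat_lit 0), .negSucc (nat_lit 2971698618914714591), .ofNat (nat_lit 0)]],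
  [[],
  [],
  [],
  [],
  [],
  [],
  [.ofNat (nat_lit 0), .ofNat (nat_lit 667955871038829312), .ofNat (nat_lit 0)]]]]],
  [[[[[.ofNat (nat_lit 0), .ofNat (nat_lit 0), .ofNat (nat_lit 170321811954204672)],
  [],
  [],
  [],
  [],
  [],
  []],
  [[.ofNat (nat_lit 0), .ofNat (nat_lit 263183702146154496), .ofNat (nat_lit 0)],
  [],
  [],
  [],
  [],
  [],
  []],
  [[],
  [.ofNat (nat_lit 0), .ofNat (nat_lit 1003957612211496960), .ofNat (nat_lit 0)],
  [],
  [],
  [],
  [],
  []],
  [[],
  [],
  [.ofNat (nat_lit 0), .ofNat (nat_lit 350430314284947456), .ofNat (nat_lit 0)],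
  [],
  [],
  [],
  []],
  [[],
  [],
  [],
  [.ofNat (nat_lit 0), .negSucc (nat_lit 307571352228725759), .ofNat (nat_lit 0)],
  [],
  [],
  []],
  [[],
  [],
  [],
  [],
  [.ofNat (nat_lit 0), .ofNat (nat_lit 191881676913140736), .ofNat (nat_lit 0)],
  [],
  []],
  [[],
  [],
  [],
  [],
  [.ofNat (nat_lit 0), .negSucc (nat_lit 790324601239231487), .ofNat (nat_lit 0)],
  [],
  []],
  [[],
  [],
  [],
  [],
  [],
  [.ofNat (nat_lit 0), .negSucc (nat_lit 61122784323465215), .ofNat (nat_lit 0)],
  []],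
  [[],
  [],
  [],
  [],
  [],
  [],
  []],
  [[],
  [],
  [],
  [],
  [],
  [],
  []]],
  [],
  [],
  [],
  [],
  [],
  [],
  [],
  [],
  []],
  [[],
  [],
  [],
  [],
  [],
  [],
  [],
  [],
  [],
  []],
  [[],
  [[[.ofNat (nat_lit 0), .negSucc (nat_lit 44823288711822335), .negSucc (nat_lit 2392869968554033151)],
  [],
  [],
  [],
  [],
  [],
  []],
  [[.ofNat (nat_lit 44823288711822336), .ofNat (nat_lit 997283953119393792), .ofNat (nat_lit 0)],
  [],
  [],
  [],
  [],
  [],
  []],
  [[],
  [.ofNat (nat_lit 0), .negSucc (nat_lit 6073010630809307135), .ofNat (nat_lit 0)],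
  [],
  [],
  [],
  [],
  []],
  [[],
  [],
  [.ofNat (nat_lit 0), .ofNat (nat_lit 1898348013979805952), .ofNat (nat_lit 0)],
  [],
  [],
  [],
  []],
  [[],
  [],
  [],
  [.ofNat (nat_lit 0), .ofNat (nat_lit 9947753050359080448), .ofNat (nat_lit 0)],
  [],
  [],
  []],
  [[],
  [],
  [],
  [],
  [.ofNat (nat_lit 0), .negSucc (nat_lit 3276481781757103487), .ofNat (nat_lit 0)],
  [],
  []],
  [[],
  [],
  [],
  [],
  [.ofNat (nat_lit 0), .ofNat (nat_lit 10869074746967430144), .ofNat (nat_lit 0)],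
  [],
  []],
  [[],
  [],
  [],
  [],
  [],
  [.ofNat (nat_lit 0), .negSucc (nat_lit 2071244806421681663), .ofNat (nat_lit 0)],
  []],
  [[],
  [],
  [],
  [],
  [],
  [],
  [.ofNat (nat_lit 0), .negSucc (nat_lit 275052529455593471), .ofNat (nat_lit 0)]],
  [[],
  [],
  [],
  [],
  [],
  [],
  [.ofNat (nat_lit 0), .negSucc (nat_lit 733473411881582591), .ofNat (nat_lit 0)]]],
  [],
  [],
  [],
  [],
  [],
  [],
  [],
  []],
  [[],
  [],
  [[[.ofNat (nat_lit 0), .negSucc (nat_lit 301931371608440831), .ofNat (nat_lit 4263859028107229184)],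
  [],
  [],
  [],
  [],
  [],
  []],
  [[.ofNat (nat_lit 301931371608440832), .ofNat (nat_lit 1809151602702077952), .ofNat (nat_lit 0)],
  [],
  [],
  [],
  [],
  [],
  []],
  [[],
  [.ofNat (nat_lit 0), .ofNat (nat_lit 7283455227282272256), .ofNat (nat_lit 0)],
  [],
  [],
  [],
  [],
  []],
  [[],
  [],
  [.ofNat (nat_lit 0), .negSucc (nat_lit 4958732201066012159), .ofNat (nat_lit 0)],
  [],
  [],
  [],
  []],
  [[],
  [],
  [],
  [.ofNat (nat_lit 0), .negSucc (nat_lit 11057759688025223423), .ofNat (nat_lit 0)],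
  [],
  [],
  []],
  [[],
  [],
  [],
  [],
  [.ofNat (nat_lit 0), .negSucc (nat_lit 4750958134531316735), .ofNat (nat_lit 0)],
  [],
  []],
  [[],
  [],
  [],
  [],
  [.ofNat (nat_lit 0), .negSucc (nat_lit 145043462233598975), .ofNat (nat_lit 0)],
  [],
  []],
  [[],
  [],
  [],
  [],
  [],
  [.ofNat (nat_lit 0), .negSucc (nat_lit 4133032099777215359), .ofNat (nat_lit 0)],
  []],
  [[],
  [],
  [],
  [],
  [],
  [],
  [.ofNat (nat_lit 0), .negSucc (nat_lit 825157588366780415), .ofNat (nat_lit 0)]],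
  [[],
  [],
  [],
  [],
  [],
  [],
  [.ofNat (nat_lit 0), .negSucc (nat_lit 366736705940791295), .ofNat (nat_lit 0)]]],
  [],
  [],
  [],
  [],
  [],
  [],
  []],
  [[],
  [],
  [],
  [[[.ofNat (nat_lit 0), .negSucc (nat_lit 2374077044128555007), .ofNat (nat_lit 8542909523479145472)],
  [],
  [],
  [],
  [],
  [],
  []],
  [[.ofNat (nat_lit 2374077044128555008), .negSucc (nat_lit 6644561509499339519), .ofNat (nat_lit 0)],
  [],
  [],
  [],
  [],
  [],
  []],
  [[],
  [.ofNat (nat_lit 0), .ofNat (nat_lit 4958732201066012160), .ofNat (nat_lit 0)],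
  [],
  [],
  [],
  [],
  []],
  [[],
  [],
  [.ofNat (nat_lit 0), .negSucc (nat_lit 15377555156469073919), .ofNat (nat_lit 0)],
  [],
  [],
  [],
  []],
  [[],
  [],
  [],
  [.ofNat (nat_lit 0), .negSucc (nat_lit 19306407223268356607), .ofNat (nat_lit 0)],
  [],
  [],
  []],
  [[],
  [],
  [],
  [],
  [.ofNat (nat_lit 0), .ofNat (nat_lit 9512569829522038464), .ofNat (nat_lit 0)],
  [],
  []],
  [[],
  [],
  [],
  [],
  [.ofNat (nat_lit 0), .negSucc (nat_lit 3496382857507898879), .ofNat (nat_lit 0)],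
  [],
  []],
  [[],
  [],
  [],
  [],
  [],
  [.ofNat (nat_lit 0), .ofNat (nat_lit 7053689006582152320), .ofNat (nat_lit 0)],
  []],
  [[],
  [],
  [],
  [],
  [],
  [],
  [.ofNat (nat_lit 0), .negSucc (nat_lit 687631323638983679), .ofNat (nat_lit 0)]],
  [[],
  [],
  [],
  [],
  [],
  [],
  [.ofNat (nat_lit 0), .negSucc (nat_lit 916841764851978239), .ofNat (nat_lit 0)]]],
  [],
  [],
  [],
  [],
  [],
  []],
  [[],
  [],
  [],
  [],
  [[[.ofNat (nat_lit 0), .negSucc (nat_lit 6735978569317174271), .negSucc (nat_lit 21678056459537531903)],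
  [],
  [],
  [],
  [],
  [],
  []],
  [[.ofNat (nat_lit 6735978569317174272), .ofNat (nat_lit 11730303409178451456), .ofNat (nat_lit 0)],
  [],
  [],
  [],
  [],
  [],
  []],
  [[],
  [.ofNat (nat_lit 0), .negSucc (nat_lit 11057759688025223423), .ofNat (nat_lit 0)],
  [],
  [],
  [],
  [],
  []],
  [[],
  [],
  [.ofNat (nat_lit 0), .ofNat (nat_lit 19306407223268356608), .ofNat (nat_lit 0)],
  [],
  [],
  [],
  []],
  [[],
  [],
  [],
  [.ofNat (nat_lit 0), .ofNat (nat_lit 17142333952560051456), .ofNat (nat_lit 0)],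
  [],
  [],
  []],
  [[],
  [],
  [],
  [],
  [.ofNat (nat_lit 0), .ofNat (nat_lit 3798068760256775040), .ofNat (nat_lit 0)],
  [],
  []],
  [[],
  [],
  [],
  [],
  [.ofNat (nat_lit 0), .negSucc (nat_lit 3805911640348024319), .ofNat (nat_lit 0)],
  [],
  []],
  [[],
  [],
  [],
  [],
  [],
  [.ofNat (nat_lit 0), .ofNat (nat_lit 3434534539223261760), .ofNat (nat_lit 0)],
  []],
  [[],
  [],
  [],
  [],
  [],
  [],
  [.ofNat (nat_lit 0), .negSucc (nat_lit 687631323638983679), .ofNat (nat_lit 0)]],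
  [[],
  [],
  [],
  [],
  [],
  [],
  [.ofNat (nat_lit 0), .negSucc (nat_lit 916841764851978239), .ofNat (nat_lit 0)]]],
  [],
  [],
  [],
  [],
  []],
  [[],
  [],
  [],
  [],
  [],
  [[[.ofNat (nat_lit 0), .ofNat (nat_lit 4398681942016892928), .negSucc (nat_lit 4847570977297545215)],
  [],
  [],
  [],
  [],
  [],
  []],
  [[.negSucc (nat_lit 4398681942016892927), .ofNat (nat_lit 1571089195540441728), .ofNat (nat_lit 0)],
  [],
  [],
  [],
  [],
  [],
  []],
  [[],
  [.ofNat (nat_lit 0), .ofNat (nat_lit 4750958134531316736), .ofNat (nat_lit 0)],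
  [],
  [],
  [],
  [],
  []],
  [[],
  [],
  [.ofNat (nat_lit 0), .ofNat (nat_lit 9512569829522038464), .ofNat (nat_lit 0)],
  [],
  [],
  [],
  []],
  [[],
  [],
  [],
  [.ofNat (nat_lit 0), .negSucc (nat_lit 3798068760256775039), .ofNat (nat_lit 0)],
  [],
  [],
  []],
  [[],
  [],
  [],
  [],
  [.ofNat (nat_lit 0), .negSucc (nat_lit 4377412169621165951), .ofNat (nat_lit 0)],
  [],
  []],
  [[],
  [],
  [],
  [],
  [.ofNat (nat_lit 0), .negSucc (nat_lit 1796015738872517759), .ofNat (nat_lit 0)],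
  [],
  []],
  [[],
  [],
  [],
  [],
  [],
  [.ofNat (nat_lit 0), .ofNat (nat_lit 3470081582980212480), .ofNat (nat_lit 0)],
  []],
  [[],
  [],
  [],
  [],
  [],
  [],
  [.ofNat (nat_lit 0), .negSucc (nat_lit 252131485334294015), .ofNat (nat_lit 0)]],
  [[],
  [],
  [],
  [],
  [],
  [],
  [.ofNat (nat_lit 0), .ofNat (nat_lit 91684176485197824), .ofNat (nat_lit 0)]]],
  [[[.ofNat (nat_lit 0), .negSucc (nat_lit 1165527333805814783), .ofNat (nat_lit 14653295732032524288)],
  [],
  [],
  [],
  [],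
  [],
  []],
  [[.ofNat (nat_lit 1165527333805814784), .negSucc (nat_lit 3784220985065094143), .ofNat (nat_lit 0)],
  [],
  [],
  [],
  [],
  [],
  []],
  [[],
  [.ofNat (nat_lit 0), .ofNat (nat_lit 145043462233598976), .ofNat (nat_lit 0)],
  [],
  [],
  [],
  [],
  []],
  [[],
  [],
  [.ofNat (nat_lit 0), .negSucc (nat_lit 3496382857507898879), .ofNat (nat_lit 0)],
  [],
  [],
  [],
  []],
  [[],
  [],
  [],
  [.ofNat (nat_lit 0), .ofNat (nat_lit 3805911640348024320), .ofNat (nat_lit 0)],
  [],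
  [],
  []],
  [[],
  [],
  [],
  [],
  [.ofNat (nat_lit 0), .negSucc (nat_lit 1796015738872517759), .ofNat (nat_lit 0)],
  [],
  []],
  [[],
  [],
  [],
  [],
  [.ofNat (nat_lit 0), .negSucc (nat_lit 150671163325754879), .ofNat (nat_lit 0)],
  [],
  []],
  [[],
  [],
  [],
  [],
  [],
  [.ofNat (nat_lit 0), .negSucc (nat_lit 1130033724943161599), .ofNat (nat_lit 0)],
  []],
  [[],
  [],
  [],
  [],
  [],
  [],
  [.ofNat (nat_lit 0), .ofNat (nat_lit 91684176485197824), .ofNat (nat_lit 0)]],
  [[],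
  [],
  [],
  [],
  [],
  [],
  [.ofNat (nat_lit 0), .negSucc (nat_lit 366736705940791295), .ofNat (nat_lit 0)]]],
  [],
  [],
  []],
  [[],
  [],
  [],
  [],
  [],
  [],
  [],
  [[[.ofNat (nat_lit 0), .ofNat (nat_lit 8499035786464834560), .ofNat (nat_lit 10275140797814817792)],
  [],
  [],
  [],
  [],
  [],
  []],
  [[.negSucc (nat_lit 8499035786464834559), .negSucc (nat_lit 8203895991393136127), .ofNat (nat_lit 0)],
  [],
  [],
  [],
  [],
  [],
  []],
  [[],
  [.ofNat (nat_lit 0), .negSucc (nat_lit 4133032099777215359), .ofNat (nat_lit 0)],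
  [],
  [],
  [],
  [],
  []],
  [[],
  [],
  [.ofNat (nat_lit 0), .negSucc (nat_lit 7053689006582152319), .ofNat (nat_lit 0)],
  [],
  [],
  [],
  []],
  [[],
  [],
  [],
  [.ofNat (nat_lit 0), .ofNat (nat_lit 3434534539223261760), .ofNat (nat_lit 0)],
  [],
  [],
  []],
  [[],
  [],
  [],
  [],
  [.ofNat (nat_lit 0), .negSucc (nat_lit 3470081582980212479), .ofNat (nat_lit 0)],
  [],
  []],
  [[],
  [],
  [],
  [],
  [.ofNat (nat_lit 0), .ofNat (nat_lit 1130033724943161600), .ofNat (nat_lit 0)],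
  [],
  []],
  [[],
  [],
  [],
  [],
  [],
  [.ofNat (nat_lit 0), .ofNat (nat_lit 909201416811545088), .ofNat (nat_lit 0)],
  []],
  [[],
  [],
  [],
  [],
  [],
  [],
  [.ofNat (nat_lit 0), .negSucc (nat_lit 68763132363898367), .ofNat (nat_lit 0)]],
  [[],
  [],
  [],
  [],
  [],
  [],
  [.ofNat (nat_lit 0), .negSucc (nat_lit 183368352970395647), .ofNat (nat_lit 0)]]],
  [],
  []],
  [[],
  [],
  [],
  [],
  [],
  [],
  [],
  [],
  [[[.ofNat (nat_lit 0), .negSucc (nat_lit 225981025302601727), .negSucc (nat_lit 915799031554627583)],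
  [],
  [],
  [],
  [],
  [],
  []],
  [[.ofNat (nat_lit 225981025302601728), .ofNat (nat_lit 640746502099034112), .ofNat (nat_lit 0)],
  [],
  [],
  [],
  [],
  [],
  []],
  [[],
  [.ofNat (nat_lit 0), .ofNat (nat_lit 825157588366780416), .ofNat (nat_lit 0)],
  [],
  [],
  [],
  [],
  []],
  [[],
  [],
  [.ofNat (nat_lit 0), .negSucc (nat_lit 687631323638983679), .ofNat (nat_lit 0)],
  [],
  [],
  [],
  []],
  [[],
  [],
  [],
  [.ofNat (nat_lit 0), .ofNat (nat_lit 687631323638983680), .ofNat (nat_lit 0)],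
  [],
  [],
  []],
  [[],
  [],
  [],
  [],
  [.ofNat (nat_lit 0), .negSucc (nat_lit 252131485334294015), .ofNat (nat_lit 0)],
  [],
  []],
  [[],
  [],
  [],
  [],
  [.ofNat (nat_lit 0), .ofNat (nat_lit 91684176485197824), .ofNat (nat_lit 0)],
  [],
  []],
  [[],
  [],
  [],
  [],
  [],
  [.ofNat (nat_lit 0), .ofNat (nat_lit 68763132363898368), .ofNat (nat_lit 0)],
  []],
  [[],
  [],
  [],
  [],
  [],
  [],
  []],
  [[],
  [],
  [],
  [],
  [],
  [],
  []]],
  [[[.ofNat (nat_lit 0), .negSucc (nat_lit 7254694479452516351), .negSucc (nat_lit 4835276716380945407)],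
  [],
  [],
  [],
  [],
  [],
  []],
  [[.ofNat (nat_lit 7254694479452516352), .ofNat (nat_lit 4101803304499362816), .ofNat (nat_lit 0)],
  [],
  [],
  [],
  [],
  [],
  []],
  [[],
  [.ofNat (nat_lit 0), .ofNat (nat_lit 366736705940791296), .ofNat (nat_lit 0)],
  [],
  [],
  [],
  [],
  []],
  [[],
  [],
  [.ofNat (nat_lit 0), .negSucc (nat_lit 916841764851978239), .ofNat (nat_lit 0)],
  [],
  [],
  [],
  []],
  [[],
  [],
  [],
  [.ofNat (nat_lit 0), .ofNat (nat_lit 916841764851978240), .ofNat (nat_lit 0)],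
  [],
  [],
  []],
  [[],
  [],
  [],
  [],
  [.ofNat (nat_lit 0), .ofNat (nat_lit 91684176485197824), .ofNat (nat_lit 0)],
  [],
  []],
  [[],
  [],
  [],
  [],
  [.ofNat (nat_lit 0), .negSucc (nat_lit 366736705940791295), .ofNat (nat_lit 0)],
  [],
  []],
  [[],
  [],
  [],
  [],
  [],
  [.ofNat (nat_lit 0), .ofNat (nat_lit 183368352970395648), .ofNat (nat_lit 0)],
  []],
  [[],
  [],
  [],
  [],
  [],
  [],
  []],
  [[],
  [],
  [],
  [],
  [],
  [],
  []]]]]]

noncomputable def BR7_E : L5 := [[[[[]],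
  [[]],
  [[]]],
  [[[.ofNat (nat_lit 167504188851112608), .ofNat (nat_lit 131965257405765312), .ofNat (nat_lit 0)]],
  [[.ofNat (nat_lit 0), .negSucc (nat_lit 161850646537661951), .ofNat (nat_lit 0)]],
  [[]]],
  [[[.negSucc (nat_lit 1152571749660038879), .negSucc (nat_lit 875826118466314559), .ofNat (nat_lit 0)]],
  [[.ofNat (nat_lit 0), .ofNat (nat_lit 1090720871938539648), .ofNat (nat_lit 0)]],
  [[]]],
  [[[.ofNat (nat_lit 3188582072406472032), .ofNat (nat_lit 2214555192480732768), .ofNat (nat_lit 0)]],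
  [[.ofNat (nat_lit 0), .negSucc (nat_lit 2979689902738825535), .ofNat (nat_lit 0)]],
  [[]]],
  [[[.negSucc (nat_lit 4416005828535821279), .negSucc (nat_lit 2334957329920729535), .ofNat (nat_lit 0)]],
  [[.ofNat (nat_lit 0), .ofNat (nat_lit 4228578162569782944), .ofNat (nat_lit 0)]],
  [[]]],
  [[[.ofNat (nat_lit 2967316095093272064), .ofNat (nat_lit 16572920453827776), .ofNat (nat_lit 0)]],
  [[.ofNat (nat_lit 0), .negSucc (nat_lit 3343797995839191935), .ofNat (nat_lit 0)]],
  [[]]],
  [[[.negSucc (nat_lit 520675816079492063), .ofNat (nat_lit 2190244513411536480), .ofNat (nat_lit 0)]],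
  [[.ofNat (nat_lit 0), .ofNat (nat_lit 1512073635661128096), .ofNat (nat_lit 0)]],
  [[]]],
  [[[.negSucc (nat_lit 396582525007462079), .negSucc (nat_lit 1831954521947771807), .ofNat (nat_lit 0)]],
  [[.ofNat (nat_lit 0), .negSucc (nat_lit 419987126257288703), .ofNat (nat_lit 0)]],
  [[]]],
  [[[.ofNat (nat_lit 162433562931957600), .ofNat (nat_lit 489400086582953568), .ofNat (nat_lit 0)]],
  [[.ofNat (nat_lit 0), .ofNat (nat_lit 73953001203517440), .ofNat (nat_lit 0)]],
  [[]]]],
  [[[[]],
  [[]],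
  [[]]],
  [[[.negSucc (nat_lit 76948221758275583), .ofNat (nat_lit 0), .ofNat (nat_lit 0)]],
  [[.ofNat (nat_lit 0), .ofNat (nat_lit 19558268168980896), .ofNat (nat_lit 0)]],
  [[.ofNat (nat_lit 0), .negSucc (nat_lit 13410347753753855), .ofNat (nat_lit 0)]]],
  [[[.ofNat (nat_lit 632199573642906720), .ofNat (nat_lit 28260356316807744), .ofNat (nat_lit 0)]],
  [[.ofNat (nat_lit 0), .ofNat (nat_lit 37406870265540096), .ofNat (nat_lit 0)]],
  [[.ofNat (nat_lit 0), .ofNat (nat_lit 26820695507507712), .ofNat (nat_lit 0)]]],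
  [[[.negSucc (nat_lit 1816407988328883167), .ofNat (nat_lit 180269031393956736), .ofNat (nat_lit 0)]],
  [[.ofNat (nat_lit 0), .ofNat (nat_lit 393624384063596640), .ofNat (nat_lit 0)]],
  [[.ofNat (nat_lit 0), .negSucc (nat_lit 13410347753753855), .ofNat (nat_lit 0)]]],
  [[[.ofNat (nat_lit 2039466146370909984), .negSucc (nat_lit 1675409419449628415), .ofNat (nat_lit 0)]],
  [[.ofNat (nat_lit 0), .negSucc (nat_lit 1786913277672343679), .ofNat (nat_lit 0)]],
  [[]]],
  [[[.ofNat (nat_lit 59003430139549440), .ofNat (nat_lit 4634735570775780768), .ofNat (nat_lit 0)]],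
  [[.ofNat (nat_lit 0), .ofNat (nat_lit 2563158445802631072), .ofNat (nat_lit 0)]],
  [[]]],
  [[[.negSucc (nat_lit 2110869884713017887), .negSucc (nat_lit 6069001094093997791), .ofNat (nat_lit 0)]],
  [[.ofNat (nat_lit 0), .negSucc (nat_lit 2038363893384969887), .ofNat (nat_lit 0)]],
  [[]]],
  [[[.ofNat (nat_lit 1714344945618652128), .ofNat (nat_lit 3864525858788536800), .ofNat (nat_lit 0)]],
  [[.ofNat (nat_lit 0), .ofNat (nat_lit 1205434540957331232), .ofNat (nat_lit 0)]],
  [[]]],
  [[[.negSucc (nat_lit 440788000971841631), .negSucc (nat_lit 963380303731455839), .ofNat (nat_lit 0)]],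
  [[.ofNat (nat_lit 0), .negSucc (nat_lit 393905338200766367), .ofNat (nat_lit 0)]],
  [[]]]],
  [[[[]],
  [[]],
  [[]]],
  [[[.ofNat (nat_lit 0), .negSucc (nat_lit 9155819475708479), .ofNat (nat_lit 0)]],
  [[.ofNat (nat_lit 0), .ofNat (nat_lit 56876442360484320), .ofNat (nat_lit 0)]],
  [[.ofNat (nat_lit 0), .negSucc (nat_lit 31373675381609279), .ofNat (nat_lit 0)]]],
  [[[]],
  [[]],
  [[]]],
  [[[.ofNat (nat_lit 1230683717912832), .ofNat (nat_lit 258662969813171232), .ofNat (nat_lit 0)]],
  [[.ofNat (nat_lit 0), .negSucc (nat_lit 1793217037532112575), .ofNat (nat_lit 0)]],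
  [[.ofNat (nat_lit 0), .ofNat (nat_lit 94121026144827840), .ofNat (nat_lit 0)]]],
  [[[.ofNat (nat_lit 166064004321517440), .negSucc (nat_lit 869578577142016895), .ofNat (nat_lit 0)]],
  [[.ofNat (nat_lit 0), .ofNat (nat_lit 6136197387339579840), .ofNat (nat_lit 0)]],
  [[.ofNat (nat_lit 0), .negSucc (nat_lit 62747350763218559), .ofNat (nat_lit 0)]]],
  [[[.negSucc (nat_lit 761684761168608095), .ofNat (nat_lit 838996218713069568), .ofNat (nat_lit 0)]],
  [[.ofNat (nat_lit 0), .negSucc (nat_lit 9325635218492543423), .ofNat (nat_lit 0)]],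
  [[]]],
  [[[.ofNat (nat_lit 1277252077173814080), .ofNat (nat_lit 334408132989453600), .ofNat (nat_lit 0)]],
  [[.ofNat (nat_lit 0), .ofNat (nat_lit 7780090914263696544), .ofNat (nat_lit 0)]],
  [[]]],
  [[[.negSucc (nat_lit 939859306717437791), .negSucc (nat_lit 936714726285945119), .ofNat (nat_lit 0)]],
  [[.ofNat (nat_lit 0), .negSucc (nat_lit 3560115631270909535), .ofNat (nat_lit 0)]],
  [[]]],
  [[[.ofNat (nat_lit 256997302672801536), .ofNat (nat_lit 383381801387976096), .ofNat (nat_lit 0)]],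
  [[.ofNat (nat_lit 0), .ofNat (nat_lit 705803143331804832), .ofNat (nat_lit 0)]],
  [[]]]],
  [[[[]],
  [[]],
  [[]]],
  [[[.negSucc (nat_lit 1141534196055071), .negSucc (nat_lit 9907321201914239), .ofNat (nat_lit 0)]],
  [[.ofNat (nat_lit 0), .negSucc (nat_lit 43282178314191071), .ofNat (nat_lit 0)]],
  [[.ofNat (nat_lit 0), .ofNat (nat_lit 10950947321404608), .ofNat (nat_lit 0)]]],
  [[[]],
  [[]],
  [[]]],
  [[[]],
  [[]],
  [[]]],
  [[[.ofNat (nat_lit 222610016176591680), .ofNat (nat_lit 276491451000806784), .ofNat (nat_lit 0)]],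
  [[.ofNat (nat_lit 0), .ofNat (nat_lit 523108956025010592), .ofNat (nat_lit 0)]],
  [[.ofNat (nat_lit 0), .negSucc (nat_lit 43803789285618431), .ofNat (nat_lit 0)]]],
  [[[.negSucc (nat_lit 842298767758455551), .negSucc (nat_lit 1069675698888042623), .ofNat (nat_lit 0)]],
  [[.ofNat (nat_lit 0), .negSucc (nat_lit 685571758820282879), .ofNat (nat_lit 0)]],
  [[.ofNat (nat_lit 0), .ofNat (nat_lit 32852841964213824), .ofNat (nat_lit 0)]]],
  [[[.ofNat (nat_lit 1191989864075019264), .ofNat (nat_lit 1659463342777855008), .ofNat (nat_lit 0)]],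
  [[.ofNat (nat_lit 0), .ofNat (nat_lit 420440224132202688), .ofNat (nat_lit 0)]],
  [[]]],
  [[[.negSucc (nat_lit 739532750208653087), .negSucc (nat_lit 1146514144481409599), .ofNat (nat_lit 0)]],
  [[.ofNat (nat_lit 0), .negSucc (nat_lit 573625747704261599), .ofNat (nat_lit 0)]],
  [[]]],
  [[[.ofNat (nat_lit 168373171911552768), .ofNat (nat_lit 290142370792704672), .ofNat (nat_lit 0)]],
  [[.ofNat (nat_lit 0), .ofNat (nat_lit 358930504681522272), .ofNat (nat_lit 0)]],
  [[]]]],
  [[[[]],
  [[]],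
  [[]]],
  [[[.negSucc (nat_lit 1353007895398559), .ofNat (nat_lit 10394615120242752), .ofNat (nat_lit 0)]],
  [[.ofNat (nat_lit 0), .ofNat (nat_lit 82512124670616480), .ofNat (nat_lit 0)]],
  [[.ofNat (nat_lit 0), .ofNat (nat_lit 9611604757147680), .ofNat (nat_lit 0)]]],
  [[[]],
  [[]],
  [[]]],
  [[[]],
  [[]],
  [[]]],
  [[[]],
  [[]],
  [[]]],
  [[[.ofNat (nat_lit 199984262547831552), .ofNat (nat_lit 212360747753371392), .ofNat (nat_lit 0)]],
  [[.ofNat (nat_lit 0), .negSucc (nat_lit 730448525645231903), .ofNat (nat_lit 0)]],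
  [[.ofNat (nat_lit 0), .negSucc (nat_lit 48058023785738399), .ofNat (nat_lit 0)]]],
  [[[.negSucc (nat_lit 568029642968970143), .negSucc (nat_lit 874430222062884767), .ofNat (nat_lit 0)]],
  [[.ofNat (nat_lit 0), .ofNat (nat_lit 603671270514756480), .ofNat (nat_lit 0)]],
  [[.ofNat (nat_lit 0), .ofNat (nat_lit 38446419028590720), .ofNat (nat_lit 0)]]],
  [[[.ofNat (nat_lit 545577553562235552), .ofNat (nat_lit 1039015895023956096), .ofNat (nat_lit 0)]],
  [[.ofNat (nat_lit 0), .ofNat (nat_lit 406418163211867392), .ofNat (nat_lit 0)]],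
  [[]]],
  [[[.negSucc (nat_lit 176179165245698399), .negSucc (nat_lit 387341035834685471), .ofNat (nat_lit 0)]],
  [[.ofNat (nat_lit 0), .negSucc (nat_lit 362153032752008447), .ofNat (nat_lit 0)]],
  [[]]]],
  [[[[]],
  [[]],
  [[]]],
  [[[.ofNat (nat_lit 353084485213728), .ofNat (nat_lit 2860769534705856), .ofNat (nat_lit 0)]],
  [[.ofNat (nat_lit 0), .negSucc (nat_lit 42052822685165663), .ofNat (nat_lit 0)]],
  [[.ofNat (nat_lit 0), .ofNat (nat_lit 5996302403535648), .ofNat (nat_lit 0)]]],
  [[[]],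
  [[]],
  [[]]],
  [[[]],
  [[]],
  [[]]],
  [[[]],
  [[]],
  [[]]],
  [[[]],
  [[]],
  [[]]],
  [[[.ofNat (nat_lit 19449662322499776), .ofNat (nat_lit 46277920410572448), .ofNat (nat_lit 0)]],
  [[.ofNat (nat_lit 0), .ofNat (nat_lit 273305452726404000), .ofNat (nat_lit 0)]],
  [[.ofNat (nat_lit 0), .negSucc (nat_lit 35977814421213887), .ofNat (nat_lit 0)]]],
  [[[.negSucc (nat_lit 41370916041495647), .negSucc (nat_lit 112581227564085887), .ofNat (nat_lit 0)]],
  [[.ofNat (nat_lit 0), .negSucc (nat_lit 252241146656648351), .ofNat (nat_lit 0)]],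
  [[.ofNat (nat_lit 0), .ofNat (nat_lit 29981512017678240), .ofNat (nat_lit 0)]]],
  [[[.ofNat (nat_lit 21568169233782144), .ofNat (nat_lit 63442537618807584), .ofNat (nat_lit 0)]],
  [[.ofNat (nat_lit 0), .ofNat (nat_lit 20988516615410016), .ofNat (nat_lit 0)]],
  [[]]]],
  [[[[]],
  [[]],
  [[]]],
  [[[.negSucc (nat_lit 1734043842476063), .negSucc (nat_lit 3343017585919103), .ofNat (nat_lit 0)]],
  [[.ofNat (nat_lit 0), .negSucc (nat_lit 6397802686701215), .ofNat (nat_lit 0)]],
  [[.ofNat (nat_lit 0), .negSucc (nat_lit 24697643788725983), .ofNat (nat_lit 0)]]],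
  [[[]],
  [[]],
  [[]]],
  [[[]],
  [[]],
  [[]]],
  [[[]],
  [[]],
  [[]]],
  [[[]],
  [[]],
  [[]]],
  [[[.ofNat (nat_lit 49469345763756480), .ofNat (nat_lit 130673174529394368), .ofNat (nat_lit 0)]],
  [[.ofNat (nat_lit 0), .ofNat (nat_lit 52985665627050240), .ofNat (nat_lit 0)]],
  [[.ofNat (nat_lit 0), .ofNat (nat_lit 148185862732355904), .ofNat (nat_lit 0)]]],
  [[[.negSucc (nat_lit 86800384630180511), .negSucc (nat_lit 237945225957355007), .ofNat (nat_lit 0)]],
  [[.ofNat (nat_lit 0), .negSucc (nat_lit 61186712447191967), .ofNat (nat_lit 0)]],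
  [[.ofNat (nat_lit 0), .negSucc (nat_lit 123488218943629919), .ofNat (nat_lit 0)]]],
  [[[.ofNat (nat_lit 39065082708900096), .ofNat (nat_lit 110615069013879744), .ofNat (nat_lit 0)]],
  [[.ofNat (nat_lit 0), .ofNat (nat_lit 14598849506842944), .ofNat (nat_lit 0)]],
  [[]]]],
  [[[[]],
  [[]],
  [[]]],
  [[[.negSucc (nat_lit 1201814416798847), .negSucc (nat_lit 4205348254113695), .ofNat (nat_lit 0)]],
  [[.ofNat (nat_lit 0), .ofNat (nat_lit 16765653788102592), .ofNat (nat_lit 0)]],
  [[.ofNat (nat_lit 0), .ofNat (nat_lit 1910087010108288), .ofNat (nat_lit 0)]]],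
  [[[]],
  [[]],
  [[]]],
  [[[]],
  [[]],
  [[]]],
  [[[]],
  [[]],
  [[]]],
  [[[]],
  [[]],
  [[]]],
  [[[]],
  [[]],
  [[]]],
  [[[.ofNat (nat_lit 8412700917591936), .ofNat (nat_lit 29437437778795872), .ofNat (nat_lit 0)]],
  [[.ofNat (nat_lit 0), .negSucc (nat_lit 117359576516718143), .ofNat (nat_lit 0)]],
  [[.ofNat (nat_lit 0), .negSucc (nat_lit 13370609070758015), .ofNat (nat_lit 0)]]],
  [[[.negSucc (nat_lit 7210886500793087), .negSucc (nat_lit 25232089524682175), .ofNat (nat_lit 0)]],
  [[.ofNat (nat_lit 0), .ofNat (nat_lit 100593922728615552), .ofNat (nat_lit 0)]],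
  [[.ofNat (nat_lit 0), .ofNat (nat_lit 11460522060649728), .ofNat (nat_lit 0)]]]],
  [[[[]],
  [[]],
  [[]]],
  [[[]],
  [[]],
  [[]]],
  [[[]],
  [[]],
  [[]]],
  [[[]],
  [[]],
  [[]]],
  [[[]],
  [[]],
  [[]]],
  [[[]],
  [[]],
  [[]]],
  [[[]],
  [[]],
  [[]]],
  [[[]],
  [[]],
  [[]]],
  [[[]],
  [[]],
  [[]]]],
  [[[[]],
  [[]],
  [[]]],
  [[[]],
  [[]],
  [[]]],
  [[[]],
  [[]],
  [[]]],
  [[[]],
  [[]],
  [[]]],
  [[[]],
  [[]],
  [[]]],
  [[[]],
  [[]],
  [[]]],
  [[[]],
  [[]],
  [[]]],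
  [[[]],
  [[]],
  [[]]],
  [[[]],
  [[]],
  [[]]]]]

noncomputable def BR7_tn : List (List ℕ) := [[nat_lit 16384, nat_lit 0, nat_lit 0],
  [nat_lit 32768, nat_lit 14080, nat_lit 0],
  [nat_lit 16384, nat_lit 14080, nat_lit 12100]]

noncomputable def BR7_zn : List (List ℕ) := [[nat_lit 281474976710656, nat_lit 61572651155456, nat_lit 13469017440256, nat_lit 2946347565056, nat_lit 644513529856, nat_lit 140987334656, nat_lit 30840979456, nat_lit 6746464256, nat_lit 1475789056],
  [nat_lit 2251799813685248, nat_lit 602532372021248, nat_lit 155855773237248, nat_lit 39354785333248, nat_lit 9759776309248, nat_lit 2386714165248, nat_lit 577166901248, nat_lit 138302517248, nat_lit 32889013248],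
  [nat_lit 7881299347898368, nat_lit 2493692371795968, nat_lit 756807597293568, nat_lit 221171488391168, nat_lit 62603309088768, nat_lit 17255123386368, nat_lit 4651795283968, nat_lit 1230988781568, nat_lit 320667879168],
  [nat_lit 15762598695796736, nat_lit 5757042883035136, nat_lit 2022139322433536, nat_lit 682351117991936, nat_lit 221437373710336, nat_lit 69333193588736, nat_lit 21029681627136, nat_lit 6203941825536, nat_lit 1786578183936],
  [nat_lit 19703248369745920, nat_lit 8158376278097920, nat_lit 3270703495249920, nat_lit 1265356421201920, nat_lit 471167055953920, nat_lit 168672999505920, nat_lit 58117451857920, nat_lit 19324213009920, nat_lit 6221120461920],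
  [nat_lit 15762598695796736, nat_lit 7296359161921536, nat_lit 3296885615886336, nat_lit 1448922249691136, nat_lit 616861255335936, nat_lit 253382824820736, nat_lit 100095150145536, nat_lit 37986923310336, nat_lit 13864211315136],
  [nat_lit 7881299347898368, nat_lit 4033008650682368, nat_lit 2031553890746368, nat_lit 1004519836090368, nat_lit 485814454714368, nat_lit 228788914618368, nat_lit 104357583802368, nat_lit 45836780266368, nat_lit 19310865760368],
  [nat_lit 2251799813685248, nat_lit 1262239348686848, nat_lit 702175613288448, nat_lit 387059231490048, nat_lit 210984027291648, nat_lit 113407024693248, nat_lit 59868447694848, nat_lit 30852345296448, nat_lit 15369872748048],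
  [nat_lit 281474976710656, nat_lit 171523813933056, nat_lit 104522324115456, nat_lit 63693291257856, nat_lit 38813099360256, nat_lit 23651732422656, nat_lit 14412774445056, nat_lit 8782784427456, nat_lit 5352009260481],
  [nat_lit 281474976710656, nat_lit 171523813933056, nat_lit 104522324115456, nat_lit 63693291257856, nat_lit 38813099360256, nat_lit 23651732422656, nat_lit 14412774445056, nat_lit 8782784427456, nat_lit 5352009260481],
  [nat_lit 2251799813685248, nat_lit 1482141674242048, nat_lit 970181572558848, nat_lit 632033428635648, nat_lit 410025562472448, nat_lit 265020694069248, nat_lit 170735943426048, nat_lit 109672205542848, nat_lit 70262275419648],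
  [nat_lit 7881299347898368, nat_lit 5572324929568768, nat_lit 3907595605639168, nat_lit 2719339216109568, nat_lit 1879105200979968, nat_lit 1290084600250368, nat_lit 880430053920768, nat_lit 597575801991168, nat_lit 403557684461568],
  [nat_lit 15762598695796736, nat_lit 11914307998580736, nat_lit 8925010760564736, nat_lit 6626934821748736, nat_lit 4878522422132736, nat_lit 3561870201716736, nat_lit 2580169200500736, nat_lit 1855144858484736, nat_lit 1324497015668736],
  [nat_lit 19703248369745920, nat_lit 15854957672529920, nat_lit 12650912069713920, nat_lit 10007225481297920, nat_lit 7846565427281920, nat_lit 6098153027665920, nat_lit 4697763002449920, nat_lit 3587723671633920, nat_lit 2716916955217920],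
  [nat_lit 15762598695796736, nat_lit 13453624277467136, nat_lit 11402347896897536, nat_lit 9591992338087936, nat_lit 8005780385038336, nat_lit 6626934821748736, nat_lit 5438678432219136, nat_lit 4424234000449536, nat_lit 3566824310439936],
  [nat_lit 7881299347898368, nat_lit 7111641208455168, nat_lit 6384932741971968, nat_lit 5701173948448768, nat_lit 5060364827885568, nat_lit 4462505380282368, nat_lit 3907595605639168, nat_lit 3395635503955968, nat_lit 2926625075232768],
  [nat_lit 2251799813685248, nat_lit 2141848650907648, nat_lit 2031897488130048, nat_lit 1921946325352448, nat_lit 1811995162574848, nat_lit 1702043999797248, nat_lit 1592092837019648, nat_lit 1482141674242048, nat_lit 1372190511464448],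
  [nat_lit 281474976710656, nat_lit 281474976710656, nat_lit 281474976710656, nat_lit 281474976710656, nat_lit 281474976710656, nat_lit 281474976710656, nat_lit 281474976710656, nat_lit 281474976710656, nat_lit 281474976710656],
  [nat_lit 281474976710656, nat_lit 281474976710656, nat_lit 281474976710656, nat_lit 281474976710656, nat_lit 281474976710656, nat_lit 281474976710656, nat_lit 281474976710656, nat_lit 281474976710656, nat_lit 281474976710656],
  [nat_lit 2251799813685248, nat_lit 2361750976462848, nat_lit 2471702139240448, nat_lit 2581653302018048, nat_lit 2691604464795648, nat_lit 2801555627573248, nat_lit 2911506790350848, nat_lit 3021457953128448, nat_lit 3131409115906048],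
  [nat_lit 7881299347898368, nat_lit 8650957487341568, nat_lit 9463565299744768, nat_lit 10319122785107968, nat_lit 11217629943431168, nat_lit 12159086774714368, nat_lit 13143493278957568, nat_lit 14170849456160768, nat_lit 15241155306323968],
  [nat_lit 15762598695796736, nat_lit 18071573114126336, nat_lit 20638245570215936, nat_lit 23479393280065536, nat_lit 26611793459675136, nat_lit 30052223325044736, nat_lit 33817460092174336, nat_lit 37924280977063936, nat_lit 42389463195713536],
  [nat_lit 19703248369745920, nat_lit 23551539066961920, nat_lit 28044074858577920, nat_lit 33264741824593920, nat_lit 39303979645009920, nat_lit 46258781599825920, nat_lit 54232694569041920, nat_lit 63335819032657920, nat_lit 73684809070673920],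
  [nat_lit 15762598695796736, nat_lit 19610889393012736, nat_lit 24318173549428736, nat_lit 30052223325044736, nat_lit 37007025279860736, nat_lit 45405340373876736, nat_lit 55501263967092736, nat_lit 67582785819508736, nat_lit 81974350091124736],
  [nat_lit 7881299347898368, nat_lit 10190273766227968, nat_lit 13143493278957568, nat_lit 16908730046087168, nat_lit 21693077827616768, nat_lit 27750631983546368, nat_lit 35391169473875968, nat_lit 44989828858605568, nat_lit 56997790297735168],
  [nat_lit 2251799813685248, nat_lit 3021457953128448, nat_lit 4048814130331648, nat_lit 5417754425294848, nat_lit 7238379318018048, nat_lit 9654683688501248, nat_lit 12854236816744448, nat_lit 17080253007747648, nat_lit 22646443466510848],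
  [nat_lit 281474976710656, nat_lit 391426139488256, nat_lit 544326975225856, nat_lit 756954699923456, nat_lit 1052640129581056, nat_lit 1463827680198656, nat_lit 2035635367776256, nat_lit 2830805433313856, nat_lit 3936588805702081]]

noncomputable def BR7_sn : List (List ℕ) := [[nat_lit 4096, nat_lit 0, nat_lit 0],
  [nat_lit 8192, nat_lit 8192, nat_lit 0],
  [nat_lit 4096, nat_lit 8192, nat_lit 16384]]

noncomputable def BR7_en : List (List ℕ) := [[nat_lit 481890304, nat_lit 182120652, nat_lit 68841472, nat_lit 26017236, nat_lit 9834496, nat_lit 3716748, nat_lit 1404928],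
  [nat_lit 481890304, nat_lit 182238301, nat_lit 68841472, nat_lit 26034043, nat_lit 9834496, nat_lit 3719149, nat_lit 1404928]]

noncomputable def BR7_en1 : List (List ℕ) := [[nat_lit 1]]


end Crest.Agent.R163.Ck
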