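import Crest.Agent.R163.BR8D

/-! Row 163: Bellman certificate, kernel checks (generated). -/

set_option autoImplicit false
set_option Elab.async false
set_option maxRecDepth 100000

namespace Crest.Agent.R163.Ck

theorem BR8_p0_0_0 : pcAll 256 BR8_A B8m1b_256_degs B8m1b_256_rp 10 B8m1b_256_cp B8m1b_256_rw BR8_tn (chunk 10 0 B8m1b_256_sw)
    (chunk 1 0 BR8_en) (chunk 1 0 BR8_sn) = true := by decide +kernel

theorem BR8_p0_1_0 : pcAll 256 BR8_A B8m1b_256_degs B8m1b_256_rp 10 B8m1b_256_cp B8m1b_256_rw BR8_tn (chunk 10 0 B8m1b_256_sw)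
    (chunk 1 1 BR8_en) (chunk 1 0 BR8_sn) = true := by decide +kernel

theorem BR8_p0_2_0 : pcAll 256 BR8_A B8m1b_256_degs B8m1b_256_rp 10 B8m1b_256_cp B8m1b_256_rw BR8_tn (chunk 10 0 B8m1b_256_sw)
    (chunk 1 2 BR8_en) (chunk 1 0 BR8_sn) = true := by decide +kernel

theorem BR8_p0_3_0 : pcAll 256 BR8_A B8m1b_256_degs B8m1b_256_rp 10 B8m1b_256_cp B8m1b_256_rw BR8_tn (chunk 10 0 B8m1b_256_sw)
    (chunk 1 3 BR8_en) (chunk 1 0 BR8_sn) = true := by decide +kernel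

theorem BR8_p0_4_0 : pcAll 256 BR8_A B8m1b_256_degs B8m1b_256_rp 10 B8m1b_256_cp B8m1b_256_rw BR8_tn (chunk 10 0 B8m1b_256_sw)
    (chunk 1 4 BR8_en) (chunk 1 0 BR8_sn) = true := by decide +kernel

theorem BR8_p0_5_0 : pcAll 256 BR8_A B8m1b_256_degs B8m1b_256_rp 10 B8m1b_256_cp B8m1b_256_rw BR8_tn (chunk 10 0 B8m1b_256_sw)
    (chunk 1 5 BR8_en) (chunk 1 0 BR8_sn) = true := by decide +kernel

theorem BR8_p0_6_0 : pcAll 256 BR8_A B8m1b_256_degs B8m1b_256_rp 10 B8m1b_256_cp B8m1b_256_rw BR8_tn (chunk 10 0 B8m1b_256_sw)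
    (chunk 1 6 BR8_en) (chunk 1 0 BR8_sn) = true := by decide +kernel

theorem BR8_p0_7_0 : pcAll 256 BR8_A B8m1b_256_degs B8m1b_256_rp 10 B8m1b_256_cp B8m1b_256_rw BR8_tn (chunk 10 0 B8m1b_256_sw)
    (chunk 1 7 BR8_en) (chunk 1 0 BR8_sn) = true := by decide +kernel

theorem BR8_p1_0_0 : pcAll 256 BR8_A B8m1b_256_degs B8m1b_256_rp 10 B8m1b_256_cp B8m1b_256_rw BR8_tn (chunk 10 0 B8m1b_256_sw)
    (chunk 1 0 BR8_en) (chunk 1 1 BR8_sn) = true := by decide +kernel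

theorem BR8_p1_1_0 : pcAll 256 BR8_A B8m1b_256_degs B8m1b_256_rp 10 B8m1b_256_cp B8m1b_256_rw BR8_tn (chunk 10 0 B8m1b_256_sw)
    (chunk 1 1 BR8_en) (chunk 1 1 BR8_sn) = true := by decide +kernel

theorem BR8_p1_2_0 : pcAll 256 BR8_A B8m1b_256_degs B8m1b_256_rp 10 B8m1b_256_cp B8m1b_256_rw BR8_tn (chunk 10 0 B8m1b_256_sw)
    (chunk 1 2 BR8_en) (chunk 1 1 BR8_sn) = true := by decide +kernel

theorem BR8_p1_3_0 : pcAll 256 BR8_A B8m1b_256_degs B8m1b_256_rp 10 B8m1b_256_cp B8m1b_256_rw BR8_tn (chunk 10 0 B8m1b_256_sw)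
    (chunk 1 3 BR8_en) (chunk 1 1 BR8_sn) = true := by decide +kernel

theorem BR8_p1_4_0 : pcAll 256 BR8_A B8m1b_256_degs B8m1b_256_rp 10 B8m1b_256_cp B8m1b_256_rw BR8_tn (chunk 10 0 B8m1b_256_sw)
    (chunk 1 4 BR8_en) (chunk 1 1 BR8_sn) = true := by decide +kernel

theorem BR8_p1_5_0 : pcAll 256 BR8_A B8m1b_256_degs B8m1b_256_rp 10 B8m1b_256_cp B8m1b_256_rw BR8_tn (chunk 10 0 B8m1b_256_sw)
    (chunk 1 5 BR8_en) (chunk 1 1 BR8_sn) = true := by decide +kernel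

theorem BR8_p1_6_0 : pcAll 256 BR8_A B8m1b_256_degs B8m1b_256_rp 10 B8m1b_256_cp B8m1b_256_rw BR8_tn (chunk 10 0 B8m1b_256_sw)
    (chunk 1 6 BR8_en) (chunk 1 1 BR8_sn) = true := by decide +kernel

theorem BR8_p1_7_0 : pcAll 256 BR8_A B8m1b_256_degs B8m1b_256_rp 10 B8m1b_256_cp B8m1b_256_rw BR8_tn (chunk 10 0 B8m1b_256_sw)
    (chunk 1 7 BR8_en) (chunk 1 1 BR8_sn) = true := by decide +kernel

theorem BR8_p2_0_0 : pcAll 256 BR8_A B8m1b_256_degs B8m1b_256_rp 10 B8m1b_256_cp B8m1b_256_rw BR8_tn (chunk 10 0 B8m1b_256_sw)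
    (chunk 1 0 BR8_en) (chunk 1 2 BR8_sn) = true := by decide +kernel

theorem BR8_p2_1_0 : pcAll 256 BR8_A B8m1b_256_degs B8m1b_256_rp 10 B8m1b_256_cp B8m1b_256_rw BR8_tn (chunk 10 0 B8m1b_256_sw)
    (chunk 1 1 BR8_en) (chunk 1 2 BR8_sn) = true := by decide +kernel

theorem BR8_p2_2_0 : pcAll 256 BR8_A B8m1b_256_degs B8m1b_256_rp 10 B8m1b_256_cp B8m1b_256_rw BR8_tn (chunk 10 0 B8m1b_256_sw)
    (chunk 1 2 BR8_en) (chunk 1 2 BR8_sn) = true := by decide +kernel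

theorem BR8_p2_3_0 : pcAll 256 BR8_A B8m1b_256_degs B8m1b_256_rp 10 B8m1b_256_cp B8m1b_256_rw BR8_tn (chunk 10 0 B8m1b_256_sw)
    (chunk 1 3 BR8_en) (chunk 1 2 BR8_sn) = true := by decide +kernel

theorem BR8_p2_4_0 : pcAll 256 BR8_A B8m1b_256_degs B8m1b_256_rp 10 B8m1b_256_cp B8m1b_256_rw BR8_tn (chunk 10 0 B8m1b_256_sw)
    (chunk 1 4 BR8_en) (chunk 1 2 BR8_sn) = true := by decide +kernel

theorem BR8_p2_5_0 : pcAll 256 BR8_A B8m1b_256_degs B8m1b_256_rp 10 B8m1b_256_cp B8m1b_256_rw BR8_tn (chunk 10 0 B8m1b_256_sw)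
    (chunk 1 5 BR8_en) (chunk 1 2 BR8_sn) = true := by decide +kernel

theorem BR8_p2_6_0 : pcAll 256 BR8_A B8m1b_256_degs B8m1b_256_rp 10 B8m1b_256_cp B8m1b_256_rw BR8_tn (chunk 10 0 B8m1b_256_sw)
    (chunk 1 6 BR8_en) (chunk 1 2 BR8_sn) = true := by decide +kernel

theorem BR8_p2_7_0 : pcAll 256 BR8_A B8m1b_256_degs B8m1b_256_rp 10 B8m1b_256_cp B8m1b_256_rw BR8_tn (chunk 10 0 B8m1b_256_sw)
    (chunk 1 7 BR8_en) (chunk 1 2 BR8_sn) = true := by decide +kernel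

theorem BR8_e0_0 : ecAll 256 BR8_E B8m1b_256_degs B8m1b_256_re 15 B8m1b_256_ce BR8_zn (chunk 1 0 BR8_tn) BR8_en1
    (chunk 1 0 BR8_sn) = true := by decide +kernel

theorem BR8_e0_1 : ecAll 256 BR8_E B8m1b_256_degs B8m1b_256_re 15 B8m1b_256_ce BR8_zn (chunk 1 1 BR8_tn) BR8_en1
    (chunk 1 0 BR8_sn) = true := by decide +kernel

theorem BR8_e0_2 : ecAll 256 BR8_E B8m1b_256_degs B8m1b_256_re 15 B8m1b_256_ce BR8_zn (chunk 1 2 BR8_tn) BR8_en1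
    (chunk 1 0 BR8_sn) = true := by decide +kernel

theorem BR8_e1_0 : ecAll 256 BR8_E B8m1b_256_degs B8m1b_256_re 15 B8m1b_256_ce BR8_zn (chunk 1 0 BR8_tn) BR8_en1
    (chunk 1 1 BR8_sn) = true := by decide +kernel

theorem BR8_e1_1 : ecAll 256 BR8_E B8m1b_256_degs B8m1b_256_re 15 B8m1b_256_ce BR8_zn (chunk 1 1 BR8_tn) BR8_en1
    (chunk 1 1 BR8_sn) = true := by decide +kernel

theorem BR8_e1_2 : ecAll 256 BR8_E B8m1b_256_degs B8m1b_256_re 15 B8m1b_256_ce BR8_zn (chunk 1 2 BR8_tn) BR8_en1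
    (chunk 1 1 BR8_sn) = true := by decide +kernel

theorem BR8_e2_0 : ecAll 256 BR8_E B8m1b_256_degs B8m1b_256_re 15 B8m1b_256_ce BR8_zn (chunk 1 0 BR8_tn) BR8_en1
    (chunk 1 2 BR8_sn) = true := by decide +kernel

theorem BR8_e2_1 : ecAll 256 BR8_E B8m1b_256_degs B8m1b_256_re 15 B8m1b_256_ce BR8_zn (chunk 1 1 BR8_tn) BR8_en1
    (chunk 1 2 BR8_sn) = true := by decide +kernel

theorem BR8_e2_2 : ecAll 256 BR8_E B8m1b_256_degs B8m1b_256_re 15 B8m1b_256_ce BR8_zn (chunk 1 2 BR8_tn) BR8_en1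
    (chunk 1 2 BR8_sn) = true := by decide +kernel

theorem BR8_A_eq : BR8.arrP = BR8_A := by decide +kernel

theorem BR8_E_eq : BR8.arrE = BR8_E := by decide +kernel

theorem BR8_G : sc BR8.arrG BR8_en1 BR8_sn = true := by decide +kernel


end Crest.Agent.R163.Ck
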