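import Crest.Agent.R163.B8m1b_256D

/-! Row 163: Bellman certificate, data (generated). -/

set_option autoImplicit false
set_option Elab.async false
set_option maxRecDepth 100000

namespace Crest.Agent.R163.Ck

noncomputable def BR8 : Bell := ⟨true, 8, 3, 3, 2, 8, 32, fs3_8, lams3_8, TT3_8,
  [[[[.ofNat (nat_lit 5762166576658776), .negSucc (nat_lit 219674079895805), .negSucc (nat_lit 40423297555871405), .ofNat (nat_lit 90679406409117), .ofNat (nat_lit 77703073540300278), .ofNat (nat_lit 38265412277537550), .ofNat (nat_lit 15023346051078), .negSucc (nat_lit 46574229297596633), .negSucc (nat_lit 35250651775737305), .negSucc (nat_lit 87184555568721935), .negSucc (nat_lit 21230996255630), .ofNat (nat_lit 17700958958235210), .ofNat (nat_lit 33520060384317900), .ofNat (nat_lit 39343791856303206), .ofNat (nat_lit 36025536103923186), .ofNat (nat_lit 3863064531420), .negSucc (nat_lit 4081388568358787), .negSucc (nat_lit 9481574162260187), .negSucc (nat_lit 11289431969709047), .negSucc (nat_lit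 5554641610058255), .negSucc (nat_lit 12543984935534015), .ofNat (nat_lit 5257145770078392), .ofNat (nat_lit 377272691088), .ofNat (nat_lit 517769198062644), .ofNat (nat_lit 1470168225410364), .ofNat (nat_lit 1820235205683270), .ofNat (nat_lit 1961257982773128), .ofNat (nat_lit 1408938760727352), .negSucc (nat_lit 1507738932886415), .negSucc (nat_lit 10793840968635767), .negSucc (nat_lit 108110880885), .negSucc (nat_lit 27663466094781), .negSucc (nat_lit 94943709012751), .negSucc (nat_lit 122242448986813), .negSucc (nat_lit 146896414355265), .negSucc (nat_lit 117294363248123), .negSucc (nat_lit 79399949675523), .ofNat (nat_lit 572279384608054), .ofNat (nat_lit 1366564393059870), .ofNat (nat_lit 2709487176413464)],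
  [.ofNat (nat_lit 0), .ofNat (nat_lit 0), .ofNat (nat_lit 0), .ofNat (nat_lit 0), .ofNat (nat_lit 0), .ofNat (nat_lit 0), .negSucc (nat_lit 17950124903327), .ofNat (nat_lit 71800499613312), .negSucc (nat_lit 53850374709983), .ofNat (nat_lit 0), .ofNat (nat_lit 7201738311012), .negSucc (nat_lit 22546097877563), .ofNat (nat_lit 14403476622024), .ofNat (nat_lit 3763531778112), .negSucc (nat_lit 2822648833583), .ofNat (nat_lit 6481648929600), .negSucc (nat_lit 41061259245743), .ofNat (nat_lit 45691032264264), .ofNat (nat_lit 62390530020456), .negSucc (nat_lit 8940056279975), .negSucc (nat_lit 133466522713487), .ofNat (nat_lit 68904627024888), .negSucc (nat_lit 3538783983911), .ofNat (nat_lit 18766956649344), .negSucc (nat_lit 13915195941707), .negSucc (nat_lit 24372080292203), .negSucc (nat_lit 239939993939), .ofNat (nat_lit 34029410860260), .ofNat (nat_lit 7203492615660), .negSucc (nat_lit 17933859913499), .ofNat (nat_lit 439221020352), .negSucc (nat_lit 2196105101759), .ofNat (nat_lit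 878442040704), .ofNat (nat_lit 2196105101760), .ofNat (nat_lit 1756884081408), .ofNat (nat_lit 1317663061056), .negSucc (nat_lit 2196105101759), .ofNat (nat_lit 2196105101760), .negSucc (nat_lit 13176630610559), .ofNat (nat_lit 8784420407040)]],
  [[.ofNat (nat_lit 13252501342702080), .negSucc (nat_lit 27285238068351461), .negSucc (nat_lit 74312725419424799), .ofNat (nat_lit 26757551505562947), .ofNat (nat_lit 211185884697373944), .ofNat (nat_lit 91542991322584332), .negSucc (nat_lit 14489873471178026), .negSucc (nat_lit 150521660862245801), .negSucc (nat_lit 117109619185659227), .negSucc (nat_lit 301450156660479113), .ofNat (nat_lit 4664722182346512), .ofNat (nat_lit 59589658661541408), .ofNat (nat_lit 127412267789168208), .ofNat (nat_lit 156741701728201146), .ofNat (nat_lit 257738585489960508), .negSucc (nat_lit 889687573334342), .negSucc (nat_lit 13457010931291295), .negSucc (nat_lit 35917265715184583), .negSucc (nat_lit 40332843860345495), .negSucc (nat_lit 25824338099095733), .negSucc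 (nat_lit 197713205536575311), .negSucc (nat_lit 51919446689334935), .ofNat (nat_lit 92704176353421), .ofNat (nat_lit 1640727016920846), .ofNat (nat_lit 5024627083560582), .ofNat (nat_lit 4814175487924062), .ofNat (nat_lit 9751592159639226), .ofNat (nat_lit 31879852551295758), .ofNat (nat_lit 26686897314054984), .ofNat (nat_lit 37449588085306758), .negSucc (nat_lit 4049128916229), .negSucc (nat_lit 84688959504885), .negSucc (nat_lit 277253002072969), .negSucc (nat_lit 202417176621187), .negSucc (nat_lit 677267525967441), .negSucc (nat_lit 1522447931056511), .negSucc (nat_lit 476605225566897), .negSucc (nat_lit 4682291347509121), .negSucc (nat_lit 2549474955235445), .negSucc (nat_lit 4526461269545893)],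
  []],
  [[],
  []]],
  [[[],
  []],
  [[.negSucc (nat_lit 13980742499722391), .ofNat (nat_lit 29470782865798566), .ofNat (nat_lit 90489119700571704), .negSucc (nat_lit 31995824029448021), .negSucc (nat_lit 257903873497461221), .negSucc (nat_lit 127022283255606731), .ofNat (nat_lit 19803707480872359), .ofNat (nat_lit 176306207420337606), .ofNat (nat_lit 176121472673330388), .ofNat (nat_lit 395323480307068182), .negSucc (nat_lit 7480917371622545), .negSucc (nat_lit 66866744189899907), .negSucc (nat_lit 210039426561578183), .negSucc (nat_lit 191949472715345891), .negSucc (nat_lit 335986991432151803), .ofNat (nat_lit 1714179684490047), .ofNat (nat_lit 14275239715421550), .ofNat (nat_lit 65735430822218916), .ofNat (nat_lit 46206367926674454), .ofNat (nat_lit 49004108024027940), .ofNat (nat_lit 247811011309510002), .ofNat (nat_lit 71193896390293830), .negSucc (nat_lit 219734574471323), .negSucc (nat_lit 1574968755557249), .negSucc (nat_lit 10681826919385499), .negSucc (nat_lit 5049693119476871),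 .negSucc (nat_lit 21123271642005665), .negSucc (nat_lit 38344759309787003), .negSucc (nat_lit 31168668457412261), .negSucc (nat_lit 54250673669401733), .ofNat (nat_lit 12124901591866), .ofNat (nat_lit 67122624574804), .ofNat (nat_lit 709370807740526), .ofNat (nat_lit 177950121232946), .ofNat (nat_lit 1805800836286660), .ofNat (nat_lit 1748309471104260), .ofNat (nat_lit 1139302849937206), .ofNat (nat_lit 4824220793553572), .ofNat (nat_lit 3962449504855464), .ofNat (nat_lit 7738215768841466)],
  [.ofNat (nat_lit 0), .ofNat (nat_lit 16278920806464), .negSucc (nat_lit 16278920806463), .ofNat (nat_lit 124045938034722), .negSucc (nat_lit 380277274507397), .ofNat (nat_lit 256231336472676), .negSucc (nat_lit 202750352219987), .ofNat (nat_lit 726495347878308), .negSucc (nat_lit 439238934656675), .negSucc (nat_lit 84506061001643), .negSucc (nat_lit 342690188138099), .ofNat (nat_lit 1844387189605080), .negSucc (nat_lit 685380376276199), .negSucc (nat_lit 3265266500763119), .ofNat (nat_lit 2448949875572340),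 .ofNat (nat_lit 304709544692064), .negSucc (nat_lit 1519188784598015), .ofNat (nat_lit 1056915689118192), .ofNat (nat_lit 1968385063490928), .negSucc (nat_lit 151504932766607), .negSucc (nat_lit 2700496192764383), .ofNat (nat_lit 1041179612827824), .negSucc (nat_lit 81501871832111), .ofNat (nat_lit 402440838790944), .negSucc (nat_lit 272595574284407), .negSucc (nat_lit 430510149986903), .negSucc (nat_lit 53411913044039), .ofNat (nat_lit 384893466660360), .ofNat (nat_lit 511606475900760), .negSucc (nat_lit 460921272204599), .ofNat (nat_lit 7279366805952), .negSucc (nat_lit 36396834029759), .ofNat (nat_lit 14558733611904), .ofNat (nat_lit 36396834029760), .ofNat (nat_lit 29117467223808), .ofNat (nat_lit 21838100417856), .negSucc (nat_lit 36396834029759), .ofNat (nat_lit 36396834029760), .negSucc (nat_lit 218381004178559), .ofNat (nat_lit 145587336119040)]],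
  [[.ofNat (nat_lit 85986690665571), .ofNat (nat_lit 0), .ofNat (nat_lit 0), .ofNat (nat_lit 0), .ofNat (nat_lit 0), .ofNat (nat_lit 0), .ofNat (nat_lit 0), .ofNat (nat_lit 0), .ofNat (nat_lit 0), .ofNat (nat_lit 0), .ofNat (nat_lit 0), .ofNat (nat_lit 0), .ofNat (nat_lit 0), .ofNat (nat_lit 0), .ofNat (nat_lit 0), .ofNat (nat_lit 0), .ofNat (nat_lit 0), .ofNat (nat_lit 0), .ofNat (nat_lit 0), .ofNat (nat_lit 0), .ofNat (nat_lit 0), .ofNat (nat_lit 0), .ofNat (nat_lit 0), .ofNat (nat_lit 0), .ofNat (nat_lit 0), .ofNat (nat_lit 0), .ofNat (nat_lit 0), .ofNat (nat_lit 0), .ofNat (nat_lit 0), .ofNat (nat_lit 0), .ofNat (nat_lit 0), .ofNat (nat_lit 0), .ofNat (nat_lit 0), .ofNat (nat_lit 0), .ofNat (nat_lit 0), .ofNat (nat_lit 0), .ofNat (nat_lit 0), .ofNat (nat_lit 0), .ofNat (nat_lit 0), .ofNat (nat_lit 0)],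
  [.ofNat (nat_lit 222270680476620), .ofNat (nat_lit 0), .ofNat (nat_lit 0), .ofNat (nat_lit 0), .ofNat (nat_lit 0), .ofNat (nat_lit 0), .ofNat (nat_lit 0), .ofNat (nat_lit 0), .ofNat (nat_lit 0), .ofNat (nat_lit 0), .ofNat (nat_lit 0), .ofNat (nat_lit 0), .ofNat (nat_lit 0), .ofNat (nat_lit 0), .ofNat (nat_lit 0), .ofNat (nat_lit 0), .ofNat (nat_lit 0), .ofNat (nat_lit 0), .ofNat (nat_lit 0), .ofNat (nat_lit 0), .ofNat (nat_lit 0), .ofNat (nat_lit 0), .ofNat (nat_lit 0), .ofNat (nat_lit 0), .ofNat (nat_lit 0), .ofNat (nat_lit 0), .ofNat (nat_lit 0), .ofNat (nat_lit 0), .ofNat (nat_lit 0), .ofNat (nat_lit 0), .ofNat (nat_lit 0), .ofNat (nat_lit 0), .ofNat (nat_lit 0), .ofNat (nat_lit 0), .ofNat (nat_lit 0), .ofNat (nat_lit 0), .ofNat (nat_lit 0), .ofNat (nat_lit 0), .ofNat (nat_lit 0), .ofNat (nat_lit 0)]]],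
  [[[],
  []],
  [[.ofNat (nat_lit 0), .ofNat (nat_lit 415378676644020), .negSucc (nat_lit 415378676644019), .ofNat (nat_lit 536452184662758), .negSucc (nat_lit 1817045892310283), .ofNat (nat_lit 1280593707647526), .negSucc (nat_lit 589239852765767), .ofNat (nat_lit 1953171434994120), .negSucc (nat_lit 960143606159399), .negSucc (nat_lit 403787976068951), .ofNat (nat_lit 39577219894296), .ofNat (nat_lit 143096796085608), .ofNat (nat_lit 79154439788592), .negSucc (nat_lit 1047313823073983), .ofNat (nat_lit 785485367305488), .ofNat (nat_lit 121026336062616), .negSucc (nat_lit 666891020142575), .ofNat (nat_lit 622105359287868), .ofNat (nat_lit 896954700485772), .negSucc (nat_lit 135507671441027), .negSucc (nat_lit 1556841416039063), .ofNat (nat_lit 719153711786412), .negSucc (nat_lit 45449862890435), .ofNat (nat_lit 233756814690072), .negSucc (nat_lit 176357737054853), .negSucc (nat_lit 271736030386421), .negSucc (nat_lit 5441714506889), .ofNat (nat_lit 330303532527450), .ofNat (nat_lit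 167616026580150), .negSucc (nat_lit 232691028959069), .ofNat (nat_lit 4948320297936), .negSucc (nat_lit 24741601489679), .ofNat (nat_lit 9896640595872), .ofNat (nat_lit 24741601489680), .ofNat (nat_lit 19793281191744), .ofNat (nat_lit 14844960893808), .negSucc (nat_lit 24741601489679), .ofNat (nat_lit 24741601489680), .negSucc (nat_lit 148449608938079), .ofNat (nat_lit 98966405958720)],
  [.ofNat (nat_lit 0), .negSucc (nat_lit 414834399094175), .ofNat (nat_lit 414834399094176), .negSucc (nat_lit 541685819371499), .ofNat (nat_lit 1832474657661588), .negSucc (nat_lit 1290788838290087), .ofNat (nat_lit 999785171779128), .negSucc (nat_lit 3591924096525047), .ofNat (nat_lit 2184922334154456), .ofNat (nat_lit 407216590591464), .ofNat (nat_lit 19154841933240), .negSucc (nat_lit 743808940852679), .ofNat (nat_lit 38309683866480), .ofNat (nat_lit 2745377660211840), .negSucc (nat_lit 2059033245158879), .negSucc (nat_lit 331239646928015), .ofNat (nat_lit 1799304746371776), .negSucc (nat_lit 3048007639708943),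 .negSucc (nat_lit 979921388229695), .ofNat (nat_lit 1768075675461504), .ofNat (nat_lit 1207310235674112), .negSucc (nat_lit 415521982640735), .ofNat (nat_lit 120097637823048), .negSucc (nat_lit 616909629875855), .ofNat (nat_lit 860937559009272), .ofNat (nat_lit 318469825961856), .negSucc (nat_lit 380547007717079), .negSucc (nat_lit 466262792807399), .negSucc (nat_lit 55726773791999), .ofNat (nat_lit 219941181398160), .negSucc (nat_lit 13001817007967), .ofNat (nat_lit 65009085039840), .negSucc (nat_lit 26003634015935), .negSucc (nat_lit 65009085039839), .negSucc (nat_lit 52007268031871), .negSucc (nat_lit 39005451023903), .ofNat (nat_lit 65009085039840), .negSucc (nat_lit 65009085039839), .ofNat (nat_lit 390054510239040), .negSucc (nat_lit 260036340159359)]],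
  [[.negSucc (nat_lit 215076833985941), .ofNat (nat_lit 0), .ofNat (nat_lit 0), .ofNat (nat_lit 0), .ofNat (nat_lit 0), .ofNat (nat_lit 0), .ofNat (nat_lit 0), .ofNat (nat_lit 0), .ofNat (nat_lit 0), .ofNat (nat_lit 0), .ofNat (nat_lit 0), .ofNat (nat_lit 0), .ofNat (nat_lit 0), .ofNat (nat_lit 0), .ofNat (nat_lit 0), .ofNat (nat_lit 0), .ofNat (nat_lit 0), .ofNat (nat_lit 0), .ofNat (nat_lit 0), .ofNat (nat_lit 0), .ofNat (nat_lit 0), .ofNat (nat_lit 0), .ofNat (nat_lit 0), .ofNat (nat_lit 0), .ofNat (nat_lit 0), .ofNat (nat_lit 0), .ofNat (nat_lit 0), .ofNat (nat_lit 0), .ofNat (nat_lit 0), .ofNat (nat_lit 0), .ofNat (nat_lit 0), .ofNat (nat_lit 0), .ofNat (nat_lit 0), .ofNat (nat_lit 0), .ofNat (nat_lit 0), .ofNat (nat_lit 0), .ofNat (nat_lit 0), .ofNat (nat_lit 0), .ofNat (nat_lit 0), .ofNat (nat_lit 0)],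
  [.negSucc (nat_lit 324812725068662), .ofNat (nat_lit 0), .ofNat (nat_lit 0), .ofNat (nat_lit 0), .ofNat (nat_lit 0), .ofNat (nat_lit 0), .ofNat (nat_lit 0), .ofNat (nat_lit 0), .ofNat (nat_lit 0), .ofNat (nat_lit 0), .ofNat (nat_lit 0), .ofNat (nat_lit 0), .ofNat (nat_lit 0), .ofNat (nat_lit 0), .ofNat (nat_lit 0), .ofNat (nat_lit 0), .ofNat (nat_lit 0), .ofNat (nat_lit 0), .ofNat (nat_lit 0), .ofNat (nat_lit 0), .ofNat (nat_lit 0), .ofNat (nat_lit 0), .ofNat (nat_lit 0), .ofNat (nat_lit 0), .ofNat (nat_lit 0), .ofNat (nat_lit 0), .ofNat (nat_lit 0), .ofNat (nat_lit 0), .ofNat (nat_lit 0), .ofNat (nat_lit 0), .ofNat (nat_lit 0), .ofNat (nat_lit 0), .ofNat (nat_lit 0), .ofNat (nat_lit 0), .ofNat (nat_lit 0), .ofNat (nat_lit 0), .ofNat (nat_lit 0), .ofNat (nat_lit 0), .ofNat (nat_lit 0), .ofNat (nat_lit 0)]]]],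
  [[.ofNat (nat_lit 0), .ofNat (nat_lit 0)],
  [.ofNat (nat_lit 0), .ofNat (nat_lit 0)],
  [.ofNat (nat_lit 114339681928341), .ofNat (nat_lit 102667187719485)]],
  [[[[.ofNat (nat_lit 0), .negSucc (nat_lit 849423817457814527), .negSucc (nat_lit 2063502031684497407), .ofNat (nat_lit 102747708597952512), .ofNat (nat_lit 1428515705557923840), .ofNat (nat_lit 3704166001598929920), .negSucc (nat_lit 1922009728132233215), .negSucc (nat_lit 5976036457204506623), .negSucc (nat_lit 779127595265442815), .ofNat (nat_lit 4485772107306501120)],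
  [.ofNat (nat_lit 0), .negSucc (nat_lit 158200245125885951), .negSucc (nat_lit 643453230985500671), .ofNat (nat_lit 5984293615574529024), .negSucc (nat_lit 7658593953799274495), .negSucc (nat_lit 9309814869720204287), .ofNat (nat_lit 3070256382653672448), .ofNat (nat_lit 16434193901100005376), .ofNat (nat_lit 1209361348569093120), .negSucc (nat_lit 10140835096865700863)]],
  [[.ofNat (nat_lit 72528005117454336), .negSucc (nat_lit 84526516169478143), .ofNat (nat_lit 315243993478966272), .ofNat (nat_lit 370412831843979264), .negSucc (nat_lit 1388287924814693375), .negSucc (nat_lit 487041272051834879), .ofNat (nat_lit 505726396191811584), .ofNat (nat_lit 1526390787982749696), .ofNat (nat_lit 122154439535603712), .negSucc (nat_lit 1085371452335324159)],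
  [.ofNat (nat_lit 115986680393029632), .ofNat (nat_lit 0), .ofNat (nat_lit 0), .ofNat (nat_lit 0), .ofNat (nat_lit 0), .ofNat (nat_lit 0), .ofNat (nat_lit 0), .ofNat (nat_lit 0), .ofNat (nat_lit 0), .ofNat (nat_lit 0)]]],
  [[[.ofNat (nat_lit 0), .ofNat (nat_lit 208641138412087296), .ofNat (nat_lit 2163424448747013120), .ofNat (nat_lit 1837098612490023936), .negSucc (nat_lit 9121100641714980863), .negSucc (nat_lit 3469667278555137023), .ofNat (nat_lit 313545649594844160), .ofNat (nat_lit 13109643148800061440), .ofNat (nat_lit 481349403264973824), .negSucc (nat_lit 7584139755501603839)],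
  [.ofNat (nat_lit 0), .negSucc (nat_lit 940098975850847231), .negSucc (nat_lit 5259274211645051903), .negSucc (nat_lit 1997195662154105855), .ofNat (nat_lit 18999161325218856960), .ofNat (nat_lit 6512589190725470208), .negSucc (nat_lit 2209139554981026815), .negSucc (nat_lit 26453676667021240319), .ofNat (nat_lit 601616933050438656), .ofNat (nat_lit 12536991824804370432)]],
  [[.negSucc (nat_lit 441905609841113087), .ofNat (nat_lit 127976155876878336), .negSucc (nat_lit 1283585454311371775), .negSucc (nat_lit 942247680111120383), .ofNat (nat_lit 6083498255238438912), .negSucc (nat_lit 1244488332015240191), .ofNat (nat_lit 2272124180514852864), .negSucc (nat_lit 6276904106303987711), .ofNat (nat_lit 1367346737702227968), .ofNat (nat_lit 1368983315546569728)],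
  [.negSucc (nat_lit 497572851467335679), .ofNat (nat_lit 0), .ofNat (nat_lit 0), .ofNat (nat_lit 0), .ofNat (nat_lit 0), .ofNat (nat_lit 0), .ofNat (nat_lit 0), .ofNat (nat_lit 0), .ofNat (nat_lit 0), .ofNat (nat_lit 0)]]],
  [[[.ofNat (nat_lit 0), .negSucc (nat_lit 89893874155834367), .negSucc (nat_lit 462154087400509439), .negSucc (nat_lit 562526545618077695), .ofNat (nat_lit 2866408902748910592), .ofNat (nat_lit 962558870666600448), .ofNat (nat_lit 212841701418451968), .negSucc (nat_lit 3724354181591138303), .negSucc (nat_lit 903595521705864191), .ofNat (nat_lit 3375338753315496960)],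
  [.ofNat (nat_lit 0), .ofNat (nat_lit 401233849500054528), .ofNat (nat_lit 257371422176461824), .ofNat (nat_lit 3096871387726565376), .ofNat (nat_lit 9628647209642502144), .negSucc (nat_lit 7536828291675945983), .ofNat (nat_lit 2525976751988090880), .negSucc (nat_lit 12428583434412991487), .ofNat (nat_lit 3042013740157725696), .ofNat (nat_lit 6340962106654267392)]],
  [[.ofNat (nat_lit 305694139768436736), .ofNat (nat_lit 305727735837339648), .negSucc (nat_lit 678863707887449087), .negSucc (nat_lit 504711655500128255), .ofNat (nat_lit 2490104388412376064), .ofNat (nat_lit 620053146933995520), .negSucc (nat_lit 8076264183375621119), .ofNat (nat_lit 4644494563101539328), .negSucc (nat_lit 1226910129814370303), .ofNat (nat_lit 333354959215073280)],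
  [.ofNat (nat_lit 308221632916918272), .ofNat (nat_lit 0), .ofNat (nat_lit 0), .ofNat (nat_lit 0), .ofNat (nat_lit 0), .ofNat (nat_lit 0), .ofNat (nat_lit 0), .ofNat (nat_lit 0), .ofNat (nat_lit 0), .ofNat (nat_lit 0)]]]]⟩

noncomputable def BR8_A : L6 := [[[[[[.ofNat (nat_lit 0), .ofNat (nat_lit 0), .ofNat (nat_lit 15522366124090368)],
  [.ofNat (nat_lit 0), .ofNat (nat_lit 0), .ofNat (nat_lit 111618496415029248)],
  [.ofNat (nat_lit 0), .ofNat (nat_lit 0), .negSucc (nat_lit 220238678001604607)],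
  [.ofNat (nat_lit 0), .ofNat (nat_lit 0), .negSucc (nat_lit 332608230470310911)],
  [.ofNat (nat_lit 0), .ofNat (nat_lit 0), .ofNat (nat_lit 117083834294621184)],
  [.ofNat (nat_lit 0), .ofNat (nat_lit 0), .ofNat (nat_lit 105131200224752640)],
  [],
  []],
  [[.ofNat (nat_lit 0), .ofNat (nat_lit 72528005117454336), .ofNat (nat_lit 0)],
  [.ofNat (nat_lit 0), .ofNat (nat_lit 115986680393029632), .ofNat (nat_lit 0)],
  [],
  [],
  [],
  [],
  [],
  []],
  [[.ofNat (nat_lit 0), .ofNat (nat_lit 298506682834209792), .ofNat (nat_lit 0)],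
  [.ofNat (nat_lit 0), .ofNat (nat_lit 298506682834209792), .ofNat (nat_lit 0)],
  [],
  [],
  [],
  [],
  [],
  []],
  [[.ofNat (nat_lit 42526143167302656), .ofNat (nat_lit 500607934662150144), .ofNat (nat_lit 0)],
  [.negSucc (nat_lit 31017815832950783), .ofNat (nat_lit 0), .ofNat (nat_lit 0)],
  [.negSucc (nat_lit 42526143167302655), .negSucc (nat_lit 500607934662150143), .ofNat (nat_lit 0)],
  [.ofNat (nat_lit 31017815832950784), .ofNat (nat_lit 0), .ofNat (nat_lit 0)],
  [],
  [],
  [],
  []],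
  [[.ofNat (nat_lit 62393270453203968), .negSucc (nat_lit 446239901085235199), .ofNat (nat_lit 0)],
  [.ofNat (nat_lit 11256359623658496), .ofNat (nat_lit 0), .ofNat (nat_lit 0)],
  [],
  [.ofNat (nat_lit 62393270453203968), .negSucc (nat_lit 446239901085235199), .ofNat (nat_lit 0)],
  [.ofNat (nat_lit 11256359623658496), .ofNat (nat_lit 0), .ofNat (nat_lit 0)],
  [],
  [],
  []],
  [[.negSucc (nat_lit 2629309730319359), .negSucc (nat_lit 198924053633740799), .ofNat (nat_lit 0)],
  [.ofNat (nat_lit 20861883964643328), .ofNat (nat_lit 0), .ofNat (nat_lit 0)],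
  [],
  [],
  [.ofNat (nat_lit 2629309730319360), .ofNat (nat_lit 198924053633740800), .ofNat (nat_lit 0)],
  [.negSucc (nat_lit 20861883964643327), .ofNat (nat_lit 0), .ofNat (nat_lit 0)],
  [],
  []],
  [[.ofNat (nat_lit 67815891536947200), .ofNat (nat_lit 103523427378266112), .ofNat (nat_lit 0)],
  [.ofNat (nat_lit 32982207921911808), .ofNat (nat_lit 0), .ofNat (nat_lit 0)],
  [],
  [],
  [.negSucc (nat_lit 67815891536947199), .negSucc (nat_lit 103523427378266111), .ofNat (nat_lit 0)],
  [.negSucc (nat_lit 32982207921911807), .ofNat (nat_lit 0), .ofNat (nat_lit 0)],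
  [],
  []],
  [[.ofNat (nat_lit 15235450159555584), .ofNat (nat_lit 219749481257647104), .ofNat (nat_lit 0)],
  [.negSucc (nat_lit 20492295925542911), .ofNat (nat_lit 0), .ofNat (nat_lit 0)],
  [],
  [],
  [],
  [.ofNat (nat_lit 15235450159555584), .ofNat (nat_lit 219749481257647104), .ofNat (nat_lit 0)],
  [.negSucc (nat_lit 20492295925542911), .ofNat (nat_lit 0), .ofNat (nat_lit 0)],
  []],
  [[],
  [],
  [],
  [],
  [],
  [],
  [],
  []],
  [[],
  [],
  [],
  [],
  [],
  [],
  [],
  []]],
  [],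
  [],
  [],
  [],
  [],
  [],
  [],
  [],
  []],
  [[],
  [],
  [],
  [],
  [],
  [],
  [],
  [],
  [],
  []],
  [[],
  [[[.ofNat (nat_lit 0), .ofNat (nat_lit 407646037540233216), .ofNat (nat_lit 84526516169478144)],
  [.ofNat (nat_lit 0), .ofNat (nat_lit 170702456305250304), .ofNat (nat_lit 0)],
  [.ofNat (nat_lit 0), .ofNat (nat_lit 319010823662607360), .ofNat (nat_lit 0)],
  [.ofNat (nat_lit 0), .negSucc (nat_lit 318592818504327167), .ofNat (nat_lit 0)],
  [],
  [],
  [],
  []],
  [[.ofNat (nat_lit 209885693415095808), .negSucc (nat_lit 3062605897013174783), .ofNat (nat_lit 0)],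
  [.negSucc (nat_lit 34128981794082815), .ofNat (nat_lit 0), .ofNat (nat_lit 0)],
  [],
  [],
  [],
  [],
  [],
  []],
  [[],
  [.negSucc (nat_lit 2042665441782792191), .negSucc (nat_lit 678047914194969599), .ofNat (nat_lit 0)],
  [.negSucc (nat_lit 79045824837169151), .ofNat (nat_lit 0), .ofNat (nat_lit 0)],
  [],
  [],
  [],
  [],
  []],
  [[],
  [],
  [.negSucc (nat_lit 1616786668038385151), .ofNat (nat_lit 6097473256091360256), .ofNat (nat_lit 0)],
  [.negSucc (nat_lit 453576344579845631), .ofNat (nat_lit 0), .ofNat (nat_lit 0)],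
  [],
  [],
  [],
  []],
  [[],
  [],
  [],
  [.negSucc (nat_lit 31450110801361919), .ofNat (nat_lit 2781283966823402496), .ofNat (nat_lit 0)],
  [.ofNat (nat_lit 487788849508801536), .ofNat (nat_lit 0), .ofNat (nat_lit 0)],
  [],
  [],
  []],
  [[],
  [],
  [],
  [],
  [.negSucc (nat_lit 47122740283449599), .negSucc (nat_lit 4099838524603863551), .ofNat (nat_lit 0)],
  [.ofNat (nat_lit 400144539917465856), .ofNat (nat_lit 0), .ofNat (nat_lit 0)],
  [],
  []],
  [[],
  [],
  [],
  [],
  [.ofNat (nat_lit 1205869654228801536), .negSucc (nat_lit 1111106118697537535), .ofNat (nat_lit 0)],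
  [.ofNat (nat_lit 621727741025482752), .ofNat (nat_lit 0), .ofNat (nat_lit 0)],
  [],
  []],
  [[],
  [],
  [],
  [],
  [],
  [.negSucc (nat_lit 167653488885018623), .negSucc (nat_lit 4008713627609487359), .ofNat (nat_lit 0)],
  [.negSucc (nat_lit 232418084075301887), .ofNat (nat_lit 0), .ofNat (nat_lit 0)],
  []],
  [[],
  [],
  [],
  [],
  [],
  [],
  [.negSucc (nat_lit 32745319119502847), .negSucc (nat_lit 520691400317256191), .ofNat (nat_lit 0)],
  [.negSucc (nat_lit 92215331664943103), .ofNat (nat_lit 0), .ofNat (nat_lit 0)]],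
  [[],
  [],
  [],
  [],
  [],
  [],
  [.negSucc (nat_lit 366576376489021439), .ofNat (nat_lit 603922524086039040), .ofNat (nat_lit 0)],
  [.negSucc (nat_lit 245907551106514943), .ofNat (nat_lit 0), .ofNat (nat_lit 0)]]],
  [],
  [],
  [],
  [],
  [],
  [],
  [],
  []],
  [[],
  [],
  [[[.ofNat (nat_lit 0), .ofNat (nat_lit 368293288178663424), .negSucc (nat_lit 315243993478966271)],
  [.ofNat (nat_lit 0), .ofNat (nat_lit 838155195533288448), .ofNat (nat_lit 0)],
  [.ofNat (nat_lit 0), .ofNat (nat_lit 930327496862865408), .ofNat (nat_lit 0)],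
  [.ofNat (nat_lit 0), .negSucc (nat_lit 938227024722733055), .ofNat (nat_lit 0)],
  [],
  [],
  [],
  []],
  [[.negSucc (nat_lit 20836589901705215), .ofNat (nat_lit 993291907673935872), .ofNat (nat_lit 0)],
  [.negSucc (nat_lit 564407406148331519), .ofNat (nat_lit 0), .ofNat (nat_lit 0)],
  [],
  [],
  [],
  [],
  [],
  []],
  [[],
  [.ofNat (nat_lit 3602778420781951488), .negSucc (nat_lit 815856301933963775), .ofNat (nat_lit 0)],
  [.ofNat (nat_lit 575825612407455744), .ofNat (nat_lit 0), .ofNat (nat_lit 0)],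
  [],
  [],
  [],
  [],
  []],
  [[],
  [],
  [.negSucc (nat_lit 456929834670342143), .ofNat (nat_lit 792216861129561600), .ofNat (nat_lit 0)],
  [.negSucc (nat_lit 589917441139236863), .ofNat (nat_lit 0), .ofNat (nat_lit 0)],
  [],
  [],
  [],
  []],
  [[],
  [],
  [],
  [.negSucc (nat_lit 3700742421445161983), .ofNat (nat_lit 7279355867032000512), .ofNat (nat_lit 0)],
  [.negSucc (nat_lit 1544548615248241151), .ofNat (nat_lit 0), .ofNat (nat_lit 0)],
  [],
  [],
  []],
  [[],
  [],
  [],
  [],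
  [.ofNat (nat_lit 356340055588830720), .ofNat (nat_lit 282701255100387840), .ofNat (nat_lit 0)],
  [.ofNat (nat_lit 924424920864663552), .ofNat (nat_lit 0), .ofNat (nat_lit 0)],
  [],
  []],
  [[],
  [],
  [],
  [],
  [.negSucc (nat_lit 2200924986721256447), .ofNat (nat_lit 387118694312773632), .ofNat (nat_lit 0)],
  [.negSucc (nat_lit 157414335631570943), .ofNat (nat_lit 0), .ofNat (nat_lit 0)],
  [],
  []],
  [[],
  [],
  [],
  [],
  [],
  [.ofNat (nat_lit 1940879328357807360), .negSucc (nat_lit 8120515121166500351), .ofNat (nat_lit 0)],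
  [.ofNat (nat_lit 381256537460117760), .ofNat (nat_lit 0), .ofNat (nat_lit 0)],
  []],
  [[],
  [],
  [],
  [],
  [],
  [],
  [.negSucc (nat_lit 98235957358508543), .negSucc (nat_lit 1562074200951768575), .ofNat (nat_lit 0)],
  [.negSucc (nat_lit 276645994994829311), .ofNat (nat_lit 0), .ofNat (nat_lit 0)]],
  [[],
  [],
  [],
  [],
  [],
  [],
  [.ofNat (nat_lit 1598193443910928896), .negSucc (nat_lit 2552053559662296575), .ofNat (nat_lit 0)],
  [.negSucc (nat_lit 122953775553257471), .ofNat (nat_lit 0), .ofNat (nat_lit 0)]]],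
  [],
  [],
  [],
  [],
  [],
  [],
  []],
  [[],
  [],
  [],
  [[[.ofNat (nat_lit 0), .ofNat (nat_lit 1211050606648845312), .negSucc (nat_lit 370412831843979263)],
  [.ofNat (nat_lit 0), .negSucc (nat_lit 6285970733073721343), .ofNat (nat_lit 0)],
  [.ofNat (nat_lit 0), .negSucc (nat_lit 785624591363530751), .ofNat (nat_lit 0)],
  [.ofNat (nat_lit 0), .ofNat (nat_lit 1493072020653649920), .ofNat (nat_lit 0)],
  [],
  [],
  [],
  []],
  [[.negSucc (nat_lit 1514038959440432639), .ofNat (nat_lit 6467886087935339520), .ofNat (nat_lit 0)],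
  [.ofNat (nat_lit 5530717270994683392), .ofNat (nat_lit 0), .ofNat (nat_lit 0)],
  [],
  [],
  [],
  [],
  [],
  []],
  [[],
  [.ofNat (nat_lit 456929834670342144), .negSucc (nat_lit 792216861129561599), .ofNat (nat_lit 0)],
  [.ofNat (nat_lit 589917441139236864), .ofNat (nat_lit 0), .ofNat (nat_lit 0)],
  [],
  [],
  [],
  [],
  []],
  [[],
  [],
  [.ofNat (nat_lit 1310747491261060992), .negSucc (nat_lit 21995736506434147967), .ofNat (nat_lit 0)],
  [.ofNat (nat_lit 1087650920220415488), .ofNat (nat_lit 0), .ofNat (nat_lit 0)],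
  [],
  [],
  [],
  []],
  [[],
  [],
  [],
  [.negSucc (nat_lit 2201806570918708223), .negSucc (nat_lit 1390231538226312191), .ofNat (nat_lit 0)],
  [.negSucc (nat_lit 3388553994250570751), .ofNat (nat_lit 0), .ofNat (nat_lit 0)],
  [],
  [],
  []],
  [[],
  [],
  [],
  [],
  [.negSucc (nat_lit 24090549027617663), .ofNat (nat_lit 20571146381465022528), .ofNat (nat_lit 0)],
  [.ofNat (nat_lit 141300400056628608), .ofNat (nat_lit 0), .ofNat (nat_lit 0)],
  [],
  []],
  [[],
  [],
  [],
  [],
  [.negSucc (nat_lit 4944385190916827135), .ofNat (nat_lit 6389852553716638464), .ofNat (nat_lit 0)],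
  [.negSucc (nat_lit 356314677178936319), .ofNat (nat_lit 0), .ofNat (nat_lit 0)],
  [],
  []],
  [[],
  [],
  [],
  [],
  [],
  [.ofNat (nat_lit 608257416814647552), .ofNat (nat_lit 9713620706317569792), .ofNat (nat_lit 0)],
  [.ofNat (nat_lit 1752927462486063360), .ofNat (nat_lit 0), .ofNat (nat_lit 0)],
  []],
  [[],
  [],
  [],
  [],
  [],
  [],
  [.negSucc (nat_lit 729018397987057727), .negSucc (nat_lit 22794438178666655), .ofNat (nat_lit 0)],
  [.negSucc (nat_lit 230538329162357759), .ofNat (nat_lit 0), .ofNat (nat_lit 0)]],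
  [[],
  [],
  [],
  [],
  [],
  [],
  [.ofNat (nat_lit 3529079133009774336), .negSucc (nat_lit 5467754094790392575), .ofNat (nat_lit 0)],
  [.negSucc (nat_lit 307384438883143679), .ofNat (nat_lit 0), .ofNat (nat_lit 0)]]],
  [],
  [],
  [],
  [],
  [],
  []],
  [[],
  [],
  [],
  [],
  [[[.ofNat (nat_lit 0), .negSucc (nat_lit 3740283592642317311), .ofNat (nat_lit 1388287924814693376)],
  [.ofNat (nat_lit 0), .ofNat (nat_lit 6056382935053430784), .ofNat (nat_lit 0)],
  [.ofNat (nat_lit 0), .negSucc (nat_lit 307240108472494079), .ofNat (nat_lit 0)],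
  [.ofNat (nat_lit 0), .ofNat (nat_lit 975282172857722880), .ofNat (nat_lit 0)],
  [],
  [],
  [],
  []],
  [[.ofNat (nat_lit 1459965816359285760), .negSucc (nat_lit 4169571891638095871), .ofNat (nat_lit 0)],
  [.negSucc (nat_lit 8146382803308076031), .ofNat (nat_lit 0), .ofNat (nat_lit 0)],
  [],
  [],
  [],
  [],
  [],
  []],
  [[],
  [.negSucc (nat_lit 3700742421445161983), .ofNat (nat_lit 7279355867032000512), .ofNat (nat_lit 0)],
  [.negSucc (nat_lit 1544548615248241151), .ofNat (nat_lit 0), .ofNat (nat_lit 0)],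
  [],
  [],
  [],
  [],
  []],
  [[],
  [],
  [.ofNat (nat_lit 2201806570918708224), .ofNat (nat_lit 1390231538226312192), .ofNat (nat_lit 0)],
  [.ofNat (nat_lit 3388553994250570752), .ofNat (nat_lit 0), .ofNat (nat_lit 0)],
  [],
  [],
  [],
  []],
  [[],
  [],
  [],
  [.ofNat (nat_lit 20061047943512731008), .negSucc (nat_lit 16798021052302843775), .ofNat (nat_lit 0)],
  [.ofNat (nat_lit 482507920439467776), .ofNat (nat_lit 0), .ofNat (nat_lit 0)],
  [],
  [],
  []],
  [[],
  [],
  [],
  [],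
  [.negSucc (nat_lit 1398443221852398143), .ofNat (nat_lit 2247049525360064832), .ofNat (nat_lit 0)],
  [.negSucc (nat_lit 1884937370963556095), .ofNat (nat_lit 0), .ofNat (nat_lit 0)],
  [],
  []],
  [[],
  [],
  [],
  [],
  [.ofNat (nat_lit 8432803224648011520), .negSucc (nat_lit 4584824103194553599), .ofNat (nat_lit 0)],
  [.negSucc (nat_lit 231340478303904767), .ofNat (nat_lit 0), .ofNat (nat_lit 0)],
  [],
  []],
  [[],
  [],
  [],
  [],
  [],
  [.negSucc (nat_lit 16700944529689830719), .ofNat (nat_lit 14846088375011665728), .ofNat (nat_lit 0)],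
  [.ofNat (nat_lit 2034934902028920960), .ofNat (nat_lit 0), .ofNat (nat_lit 0)],
  []],
  [[],
  [],
  [],
  [],
  [],
  [],
  [.negSucc (nat_lit 1376173498175358335), .ofNat (nat_lit 1256139624435807168), .ofNat (nat_lit 0)],
  [.negSucc (nat_lit 230538329162357759), .ofNat (nat_lit 0), .ofNat (nat_lit 0)]],
  [[],
  [],
  [],
  [],
  [],
  [],
  [.negSucc (nat_lit 7625463960280770431), .ofNat (nat_lit 4470398443269871488), .ofNat (nat_lit 0)],
  [.negSucc (nat_lit 307384438883143679), .ofNat (nat_lit 0), .ofNat (nat_lit 0)]]],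
  [],
  [],
  [],
  [],
  []],
  [[],
  [],
  [],
  [],
  [],
  [[[.ofNat (nat_lit 0), .negSucc (nat_lit 2553225487184867327), .ofNat (nat_lit 487041272051834880)],
  [.ofNat (nat_lit 0), .ofNat (nat_lit 9950524340926657536), .ofNat (nat_lit 0)],
  [.ofNat (nat_lit 0), .ofNat (nat_lit 319978890815367168), .ofNat (nat_lit 0)],
  [.ofNat (nat_lit 0), .negSucc (nat_lit 1397350532236465151), .ofNat (nat_lit 0)],
  [],
  [],
  [],
  []],
  [[.ofNat (nat_lit 3657043261315480320), .negSucc (nat_lit 4586879796655698431), .ofNat (nat_lit 0)],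
  [.negSucc (nat_lit 8909670329802738431), .ofNat (nat_lit 0), .ofNat (nat_lit 0)],
  [],
  [],
  [],
  [],
  [],
  []],
  [[],
  [.negSucc (nat_lit 356340055588830719), .negSucc (nat_lit 282701255100387839), .ofNat (nat_lit 0)],
  [.negSucc (nat_lit 924424920864663551), .ofNat (nat_lit 0), .ofNat (nat_lit 0)],
  [],
  [],
  [],
  [],
  []],
  [[],
  [],
  [.negSucc (nat_lit 24090549027617663), .ofNat (nat_lit 20571146381465022528), .ofNat (nat_lit 0)],
  [.ofNat (nat_lit 141300400056628608), .ofNat (nat_lit 0), .ofNat (nat_lit 0)],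
  [],
  [],
  [],
  []],
  [[],
  [],
  [],
  [.ofNat (nat_lit 1398443221852398144), .negSucc (nat_lit 2247049525360064831), .ofNat (nat_lit 0)],
  [.ofNat (nat_lit 1884937370963556096), .ofNat (nat_lit 0), .ofNat (nat_lit 0)],
  [],
  [],
  []],
  [[],
  [],
  [],
  [],
  [.negSucc (nat_lit 2280301423189076159), .negSucc (nat_lit 24117141709030194431), .ofNat (nat_lit 0)],
  [.negSucc (nat_lit 1157778849728560895), .ofNat (nat_lit 0), .ofNat (nat_lit 0)],
  [],
  []],
  [[],
  [],
  [],
  [],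
  [.ofNat (nat_lit 4832598011868403200), .negSucc (nat_lit 7049320507633881599), .ofNat (nat_lit 0)],
  [.negSucc (nat_lit 631138397701591295), .ofNat (nat_lit 0), .ofNat (nat_lit 0)],
  [],
  []],
  [[],
  [],
  [],
  [],
  [],
  [.negSucc (nat_lit 8189032187388187007), .negSucc (nat_lit 12159173210049073727), .ofNat (nat_lit 0)],
  [.ofNat (nat_lit 843921251782018560), .ofNat (nat_lit 0), .ofNat (nat_lit 0)],
  []],
  [[],
  [],
  [],
  [],
  [],
  [],
  [.ofNat (nat_lit 134288796405141072), .negSucc (nat_lit 1610343093204930815), .ofNat (nat_lit 0)],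
  [.negSucc (nat_lit 84530720692864511), .ofNat (nat_lit 0), .ofNat (nat_lit 0)]],
  [[],
  [],
  [],
  [],
  [],
  [],
  [.negSucc (nat_lit 6878150234730965951), .ofNat (nat_lit 5653848286930531392), .ofNat (nat_lit 0)],
  [.ofNat (nat_lit 30738443888314368), .ofNat (nat_lit 0), .ofNat (nat_lit 0)]]],
  [[[.ofNat (nat_lit 0), .ofNat (nat_lit 2165678314757139456), .negSucc (nat_lit 505726396191811583)],
  [.ofNat (nat_lit 0), .negSucc (nat_lit 2260587444863155199), .ofNat (nat_lit 0)],
  [.ofNat (nat_lit 0), .ofNat (nat_lit 410016531684805632), .ofNat (nat_lit 0)],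
  [.ofNat (nat_lit 0), .ofNat (nat_lit 10596520361742336), .ofNat (nat_lit 0)],
  [],
  [],
  [],
  []],
  [[.negSucc (nat_lit 716140073903431679), .negSucc (nat_lit 605379722505725951), .ofNat (nat_lit 0)],
  [.ofNat (nat_lit 3691984123679155200), .ofNat (nat_lit 0), .ofNat (nat_lit 0)],
  [],
  [],
  [],
  [],
  [],
  []],
  [[],
  [.ofNat (nat_lit 2200924986721256448), .negSucc (nat_lit 387118694312773631), .ofNat (nat_lit 0)],
  [.ofNat (nat_lit 157414335631570944), .ofNat (nat_lit 0), .ofNat (nat_lit 0)],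
  [],
  [],
  [],
  [],
  []],
  [[],
  [],
  [.negSucc (nat_lit 4944385190916827135), .ofNat (nat_lit 6389852553716638464), .ofNat (nat_lit 0)],
  [.negSucc (nat_lit 356314677178936319), .ofNat (nat_lit 0), .ofNat (nat_lit 0)],
  [],
  [],
  [],
  []],
  [[],
  [],
  [],
  [.negSucc (nat_lit 8432803224648011519), .ofNat (nat_lit 4584824103194553600), .ofNat (nat_lit 0)],
  [.ofNat (nat_lit 231340478303904768), .ofNat (nat_lit 0), .ofNat (nat_lit 0)],
  [],
  [],
  []],
  [[],
  [],
  [],
  [],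
  [.ofNat (nat_lit 4832598011868403200), .negSucc (nat_lit 7049320507633881599), .ofNat (nat_lit 0)],
  [.negSucc (nat_lit 631138397701591295), .ofNat (nat_lit 0), .ofNat (nat_lit 0)],
  [],
  []],
  [[],
  [],
  [],
  [],
  [.negSucc (nat_lit 2352986511899120639), .ofNat (nat_lit 8593722507009024), .ofNat (nat_lit 0)],
  [.ofNat (nat_lit 65478079741215744), .ofNat (nat_lit 0), .ofNat (nat_lit 0)],
  [],
  []],
  [[],
  [],
  [],
  [],
  [],
  [.ofNat (nat_lit 6088008905231493888), .negSucc (nat_lit 7603186653621080063), .ofNat (nat_lit 0)],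
  [.ofNat (nat_lit 491085598059118080), .ofNat (nat_lit 0), .ofNat (nat_lit 0)],
  []],
  [[],
  [],
  [],
  [],
  [],
  [],
  [.negSucc (nat_lit 754819671625470143), .ofNat (nat_lit 1980780102199400832), .ofNat (nat_lit 0)],
  [.ofNat (nat_lit 30738443888314368), .ofNat (nat_lit 0), .ofNat (nat_lit 0)]],
  [[],
  [],
  [],
  [],
  [],
  [],
  [.ofNat (nat_lit 2935385622070011648), .negSucc (nat_lit 6370427934398294783), .ofNat (nat_lit 0)],
  [.negSucc (nat_lit 122953775553257471), .ofNat (nat_lit 0), .ofNat (nat_lit 0)]]],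
  [],
  [],
  []],
  [[],
  [],
  [],
  [],
  [],
  [],
  [],
  [[[.ofNat (nat_lit 0), .ofNat (nat_lit 5492179855073857536), .negSucc (nat_lit 1526390787982749695)],
  [.ofNat (nat_lit 0), .negSucc (nat_lit 16773820038798501887), .ofNat (nat_lit 0)],
  [.ofNat (nat_lit 0), .negSucc (nat_lit 230868831820502015), .ofNat (nat_lit 0)],
  [.ofNat (nat_lit 0), .ofNat (nat_lit 606612774323755008), .ofNat (nat_lit 0)],
  [],
  [],
  [],
  []],
  [[.negSucc (nat_lit 5808382968319487999), .ofNat (nat_lit 5535104415592237056), .ofNat (nat_lit 0)],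
  [.ofNat (nat_lit 16666611985175307264), .ofNat (nat_lit 0), .ofNat (nat_lit 0)],
  [],
  [],
  [],
  [],
  [],
  []],
  [[],
  [.ofNat (nat_lit 1940879328357807360), .negSucc (nat_lit 8120515121166500351), .ofNat (nat_lit 0)],
  [.ofNat (nat_lit 381256537460117760), .ofNat (nat_lit 0), .ofNat (nat_lit 0)],
  [],
  [],
  [],
  [],
  []],
  [[],
  [],
  [.negSucc (nat_lit 608257416814647551), .negSucc (nat_lit 9713620706317569791), .ofNat (nat_lit 0)],
  [.negSucc (nat_lit 1752927462486063359), .ofNat (nat_lit 0), .ofNat (nat_lit 0)],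
  [],
  [],
  [],
  []],
  [[],
  [],
  [],
  [.negSucc (nat_lit 16700944529689830719), .ofNat (nat_lit 14846088375011665728), .ofNat (nat_lit 0)],
  [.ofNat (nat_lit 2034934902028920960), .ofNat (nat_lit 0), .ofNat (nat_lit 0)],
  [],
  [],
  []],
  [[],
  [],
  [],
  [],
  [.ofNat (nat_lit 8189032187388187008), .ofNat (nat_lit 12159173210049073728), .ofNat (nat_lit 0)],
  [.negSucc (nat_lit 843921251782018559), .ofNat (nat_lit 0), .ofNat (nat_lit 0)],
  [],
  []],
  [[],
  [],
  [],
  [],
  [.negSucc (nat_lit 6088008905231493887), .ofNat (nat_lit 7603186653621080064), .ofNat (nat_lit 0)],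
  [.negSucc (nat_lit 491085598059118079), .ofNat (nat_lit 0), .ofNat (nat_lit 0)],
  [],
  []],
  [[],
  [],
  [],
  [],
  [],
  [.ofNat (nat_lit 20766772693201989312), .ofNat (nat_lit 357860128633139232), .ofNat (nat_lit 0)],
  [.ofNat (nat_lit 304822901892450816), .ofNat (nat_lit 0), .ofNat (nat_lit 0)],
  []],
  [[],
  [],
  [],
  [],
  [],
  [],
  [.ofNat (nat_lit 96829170246307728), .negSucc (nat_lit 999074373253839215), .ofNat (nat_lit 0)],
  [.negSucc (nat_lit 23053832916235775), .ofNat (nat_lit 0), .ofNat (nat_lit 0)]],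
  [[],
  [],
  [],
  [],
  [],
  [],
  [.ofNat (nat_lit 8913225945717304128), .negSucc (nat_lit 2137533172177702463), .ofNat (nat_lit 0)],
  [.negSucc (nat_lit 61476887776628735), .ofNat (nat_lit 0), .ofNat (nat_lit 0)]]],
  [],
  []],
  [[],
  [],
  [],
  [],
  [],
  [],
  [],
  [],
  [[[.ofNat (nat_lit 0), .ofNat (nat_lit 779127595265442816), .negSucc (nat_lit 122154439535603711)],
  [.ofNat (nat_lit 0), .negSucc (nat_lit 1209361348569093119), .ofNat (nat_lit 0)],
  [],
  [],
  [],
  [],
  [],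
  []],
  [[.negSucc (nat_lit 811872914384945663), .negSucc (nat_lit 398536960781652479), .ofNat (nat_lit 0)],
  [.ofNat (nat_lit 1117146016904150016), .ofNat (nat_lit 0), .ofNat (nat_lit 0)],
  [],
  [],
  [],
  [],
  [],
  []],
  [[],
  [.ofNat (nat_lit 98235957358508544), .ofNat (nat_lit 1562074200951768576), .ofNat (nat_lit 0)],
  [.ofNat (nat_lit 276645994994829312), .ofNat (nat_lit 0), .ofNat (nat_lit 0)],
  [],
  [],
  [],
  [],
  []],
  [[],
  [],
  [.negSucc (nat_lit 729018397987057727), .negSucc (nat_lit 22794438178666655), .ofNat (nat_lit 0)],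
  [.negSucc (nat_lit 230538329162357759), .ofNat (nat_lit 0), .ofNat (nat_lit 0)],
  [],
  [],
  [],
  []],
  [[],
  [],
  [],
  [.ofNat (nat_lit 1376173498175358336), .negSucc (nat_lit 1256139624435807167), .ofNat (nat_lit 0)],
  [.ofNat (nat_lit 230538329162357760), .ofNat (nat_lit 0), .ofNat (nat_lit 0)],
  [],
  [],
  []],
  [[],
  [],
  [],
  [],
  [.ofNat (nat_lit 134288796405141072), .negSucc (nat_lit 1610343093204930815), .ofNat (nat_lit 0)],
  [.negSucc (nat_lit 84530720692864511), .ofNat (nat_lit 0), .ofNat (nat_lit 0)],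
  [],
  []],
  [[],
  [],
  [],
  [],
  [.negSucc (nat_lit 754819671625470143), .ofNat (nat_lit 1980780102199400832), .ofNat (nat_lit 0)],
  [.ofNat (nat_lit 30738443888314368), .ofNat (nat_lit 0), .ofNat (nat_lit 0)],
  [],
  []],
  [[],
  [],
  [],
  [],
  [],
  [.negSucc (nat_lit 96829170246307727), .ofNat (nat_lit 999074373253839216), .ofNat (nat_lit 0)],
  [.ofNat (nat_lit 23053832916235776), .ofNat (nat_lit 0), .ofNat (nat_lit 0)],
  []],
  [[],
  [],
  [],
  [],
  [],
  [],
  [.ofNat (nat_lit 1018663725442007088), .ofNat (nat_lit 4467344743114070256), .ofNat (nat_lit 0)],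
  []],
  [[],
  [],
  [],
  [],
  [],
  [],
  [.negSucc (nat_lit 703552884035018399), .negSucc (nat_lit 3586091049688940639), .ofNat (nat_lit 0)],
  []]],
  [[[.ofNat (nat_lit 0), .negSucc (nat_lit 4485772107306501119), .ofNat (nat_lit 1085371452335324160)],
  [.ofNat (nat_lit 0), .ofNat (nat_lit 10140835096865700864), .ofNat (nat_lit 0)],
  [],
  [],
  [],
  [],
  [],
  []],
  [[.ofNat (nat_lit 4119195730817479680), .negSucc (nat_lit 481448928249285119), .ofNat (nat_lit 0)],
  [.negSucc (nat_lit 10386742647972215807), .ofNat (nat_lit 0), .ofNat (nat_lit 0)],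
  [],
  [],
  [],
  [],
  [],
  []],
  [[],
  [.negSucc (nat_lit 1598193443910928895), .ofNat (nat_lit 2552053559662296576), .ofNat (nat_lit 0)],
  [.ofNat (nat_lit 122953775553257472), .ofNat (nat_lit 0), .ofNat (nat_lit 0)],
  [],
  [],
  [],
  [],
  []],
  [[],
  [],
  [.ofNat (nat_lit 3529079133009774336), .negSucc (nat_lit 5467754094790392575), .ofNat (nat_lit 0)],
  [.negSucc (nat_lit 307384438883143679), .ofNat (nat_lit 0), .ofNat (nat_lit 0)],
  [],
  [],
  [],
  []],
  [[],
  [],
  [],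
  [.ofNat (nat_lit 7625463960280770432), .negSucc (nat_lit 4470398443269871487), .ofNat (nat_lit 0)],
  [.ofNat (nat_lit 307384438883143680), .ofNat (nat_lit 0), .ofNat (nat_lit 0)],
  [],
  [],
  []],
  [[],
  [],
  [],
  [],
  [.negSucc (nat_lit 6878150234730965951), .ofNat (nat_lit 5653848286930531392), .ofNat (nat_lit 0)],
  [.ofNat (nat_lit 30738443888314368), .ofNat (nat_lit 0), .ofNat (nat_lit 0)],
  [],
  []],
  [[],
  [],
  [],
  [],
  [.ofNat (nat_lit 2935385622070011648), .negSucc (nat_lit 6370427934398294783), .ofNat (nat_lit 0)],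
  [.negSucc (nat_lit 122953775553257471), .ofNat (nat_lit 0), .ofNat (nat_lit 0)],
  [],
  []],
  [[],
  [],
  [],
  [],
  [],
  [.negSucc (nat_lit 8913225945717304127), .ofNat (nat_lit 2137533172177702464), .ofNat (nat_lit 0)],
  [.ofNat (nat_lit 61476887776628736), .ofNat (nat_lit 0), .ofNat (nat_lit 0)],
  []],
  [[],
  [],
  [],
  [],
  [],
  [],
  [.negSucc (nat_lit 703552884035018399), .negSucc (nat_lit 3586091049688940639), .ofNat (nat_lit 0)],
  []],
  [[],
  [],
  [],
  [],
  [],
  [],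
  [.negSucc (nat_lit 234318096964472831), .ofNat (nat_lit 12360779345653569792), .ofNat (nat_lit 0)],
  []]]]],
  [[[[[.ofNat (nat_lit 0), .ofNat (nat_lit 0), .ofNat (nat_lit 1428253837903872)],
  [.ofNat (nat_lit 0), .ofNat (nat_lit 0), .negSucc (nat_lit 167643609473286143)],
  [.ofNat (nat_lit 0), .ofNat (nat_lit 0), .ofNat (nat_lit 351251502883863552)],
  [.ofNat (nat_lit 0), .ofNat (nat_lit 0), .ofNat (nat_lit 315393600674257920)],
  [],
  [],
  [],
  []],
  [[.ofNat (nat_lit 0), .negSucc (nat_lit 127829923531775), .ofNat (nat_lit 0)],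
  [.ofNat (nat_lit 0), .negSucc (nat_lit 510075062646700031), .ofNat (nat_lit 0)],
  [],
  [],
  [],
  [],
  [],
  []],
  [[],
  [.ofNat (nat_lit 0), .negSucc (nat_lit 1695208743505833983), .ofNat (nat_lit 0)],
  [.ofNat (nat_lit 0), .ofNat (nat_lit 194701964547787776), .ofNat (nat_lit 0)],
  [],
  [],
  [],
  [],
  []],
  [[],
  [],
  [.ofNat (nat_lit 0), .negSucc (nat_lit 1313798315246797823), .ofNat (nat_lit 0)],
  [.ofNat (nat_lit 0), .ofNat (nat_lit 301677117499192320), .ofNat (nat_lit 0)],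
  [],
  [],
  [],
  []],
  [[],
  [],
  [],
  [.ofNat (nat_lit 0), .negSucc (nat_lit 2311767887084393471), .ofNat (nat_lit 0)],
  [.ofNat (nat_lit 0), .negSucc (nat_lit 1602211018745843711), .ofNat (nat_lit 0)],
  [],
  [],
  []],
  [[],
  [],
  [],
  [],
  [.ofNat (nat_lit 0), .negSucc (nat_lit 1150940514414062591), .ofNat (nat_lit 0)],
  [.ofNat (nat_lit 0), .negSucc (nat_lit 640709471206453247), .ofNat (nat_lit 0)],
  [],
  []],
  [[],
  [],
  [],
  [],
  [.ofNat (nat_lit 0), .negSucc (nat_lit 243668586624906239), .ofNat (nat_lit 0)],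
  [.ofNat (nat_lit 0), .negSucc (nat_lit 809668937790517247), .ofNat (nat_lit 0)],
  [],
  []],
  [[],
  [],
  [],
  [],
  [],
  [.ofNat (nat_lit 0), .negSucc (nat_lit 483856602130649087), .ofNat (nat_lit 0)],
  [.ofNat (nat_lit 0), .negSucc (nat_lit 339626137698496511), .ofNat (nat_lit 0)],
  []],
  [[],
  [],
  [],
  [],
  [],
  [],
  [],
  []],
  [[],
  [],
  [],
  [],
  [],
  [],
  [],
  []]],
  [],
  [],
  [],
  [],
  [],
  [],
  [],
  [],
  []],
  [[],
  [],
  [],
  [],
  [],
  [],
  [],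
  [],
  [],
  []],
  [[],
  [[[.ofNat (nat_lit 0), .ofNat (nat_lit 429380508913127424), .negSucc (nat_lit 127976155876878335)],
  [.ofNat (nat_lit 0), .ofNat (nat_lit 302913338842192896), .ofNat (nat_lit 0)],
  [],
  [],
  [],
  [],
  [],
  []],
  [[.ofNat (nat_lit 208641138412087296), .negSucc (nat_lit 714024098230708223), .ofNat (nat_lit 0)],
  [.negSucc (nat_lit 940098975850847231), .ofNat (nat_lit 628853681943088128), .ofNat (nat_lit 0)],
  [],
  [],
  [],
  [],
  [],
  []],
  [[],
  [.ofNat (nat_lit 0), .ofNat (nat_lit 1535525723084700672), .ofNat (nat_lit 0)],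
  [.ofNat (nat_lit 0), .negSucc (nat_lit 8212160649802871807), .ofNat (nat_lit 0)],
  [],
  [],
  [],
  [],
  []],
  [[],
  [],
  [.ofNat (nat_lit 0), .ofNat (nat_lit 8922564212686274304), .ofNat (nat_lit 0)],
  [.ofNat (nat_lit 0), .ofNat (nat_lit 1110470238413231616), .ofNat (nat_lit 0)],
  [],
  [],
  [],
  []],
  [[],
  [],
  [],
  [.ofNat (nat_lit 0), .ofNat (nat_lit 16491461462809712640), .ofNat (nat_lit 0)],
  [.ofNat (nat_lit 0), .ofNat (nat_lit 27421526979254808576), .ofNat (nat_lit 0)],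
  [],
  [],
  []],
  [[],
  [],
  [],
  [],
  [.ofNat (nat_lit 0), .negSucc (nat_lit 4612155298470642815), .ofNat (nat_lit 0)],
  [.ofNat (nat_lit 0), .ofNat (nat_lit 4066574075702364672), .ofNat (nat_lit 0)],
  [],
  []],
  [[],
  [],
  [],
  [],
  [.ofNat (nat_lit 0), .negSucc (nat_lit 3656616340441383935), .ofNat (nat_lit 0)],
  [.ofNat (nat_lit 0), .ofNat (nat_lit 7094694542668369920), .ofNat (nat_lit 0)],
  [],
  []],
  [[],
  [],
  [],
  [],
  [],
  [.ofNat (nat_lit 0), .negSucc (nat_lit 22230409566480652799), .ofNat (nat_lit 0)],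
  [.ofNat (nat_lit 0), .negSucc (nat_lit 10249140898349733887), .ofNat (nat_lit 0)],
  []],
  [[],
  [],
  [],
  [],
  [],
  [],
  [.ofNat (nat_lit 0), .negSucc (nat_lit 2113972018553456639), .ofNat (nat_lit 0)],
  [.ofNat (nat_lit 0), .negSucc (nat_lit 1528317619643234303), .ofNat (nat_lit 0)]],
  [[],
  [],
  [],
  [],
  [],
  [],
  [.ofNat (nat_lit 0), .negSucc (nat_lit 7229621549871521279), .ofNat (nat_lit 0)],
  [.ofNat (nat_lit 0), .negSucc (nat_lit 4075513652381958143), .ofNat (nat_lit 0)]]],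
  [],
  [],
  [],
  [],
  [],
  [],
  [],
  []],
  [[],
  [],
  [[[.ofNat (nat_lit 0), .negSucc (nat_lit 302769455021282303), .ofNat (nat_lit 1283585454311371776)],
  [.ofNat (nat_lit 0), .ofNat (nat_lit 3382820162199585792), .ofNat (nat_lit 0)],
  [],
  [],
  [],
  [],
  [],
  []],
  [[.ofNat (nat_lit 2163424448747013120), .negSucc (nat_lit 2819111177396072447), .ofNat (nat_lit 0)],
  [.negSucc (nat_lit 5259274211645051903), .ofNat (nat_lit 8212160649802871808), .ofNat (nat_lit 0)],
  [],
  [],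
  [],
  [],
  [],
  []],
  [[],
  [.ofNat (nat_lit 0), .negSucc (nat_lit 13101682937428601855), .ofNat (nat_lit 0)],
  [.ofNat (nat_lit 0), .ofNat (nat_lit 2556635305318718976), .ofNat (nat_lit 0)],
  [],
  [],
  [],
  [],
  []],
  [[],
  [],
  [.ofNat (nat_lit 0), .negSucc (nat_lit 12835022419518720767), .ofNat (nat_lit 0)],
  [.ofNat (nat_lit 0), .negSucc (nat_lit 29527990956669740543), .ofNat (nat_lit 0)],
  [],
  [],
  [],
  []],
  [[],
  [],
  [],
  [.ofNat (nat_lit 0), .ofNat (nat_lit 21013686118740524544), .ofNat (nat_lit 0)],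
  [.ofNat (nat_lit 0), .negSucc (nat_lit 10453480878944212991), .ofNat (nat_lit 0)],
  [],
  [],
  []],
  [[],
  [],
  [],
  [],
  [.ofNat (nat_lit 0), .ofNat (nat_lit 20466590910051087360), .ofNat (nat_lit 0)],
  [.ofNat (nat_lit 0), .ofNat (nat_lit 20523680318015760384), .ofNat (nat_lit 0)],
  [],
  []],
  [[],
  [],
  [],
  [],
  [.ofNat (nat_lit 0), .ofNat (nat_lit 1080205184902104576), .ofNat (nat_lit 0)],
  [.ofNat (nat_lit 0), .negSucc (nat_lit 4051759098013323263), .ofNat (nat_lit 0)],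
  [],
  []],
  [[],
  [],
  [],
  [],
  [],
  [.ofNat (nat_lit 0), .negSucc (nat_lit 1860563215218591359), .ofNat (nat_lit 0)],
  [.ofNat (nat_lit 0), .negSucc (nat_lit 1558109303180029439), .ofNat (nat_lit 0)],
  []],
  [[],
  [],
  [],
  [],
  [],
  [],
  [.ofNat (nat_lit 0), .negSucc (nat_lit 6341916055660369919), .ofNat (nat_lit 0)],
  [.ofNat (nat_lit 0), .negSucc (nat_lit 4584952858929702911), .ofNat (nat_lit 0)]],
  [[],
  [],
  [],
  [],
  [],
  [],
  [.ofNat (nat_lit 0), .ofNat (nat_lit 3555381439040034816), .ofNat (nat_lit 0)],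
  [.ofNat (nat_lit 0), .negSucc (nat_lit 2037756826190979071), .ofNat (nat_lit 0)]]],
  [],
  [],
  [],
  [],
  [],
  [],
  []],
  [[],
  [],
  [],
  [[[.ofNat (nat_lit 0), .negSucc (nat_lit 3408347795217085439), .ofNat (nat_lit 942247680111120384)],
  [.ofNat (nat_lit 0), .ofNat (nat_lit 4983339703461405696), .ofNat (nat_lit 0)],
  [],
  [],
  [],
  [],
  [],
  []],
  [[.ofNat (nat_lit 1837098612490023936), .ofNat (nat_lit 7980316532575153920), .ofNat (nat_lit 0)],
  [.negSucc (nat_lit 1997195662154105855), .ofNat (nat_lit 1110470238413231616), .ofNat (nat_lit 0)],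
  [],
  [],
  [],
  [],
  [],
  []],
  [[],
  [.ofNat (nat_lit 0), .ofNat (nat_lit 12835022419518720768), .ofNat (nat_lit 0)],
  [.ofNat (nat_lit 0), .ofNat (nat_lit 29527990956669740544), .ofNat (nat_lit 0)],
  [],
  [],
  [],
  [],
  []],
  [[],
  [],
  [.ofNat (nat_lit 0), .negSucc (nat_lit 17677234253568066047), .ofNat (nat_lit 0)],
  [.ofNat (nat_lit 0), .negSucc (nat_lit 11536645185811268351), .ofNat (nat_lit 0)],
  [],
  [],
  [],
  []],
  [[],
  [],
  [],
  [.ofNat (nat_lit 0), .negSucc (nat_lit 25438324946676576767), .ofNat (nat_lit 0)],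
  [.ofNat (nat_lit 0), .negSucc (nat_lit 58359607599598636031), .ofNat (nat_lit 0)],
  [],
  [],
  []],
  [[],
  [],
  [],
  [],
  [.ofNat (nat_lit 0), .ofNat (nat_lit 8182000018316176704), .ofNat (nat_lit 0)],
  [.ofNat (nat_lit 0), .ofNat (nat_lit 14622915574253839104), .ofNat (nat_lit 0)],
  [],
  []],
  [[],
  [],
  [],
  [],
  [.ofNat (nat_lit 0), .ofNat (nat_lit 12486620015109063936), .ofNat (nat_lit 0)],
  [.ofNat (nat_lit 0), .ofNat (nat_lit 4916232907712686080), .ofNat (nat_lit 0)],
  [],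
  []],
  [[],
  [],
  [],
  [],
  [],
  [.ofNat (nat_lit 0), .ofNat (nat_lit 12653627325049654272), .ofNat (nat_lit 0)],
  [.ofNat (nat_lit 0), .ofNat (nat_lit 20935720302356482560), .ofNat (nat_lit 0)],
  []],
  [[],
  [],
  [],
  [],
  [],
  [],
  [.ofNat (nat_lit 0), .negSucc (nat_lit 6062627402113228127), .ofNat (nat_lit 0)],
  [.ofNat (nat_lit 0), .negSucc (nat_lit 3820794049108085759), .ofNat (nat_lit 0)]],
  [[],
  [],
  [],
  [],
  [],
  [],
  [.ofNat (nat_lit 0), .ofNat (nat_lit 7080255664894139904), .ofNat (nat_lit 0)],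
  [.ofNat (nat_lit 0), .negSucc (nat_lit 5094392065477447679), .ofNat (nat_lit 0)]]],
  [],
  [],
  [],
  [],
  [],
  []],
  [[],
  [],
  [],
  [],
  [[[.ofNat (nat_lit 0), .ofNat (nat_lit 8506620424769992704), .negSucc (nat_lit 6083498255238438911)],
  [.ofNat (nat_lit 0), .negSucc (nat_lit 17048596979503411199), .ofNat (nat_lit 0)],
  [],
  [],
  [],
  [],
  [],
  []],
  [[.negSucc (nat_lit 9121100641714980863), .negSucc (nat_lit 10407963207571273727), .ofNat (nat_lit 0)],
  [.ofNat (nat_lit 18999161325218856960), .negSucc (nat_lit 27421526979254808575), .ofNat (nat_lit 0)],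
  [],
  [],
  [],
  [],
  [],
  []],
  [[],
  [.ofNat (nat_lit 0), .ofNat (nat_lit 21013686118740524544), .ofNat (nat_lit 0)],
  [.ofNat (nat_lit 0), .negSucc (nat_lit 10453480878944212991), .ofNat (nat_lit 0)],
  [],
  [],
  [],
  [],
  []],
  [[],
  [],
  [.ofNat (nat_lit 0), .ofNat (nat_lit 25438324946676576768), .ofNat (nat_lit 0)],
  [.ofNat (nat_lit 0), .ofNat (nat_lit 58359607599598636032), .ofNat (nat_lit 0)],
  [],
  [],
  [],
  []],
  [[],
  [],
  [],
  [.ofNat (nat_lit 0), .negSucc (nat_lit 45523658681719464959), .ofNat (nat_lit 0)],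
  [.ofNat (nat_lit 0), .negSucc (nat_lit 23686592889190136831), .ofNat (nat_lit 0)],
  [],
  [],
  []],
  [[],
  [],
  [],
  [],
  [.ofNat (nat_lit 0), .negSucc (nat_lit 10153484216134116479), .ofNat (nat_lit 0)],
  [.ofNat (nat_lit 0), .negSucc (nat_lit 15463879251878481407), .ofNat (nat_lit 0)],
  [],
  []],
  [[],
  [],
  [],
  [],
  [.ofNat (nat_lit 0), .ofNat (nat_lit 16755446174310556416), .ofNat (nat_lit 0)],
  [.ofNat (nat_lit 0), .ofNat (nat_lit 3409941558713481216), .ofNat (nat_lit 0)],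
  [],
  []],
  [[],
  [],
  [],
  [],
  [],
  [.ofNat (nat_lit 0), .ofNat (nat_lit 12437631873564165504), .ofNat (nat_lit 0)],
  [.ofNat (nat_lit 0), .ofNat (nat_lit 29787297741274671360), .ofNat (nat_lit 0)],
  []],
  [[],
  [],
  [],
  [],
  [],
  [],
  [.ofNat (nat_lit 0), .negSucc (nat_lit 6840324757842814655), .ofNat (nat_lit 0)],
  [.ofNat (nat_lit 0), .negSucc (nat_lit 3820794049108085759), .ofNat (nat_lit 0)]],
  [[],
  [],
  [],
  [],
  [],
  [],
  [.ofNat (nat_lit 0), .negSucc (nat_lit 3096119806491677183), .ofNat (nat_lit 0)],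
  [.ofNat (nat_lit 0), .negSucc (nat_lit 5094392065477447679), .ofNat (nat_lit 0)]]],
  [],
  [],
  [],
  [],
  []],
  [[],
  [],
  [],
  [],
  [],
  [[[.ofNat (nat_lit 0), .ofNat (nat_lit 4109625060185871360), .ofNat (nat_lit 1244488332015240192)],
  [.ofNat (nat_lit 0), .negSucc (nat_lit 9307290255198400511), .ofNat (nat_lit 0)],
  [],
  [],
  [],
  [],
  [],
  []],
  [[.negSucc (nat_lit 3469667278555137023), .negSucc (nat_lit 5856643630485883007), .ofNat (nat_lit 0)],
  [.ofNat (nat_lit 6512589190725470208), .ofNat (nat_lit 4066574075702364672), .ofNat (nat_lit 0)],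
  [],
  [],
  [],
  [],
  [],
  []],
  [[],
  [.ofNat (nat_lit 0), .negSucc (nat_lit 20466590910051087359), .ofNat (nat_lit 0)],
  [.ofNat (nat_lit 0), .negSucc (nat_lit 20523680318015760383), .ofNat (nat_lit 0)],
  [],
  [],
  [],
  [],
  []],
  [[],
  [],
  [.ofNat (nat_lit 0), .ofNat (nat_lit 8182000018316176704), .ofNat (nat_lit 0)],
  [.ofNat (nat_lit 0), .ofNat (nat_lit 14622915574253839104), .ofNat (nat_lit 0)],
  [],
  [],
  [],
  []],
  [[],
  [],
  [],
  [.ofNat (nat_lit 0), .ofNat (nat_lit 10153484216134116480), .ofNat (nat_lit 0)],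
  [.ofNat (nat_lit 0), .ofNat (nat_lit 15463879251878481408), .ofNat (nat_lit 0)],
  [],
  [],
  []],
  [[],
  [],
  [],
  [],
  [.ofNat (nat_lit 0), .ofNat (nat_lit 2162233211655217248), .ofNat (nat_lit 0)],
  [.ofNat (nat_lit 0), .negSucc (nat_lit 15183506002620658175), .ofNat (nat_lit 0)],
  [],
  []],
  [[],
  [],
  [],
  [],
  [.ofNat (nat_lit 0), .ofNat (nat_lit 7034582096636241024), .ofNat (nat_lit 0)],
  [.ofNat (nat_lit 0), .negSucc (nat_lit 10427201651429577215), .ofNat (nat_lit 0)],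
  [],
  []],
  [[],
  [],
  [],
  [],
  [],
  [.ofNat (nat_lit 0), .ofNat (nat_lit 8254161594216499104), .ofNat (nat_lit 0)],
  [.ofNat (nat_lit 0), .ofNat (nat_lit 12880515679408143360), .ofNat (nat_lit 0)],
  []],
  [[],
  [],
  [],
  [],
  [],
  [],
  [.ofNat (nat_lit 0), .ofNat (nat_lit 5431753112348601936), .ofNat (nat_lit 0)],
  [.ofNat (nat_lit 0), .negSucc (nat_lit 1400957818006298111), .ofNat (nat_lit 0)]],
  [[],
  [],
  [],
  [],
  [],
  [],
  [.ofNat (nat_lit 0), .negSucc (nat_lit 21986401990963796351), .ofNat (nat_lit 0)],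
  [.ofNat (nat_lit 0), .ofNat (nat_lit 509439206547744768), .ofNat (nat_lit 0)]]],
  [[[.ofNat (nat_lit 0), .ofNat (nat_lit 506487413774767104), .negSucc (nat_lit 2272124180514852863)],
  [.ofNat (nat_lit 0), .ofNat (nat_lit 2230332595704511488), .ofNat (nat_lit 0)],
  [],
  [],
  [],
  [],
  [],
  []],
  [[.ofNat (nat_lit 313545649594844160), .negSucc (nat_lit 1384492159926531071), .ofNat (nat_lit 0)],
  [.negSucc (nat_lit 2209139554981026815), .ofNat (nat_lit 7094694542668369920), .ofNat (nat_lit 0)],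
  [],
  [],
  [],
  [],
  [],
  []],
  [[],
  [.ofNat (nat_lit 0), .negSucc (nat_lit 1080205184902104575), .ofNat (nat_lit 0)],
  [.ofNat (nat_lit 0), .ofNat (nat_lit 4051759098013323264), .ofNat (nat_lit 0)],
  [],
  [],
  [],
  [],
  []],
  [[],
  [],
  [.ofNat (nat_lit 0), .ofNat (nat_lit 12486620015109063936), .ofNat (nat_lit 0)],
  [.ofNat (nat_lit 0), .ofNat (nat_lit 4916232907712686080), .ofNat (nat_lit 0)],
  [],
  [],
  [],
  []],
  [[],
  [],
  [],
  [.ofNat (nat_lit 0), .negSucc (nat_lit 16755446174310556415), .ofNat (nat_lit 0)],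
  [.ofNat (nat_lit 0), .negSucc (nat_lit 3409941558713481215), .ofNat (nat_lit 0)],
  [],
  [],
  []],
  [[],
  [],
  [],
  [],
  [.ofNat (nat_lit 0), .ofNat (nat_lit 7034582096636241024), .ofNat (nat_lit 0)],
  [.ofNat (nat_lit 0), .negSucc (nat_lit 10427201651429577215), .ofNat (nat_lit 0)],
  [],
  []],
  [[],
  [],
  [],
  [],
  [.ofNat (nat_lit 0), .negSucc (nat_lit 28745512632801819647), .ofNat (nat_lit 0)],
  [.ofNat (nat_lit 0), .ofNat (nat_lit 953670081898727424), .ofNat (nat_lit 0)],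
  [],
  []],
  [[],
  [],
  [],
  [],
  [],
  [.ofNat (nat_lit 0), .ofNat (nat_lit 21383846096615190144), .ofNat (nat_lit 0)],
  [.ofNat (nat_lit 0), .ofNat (nat_lit 7152525614240455680), .ofNat (nat_lit 0)],
  []],
  [[],
  [],
  [],
  [],
  [],
  [],
  [.ofNat (nat_lit 0), .negSucc (nat_lit 2823580065286313279), .ofNat (nat_lit 0)],
  [.ofNat (nat_lit 0), .ofNat (nat_lit 509439206547744768), .ofNat (nat_lit 0)]],
  [[],
  [],
  [],
  [],
  [],
  [],
  [.ofNat (nat_lit 0), .ofNat (nat_lit 15594471442977666048), .ofNat (nat_lit 0)],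
  [.ofNat (nat_lit 0), .negSucc (nat_lit 2037756826190979071), .ofNat (nat_lit 0)]]],
  [],
  [],
  []],
  [[],
  [],
  [],
  [],
  [],
  [],
  [],
  [[[.ofNat (nat_lit 0), .negSucc (nat_lit 13571380812441065471), .ofNat (nat_lit 6276904106303987712)],
  [.ofNat (nat_lit 0), .ofNat (nat_lit 27666902215668750336), .ofNat (nat_lit 0)],
  [],
  [],
  [],
  [],
  [],
  []],
  [[.ofNat (nat_lit 13109643148800061440), .ofNat (nat_lit 15953505460176665088), .ofNat (nat_lit 0)],
  [.negSucc (nat_lit 26453676667021240319), .ofNat (nat_lit 10249140898349733888), .ofNat (nat_lit 0)],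
  [],
  [],
  [],
  [],
  [],
  []],
  [[],
  [.ofNat (nat_lit 0), .negSucc (nat_lit 1860563215218591359), .ofNat (nat_lit 0)],
  [.ofNat (nat_lit 0), .negSucc (nat_lit 1558109303180029439), .ofNat (nat_lit 0)],
  [],
  [],
  [],
  [],
  []],
  [[],
  [],
  [.ofNat (nat_lit 0), .negSucc (nat_lit 12653627325049654271), .ofNat (nat_lit 0)],
  [.ofNat (nat_lit 0), .negSucc (nat_lit 20935720302356482559), .ofNat (nat_lit 0)],
  [],
  [],
  [],
  []],
  [[],
  [],
  [],
  [.ofNat (nat_lit 0), .ofNat (nat_lit 12437631873564165504), .ofNat (nat_lit 0)],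
  [.ofNat (nat_lit 0), .ofNat (nat_lit 29787297741274671360), .ofNat (nat_lit 0)],
  [],
  [],
  []],
  [[],
  [],
  [],
  [],
  [.ofNat (nat_lit 0), .negSucc (nat_lit 8254161594216499103), .ofNat (nat_lit 0)],
  [.ofNat (nat_lit 0), .negSucc (nat_lit 12880515679408143359), .ofNat (nat_lit 0)],
  [],
  []],
  [[],
  [],
  [],
  [],
  [.ofNat (nat_lit 0), .negSucc (nat_lit 21383846096615190143), .ofNat (nat_lit 0)],
  [.ofNat (nat_lit 0), .negSucc (nat_lit 7152525614240455679), .ofNat (nat_lit 0)],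
  [],
  []],
  [[],
  [],
  [],
  [],
  [],
  [.ofNat (nat_lit 0), .ofNat (nat_lit 22018163307479540928), .ofNat (nat_lit 0)],
  [.ofNat (nat_lit 0), .ofNat (nat_lit 5051938798265135616), .ofNat (nat_lit 0)],
  []],
  [[],
  [],
  [],
  [],
  [],
  [],
  [.ofNat (nat_lit 0), .ofNat (nat_lit 5465797766846966880), .ofNat (nat_lit 0)],
  [.ofNat (nat_lit 0), .negSucc (nat_lit 382079404910808575), .ofNat (nat_lit 0)]],
  [[],
  [],
  [],
  [],
  [],
  [],
  [.ofNat (nat_lit 0), .ofNat (nat_lit 1584136978668216576), .ofNat (nat_lit 0)],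
  [.ofNat (nat_lit 0), .negSucc (nat_lit 1018878413095489535), .ofNat (nat_lit 0)]]],
  [],
  []],
  [[],
  [],
  [],
  [],
  [],
  [],
  [],
  [],
  [[[.ofNat (nat_lit 0), .negSucc (nat_lit 481349403264973823), .negSucc (nat_lit 1367346737702227967)],
  [.ofNat (nat_lit 0), .negSucc (nat_lit 601616933050438655), .ofNat (nat_lit 0)],
  [],
  [],
  [],
  [],
  [],
  []],
  [[.ofNat (nat_lit 481349403264973824), .negSucc (nat_lit 746625280851228671), .ofNat (nat_lit 0)],
  [.ofNat (nat_lit 601616933050438656), .negSucc (nat_lit 1528317619643234303), .ofNat (nat_lit 0)],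
  [],
  [],
  [],
  [],
  [],
  []],
  [[],
  [.ofNat (nat_lit 0), .ofNat (nat_lit 6341916055660369920), .ofNat (nat_lit 0)],
  [.ofNat (nat_lit 0), .ofNat (nat_lit 4584952858929702912), .ofNat (nat_lit 0)],
  [],
  [],
  [],
  [],
  []],
  [[],
  [],
  [.ofNat (nat_lit 0), .negSucc (nat_lit 6062627402113228127), .ofNat (nat_lit 0)],
  [.ofNat (nat_lit 0), .negSucc (nat_lit 3820794049108085759), .ofNat (nat_lit 0)],
  [],
  [],
  [],
  []],
  [[],
  [],
  [],
  [.ofNat (nat_lit 0), .ofNat (nat_lit 6840324757842814656), .ofNat (nat_lit 0)],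
  [.ofNat (nat_lit 0), .ofNat (nat_lit 3820794049108085760), .ofNat (nat_lit 0)],
  [],
  [],
  []],
  [[],
  [],
  [],
  [],
  [.ofNat (nat_lit 0), .ofNat (nat_lit 5431753112348601936), .ofNat (nat_lit 0)],
  [.ofNat (nat_lit 0), .negSucc (nat_lit 1400957818006298111), .ofNat (nat_lit 0)],
  [],
  []],
  [[],
  [],
  [],
  [],
  [.ofNat (nat_lit 0), .negSucc (nat_lit 2823580065286313279), .ofNat (nat_lit 0)],
  [.ofNat (nat_lit 0), .ofNat (nat_lit 509439206547744768), .ofNat (nat_lit 0)],
  [],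
  []],
  [[],
  [],
  [],
  [],
  [],
  [.ofNat (nat_lit 0), .negSucc (nat_lit 5465797766846966879), .ofNat (nat_lit 0)],
  [.ofNat (nat_lit 0), .ofNat (nat_lit 382079404910808576), .ofNat (nat_lit 0)],
  []],
  [[],
  [],
  [],
  [],
  [],
  [],
  [.ofNat (nat_lit 0), .negSucc (nat_lit 10993602049827820559), .ofNat (nat_lit 0)],
  []],
  [[],
  [],
  [],
  [],
  [],
  [],
  [.ofNat (nat_lit 0), .ofNat (nat_lit 9611478326065180032), .ofNat (nat_lit 0)],
  []]],
  [[[.ofNat (nat_lit 0), .ofNat (nat_lit 7584139755501603840), .negSucc (nat_lit 1368983315546569727)],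
  [.ofNat (nat_lit 0), .negSucc (nat_lit 12536991824804370431), .ofNat (nat_lit 0)],
  [],
  [],
  [],
  [],
  [],
  []],
  [[.negSucc (nat_lit 7584139755501603839), .negSucc (nat_lit 5860638234324951551), .ofNat (nat_lit 0)],
  [.ofNat (nat_lit 12536991824804370432), .negSucc (nat_lit 4075513652381958143), .ofNat (nat_lit 0)],
  [],
  [],
  [],
  [],
  [],
  []],
  [[],
  [.ofNat (nat_lit 0), .negSucc (nat_lit 3555381439040034815), .ofNat (nat_lit 0)],
  [.ofNat (nat_lit 0), .ofNat (nat_lit 2037756826190979072), .ofNat (nat_lit 0)],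
  [],
  [],
  [],
  [],
  []],
  [[],
  [],
  [.ofNat (nat_lit 0), .ofNat (nat_lit 7080255664894139904), .ofNat (nat_lit 0)],
  [.ofNat (nat_lit 0), .negSucc (nat_lit 5094392065477447679), .ofNat (nat_lit 0)],
  [],
  [],
  [],
  []],
  [[],
  [],
  [],
  [.ofNat (nat_lit 0), .ofNat (nat_lit 3096119806491677184), .ofNat (nat_lit 0)],
  [.ofNat (nat_lit 0), .ofNat (nat_lit 5094392065477447680), .ofNat (nat_lit 0)],
  [],
  [],
  []],
  [[],
  [],
  [],
  [],
  [.ofNat (nat_lit 0), .negSucc (nat_lit 21986401990963796351), .ofNat (nat_lit 0)],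
  [.ofNat (nat_lit 0), .ofNat (nat_lit 509439206547744768), .ofNat (nat_lit 0)],
  [],
  []],
  [[],
  [],
  [],
  [],
  [.ofNat (nat_lit 0), .ofNat (nat_lit 15594471442977666048), .ofNat (nat_lit 0)],
  [.ofNat (nat_lit 0), .negSucc (nat_lit 2037756826190979071), .ofNat (nat_lit 0)],
  [],
  []],
  [[],
  [],
  [],
  [],
  [],
  [.ofNat (nat_lit 0), .negSucc (nat_lit 1584136978668216575), .ofNat (nat_lit 0)],
  [.ofNat (nat_lit 0), .ofNat (nat_lit 1018878413095489536), .ofNat (nat_lit 0)],
  []],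
  [[],
  [],
  [],
  [],
  [],
  [],
  [.ofNat (nat_lit 0), .ofNat (nat_lit 9611478326065180032), .ofNat (nat_lit 0)],
  []],
  [[],
  [],
  [],
  [],
  [],
  [],
  [.ofNat (nat_lit 0), .negSucc (nat_lit 21268221070899375359), .ofNat (nat_lit 0)],
  []]]]],
  [[[[[.ofNat (nat_lit 0), .ofNat (nat_lit 0), .ofNat (nat_lit 45557363115426816)],
  [.ofNat (nat_lit 0), .ofNat (nat_lit 0), .ofNat (nat_lit 7171967757339648)],
  [],
  [],
  [],
  [],
  [],
  []],
  [[.ofNat (nat_lit 0), .negSucc (nat_lit 13316683894170623), .ofNat (nat_lit 0)],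
  [.ofNat (nat_lit 0), .ofNat (nat_lit 626814451421245440), .ofNat (nat_lit 0)],
  [],
  [],
  [],
  [],
  [],
  []],
  [[],
  [.ofNat (nat_lit 0), .ofNat (nat_lit 930327496862865408), .ofNat (nat_lit 0)],
  [.ofNat (nat_lit 0), .negSucc (nat_lit 938227024722733055), .ofNat (nat_lit 0)],
  [],
  [],
  [],
  [],
  []],
  [[],
  [],
  [.ofNat (nat_lit 0), .ofNat (nat_lit 785624591363530752), .ofNat (nat_lit 0)],
  [.ofNat (nat_lit 0), .negSucc (nat_lit 1493072020653649919), .ofNat (nat_lit 0)],
  [],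
  [],
  [],
  []],
  [[],
  [],
  [],
  [.ofNat (nat_lit 0), .negSucc (nat_lit 307240108472494079), .ofNat (nat_lit 0)],
  [.ofNat (nat_lit 0), .ofNat (nat_lit 975282172857722880), .ofNat (nat_lit 0)],
  [],
  [],
  []],
  [[],
  [],
  [],
  [],
  [.ofNat (nat_lit 0), .negSucc (nat_lit 319978890815367167), .ofNat (nat_lit 0)],
  [.ofNat (nat_lit 0), .ofNat (nat_lit 1397350532236465152), .ofNat (nat_lit 0)],
  [],
  []],
  [[],
  [],
  [],
  [],
  [.ofNat (nat_lit 0), .negSucc (nat_lit 410016531684805631), .ofNat (nat_lit 0)],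
  [.ofNat (nat_lit 0), .negSucc (nat_lit 10596520361742335), .ofNat (nat_lit 0)],
  [],
  []],
  [[],
  [],
  [],
  [],
  [],
  [.ofNat (nat_lit 0), .negSucc (nat_lit 230868831820502015), .ofNat (nat_lit 0)],
  [.ofNat (nat_lit 0), .ofNat (nat_lit 606612774323755008), .ofNat (nat_lit 0)],
  []],
  [[],
  [],
  [],
  [],
  [],
  [],
  [],
  []],
  [[],
  [],
  [],
  [],
  [],
  [],
  [],
  []]],
  [],
  [],
  [],
  [],
  [],
  [],
  [],
  [],
  []],
  [[],
  [],
  [],
  [],
  [],
  [],
  [],
  [],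
  [],
  []],
  [[],
  [[[.ofNat (nat_lit 0), .ofNat (nat_lit 89893874155834368), .negSucc (nat_lit 305727735837339647)],
  [.ofNat (nat_lit 0), .negSucc (nat_lit 401233849500054527), .ofNat (nat_lit 0)],
  [],
  [],
  [],
  [],
  [],
  []],
  [[.negSucc (nat_lit 89893874155834367), .ofNat (nat_lit 816749022534170112), .ofNat (nat_lit 0)],
  [.ofNat (nat_lit 401233849500054528), .negSucc (nat_lit 3316903417698564095), .ofNat (nat_lit 0)],
  [],
  [],
  [],
  [],
  [],
  []],
  [[],
  [.ofNat (nat_lit 0), .negSucc (nat_lit 7481452113595302911), .ofNat (nat_lit 0)],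
  [.ofNat (nat_lit 0), .ofNat (nat_lit 13006690666718017536), .ofNat (nat_lit 0)],
  [],
  [],
  [],
  [],
  []],
  [[],
  [],
  [.ofNat (nat_lit 0), .negSucc (nat_lit 3705913682953977599), .ofNat (nat_lit 0)],
  [.ofNat (nat_lit 0), .ofNat (nat_lit 11265567127698428928), .ofNat (nat_lit 0)],
  [],
  [],
  [],
  []],
  [[],
  [],
  [],
  [.ofNat (nat_lit 0), .ofNat (nat_lit 13007900370230982144), .ofNat (nat_lit 0)],
  [.ofNat (nat_lit 0), .negSucc (nat_lit 27351504686585419775), .ofNat (nat_lit 0)],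
  [],
  [],
  []],
  [[],
  [],
  [],
  [],
  [.ofNat (nat_lit 0), .ofNat (nat_lit 4054608916382984832), .ofNat (nat_lit 0)],
  [.ofNat (nat_lit 0), .negSucc (nat_lit 17217770124230470655), .ofNat (nat_lit 0)],
  [],
  []],
  [[],
  [],
  [],
  [],
  [.ofNat (nat_lit 0), .ofNat (nat_lit 5844762868664116224), .ofNat (nat_lit 0)],
  [.ofNat (nat_lit 0), .ofNat (nat_lit 1633625399562006528), .ofNat (nat_lit 0)],
  [],
  []],
  [[],
  [],
  [],
  [],
  [],
  [.ofNat (nat_lit 0), .negSucc (nat_lit 4180906040738517503), .ofNat (nat_lit 0)],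
  [.ofNat (nat_lit 0), .ofNat (nat_lit 11174979691653829632), .ofNat (nat_lit 0)],
  []],
  [[],
  [],
  [],
  [],
  [],
  [],
  [.ofNat (nat_lit 0), .negSucc (nat_lit 1038909743192259071), .ofNat (nat_lit 0)],
  [.ofNat (nat_lit 0), .ofNat (nat_lit 2729757484456897536), .ofNat (nat_lit 0)]],
  [[],
  [],
  [],
  [],
  [],
  [],
  [.ofNat (nat_lit 0), .negSucc (nat_lit 2770425981846024191), .ofNat (nat_lit 0)],
  [.ofNat (nat_lit 0), .ofNat (nat_lit 7279353291885060096), .ofNat (nat_lit 0)]]],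
  [],
  [],
  [],
  [],
  [],
  [],
  [],
  []],
  [[],
  [],
  [[[.ofNat (nat_lit 0), .ofNat (nat_lit 462154087400509440), .ofNat (nat_lit 678863707887449088)],
  [.ofNat (nat_lit 0), .negSucc (nat_lit 257371422176461823), .ofNat (nat_lit 0)],
  [],
  [],
  [],
  [],
  [],
  []],
  [[.negSucc (nat_lit 462154087400509439), .ofNat (nat_lit 6802588405707853824), .ofNat (nat_lit 0)],
  [.ofNat (nat_lit 257371422176461824), .negSucc (nat_lit 13006690666718017535), .ofNat (nat_lit 0)],
  [],
  [],
  [],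
  [],
  [],
  []],
  [[],
  [.ofNat (nat_lit 0), .ofNat (nat_lit 5983069692117860352), .ofNat (nat_lit 0)],
  [.ofNat (nat_lit 0), .negSucc (nat_lit 3076404921489023999), .ofNat (nat_lit 0)],
  [],
  [],
  [],
  [],
  []],
  [[],
  [],
  [.ofNat (nat_lit 0), .negSucc (nat_lit 16093170936373731839), .ofNat (nat_lit 0)],
  [.ofNat (nat_lit 0), .ofNat (nat_lit 44325560761870187520), .ofNat (nat_lit 0)],
  [],
  [],
  [],
  []],
  [[],
  [],
  [],
  [.ofNat (nat_lit 0), .negSucc (nat_lit 11871091756735969535), .ofNat (nat_lit 0)],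
  [.ofNat (nat_lit 0), .ofNat (nat_lit 13569884945094491136), .ofNat (nat_lit 0)],
  [],
  [],
  []],
  [[],
  [],
  [],
  [],
  [.ofNat (nat_lit 0), .ofNat (nat_lit 12063794891335386624), .ofNat (nat_lit 0)],
  [.ofNat (nat_lit 0), .negSucc (nat_lit 46502113663162156031), .ofNat (nat_lit 0)],
  [],
  []],
  [[],
  [],
  [],
  [],
  [.ofNat (nat_lit 0), .negSucc (nat_lit 2151669758587278335), .ofNat (nat_lit 0)],
  [.ofNat (nat_lit 0), .ofNat (nat_lit 6792031157231628288), .ofNat (nat_lit 0)],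
  [],
  []],
  [[],
  [],
  [],
  [],
  [],
  [.ofNat (nat_lit 0), .ofNat (nat_lit 2516635409534029440), .ofNat (nat_lit 0)],
  [.ofNat (nat_lit 0), .negSucc (nat_lit 12542523934007416319), .ofNat (nat_lit 0)],
  []],
  [[],
  [],
  [],
  [],
  [],
  [],
  [.ofNat (nat_lit 0), .negSucc (nat_lit 3116729229576777215), .ofNat (nat_lit 0)],
  [.ofNat (nat_lit 0), .ofNat (nat_lit 8189272453370692608), .ofNat (nat_lit 0)]],
  [[],
  [],
  [],
  [],
  [],
  [],
  [.ofNat (nat_lit 0), .negSucc (nat_lit 1385212990923012095), .ofNat (nat_lit 0)],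
  [.ofNat (nat_lit 0), .ofNat (nat_lit 3639676645942530048), .ofNat (nat_lit 0)]]],
  [],
  [],
  [],
  [],
  [],
  [],
  []],
  [[],
  [],
  [],
  [[[.ofNat (nat_lit 0), .ofNat (nat_lit 562526545618077696), .ofNat (nat_lit 504711655500128256)],
  [.ofNat (nat_lit 0), .negSucc (nat_lit 3096871387726565375), .ofNat (nat_lit 0)],
  [],
  [],
  [],
  [],
  [],
  []],
  [[.negSucc (nat_lit 562526545618077695), .negSucc (nat_lit 4210625338454105855), .ofNat (nat_lit 0)],
  [.ofNat (nat_lit 3096871387726565376), .ofNat (nat_lit 11265567127698428928), .ofNat (nat_lit 0)],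
  [],
  [],
  [],
  [],
  [],
  []],
  [[],
  [.ofNat (nat_lit 0), .ofNat (nat_lit 16093170936373731840), .ofNat (nat_lit 0)],
  [.ofNat (nat_lit 0), .negSucc (nat_lit 44325560761870187519), .ofNat (nat_lit 0)],
  [],
  [],
  [],
  [],
  []],
  [[],
  [],
  [.ofNat (nat_lit 0), .ofNat (nat_lit 2751036935785671168), .ofNat (nat_lit 0)],
  [.ofNat (nat_lit 0), .negSucc (nat_lit 26908442192954382335), .ofNat (nat_lit 0)],
  [],
  [],
  [],
  []],
  [[],
  [],
  [],
  [.ofNat (nat_lit 0), .negSucc (nat_lit 36968600566640263679), .ofNat (nat_lit 0)],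
  [.ofNat (nat_lit 0), .ofNat (nat_lit 81343465908957001728), .ofNat (nat_lit 0)],
  [],
  [],
  []],
  [[],
  [],
  [],
  [],
  [.ofNat (nat_lit 0), .ofNat (nat_lit 4343453843849014464), .ofNat (nat_lit 0)],
  [.ofNat (nat_lit 0), .negSucc (nat_lit 542735076010079231), .ofNat (nat_lit 0)],
  [],
  []],
  [[],
  [],
  [],
  [],
  [.ofNat (nat_lit 0), .negSucc (nat_lit 1177639197133063679), .ofNat (nat_lit 0)],
  [.ofNat (nat_lit 0), .negSucc (nat_lit 5444275604955586559), .ofNat (nat_lit 0)],
  [],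
  []],
  [[],
  [],
  [],
  [],
  [],
  [.ofNat (nat_lit 0), .ofNat (nat_lit 17621219704836193920), .ofNat (nat_lit 0)],
  [.ofNat (nat_lit 0), .negSucc (nat_lit 39896219434755548159), .ofNat (nat_lit 0)],
  []],
  [[],
  [],
  [],
  [],
  [],
  [],
  [.ofNat (nat_lit 0), .negSucc (nat_lit 2597274357980647679), .ofNat (nat_lit 0)],
  [.ofNat (nat_lit 0), .ofNat (nat_lit 6824393711142243840), .ofNat (nat_lit 0)]],
  [[],
  [],
  [],
  [],
  [],
  [],
  [.ofNat (nat_lit 0), .negSucc (nat_lit 3463032477307530239), .ofNat (nat_lit 0)],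
  [.ofNat (nat_lit 0), .ofNat (nat_lit 9099191614856325120), .ofNat (nat_lit 0)]]],
  [],
  [],
  [],
  [],
  [],
  []],
  [[],
  [],
  [],
  [],
  [[[.ofNat (nat_lit 0), .negSucc (nat_lit 2866408902748910591), .negSucc (nat_lit 2490104388412376063)],
  [.ofNat (nat_lit 0), .negSucc (nat_lit 9628647209642502143), .ofNat (nat_lit 0)],
  [],
  [],
  [],
  [],
  [],
  []],
  [[.ofNat (nat_lit 2866408902748910592), .negSucc (nat_lit 10517795981818606079), .ofNat (nat_lit 0)],
  [.ofNat (nat_lit 9628647209642502144), .ofNat (nat_lit 27351504686585419776), .ofNat (nat_lit 0)],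
  [],
  [],
  [],
  [],
  [],
  []],
  [[],
  [.ofNat (nat_lit 0), .negSucc (nat_lit 11871091756735969535), .ofNat (nat_lit 0)],
  [.ofNat (nat_lit 0), .ofNat (nat_lit 13569884945094491136), .ofNat (nat_lit 0)],
  [],
  [],
  [],
  [],
  []],
  [[],
  [],
  [.ofNat (nat_lit 0), .ofNat (nat_lit 36968600566640263680), .ofNat (nat_lit 0)],
  [.ofNat (nat_lit 0), .negSucc (nat_lit 81343465908957001727), .ofNat (nat_lit 0)],
  [],
  [],
  [],
  []],
  [[],
  [],
  [],
  [.ofNat (nat_lit 0), .negSucc (nat_lit 3253526704334582783), .ofNat (nat_lit 0)],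
  [.ofNat (nat_lit 0), .ofNat (nat_lit 48042162252177219072), .ofNat (nat_lit 0)],
  [],
  [],
  []],
  [[],
  [],
  [],
  [],
  [.ofNat (nat_lit 0), .negSucc (nat_lit 17620568411860794239), .ofNat (nat_lit 0)],
  [.ofNat (nat_lit 0), .ofNat (nat_lit 56275806910154964480), .ofNat (nat_lit 0)],
  [],
  []],
  [[],
  [],
  [],
  [],
  [.ofNat (nat_lit 0), .negSucc (nat_lit 637775254975541759), .ofNat (nat_lit 0)],
  [.ofNat (nat_lit 0), .negSucc (nat_lit 6526775130858915839), .ofNat (nat_lit 0)],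
  [],
  []],
  [[],
  [],
  [],
  [],
  [],
  [.ofNat (nat_lit 0), .ofNat (nat_lit 22036512568612196160), .ofNat (nat_lit 0)],
  [.ofNat (nat_lit 0), .negSucc (nat_lit 60866411656141658879), .ofNat (nat_lit 0)],
  []],
  [[],
  [],
  [],
  [],
  [],
  [],
  [.ofNat (nat_lit 0), .negSucc (nat_lit 2597274357980647679), .ofNat (nat_lit 0)],
  [.ofNat (nat_lit 0), .ofNat (nat_lit 6824393711142243840), .ofNat (nat_lit 0)]],
  [[],
  [],
  [],
  [],
  [],
  [],
  [.ofNat (nat_lit 0), .negSucc (nat_lit 3463032477307530239), .ofNat (nat_lit 0)],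
  [.ofNat (nat_lit 0), .ofNat (nat_lit 9099191614856325120), .ofNat (nat_lit 0)]]],
  [],
  [],
  [],
  [],
  []],
  [[],
  [],
  [],
  [],
  [],
  [[[.ofNat (nat_lit 0), .negSucc (nat_lit 962558870666600447), .negSucc (nat_lit 620053146933995519)],
  [.ofNat (nat_lit 0), .ofNat (nat_lit 7536828291675945984), .ofNat (nat_lit 0)],
  [],
  [],
  [],
  [],
  [],
  []],
  [[.ofNat (nat_lit 962558870666600448), .ofNat (nat_lit 4674662063316980352), .ofNat (nat_lit 0)],
  [.negSucc (nat_lit 7536828291675945983), .negSucc (nat_lit 17217770124230470655), .ofNat (nat_lit 0)],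
  [],
  [],
  [],
  [],
  [],
  []],
  [[],
  [.ofNat (nat_lit 0), .negSucc (nat_lit 12063794891335386623), .ofNat (nat_lit 0)],
  [.ofNat (nat_lit 0), .ofNat (nat_lit 46502113663162156032), .ofNat (nat_lit 0)],
  [],
  [],
  [],
  [],
  []],
  [[],
  [],
  [.ofNat (nat_lit 0), .ofNat (nat_lit 4343453843849014464), .ofNat (nat_lit 0)],
  [.ofNat (nat_lit 0), .negSucc (nat_lit 542735076010079231), .ofNat (nat_lit 0)],
  [],
  [],
  [],
  []],
  [[],
  [],
  [],
  [.ofNat (nat_lit 0), .ofNat (nat_lit 17620568411860794240), .ofNat (nat_lit 0)],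
  [.ofNat (nat_lit 0), .negSucc (nat_lit 56275806910154964479), .ofNat (nat_lit 0)],
  [],
  [],
  []],
  [[],
  [],
  [],
  [],
  [.ofNat (nat_lit 0), .negSucc (nat_lit 11992962476577095423), .ofNat (nat_lit 0)],
  [.ofNat (nat_lit 0), .ofNat (nat_lit 28311388704755415936), .ofNat (nat_lit 0)],
  [],
  []],
  [[],
  [],
  [],
  [],
  [.ofNat (nat_lit 0), .negSucc (nat_lit 7105681719974961791), .ofNat (nat_lit 0)],
  [.ofNat (nat_lit 0), .ofNat (nat_lit 18806320569081623040), .ofNat (nat_lit 0)],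
  [],
  []],
  [[],
  [],
  [],
  [],
  [],
  [.ofNat (nat_lit 0), .ofNat (nat_lit 9189176591364963840), .ofNat (nat_lit 0)],
  [.ofNat (nat_lit 0), .negSucc (nat_lit 22057510348682231039), .ofNat (nat_lit 0)],
  []],
  [[],
  [],
  [],
  [],
  [],
  [],
  [.ofNat (nat_lit 0), .negSucc (nat_lit 952333931259570815), .ofNat (nat_lit 0)],
  [.ofNat (nat_lit 0), .ofNat (nat_lit 2502277694085489408), .ofNat (nat_lit 0)]],
  [[],
  [],
  [],
  [],
  [],
  [],
  [.ofNat (nat_lit 0), .ofNat (nat_lit 346303247730753024), .ofNat (nat_lit 0)],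
  [.ofNat (nat_lit 0), .negSucc (nat_lit 909919161485632511), .ofNat (nat_lit 0)]]],
  [[[.ofNat (nat_lit 0), .negSucc (nat_lit 212841701418451967), .ofNat (nat_lit 8076264183375621120)],
  [.ofNat (nat_lit 0), .negSucc (nat_lit 2525976751988090879), .ofNat (nat_lit 0)],
  [],
  [],
  [],
  [],
  [],
  []],
  [[.ofNat (nat_lit 212841701418451968), .negSucc (nat_lit 2231501314711504895), .ofNat (nat_lit 0)],
  [.ofNat (nat_lit 2525976751988090880), .ofNat (nat_lit 1633625399562006528), .ofNat (nat_lit 0)],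
  [],
  [],
  [],
  [],
  [],
  []],
  [[],
  [.ofNat (nat_lit 0), .ofNat (nat_lit 2151669758587278336), .ofNat (nat_lit 0)],
  [.ofNat (nat_lit 0), .negSucc (nat_lit 6792031157231628287), .ofNat (nat_lit 0)],
  [],
  [],
  [],
  [],
  []],
  [[],
  [],
  [.ofNat (nat_lit 0), .negSucc (nat_lit 1177639197133063679), .ofNat (nat_lit 0)],
  [.ofNat (nat_lit 0), .negSucc (nat_lit 5444275604955586559), .ofNat (nat_lit 0)],
  [],
  [],
  [],
  []],
  [[],
  [],
  [],
  [.ofNat (nat_lit 0), .ofNat (nat_lit 637775254975541760), .ofNat (nat_lit 0)],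
  [.ofNat (nat_lit 0), .ofNat (nat_lit 6526775130858915840), .ofNat (nat_lit 0)],
  [],
  [],
  []],
  [[],
  [],
  [],
  [],
  [.ofNat (nat_lit 0), .negSucc (nat_lit 7105681719974961791), .ofNat (nat_lit 0)],
  [.ofNat (nat_lit 0), .ofNat (nat_lit 18806320569081623040), .ofNat (nat_lit 0)],
  [],
  []],
  [[],
  [],
  [],
  [],
  [.ofNat (nat_lit 0), .ofNat (nat_lit 718467061439605248), .ofNat (nat_lit 0)],
  [.ofNat (nat_lit 0), .negSucc (nat_lit 2431749357475891199), .ofNat (nat_lit 0)],
  [],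
  []],
  [[],
  [],
  [],
  [],
  [],
  [.ofNat (nat_lit 0), .ofNat (nat_lit 5388502960797039360), .ofNat (nat_lit 0)],
  [.ofNat (nat_lit 0), .negSucc (nat_lit 18238120181069183999), .ofNat (nat_lit 0)],
  []],
  [[],
  [],
  [],
  [],
  [],
  [],
  [.ofNat (nat_lit 0), .ofNat (nat_lit 346303247730753024), .ofNat (nat_lit 0)],
  [.ofNat (nat_lit 0), .negSucc (nat_lit 909919161485632511), .ofNat (nat_lit 0)]],
  [[],
  [],
  [],
  [],
  [],
  [],
  [.ofNat (nat_lit 0), .negSucc (nat_lit 1385212990923012095), .ofNat (nat_lit 0)],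
  [.ofNat (nat_lit 0), .ofNat (nat_lit 3639676645942530048), .ofNat (nat_lit 0)]]],
  [],
  [],
  []],
  [[],
  [],
  [],
  [],
  [],
  [],
  [],
  [[[.ofNat (nat_lit 0), .ofNat (nat_lit 3724354181591138304), .negSucc (nat_lit 4644494563101539327)],
  [.ofNat (nat_lit 0), .ofNat (nat_lit 12428583434412991488), .ofNat (nat_lit 0)],
  [],
  [],
  [],
  [],
  [],
  []],
  [[.negSucc (nat_lit 3724354181591138303), .ofNat (nat_lit 8825400603840056832), .ofNat (nat_lit 0)],
  [.negSucc (nat_lit 12428583434412991487), .negSucc (nat_lit 11174979691653829631), .ofNat (nat_lit 0)],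
  [],
  [],
  [],
  [],
  [],
  []],
  [[],
  [.ofNat (nat_lit 0), .ofNat (nat_lit 2516635409534029440), .ofNat (nat_lit 0)],
  [.ofNat (nat_lit 0), .negSucc (nat_lit 12542523934007416319), .ofNat (nat_lit 0)],
  [],
  [],
  [],
  [],
  []],
  [[],
  [],
  [.ofNat (nat_lit 0), .negSucc (nat_lit 17621219704836193919), .ofNat (nat_lit 0)],
  [.ofNat (nat_lit 0), .ofNat (nat_lit 39896219434755548160), .ofNat (nat_lit 0)],
  [],
  [],
  [],
  []],
  [[],
  [],
  [],
  [.ofNat (nat_lit 0), .ofNat (nat_lit 22036512568612196160), .ofNat (nat_lit 0)],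
  [.ofNat (nat_lit 0), .negSucc (nat_lit 60866411656141658879), .ofNat (nat_lit 0)],
  [],
  [],
  []],
  [[],
  [],
  [],
  [],
  [.ofNat (nat_lit 0), .negSucc (nat_lit 9189176591364963839), .ofNat (nat_lit 0)],
  [.ofNat (nat_lit 0), .ofNat (nat_lit 22057510348682231040), .ofNat (nat_lit 0)],
  [],
  []],
  [[],
  [],
  [],
  [],
  [.ofNat (nat_lit 0), .negSucc (nat_lit 5388502960797039359), .ofNat (nat_lit 0)],
  [.ofNat (nat_lit 0), .ofNat (nat_lit 18238120181069184000), .ofNat (nat_lit 0)],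
  [],
  []],
  [[],
  [],
  [],
  [],
  [],
  [.ofNat (nat_lit 0), .ofNat (nat_lit 3434173873329967488), .ofNat (nat_lit 0)],
  [.ofNat (nat_lit 0), .negSucc (nat_lit 9023365018065855743), .ofNat (nat_lit 0)],
  []],
  [[],
  [],
  [],
  [],
  [],
  [],
  [.ofNat (nat_lit 0), .negSucc (nat_lit 259727435798064767), .ofNat (nat_lit 0)],
  [.ofNat (nat_lit 0), .ofNat (nat_lit 682439371114224384), .ofNat (nat_lit 0)]],
  [[],
  [],
  [],
  [],
  [],
  [],
  [.ofNat (nat_lit 0), .negSucc (nat_lit 692606495461506047), .ofNat (nat_lit 0)],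
  [.ofNat (nat_lit 0), .ofNat (nat_lit 1819838322971265024), .ofNat (nat_lit 0)]]],
  [],
  []],
  [[],
  [],
  [],
  [],
  [],
  [],
  [],
  [],
  [[[.ofNat (nat_lit 0), .ofNat (nat_lit 903595521705864192), .ofNat (nat_lit 1226910129814370304)],
  [.ofNat (nat_lit 0), .negSucc (nat_lit 3042013740157725695), .ofNat (nat_lit 0)],
  [],
  [],
  [],
  [],
  [],
  []],
  [[.negSucc (nat_lit 903595521705864191), .negSucc (nat_lit 2265819873006629375), .ofNat (nat_lit 0)],
  [.ofNat (nat_lit 3042013740157725696), .ofNat (nat_lit 2729757484456897536), .ofNat (nat_lit 0)],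
  [],
  [],
  [],
  [],
  [],
  []],
  [[],
  [.ofNat (nat_lit 0), .ofNat (nat_lit 3116729229576777216), .ofNat (nat_lit 0)],
  [.ofNat (nat_lit 0), .negSucc (nat_lit 8189272453370692607), .ofNat (nat_lit 0)],
  [],
  [],
  [],
  [],
  []],
  [[],
  [],
  [.ofNat (nat_lit 0), .negSucc (nat_lit 2597274357980647679), .ofNat (nat_lit 0)],
  [.ofNat (nat_lit 0), .ofNat (nat_lit 6824393711142243840), .ofNat (nat_lit 0)],
  [],
  [],
  [],
  []],
  [[],
  [],
  [],
  [.ofNat (nat_lit 0), .ofNat (nat_lit 2597274357980647680), .ofNat (nat_lit 0)],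
  [.ofNat (nat_lit 0), .negSucc (nat_lit 6824393711142243839), .ofNat (nat_lit 0)],
  [],
  [],
  []],
  [[],
  [],
  [],
  [],
  [.ofNat (nat_lit 0), .negSucc (nat_lit 952333931259570815), .ofNat (nat_lit 0)],
  [.ofNat (nat_lit 0), .ofNat (nat_lit 2502277694085489408), .ofNat (nat_lit 0)],
  [],
  []],
  [[],
  [],
  [],
  [],
  [.ofNat (nat_lit 0), .ofNat (nat_lit 346303247730753024), .ofNat (nat_lit 0)],
  [.ofNat (nat_lit 0), .negSucc (nat_lit 909919161485632511), .ofNat (nat_lit 0)],
  [],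
  []],
  [[],
  [],
  [],
  [],
  [],
  [.ofNat (nat_lit 0), .ofNat (nat_lit 259727435798064768), .ofNat (nat_lit 0)],
  [.ofNat (nat_lit 0), .negSucc (nat_lit 682439371114224383), .ofNat (nat_lit 0)],
  []],
  [[],
  [],
  [],
  [],
  [],
  [],
  [],
  []],
  [[],
  [],
  [],
  [],
  [],
  [],
  [],
  []]],
  [[[.ofNat (nat_lit 0), .negSucc (nat_lit 3375338753315496959), .negSucc (nat_lit 333354959215073279)],
  [.ofNat (nat_lit 0), .negSucc (nat_lit 6340962106654267391), .ofNat (nat_lit 0)],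
  [],
  [],
  [],
  [],
  [],
  []],
  [[.ofNat (nat_lit 3375338753315496960), .negSucc (nat_lit 2437071022630950911), .ofNat (nat_lit 0)],
  [.ofNat (nat_lit 6340962106654267392), .ofNat (nat_lit 7279353291885060096), .ofNat (nat_lit 0)],
  [],
  [],
  [],
  [],
  [],
  []],
  [[],
  [.ofNat (nat_lit 0), .ofNat (nat_lit 1385212990923012096), .ofNat (nat_lit 0)],
  [.ofNat (nat_lit 0), .negSucc (nat_lit 3639676645942530047), .ofNat (nat_lit 0)],
  [],
  [],
  [],
  [],
  []],
  [[],
  [],
  [.ofNat (nat_lit 0), .negSucc (nat_lit 3463032477307530239), .ofNat (nat_lit 0)],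
  [.ofNat (nat_lit 0), .ofNat (nat_lit 9099191614856325120), .ofNat (nat_lit 0)],
  [],
  [],
  [],
  []],
  [[],
  [],
  [],
  [.ofNat (nat_lit 0), .ofNat (nat_lit 3463032477307530240), .ofNat (nat_lit 0)],
  [.ofNat (nat_lit 0), .negSucc (nat_lit 9099191614856325119), .ofNat (nat_lit 0)],
  [],
  [],
  []],
  [[],
  [],
  [],
  [],
  [.ofNat (nat_lit 0), .ofNat (nat_lit 346303247730753024), .ofNat (nat_lit 0)],
  [.ofNat (nat_lit 0), .negSucc (nat_lit 909919161485632511), .ofNat (nat_lit 0)],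
  [],
  []],
  [[],
  [],
  [],
  [],
  [.ofNat (nat_lit 0), .negSucc (nat_lit 1385212990923012095), .ofNat (nat_lit 0)],
  [.ofNat (nat_lit 0), .ofNat (nat_lit 3639676645942530048), .ofNat (nat_lit 0)],
  [],
  []],
  [[],
  [],
  [],
  [],
  [],
  [.ofNat (nat_lit 0), .ofNat (nat_lit 692606495461506048), .ofNat (nat_lit 0)],
  [.ofNat (nat_lit 0), .negSucc (nat_lit 1819838322971265023), .ofNat (nat_lit 0)],
  []],
  [[],
  [],
  [],
  [],
  [],
  [],
  [],
  []],
  [[],
  [],
  [],
  [],
  [],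
  [],
  [],
  []]]]]]

noncomputable def BR8_E : L5 := [[[[[],
  []],
  [[],
  []],
  [[],
  []]],
  [[[.ofNat (nat_lit 184389330453080832), .ofNat (nat_lit 424080042966466560), .ofNat (nat_lit 0)],
  []],
  [[.ofNat (nat_lit 0), .negSucc (nat_lit 447383759991116543), .ofNat (nat_lit 0)],
  []],
  [[],
  []]],
  [[[.negSucc (nat_lit 1300575092344550783), .negSucc (nat_lit 3251134831608840383), .ofNat (nat_lit 0)],
  []],
  [[.ofNat (nat_lit 0), .ofNat (nat_lit 3838716882123848640), .ofNat (nat_lit 0)],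
  []],
  [[],
  []]],
  [[[.ofNat (nat_lit 3713893287175902240), .ofNat (nat_lit 10543565680816679136), .ofNat (nat_lit 0)],
  []],
  [[.ofNat (nat_lit 0), .negSucc (nat_lit 13341503385040511231), .ofNat (nat_lit 0)],
  []],
  [[],
  []]],
  [[[.negSucc (nat_lit 5407821225472153535), .negSucc (nat_lit 18674281925745989471), .ofNat (nat_lit 0)],
  []],
  [[.ofNat (nat_lit 0), .ofNat (nat_lit 24561755772211473120), .ofNat (nat_lit 0)],
  []],
  [[],
  []]],
  [[[.ofNat (nat_lit 4050211721808763872), .ofNat (nat_lit 19396701947238969024), .ofNat (nat_lit 0)],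
  []],
  [[.ofNat (nat_lit 0), .negSucc (nat_lit 25994353672659146687), .ofNat (nat_lit 0)],
  []],
  [[],
  []]],
  [[[.negSucc (nat_lit 1206080397161935487), .negSucc (nat_lit 11713721548965174431), .ofNat (nat_lit 0)],
  []],
  [[.ofNat (nat_lit 0), .ofNat (nat_lit 15870087483924375648), .ofNat (nat_lit 0)],
  []],
  [[],
  []]],
  [[[.negSucc (nat_lit 163930664197578815), .ofNat (nat_lit 3754885244001780384), .ofNat (nat_lit 0)],
  []],
  [[.ofNat (nat_lit 0), .negSucc (nat_lit 5197235086319923583), .ofNat (nat_lit 0)],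
  []],
  [[],
  []]],
  [[[.ofNat (nat_lit 129913039738471680), .negSucc (nat_lit 480094608703890815), .ofNat (nat_lit 0)],
  []],
  [[.ofNat (nat_lit 0), .ofNat (nat_lit 709915765751000640), .ofNat (nat_lit 0)],
  []],
  [[],
  []]]],
  [[[[],
  []],
  [[],
  []],
  [[],
  []]],
  [[[.negSucc (nat_lit 76948221758275583), .ofNat (nat_lit 0), .ofNat (nat_lit 0)],
  []],
  [[.ofNat (nat_lit 0), .ofNat (nat_lit 13805555622424416), .ofNat (nat_lit 0)],
  [.ofNat (nat_lit 0), .negSucc (nat_lit 390694099355135), .ofNat (nat_lit 0)]],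
  [[.ofNat (nat_lit 0), .negSucc (nat_lit 9969088239456479), .ofNat (nat_lit 0)],
  [.ofNat (nat_lit 0), .ofNat (nat_lit 9956025578260224), .ofNat (nat_lit 0)]]],
  [[[.ofNat (nat_lit 639743190337276704), .ofNat (nat_lit 315875988523550016), .ofNat (nat_lit 0)],
  []],
  [[.ofNat (nat_lit 0), .negSucc (nat_lit 504760863503593151), .ofNat (nat_lit 0)],
  [.ofNat (nat_lit 0), .ofNat (nat_lit 781388198710272), .ofNat (nat_lit 0)]],
  [[.ofNat (nat_lit 0), .ofNat (nat_lit 19938176478912960), .ofNat (nat_lit 0)],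
  [.ofNat (nat_lit 0), .negSucc (nat_lit 19912051156520447), .ofNat (nat_lit 0)]]],
  [[[.negSucc (nat_lit 1828034566306527167), .negSucc (nat_lit 1825338638950005023), .ofNat (nat_lit 0)],
  []],
  [[.ofNat (nat_lit 0), .ofNat (nat_lit 3025470489442113024), .ofNat (nat_lit 0)],
  [.ofNat (nat_lit 0), .negSucc (nat_lit 390694099355135), .ofNat (nat_lit 0)]],
  [[.ofNat (nat_lit 0), .negSucc (nat_lit 9969088239456479), .ofNat (nat_lit 0)],
  [.ofNat (nat_lit 0), .ofNat (nat_lit 9956025578260224), .ofNat (nat_lit 0)]]],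
  [[[.ofNat (nat_lit 1952180143455821472), .ofNat (nat_lit 4462512091849017792), .ofNat (nat_lit 0)],
  []],
  [[.ofNat (nat_lit 0), .negSucc (nat_lit 6710517262235574719), .ofNat (nat_lit 0)],
  []],
  [[],
  []]],
  [[[.ofNat (nat_lit 396435779798542560), .negSucc (nat_lit 5805756722727124127), .ofNat (nat_lit 0)],
  []],
  [[.ofNat (nat_lit 0), .ofNat (nat_lit 6900260549906344896), .ofNat (nat_lit 0)],
  []],
  [[],
  []]],
  [[[.negSucc (nat_lit 2599000353858729023), .ofNat (nat_lit 4194165846510474048), .ofNat (nat_lit 0)],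
  []],
  [[.ofNat (nat_lit 0), .negSucc (nat_lit 3599974611501562367), .ofNat (nat_lit 0)],
  []],
  [[],
  []]],
  [[[.ofNat (nat_lit 2040324036315449184), .negSucc (nat_lit 1589672628626921855), .ofNat (nat_lit 0)],
  []],
  [[.ofNat (nat_lit 0), .ofNat (nat_lit 1145810466680411808), .ofNat (nat_lit 0)],
  []],
  [[],
  []]],
  [[[.negSucc (nat_lit 524700007983558143), .ofNat (nat_lit 248214063421009152), .ofNat (nat_lit 0)],
  []],
  [[.ofNat (nat_lit 0), .negSucc (nat_lit 270094324410563903), .ofNat (nat_lit 0)],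
  []],
  [[],
  []]]],
  [[[[],
  []],
  [[],
  []],
  [[],
  []]],
  [[[.ofNat (nat_lit 0), .negSucc (nat_lit 9328333838569055), .ofNat (nat_lit 0)],
  []],
  [[.ofNat (nat_lit 0), .ofNat (nat_lit 52975273234557312), .ofNat (nat_lit 0)],
  [.ofNat (nat_lit 0), .negSucc (nat_lit 6084436392118367), .ofNat (nat_lit 0)]],
  [[.ofNat (nat_lit 0), .negSucc (nat_lit 29072734276964543), .ofNat (nat_lit 0)],
  [.ofNat (nat_lit 0), .ofNat (nat_lit 29319594522585408), .ofNat (nat_lit 0)]]],
  [[[],
  []],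
  [[],
  []],
  [[],
  []]],
  [[[.negSucc (nat_lit 15854242758511103), .ofNat (nat_lit 406643215342729824), .ofNat (nat_lit 0)],
  []],
  [[.ofNat (nat_lit 0), .negSucc (nat_lit 962117457162372575), .ofNat (nat_lit 0)],
  [.ofNat (nat_lit 0), .ofNat (nat_lit 18253309176355104), .ofNat (nat_lit 0)]],
  [[.ofNat (nat_lit 0), .ofNat (nat_lit 87218202830893632), .ofNat (nat_lit 0)],
  [.ofNat (nat_lit 0), .negSucc (nat_lit 87958783567756223), .ofNat (nat_lit 0)]]],
  [[[.ofNat (nat_lit 213246592504169760), .negSucc (nat_lit 1597746615767995679), .ofNat (nat_lit 0)],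
  []],
  [[.ofNat (nat_lit 0), .ofNat (nat_lit 1092552357559297248), .ofNat (nat_lit 0)],
  [.ofNat (nat_lit 0), .negSucc (nat_lit 12168872784236735), .ofNat (nat_lit 0)]],
  [[.ofNat (nat_lit 0), .negSucc (nat_lit 58145468553929087), .ofNat (nat_lit 0)],
  [.ofNat (nat_lit 0), .ofNat (nat_lit 58639189045170816), .ofNat (nat_lit 0)]]],
  [[[.negSucc (nat_lit 782791500454635455), .ofNat (nat_lit 2392775374114542528), .ofNat (nat_lit 0)],
  []],
  [[.ofNat (nat_lit 0), .ofNat (nat_lit 2096819549180818560), .ofNat (nat_lit 0)],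
  []],
  [[],
  []]],
  [[[.ofNat (nat_lit 1220561328040149888), .negSucc (nat_lit 1408017933964268351), .ofNat (nat_lit 0)],
  []],
  [[.ofNat (nat_lit 0), .negSucc (nat_lit 4531348892847071519), .ofNat (nat_lit 0)],
  []],
  [[],
  []]],
  [[[.negSucc (nat_lit 866463310940516927), .ofNat (nat_lit 60778468813226112), .ofNat (nat_lit 0)],
  []],
  [[.ofNat (nat_lit 0), .ofNat (nat_lit 2841790081084460064), .ofNat (nat_lit 0)],
  []],
  [[],
  []]],
  [[[.ofNat (nat_lit 231301133609343840), .ofNat (nat_lit 154895825300334624), .ofNat (nat_lit 0)],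
  []],
  [[.ofNat (nat_lit 0), .negSucc (nat_lit 590670911049689087), .ofNat (nat_lit 0)],
  []],
  [[],
  []]]],
  [[[[],
  []],
  [[],
  []],
  [[],
  []]],
  [[[.negSucc (nat_lit 1328941973978207), .negSucc (nat_lit 15643997958192191), .ofNat (nat_lit 0)],
  [.ofNat (nat_lit 969306744779712), .ofNat (nat_lit 0), .ofNat (nat_lit 0)]],
  [[.ofNat (nat_lit 0), .negSucc (nat_lit 41056197351462431), .ofNat (nat_lit 0)],
  [.ofNat (nat_lit 0), .ofNat (nat_lit 9427409921849760), .ofNat (nat_lit 0)]],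
  [[.ofNat (nat_lit 0), .ofNat (nat_lit 24550768480110336), .ofNat (nat_lit 0)],
  [.ofNat (nat_lit 0), .negSucc (nat_lit 46658500645426559), .ofNat (nat_lit 0)]]],
  [[[],
  []],
  [[],
  []],
  [[],
  []]],
  [[[],
  []],
  [[],
  []],
  [[],
  []]],
  [[[.ofNat (nat_lit 272486981135075616), .ofNat (nat_lit 106375073621532480), .ofNat (nat_lit 0)],
  [.negSucc (nat_lit 3877226979118847), .ofNat (nat_lit 0), .ofNat (nat_lit 0)]],
  [[.ofNat (nat_lit 0), .ofNat (nat_lit 946144325153700000), .ofNat (nat_lit 0)],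
  [.ofNat (nat_lit 0), .negSucc (nat_lit 37709639687399039), .ofNat (nat_lit 0)]],
  [[.ofNat (nat_lit 0), .negSucc (nat_lit 98203073920441343), .ofNat (nat_lit 0)],
  [.ofNat (nat_lit 0), .ofNat (nat_lit 186634002581706240), .ofNat (nat_lit 0)]]],
  [[[.negSucc (nat_lit 1074149162481409343), .negSucc (nat_lit 20751496245390527), .ofNat (nat_lit 0)],
  [.ofNat (nat_lit 2907920234339136), .ofNat (nat_lit 0), .ofNat (nat_lit 0)]],
  [[.ofNat (nat_lit 0), .negSucc (nat_lit 2476875789587132351), .ofNat (nat_lit 0)],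
  [.ofNat (nat_lit 0), .ofNat (nat_lit 28282229765549280), .ofNat (nat_lit 0)]],
  [[.ofNat (nat_lit 0), .ofNat (nat_lit 73652305440331008), .ofNat (nat_lit 0)],
  [.ofNat (nat_lit 0), .negSucc (nat_lit 139975501936279679), .ofNat (nat_lit 0)]]],
  [[[.ofNat (nat_lit 1607039909622175104), .negSucc (nat_lit 430198041677983775), .ofNat (nat_lit 0)],
  []],
  [[.ofNat (nat_lit 0), .ofNat (nat_lit 3234748709222879904), .ofNat (nat_lit 0)],
  []],
  [[],
  []]],
  [[[.negSucc (nat_lit 1072277662522577183), .ofNat (nat_lit 606658263313354560), .ofNat (nat_lit 0)],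
  []],
  [[.ofNat (nat_lit 0), .negSucc (nat_lit 2536053968838925727), .ofNat (nat_lit 0)],
  []],
  [[],
  []]],
  [[[.ofNat (nat_lit 268228876220714016), .negSucc (nat_lit 246439801053320543), .ofNat (nat_lit 0)],
  []],
  [[.ofNat (nat_lit 0), .ofNat (nat_lit 873092921400940608), .ofNat (nat_lit 0)],
  []],
  [[],
  []]]],
  [[[[],
  []],
  [[],
  []],
  [[],
  []]],
  [[[.negSucc (nat_lit 1949789701662623), .ofNat (nat_lit 13944996908913600), .ofNat (nat_lit 0)],
  [.negSucc (nat_lit 351761238239327), .ofNat (nat_lit 0), .ofNat (nat_lit 0)]],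
  [[.ofNat (nat_lit 0), .ofNat (nat_lit 72242746471387296), .ofNat (nat_lit 0)],
  [.ofNat (nat_lit 0), .ofNat (nat_lit 50069094335807616), .ofNat (nat_lit 0)]],
  [[.ofNat (nat_lit 0), .ofNat (nat_lit 9601253389765440), .ofNat (nat_lit 0)],
  [.ofNat (nat_lit 0), .negSucc (nat_lit 30477567901803839), .ofNat (nat_lit 0)]]],
  [[[],
  []],
  [[],
  []],
  [[],
  []]],
  [[[],
  []],
  [[],
  []],
  [[],
  []]],
  [[[],
  []],
  [[],
  []],
  [[],
  []]],
  [[[.ofNat (nat_lit 241016406783615936), .negSucc (nat_lit 99193342097521151), .ofNat (nat_lit 0)],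
  [.ofNat (nat_lit 1758806191196640), .ofNat (nat_lit 0), .ofNat (nat_lit 0)]],
  [[.ofNat (nat_lit 0), .negSucc (nat_lit 370710298603072511), .ofNat (nat_lit 0)],
  [.ofNat (nat_lit 0), .negSucc (nat_lit 250345471679038079), .ofNat (nat_lit 0)]],
  [[.ofNat (nat_lit 0), .negSucc (nat_lit 48006266948827199), .ofNat (nat_lit 0)],
  [.ofNat (nat_lit 0), .ofNat (nat_lit 152387839509019200), .ofNat (nat_lit 0)]]],
  [[[.negSucc (nat_lit 667520705242547423), .negSucc (nat_lit 24574753871501759), .ofNat (nat_lit 0)],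
  [.negSucc (nat_lit 1407044952957311), .ofNat (nat_lit 0), .ofNat (nat_lit 0)]],
  [[.ofNat (nat_lit 0), .negSucc (nat_lit 362570133168124127), .ofNat (nat_lit 0)],
  [.ofNat (nat_lit 0), .ofNat (nat_lit 200276377343230464), .ofNat (nat_lit 0)]],
  [[.ofNat (nat_lit 0), .ofNat (nat_lit 38405013559061760), .ofNat (nat_lit 0)],
  [.ofNat (nat_lit 0), .negSucc (nat_lit 121910271607215359), .ofNat (nat_lit 0)]]],
  [[[.ofNat (nat_lit 625640718045885408), .ofNat (nat_lit 249114555673171776), .ofNat (nat_lit 0)],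
  []],
  [[.ofNat (nat_lit 0), .ofNat (nat_lit 1331571936845754720), .ofNat (nat_lit 0)],
  []],
  [[],
  []]],
  [[[.negSucc (nat_lit 197186629885291295), .negSucc (nat_lit 139291456613062463), .ofNat (nat_lit 0)],
  []],
  [[.ofNat (nat_lit 0), .negSucc (nat_lit 670534251545945375), .ofNat (nat_lit 0)],
  []],
  [[],
  []]]],
  [[[[],
  []],
  [[],
  []],
  [[],
  []]],
  [[[.ofNat (nat_lit 82165929072480), .ofNat (nat_lit 6216376676054400), .ofNat (nat_lit 0)],
  [.negSucc (nat_lit 651933873895103), .ofNat (nat_lit 0), .ofNat (nat_lit 0)]],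
  [[.ofNat (nat_lit 0), .negSucc (nat_lit 35966891075439455), .ofNat (nat_lit 0)],
  [.ofNat (nat_lit 0), .negSucc (nat_lit 20022170975201663), .ofNat (nat_lit 0)]],
  [[.ofNat (nat_lit 0), .negSucc (nat_lit 9999340337980223), .ofNat (nat_lit 0)],
  [.ofNat (nat_lit 0), .ofNat (nat_lit 43667204132389536), .ofNat (nat_lit 0)]]],
  [[[],
  []],
  [[],
  []],
  [[],
  []]],
  [[[],
  []],
  [[],
  []],
  [[],
  []]],
  [[[],
  []],
  [[],
  []],
  [[],
  []]],
  [[[],
  []],
  [[],
  []],
  [[],
  []]],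
  [[[.ofNat (nat_lit 5838557227909056), .ofNat (nat_lit 57049494067215360), .ofNat (nat_lit 0)],
  [.ofNat (nat_lit 3911603243370624), .ofNat (nat_lit 0), .ofNat (nat_lit 0)]],
  [[.ofNat (nat_lit 0), .ofNat (nat_lit 211839928262982720), .ofNat (nat_lit 0)],
  [.ofNat (nat_lit 0), .ofNat (nat_lit 120133025851209984), .ofNat (nat_lit 0)]],
  [[.ofNat (nat_lit 0), .ofNat (nat_lit 59996042027881344), .ofNat (nat_lit 0)],
  [.ofNat (nat_lit 0), .negSucc (nat_lit 262003224794337215), .ofNat (nat_lit 0)]]],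
  [[[.negSucc (nat_lit 12252275959325471), .negSucc (nat_lit 157613624866811519), .ofNat (nat_lit 0)],
  [.negSucc (nat_lit 3259669369475519), .ofNat (nat_lit 0), .ofNat (nat_lit 0)]],
  [[.ofNat (nat_lit 0), .negSucc (nat_lit 171911618997889247), .ofNat (nat_lit 0)],
  [.ofNat (nat_lit 0), .negSucc (nat_lit 100110854876008319), .ofNat (nat_lit 0)]],
  [[.ofNat (nat_lit 0), .negSucc (nat_lit 49996701689901119), .ofNat (nat_lit 0)],
  [.ofNat (nat_lit 0), .ofNat (nat_lit 218336020661947680), .ofNat (nat_lit 0)]]],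
  [[[.ofNat (nat_lit 6331552802343936), .ofNat (nat_lit 94347754123541760), .ofNat (nat_lit 0)],
  []],
  [[.ofNat (nat_lit 0), .negSucc (nat_lit 3961418189654015), .ofNat (nat_lit 0)],
  []],
  [[],
  []]]],
  [[[[],
  []],
  [[],
  []],
  [[],
  []]],
  [[[.negSucc (nat_lit 2119246610529599), .negSucc (nat_lit 3235107105570815), .ofNat (nat_lit 0)],
  [.negSucc (nat_lit 1030693997559743), .ofNat (nat_lit 0), .ofNat (nat_lit 0)]],
  [[.ofNat (nat_lit 0), .negSucc (nat_lit 7614643332028319), .ofNat (nat_lit 0)],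
  [.ofNat (nat_lit 0), .negSucc (nat_lit 25302154305953663), .ofNat (nat_lit 0)]],
  [[.ofNat (nat_lit 0), .negSucc (nat_lit 12813016615150175), .ofNat (nat_lit 0)],
  [.ofNat (nat_lit 0), .negSucc (nat_lit 331141261304447), .ofNat (nat_lit 0)]]],
  [[[],
  []],
  [[],
  []],
  [[],
  []]],
  [[[],
  []],
  [[],
  []],
  [[],
  []]],
  [[[],
  []],
  [[],
  []],
  [[],
  []]],
  [[[],
  []],
  [[],
  []],
  [[],
  []]],
  [[[.ofNat (nat_lit 47053090813408128), .ofNat (nat_lit 146477595821282784), .ofNat (nat_lit 0)],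
  [.ofNat (nat_lit 6184163985358464), .ofNat (nat_lit 0), .ofNat (nat_lit 0)]],
  [[.ofNat (nat_lit 0), .ofNat (nat_lit 134646755261153184), .ofNat (nat_lit 0)],
  [.ofNat (nat_lit 0), .ofNat (nat_lit 151812925835721984), .ofNat (nat_lit 0)]],
  [[.ofNat (nat_lit 0), .ofNat (nat_lit 76878099690901056), .ofNat (nat_lit 0)],
  [.ofNat (nat_lit 0), .ofNat (nat_lit 1986847567826688), .ofNat (nat_lit 0)]]],
  [[[.negSucc (nat_lit 79271455353109055), .negSucc (nat_lit 270309441903569855), .ofNat (nat_lit 0)],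
  [.negSucc (nat_lit 5153469987798719), .ofNat (nat_lit 0), .ofNat (nat_lit 0)]],
  [[.ofNat (nat_lit 0), .negSucc (nat_lit 215991007198108127), .ofNat (nat_lit 0)],
  [.ofNat (nat_lit 0), .negSucc (nat_lit 126510771529768319), .ofNat (nat_lit 0)]],
  [[.ofNat (nat_lit 0), .negSucc (nat_lit 64065083075750879), .ofNat (nat_lit 0)],
  [.ofNat (nat_lit 0), .negSucc (nat_lit 1655706306522239), .ofNat (nat_lit 0)]]],
  [[[.ofNat (nat_lit 34337611150230528), .ofNat (nat_lit 127066953187857888), .ofNat (nat_lit 0)],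
  []],
  [[.ofNat (nat_lit 0), .ofNat (nat_lit 88958895268983264), .ofNat (nat_lit 0)],
  []],
  [[],
  []]]],
  [[[[],
  []],
  [[],
  []],
  [[],
  []]],
  [[[.negSucc (nat_lit 476107817486111), .negSucc (nat_lit 6867171289301471), .ofNat (nat_lit 0)],
  [.ofNat (nat_lit 640384247673216), .ofNat (nat_lit 0), .ofNat (nat_lit 0)]],
  [[.ofNat (nat_lit 0), .ofNat (nat_lit 15120518816582784), .ofNat (nat_lit 0)],
  [.ofNat (nat_lit 0), .ofNat (nat_lit 10613316803078016), .ofNat (nat_lit 0)]],
  [[.ofNat (nat_lit 0), .ofNat (nat_lit 7214650994390688), .ofNat (nat_lit 0)],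
  [.ofNat (nat_lit 0), .negSucc (nat_lit 18956649197617343), .ofNat (nat_lit 0)]]],
  [[[],
  []],
  [[],
  []],
  [[],
  []]],
  [[[],
  []],
  [[],
  []],
  [[],
  []]],
  [[[],
  []],
  [[],
  []],
  [[],
  []]],
  [[[],
  []],
  [[],
  []],
  [[],
  []]],
  [[[],
  []],
  [[],
  []],
  [[],
  []]],
  [[[.ofNat (nat_lit 3332754722402784), .ofNat (nat_lit 48070199025110304), .ofNat (nat_lit 0)],
  [.negSucc (nat_lit 4482689733712511), .ofNat (nat_lit 0), .ofNat (nat_lit 0)]],
  [[.ofNat (nat_lit 0), .negSucc (nat_lit 105843631716079487), .ofNat (nat_lit 0)],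
  [.ofNat (nat_lit 0), .negSucc (nat_lit 74293217621546111), .ofNat (nat_lit 0)]],
  [[.ofNat (nat_lit 0), .negSucc (nat_lit 50502556960734815), .ofNat (nat_lit 0)],
  [.ofNat (nat_lit 0), .ofNat (nat_lit 132696544383321408), .ofNat (nat_lit 0)]]],
  [[[.negSucc (nat_lit 2856646904916671), .negSucc (nat_lit 41203027735808831), .ofNat (nat_lit 0)],
  [.ofNat (nat_lit 3842305486039296), .ofNat (nat_lit 0), .ofNat (nat_lit 0)]],
  [[.ofNat (nat_lit 0), .ofNat (nat_lit 90723112899496704), .ofNat (nat_lit 0)],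
  [.ofNat (nat_lit 0), .ofNat (nat_lit 63679900818468096), .ofNat (nat_lit 0)]],
  [[.ofNat (nat_lit 0), .ofNat (nat_lit 43287905966344128), .ofNat (nat_lit 0)],
  [.ofNat (nat_lit 0), .negSucc (nat_lit 113739895185704063), .ofNat (nat_lit 0)]]]],
  [[[[],
  []],
  [[],
  []],
  [[],
  []]],
  [[[],
  []],
  [[],
  []],
  [[],
  []]],
  [[[],
  []],
  [[],
  []],
  [[],
  []]],
  [[[],
  []],
  [[],
  []],
  [[],
  []]],
  [[[],
  []],
  [[],
  []],
  [[],
  []]],
  [[[],
  []],
  [[],
  []],
  [[],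
  []]],
  [[[],
  []],
  [[],
  []],
  [[],
  []]],
  [[[],
  []],
  [[],
  []],
  [[],
  []]],
  [[[],
  []],
  [[],
  []],
  [[],
  []]]],
  [[[[],
  []],
  [[],
  []],
  [[],
  []]],
  [[[],
  []],
  [[],
  []],
  [[],
  []]],
  [[[],
  []],
  [[],
  []],
  [[],
  []]],
  [[[],
  []],
  [[],
  []],
  [[],
  []]],
  [[[],
  []],
  [[],
  []],
  [[],
  []]],
  [[[],
  []],
  [[],
  []],
  [[],
  []]],
  [[[],
  []],
  [[],
  []],
  [[],
  []]],
  [[[],
  []],
  [[],
  []],
  [[],
  []]],
  [[[],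
  []],
  [[],
  []],
  [[],
  []]]]]

noncomputable def BR8_tn : List (List ℕ) := [[nat_lit 16384, nat_lit 0, nat_lit 0],
  [nat_lit 32768, nat_lit 16384, nat_lit 0],
  [nat_lit 16384, nat_lit 16384, nat_lit 16384]]

noncomputable def BR8_zn : List (List ℕ) := [[nat_lit 281474976710656, nat_lit 79164837199872, nat_lit 22265110462464, nat_lit 6262062317568, nat_lit 1761205026816, nat_lit 495338913792, nat_lit 139314069504, nat_lit 39182082048, nat_lit 11019960576],
  [nat_lit 2251799813685248, nat_lit 734473767354368, nat_lit 235020610437120, nat_lit 74101070757888, nat_lit 23091354796032, nat_lit 7127376592896, nat_lit 2182587088896, nat_lit 663918612480, nat_lit 200808170496],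
  [nat_lit 7881299347898368, nat_lit 2924700929884160, nat_lit 1058073783304192, nat_lit 374042259357696, nat_lit 129579029102592, nat_lit 44109624508416, nat_lit 14789220433920, nat_lit 4893769488384, nat_lit 1600887359232],
  [nat_lit 15762598695796736, nat_lit 6557487348056064, nat_lit 2659856066543616, nat_lit 1051870776786944, nat_lit 405880449269760, nat_lit 153055817367552, nat_lit 56515456401408, nat_lit 20475546964992, nat_lit 7292931303168],
  [nat_lit 19703248369745920, nat_lit 9081966045429760, nat_lit 4095337216081920, nat_lit 1803913107865600, nat_lit 775324828696576, nat_lit 325021453516800, nat_lit 132948210401280, nat_lit 53121351467520, nat_lit 20764596071520],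
  [nat_lit 15762598695796736, nat_lit 7973658324631552, nat_lit 3965388685574144, nat_lit 1934927864004608, nat_lit 924505467781120, nat_lit 431688177680384, nat_lit 196680958230528, nat_lit 87365115323136, nat_lit 37837708396992],
  [nat_lit 7881299347898368, nat_lit 4340871906459648, nat_lit 2363606402334720, nat_lit 1270163563347968, nat_lit 672291197288448, nat_lit 349655036854272, nat_lit 178209759711232, nat_lit 88755118462080, nat_lit 43092945674352],
  [nat_lit 2251799813685248, nat_lit 1341404185886720, nat_lit 794534590021632, nat_lit 467484641591296, nat_lit 272887390928896, nat_lit 157781090107392, nat_lit 90163929866240, nat_lit 50769114127808, nat_lit 28044615438864],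
  [nat_lit 281474976710656, nat_lit 180319906955264, nat_lit 115517440393216, nat_lit 74003360251904, nat_lit 47408402661376, nat_lit 30371007954944, nat_lit 19456426971136, nat_lit 12464273528384, nat_lit 7984925229121],
  [nat_lit 281474976710656, nat_lit 180319906955264, nat_lit 115517440393216, nat_lit 74003360251904, nat_lit 47408402661376, nat_lit 30371007954944, nat_lit 19456426971136, nat_lit 12464273528384, nat_lit 7984925229121],
  [nat_lit 2251799813685248, nat_lit 1543714325397504, nat_lit 1053744456269824, nat_lit 716569122439168, nat_lit 485647051653120, nat_lit 328155037171712, nat_lit 221138901671936, nat_lit 148659262326336, nat_lit 99714188227072],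
  [nat_lit 7881299347898368, nat_lit 5757042883035136, nat_lit 4178075466072064, nat_lit 3013754929283072, nat_lit 2161608822358016, nat_lit 1542272666304512, nat_lit 1095034562351104, nat_lit 773986155851776, nat_lit 544779955191808],
  [nat_lit 15762598695796736, nat_lit 12222171254358016, nat_lit 9408795876786176, nat_lit 7191830395355136, nat_lit 5459412453949440, nat_lit 4116772259364864, nat_lit 3084545332609024, nat_lit 2297085260201984, nat_lit 1700776445476864],
  [nat_lit 19703248369745920, nat_lit 16162820928307200, nat_lit 13167682534768640, nat_lit 10652512105267200, nat_lit 8556683508842496, nat_lit 6824265567436800, nat_lit 5404022055895040, nat_lit 4249411701964800, nat_lit 3318588186296320],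
  [nat_lit 15762598695796736, nat_lit 13638342230933504, nat_lit 11732201385230336, nat_lit 10031111941914624, nat_lit 8522009684213760, nat_lit 7191830395355136, nat_lit 6027509858566144, nat_lit 5015983857074176, nat_lit 4144188174106624],
  [nat_lit 7881299347898368, nat_lit 7173213859610624, nat_lit 6501480974516224, nat_lit 5866100692615168, nat_lit 5267073013907456, nat_lit 4704397938393088, nat_lit 4178075466072064, nat_lit 3688105596944384, nat_lit 3234488331010048],
  [nat_lit 2251799813685248, nat_lit 2150644743929856, nat_lit 2049489674174464, nat_lit 1948334604419072, nat_lit 1847179534663680, nat_lit 1746024464908288, nat_lit 1644869395152896, nat_lit 1543714325397504, nat_lit 1442559255642112],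
  [nat_lit 281474976710656, nat_lit 281474976710656, nat_lit 281474976710656, nat_lit 281474976710656, nat_lit 281474976710656, nat_lit 281474976710656, nat_lit 281474976710656, nat_lit 281474976710656, nat_lit 281474976710656],
  [nat_lit 281474976710656, nat_lit 281474976710656, nat_lit 281474976710656, nat_lit 281474976710656, nat_lit 281474976710656, nat_lit 281474976710656, nat_lit 281474976710656, nat_lit 281474976710656, nat_lit 281474976710656],
  [nat_lit 2251799813685248, nat_lit 2352954883440640, nat_lit 2454109953196032, nat_lit 2555265022951424, nat_lit 2656420092706816, nat_lit 2757575162462208, nat_lit 2858730232217600, nat_lit 2959885301972992, nat_lit 3061040371728384],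
  [nat_lit 7881299347898368, nat_lit 8589384836186112, nat_lit 9333822927667200, nat_lit 10114613622341632, nat_lit 10931756920209408, nat_lit 11785252821270528, nat_lit 12675101325524992, nat_lit 13601302432972800, nat_lit 14563856143613952],
  [nat_lit 15762598695796736, nat_lit 17886855160659968, nat_lit 20229227244683264, nat_lit 22802779164639232, nat_lit 25620575137300480, nat_lit 28695679379439616, nat_lit 32041156107829248, nat_lit 35670069539241984, nat_lit 39595483890450432],
  [nat_lit 19703248369745920, nat_lit 23243675811184640, nat_lit 27329392300523520, nat_lit 32025718921625600, nat_lit 37402671711256576, nat_lit 43534961659084800, nat_lit 50501994707681280, nat_lit 58387871752519680, nat_lit 67281388641976320],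
  [nat_lit 15762598695796736, nat_lit 19303026137235456, nat_lit 23570505642541056, nat_lit 28695679379439616, nat_lit 34827969327267840, nat_lit 42137264525672448, nat_lit 50815608323309568, nat_lit 61078885626544128, nat_lit 73168510148149248],
  [nat_lit 7881299347898368, nat_lit 10005555812761600, nat_lit 12675101325524992, nat_lit 16020578053914624, nat_lit 20200797883072512, nat_lit 25407804161654784, nat_lit 31872539802931200, nat_lit 39871121740886016, nat_lit 49731721741320192],
  [nat_lit 2251799813685248, nat_lit 2959885301972992, nat_lit 3886086409420800, nat_lit 5095724219891712, nat_lit 6672899628859392, nat_lit 8725555089506304, nat_lit 11391749068824576, nat_lit 14847361122548160, nat_lit 19315445497744896],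
  [nat_lit 281474976710656, nat_lit 382630046466048, nat_lit 520137719414784, nat_lit 707062212329472, nat_lit 961162694885376, nat_lit 1306580538359808, nat_lit 1776132919332864, nat_lit 2414430687218112, nat_lit 3282116715437121]]

noncomputable def BR8_sn : List (List ℕ) := [[nat_lit 4096, nat_lit 0, nat_lit 0],
  [nat_lit 8192, nat_lit 8192, nat_lit 0],
  [nat_lit 4096, nat_lit 8192, nat_lit 16384]]

noncomputable def BR8_en : List (List ℕ) := [[nat_lit 72057594037927936, nat_lit 0, nat_lit 0, nat_lit 0, nat_lit 0, nat_lit 0, nat_lit 0, nat_lit 0],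
  [nat_lit 504403158265495552, nat_lit 25614222880669696, nat_lit 0, nat_lit 0, nat_lit 0, nat_lit 0, nat_lit 0, nat_lit 0],
  [nat_lit 1513209474796486656, nat_lit 153685337284018176, nat_lit 9105055789613056, nat_lit 0, nat_lit 0, nat_lit 0, nat_lit 0, nat_lit 0],
  [nat_lit 2522015791327477760, nat_lit 384213343210045440, nat_lit 45525278948065280, nat_lit 3236562800214016, nat_lit 0, nat_lit 0, nat_lit 0, nat_lit 0],
  [nat_lit 2522015791327477760, nat_lit 512284457613393920, nat_lit 91050557896130560, nat_lit 12946251200856064, nat_lit 1150496932888576, nat_lit 0, nat_lit 0, nat_lit 0],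
  [nat_lit 1513209474796486656, nat_lit 384213343210045440, nat_lit 91050557896130560, nat_lit 19419376801284096, nat_lit 3451490798665728, nat_lit 408965706612736, nat_lit 0, nat_lit 0],
  [nat_lit 504403158265495552, nat_lit 153685337284018176, nat_lit 45525278948065280, nat_lit 12946251200856064, nat_lit 3451490798665728, nat_lit 817931413225472, nat_lit 145374528522496, nat_lit 0],
  [nat_lit 72057594037927936, nat_lit 25614222880669696, nat_lit 9105055789613056, nat_lit 3236562800214016, nat_lit 1150496932888576, nat_lit 408965706612736, nat_lit 145374528522496, nat_lit 51676101935731]]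

noncomputable def BR8_en1 : List (List ℕ) := [[nat_lit 256, nat_lit 0],
  [nat_lit 256, nat_lit 91]]


end Crest.Agent.R163.Ck
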