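import Crest.Agent.R163.PVReal
import Crest.Agent.R163.SymAvg

/-! Row 163: Bellman certificates: the three checked arrays as real inequalities. -/

set_option autoImplicit false

namespace Crest.Agent.R163.Ck

open Finset

namespace BellOneH

variable {K : ℕ} {fs : Fs} {lams : List (List ℕ)}

theorem getD_map_range {α : Type} (f : ℕ → α) {n i : ℕ} (h : i < n) (d : α) :
    ((List.range n).map f).getD i d = f i := by
  simp [List.getD_eq_getElem?_getD, h]

theorem fs_cases (h : fsOK K fs lams = true) :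
    ∃ t, fs = (0, 0, 0) :: (1, 0, 0) :: (0, 1, 0) :: (2, 0, 0) :: t := by
  simp only [fsOK, Bool.and_eq_true, decide_eq_true_eq] at h
  refine ⟨fs.drop 4, ?_⟩
  conv_lhs => rw [← List.take_append_drop 4 fs, h.1.1.1]
  rfl

theorem len_pos (h : fsOK K fs lams = true) : 0 < fs.length := by
  obtain ⟨t, rfl⟩ := fs_cases h
  simp

theorem ft_zero (h : fsOK K fs lams = true) (p : Vec 3) : ft fs 0 p = 1 := by
  obtain ⟨t, rfl⟩ := fs_cases h
  simp [ft, feat]

theorem ft_one (h : fsOK K fs lams = true) {b : ℕ} (hb : b < fs.length) (h0 : b ≠ 0) :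
    ft fs b (1 : Vec 3) = 0 := by
  simp only [fsOK, Bool.and_eq_true, List.all_eq_true, decide_eq_true_eq] at h
  refine feat_one (h.1.1.2 _ ?_)
  cases fs with
  | nil => simp at hb
  | cons a t =>
    obtain ⟨c, rfl⟩ := Nat.exists_eq_succ_of_ne_zero h0
    have hc : c < t.length := by simpa using hb
    rw [List.getD_cons_succ, List.tail_cons, List.getD_eq_getElem _ _ hc]
    exact List.getElem_mem hc

theorem deg_le (h : fsOK K fs lams = true) : ∀ a ∈ fs, fdeg a ≤ K := by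
  simp only [fsOK, Bool.and_eq_true, List.all_eq_true, decide_eq_true_eq] at h
  exact h.1.2

theorem one_le (h : fsOK K fs lams = true) : 1 ≤ K := by
  have h1 := deg_le h
  obtain ⟨t, rfl⟩ := fs_cases h
  have := h1 (1, 0, 0) (by simp)
  simp only [fdeg] at this
  omega

theorem sum_le (h : fsOK K fs lams = true) {t : ℕ} (ht : t < lams.length) :
    (lams.getD t []).sum ≤ K := by
  simp only [fsOK, Bool.and_eq_true, List.all_eq_true, decide_eq_true_eq] at h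
  rw [List.getD_eq_getElem _ _ ht]
  exact h.2 _ (List.getElem_mem ht)

theorem comm3 (A I L : Finset ℕ) (F : ℕ → ℕ → ℕ → ℝ) :
    ∑ a ∈ A, ∑ i ∈ I, ∑ l ∈ L, F a i l = ∑ i ∈ I, ∑ l ∈ L, ∑ a ∈ A, F a i l := by
  rw [sum_comm]
  exact sum_congr rfl fun _ _ => sum_comm

theorem comm4 (A J I L : Finset ℕ) (F : ℕ → ℕ → ℕ → ℕ → ℝ) :
    ∑ a ∈ A, ∑ j ∈ J, ∑ i ∈ I, ∑ l ∈ L, F a j i l =
      ∑ j ∈ J, ∑ i ∈ I, ∑ l ∈ L, ∑ a ∈ A, F a j i l := by
  rw [sum_comm]
  exact sum_congr rfl fun j _ => comm3 A I L fun a => F a j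

theorem comm5 (A Z J L I : Finset ℕ) (F : ℕ → ℕ → ℕ → ℕ → ℕ → ℝ) :
    ∑ a ∈ A, ∑ z ∈ Z, ∑ j ∈ J, ∑ l ∈ L, ∑ i ∈ I, F a z j l i =
      ∑ j ∈ J, ∑ i ∈ I, ∑ l ∈ L, ∑ a ∈ A, ∑ z ∈ Z, F a z j l i := by
  rw [sum_congr rfl fun a _ => comm4 Z J L I (F a),
    comm4 A J L I fun a j l i => ∑ z ∈ Z, F a z j l i]
  exact sum_congr rfl fun _ _ => sum_comm

theorem ok_fs {B : Bell} (h : B.ok = true) :
    fsOK B.K B.fs B.lams = true ∧ 0 < B.NS ∧ 0 < B.nl := by
  simp only [Bell.ok, Bool.and_eq_true, decide_eq_true_eq] at h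
  exact ⟨h.1.1.1.1.1, h.1.1.1.2, h.1.1.2⟩

theorem g2_arrG (B : Bell) {l i : ℕ} (hl : l < B.nl) (hi : i < B.NS) :
    g2 B.arrG l i = -(∑ j ∈ range (B.R + 1), B.uc j i l 0) -
      (if l = 0 ∧ i + 1 = B.NS then 1 else 0) := by
  rw [g2, Bell.arrG, getD_map_range _ hl, getD_map_range _ hi]
  rfl

theorem g5_arrE (B : Bell) {a z j l i : ℕ} (ha : a < B.fs.length) (hz : z < B.K + 1) (hj : j < B.R)
    (hl : l < B.nl) (hi : i < B.NS) :
    g5 B.arrE a z j l i = dotDeg z (B.pg j i l) (B.TT.getD a []) (B.lams.map List.sum) -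
      (if z = 1 then B.uc j i l a else 0) := by
  rw [g5, g2, Bell.arrE, getD_map_range _ ha, getD_map_range _ hz, getD_map_range _ hj,
    getD_map_range _ hl, trimZ_getD, getD_map_range _ hi]

theorem sum_g5 {B : Bell} (h : fsOK B.K B.fs B.lams = true) (hT : TabOK 3 B.fs B.lams B.TT B.DT)
    (Z : ℝ) {a j l i : ℕ} (ha : a < B.fs.length) (hj : j < B.R) (hl : l < B.nl) (hi : i < B.NS) :
    ∑ z ∈ range (B.K + 1), Z ^ z * (g5 B.arrE a z j l i : ℝ) =
      ∑ t ∈ range B.lams.length, Z ^ (B.lams.getD t []).sum *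
        (((B.pg j i l).getD t 0 : ℝ) * ((B.TT.getD a []).getD t 0 : ℝ)) - Z * B.uc j i l a := by
  have hlen : (B.TT.getD a []).length ≤ (B.lams.map List.sum).length := by
    have ha' : a < B.TT.length := hT.2.1 ▸ ha
    rw [List.getD_eq_getElem _ _ ha', hT.2.2.1 _ (List.getElem_mem ha'), List.length_map]
  have h1 : ∀ z ∈ range (B.K + 1), Z ^ z * (g5 B.arrE a z j l i : ℝ) =
      ∑ t ∈ range B.lams.length, (if (B.lams.getD t []).sum = z then
        Z ^ z * (((B.pg j i l).getD t 0 : ℝ) * ((B.TT.getD a []).getD t 0 : ℝ)) else 0) -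
        (if z = 1 then Z ^ z * B.uc j i l a else 0) := by
    intro z hz
    rw [g5_arrE B ha (mem_range.1 hz) hj hl hi, dotDeg_eq _ _ _ _ hlen, List.length_map]
    push_cast
    rw [mul_sub, mul_sum]
    congr 1
    · refine sum_congr rfl fun t ht => ?_
      have h2 : (B.lams.map List.sum).getD t 0 = (B.lams.getD t []).sum :=
        List.getD_map (l := B.lams) (d := []) List.sum
      rw [h2]
      split_ifs <;> simp
    · split_ifs <;> simp
  rw [sum_congr rfl h1, sum_sub_distrib, sum_comm, sum_ite_eq',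
    if_pos (mem_range.2 (Nat.lt_succ_of_le (one_le h))), pow_one]
  congr 1
  refine sum_congr rfl fun t ht => ?_
  rw [sum_ite_eq, if_pos (mem_range.2 (Nat.lt_succ_of_le (sum_le h (mem_range.1 ht))))]

end BellOneH

namespace Bell

variable (B : Bell)

/-- coefficient of `θ^j` in the potential -/
noncomputable def u (ε s : ℝ) (j : ℕ) (p : Vec 3) : ℝ :=
  (∑ b ∈ range B.fs.length, (∑ i ∈ range B.NS, ∑ l ∈ range B.nl,
    s ^ i * ε ^ l * (B.uc j i l b : ℝ)) * ft B.fs b p) / B.DT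

/-- coefficient of `θ^j` in the multiplier -/
noncomputable def γ (ε s : ℝ) (j : ℕ) (p : Vec 3) : ℝ :=
  (∑ b ∈ range B.fs.length, (∑ i ∈ range B.NS, ∑ l ∈ range B.nl,
    s ^ i * ε ^ l * (B.gg j i l b : ℝ)) * ft B.fs b p) / (B.DT : ℝ) ^ 2

/-- coefficient of the `t`-th symmetrised monomial in the tangent polynomial -/
noncomputable def πR (ε s θ : ℝ) (t : ℕ) : ℝ :=
  ∑ j ∈ range B.R, ∑ i ∈ range B.NS, ∑ l ∈ range B.nl,
    θ ^ j * s ^ i * ε ^ l * ((B.pg j i l).getD t 0 : ℝ)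

/-- the discrete or continuous derivative in `θ` -/
noncomputable def dU (ε s θ : ℝ) (w : Vec 3) : ℝ :=
  ∑ j ∈ range B.R, ∑ m ∈ range (B.R - j),
    (if B.reg = true ∨ m = 0 then
      θ ^ j * ε ^ (2 * m) * ((j + 1 + m).choose (m + 1) : ℝ) * B.u ε s (j + 1 + m) w else 0)

variable {B} {ε s θmax : ℝ}

theorem bddS_u (j : ℕ) : BddS (B.u ε s j) := by
  have := (BddS.sum (range B.fs.length) fun b _ =>
    (bddS_feat (q := 3) (B.fs.getD b (0, 0, 0))).smul (∑ i ∈ range B.NS, ∑ l ∈ range B.nl,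
      s ^ i * ε ^ l * (B.uc j i l b : ℝ))).mul (bddS_const (B.DT : ℝ)⁻¹)
  exact this

theorem bddS_γ (j : ℕ) : BddS (B.γ ε s j) := by
  have := (BddS.sum (range B.fs.length) fun b _ =>
    (bddS_feat (q := 3) (B.fs.getD b (0, 0, 0))).smul (∑ i ∈ range B.NS, ∑ l ∈ range B.nl,
      s ^ i * ε ^ l * (B.gg j i l b : ℝ))).mul (bddS_const ((B.DT : ℝ) ^ 2)⁻¹)
  exact this

theorem gain (h : B.Checked ε s θmax) (hs : 0 < s) :
    ∑ j ∈ range (B.R + 1), B.u ε s j 1 < 0 := by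
  obtain ⟨hok, hT, -, -, enet, snet, hsc, he, hs'⟩ := h
  obtain ⟨hfs, hNS, hnl⟩ := BellOneH.ok_fs hok
  have hD : (0 : ℝ) < B.DT := Nat.cast_pos.2 hT.1
  have h1 := sc_real hsc he hs'
  have h2 : ∀ j, B.u ε s j 1 =
      (∑ i ∈ range B.NS, ∑ l ∈ range B.nl, s ^ i * ε ^ l * (B.uc j i l 0 : ℝ)) / B.DT := by
    intro j
    rw [u, sum_eq_single_of_mem 0 (mem_range.2 (BellOneH.len_pos hfs)) fun b hb h0 => by
      rw [BellOneH.ft_one hfs (mem_range.1 hb) h0, mul_zero], BellOneH.ft_zero hfs, mul_one]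
  have h3 : ∑ l ∈ range B.nl, ∑ i ∈ range B.NS, ε ^ l * s ^ i * (g2 B.arrG l i : ℝ) =
      -(∑ j ∈ range (B.R + 1), ∑ i ∈ range B.NS, ∑ l ∈ range B.nl,
        s ^ i * ε ^ l * (B.uc j i l 0 : ℝ)) -
      ∑ i ∈ range B.NS, ∑ l ∈ range B.nl,
        (if l = 0 ∧ i + 1 = B.NS then s ^ i * ε ^ l else 0) := by
    rw [BellOneH.comm3, sum_comm, ← sum_neg_distrib, ← sum_sub_distrib]
    refine sum_congr rfl fun i hi => ?_
    rw [← sum_neg_distrib, ← sum_sub_distrib]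
    refine sum_congr rfl fun l hl => ?_
    rw [BellOneH.g2_arrG B (mem_range.1 hl) (mem_range.1 hi), ← mul_sum]
    push_cast
    split_ifs <;> ring
  have h4 : ∑ i ∈ range B.NS, ∑ l ∈ range B.nl,
      (if l = 0 ∧ i + 1 = B.NS then s ^ i * ε ^ l else 0) = s ^ (B.NS - 1) := by
    rw [sum_eq_single_of_mem (B.NS - 1) (mem_range.2 (by omega)) fun i _ hi =>
      sum_eq_zero fun l _ => if_neg fun h => hi (by omega),
      sum_eq_single_of_mem 0 (mem_range.2 hnl) fun l _ hl => if_neg fun h => hl h.1,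
      if_pos ⟨rfl, by omega⟩, pow_zero, mul_one]
  rw [h3, h4] at h1
  simp only [h2]
  rw [← sum_div]
  refine div_neg_of_neg_of_pos ?_ hD
  have := pow_pos hs (B.NS - 1)
  linarith

theorem u_top (h : B.Checked ε s θmax) : ∃ c : ℝ, ∀ p, B.u ε s B.R p = c := by
  obtain ⟨hfs, -, -⟩ := BellOneH.ok_fs h.1
  refine ⟨(∑ i ∈ range B.NS, ∑ l ∈ range B.nl, s ^ i * ε ^ l * (B.uc B.R i l 0 : ℝ)) / B.DT,
    fun p => ?_⟩
  rw [u, sum_eq_single_of_mem 0 (mem_range.2 (BellOneH.len_pos hfs)) fun b _ h0 => by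
    simp [uc, h0], BellOneH.ft_zero hfs, mul_one]

theorem one_sided (h : B.Checked ε s θmax) {θ Z : ℝ} (h0 : 0 ≤ θ) (h1 : θ ≤ θmax)
    (hZ0 : 1 - 2 * ε ≤ Z) (hZ1 : Z ≤ 1 + ε) {r : Vec 3} (hr : Simp r) :
    Z * ∑ j ∈ range B.R, θ ^ j * B.u ε s j r ≤ ∑ t ∈ range B.lams.length,
      B.πR ε s θ t * (Z ^ (B.lams.getD t []).sum * mbar (B.lams.getD t []) r) := by
  obtain ⟨hok, hT, -, ⟨rp, znet, tnet, enet, snet, sp, hO, hcov, hρ, hz, ht, he, hs⟩, -⟩ := h
  obtain ⟨hfs, -, -⟩ := BellOneH.ok_fs hok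
  have hD : (0 : ℝ) < B.DT := Nat.cast_pos.2 hT.1
  obtain ⟨ρ, φ, hρ0, hρ1, hdom, hφ⟩ := hcov r hr
  have hdT := domT_of (degs := B.fs.map fdeg) (hρ ρ hρ0 hρ1) (by rwa [List.length_map])
    fun d hd => by
      obtain ⟨a, ha, rfl⟩ := List.mem_map.1 hd
      exact Nat.lt_succ_of_le (BellOneH.deg_le hfs a ha)
  have h2 := hO.real hdT (hz Z hZ0 hZ1) (ht θ h0 h1) he hs
  rw [List.length_map, BellOneH.comm5] at h2
  have h3 : ∀ j ∈ range B.R, ∀ i ∈ range B.NS, ∀ l ∈ range B.nl,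
      ∑ a ∈ range B.fs.length, ∑ z ∈ range (B.K + 1),
        ρ ^ (B.fs.map fdeg).getD a 0 * φ a * Z ^ z * θ ^ j * ε ^ l * s ^ i *
          (g5 B.arrE a z j l i : ℝ) =
      ∑ t ∈ range B.lams.length, B.DT * (θ ^ j * s ^ i * ε ^ l * ((B.pg j i l).getD t 0 : ℝ) *
          (Z ^ (B.lams.getD t []).sum * mbar (B.lams.getD t []) r)) -
        ∑ a ∈ range B.fs.length,
          Z * (θ ^ j * (s ^ i * ε ^ l * (B.uc j i l a : ℝ) * ft B.fs a r)) := by
    intro j hj i hi l hl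
    have h4 : ∀ t ∈ range B.lams.length,
        B.DT * (θ ^ j * s ^ i * ε ^ l * ((B.pg j i l).getD t 0 : ℝ) *
          (Z ^ (B.lams.getD t []).sum * mbar (B.lams.getD t []) r)) =
        ∑ a ∈ range B.fs.length, ft B.fs a r * θ ^ j * ε ^ l * s ^ i *
          (Z ^ (B.lams.getD t []).sum *
            (((B.pg j i l).getD t 0 : ℝ) * ((B.TT.getD a []).getD t 0 : ℝ))) := by
      intro t ht
      have h5 := hT.2.2.2.2 r hr t (mem_range.1 ht)
      calc _ = θ ^ j * s ^ i * ε ^ l * ((B.pg j i l).getD t 0 : ℝ) * Z ^ (B.lams.getD t []).sum *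
            (B.DT * mbar (B.lams.getD t []) r) := by ring
        _ = _ := by
          rw [h5, mul_sum]
          exact sum_congr rfl fun a _ => by rw [ft]; ring
    rw [sum_congr rfl h4, sum_comm (s := range B.lams.length), ← sum_sub_distrib]
    refine sum_congr rfl fun a ha => ?_
    have h6 : (B.fs.map fdeg).getD a 0 = fdeg (B.fs.getD a (0, 0, 0)) :=
      List.getD_map (l := B.fs) (d := (0, 0, 0)) fdeg
    rw [h6, ← hφ a (mem_range.1 ha), ← mul_sum]
    calc _ = ft B.fs a r * θ ^ j * ε ^ l * s ^ i *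
          ∑ z ∈ range (B.K + 1), Z ^ z * (g5 B.arrE a z j l i : ℝ) := by
          rw [mul_sum]
          exact sum_congr rfl fun z _ => by rw [ft]; ring
      _ = _ := by
          rw [BellOneH.sum_g5 hfs hT Z (mem_range.1 ha) (mem_range.1 hj) (mem_range.1 hl)
            (mem_range.1 hi)]
          ring
  rw [sum_congr rfl fun j hj => sum_congr rfl fun i hi => sum_congr rfl fun l hl =>
    h3 j hj i hi l hl] at h2
  simp only [sum_sub_distrib] at h2
  refine le_of_mul_le_mul_left ?_ hD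
  have e1 : B.DT * (Z * ∑ j ∈ range B.R, θ ^ j * B.u ε s j r) =
      ∑ j ∈ range B.R, ∑ i ∈ range B.NS, ∑ l ∈ range B.nl, ∑ a ∈ range B.fs.length,
        Z * (θ ^ j * (s ^ i * ε ^ l * (B.uc j i l a : ℝ) * ft B.fs a r)) := by
    rw [mul_sum, mul_sum]
    refine sum_congr rfl fun j _ => ?_
    rw [← BellOneH.comm3, u]
    simp only [← mul_sum, ← sum_mul]
    field_simp
  have e2 : B.DT * ∑ t ∈ range B.lams.length,
      B.πR ε s θ t * (Z ^ (B.lams.getD t []).sum * mbar (B.lams.getD t []) r) =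
      ∑ j ∈ range B.R, ∑ i ∈ range B.NS, ∑ l ∈ range B.nl, ∑ t ∈ range B.lams.length,
        B.DT * (θ ^ j * s ^ i * ε ^ l * ((B.pg j i l).getD t 0 : ℝ) *
          (Z ^ (B.lams.getD t []).sum * mbar (B.lams.getD t []) r)) := by
    rw [← BellOneH.comm4, mul_sum]
    refine sum_congr rfl fun t _ => ?_
    simp only [πR, ← mul_sum, ← sum_mul]
  rw [e1, e2]
  linarith

end Bell

end Crest.Agent.R163.Ck
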