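import Crest.Agent.R163.BellOne

/-! Row 163: Bellman certificates: the pair array as a real inequality. -/

set_option autoImplicit false

namespace Crest.Agent.R163.BellPairH

open Finset Crest.Agent.R163 Crest.Agent.R163.Ck

theorem reidx (x : ℝ) (F : ℕ → ℝ) {N nl d : ℕ} (hF : ∀ l, nl ≤ l → F l = 0) (h : nl + d ≤ N) :
    ∑ e ∈ range N, x ^ e * (if d ≤ e then F (e - d) else 0) =
      x ^ d * ∑ l ∈ range nl, x ^ l * F l := by
  obtain ⟨r, rfl⟩ := Nat.exists_eq_add_of_le h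
  rw [show nl + d + r = d + (nl + r) by omega, sum_range_add, sum_range_add]
  have h1 : ∑ e ∈ range d, x ^ e * (if d ≤ e then F (e - d) else 0) = 0 :=
    sum_eq_zero fun e he => by rw [if_neg (by simpa using mem_range.1 he), mul_zero]
  have h2 : ∑ e ∈ range r, x ^ (d + (nl + e)) *
      (if d ≤ d + (nl + e) then F (d + (nl + e) - d) else 0) = 0 :=
    sum_eq_zero fun e _ => by rw [if_pos (by omega), hF _ (by omega), mul_zero]
  rw [h1, h2, zero_add, add_zero, mul_sum]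
  refine sum_congr rfl fun l _ => ?_
  rw [if_pos (by omega), Nat.add_sub_cancel_left, pow_add, mul_assoc]

theorem reidx0 (x : ℝ) (F : ℕ → ℝ) {N nl : ℕ} (hF : ∀ l, nl ≤ l → F l = 0) (h : nl ≤ N) :
    ∑ e ∈ range N, x ^ e * F e = ∑ l ∈ range nl, x ^ l * F l := by
  simpa using reidx x F (d := 0) hF (by simpa using h)

/-- the double sum in `s` and `ε` -/
noncomputable def M (ε s : ℝ) (NS N : ℕ) (F : ℕ → ℕ → ℝ) : ℝ :=
  ∑ i ∈ range NS, ∑ l ∈ range N, s ^ i * ε ^ l * F i l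

theorem M_add (ε s : ℝ) (NS N : ℕ) (F G : ℕ → ℕ → ℝ) :
    M ε s NS N (fun i l => F i l + G i l) = M ε s NS N F + M ε s NS N G := by
  simp only [M, mul_add, sum_add_distrib]

theorem M_sub (ε s : ℝ) (NS N : ℕ) (F G : ℕ → ℕ → ℝ) :
    M ε s NS N (fun i l => F i l - G i l) = M ε s NS N F - M ε s NS N G := by
  simp only [M, mul_sub, sum_sub_distrib]

theorem M_mul (ε s : ℝ) (NS N : ℕ) (c : ℝ) (F : ℕ → ℕ → ℝ) :
    M ε s NS N (fun i l => c * F i l) = c * M ε s NS N F := by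
  simp only [M, mul_sum]
  exact sum_congr rfl fun i _ => sum_congr rfl fun l _ => by ring

theorem M_zero (ε s : ℝ) (NS N : ℕ) : M ε s NS N (fun _ _ => 0) = 0 := by
  simp [M]

theorem M_sum (ε s : ℝ) (NS N : ℕ) (T : Finset ℕ) (F : ℕ → ℕ → ℕ → ℝ) :
    M ε s NS N (fun i l => ∑ m ∈ T, F m i l) = ∑ m ∈ T, M ε s NS N (F m) := by
  simp only [M, mul_sum]
  rw [sum_comm (s := T)]
  refine sum_congr rfl fun i _ => ?_
  rw [sum_comm]

theorem M_shift (ε s : ℝ) (NS : ℕ) (F : ℕ → ℕ → ℝ) {N nl d : ℕ}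
    (hF : ∀ i l, nl ≤ l → F i l = 0) (h : nl + d ≤ N) :
    M ε s NS N (fun i e => if d ≤ e then F i (e - d) else 0) = ε ^ d * M ε s NS nl F := by
  simp only [M, mul_assoc, ← mul_sum]
  rw [mul_sum]
  refine sum_congr rfl fun i _ => ?_
  rw [reidx ε (F i) (hF i) h]
  ring

theorem M_cut (ε s : ℝ) (NS : ℕ) (F : ℕ → ℕ → ℝ) {N nl : ℕ}
    (hF : ∀ i l, nl ≤ l → F i l = 0) (h : nl ≤ N) : M ε s NS N F = M ε s NS nl F := by
  simpa using M_shift ε s NS F (d := 0) hF (by simpa using h)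

theorem M_shift_s (ε s : ℝ) (NS N : ℕ) (F : ℕ → ℕ → ℝ) (hF : ∀ i l, NS ≤ i + 1 → F i l = 0) :
    M ε s NS N (fun i e => if 1 ≤ i then F (i - 1) e else 0) = s * M ε s NS N F := by
  rcases NS with _ | n
  · simp [M]
  · simp only [M]
    rw [sum_comm, sum_comm (s := range (n + 1)), mul_sum]
    refine sum_congr rfl fun l _ => ?_
    have h1 := reidx s (fun i => F i l) (N := n + 1) (nl := n) (d := 1)
      (fun i hi => hF i l (by omega)) le_rfl
    have h2 := reidx0 s (fun i => F i l) (N := n + 1) (nl := n)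
      (fun i hi => hF i l (by omega)) (by omega)
    have e1 : ∀ G : ℕ → ℝ, ∑ i ∈ range (n + 1), s ^ i * ε ^ l * G i =
        ε ^ l * ∑ i ∈ range (n + 1), s ^ i * G i := fun G => by
      rw [mul_sum]; exact sum_congr rfl fun i _ => by ring
    rw [e1 (fun i => if 1 ≤ i then F (i - 1) l else 0), e1 (fun i => F i l), h1, h2]
    ring

theorem list_sum_range (n : ℕ) (f : ℕ → ℤ) :
    ((List.range n).map f).sum = ∑ m ∈ range n, f m := by
  induction n with
  | zero => simp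
  | succ n ih => rw [List.range_succ, List.map_append, List.sum_append, ih, sum_range_succ]; simp

theorem getD_map_range {α : Type} (n : ℕ) (f : ℕ → α) (d : α) {i : ℕ} (h : i < n) :
    ((List.range n).map f).getD i d = f i := by
  rw [List.getD_eq_getElem _ _ (by simpa using h)]
  simp

variable (B : Bell)

theorem g6_arrP {j k b a e i : ℕ} (hj : j < B.R) (hk : k < B.K + 1) (hb : b < B.fs.length)
    (ha : a < B.fs.length) (he : e < B.NE) (hi : i < B.NS) :
    g6 B.arrP j k b a e i = if fd B.fs b = k then B.entry j b a e i else 0 := by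
  unfold g6 g5 g2 Bell.arrP
  rw [getD_map_range _ _ _ hj, getD_map_range _ _ _ hk, getD_map_range _ _ _ hb]
  split_ifs with h
  · rw [getD_map_range _ _ _ ha, getD_map_range _ _ _ he, trimZ_getD, getD_map_range _ _ _ hi]
  · simp

theorem pg_nil {j i l : ℕ} (h : B.nl ≤ l) : B.pg j i l = [] := by
  unfold Bell.pg; rw [if_neg (by omega)]

theorem uc_zero {j i l b : ℕ} (h : B.nl ≤ l) : B.uc j i l b = 0 := by
  unfold Bell.uc
  rw [pg_nil B h]
  split_ifs with h1 h2
  · rfl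
  · omega
  · rfl

theorem gg_zero {j i l b : ℕ} (h : B.nl ≤ l) : B.gg j i l b = 0 := by
  unfold Bell.gg; rw [if_neg (by omega)]

theorem gg_zero' {j i l b : ℕ} (h : B.NS ≤ i + 1) : B.gg j i l b = 0 := by
  unfold Bell.gg; rw [if_neg (by omega)]

noncomputable def U (ε s : ℝ) (j b : ℕ) : ℝ := M ε s B.NS B.nl fun i l => (B.uc j i l b : ℝ)

noncomputable def G (ε s : ℝ) (j b : ℕ) : ℝ := M ε s B.NS B.nl fun i l => (B.gg j i l b : ℝ)

noncomputable def D (ε s : ℝ) (j a b : ℕ) : ℝ :=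
  M ε s B.NS B.nl fun i l => (dot3 (B.pg j i l) (B.TT.getD a []) (B.TT.getD b []) : ℝ)

noncomputable def V (ε s : ℝ) (j b : ℕ) : ℝ :=
  ∑ m ∈ range (B.R - j), if B.reg = true ∨ m = 0 then
    ε ^ (2 * m) * ((j + 1 + m).choose (m + 1) : ℝ) * U B ε s (j + 1 + m) b else 0

theorem M_entry_zero (ε s : ℝ) (hR : B.nl + 2 * B.R ≤ B.NE + 2) {j : ℕ} (hj : j < B.R) (b : ℕ) :
    M ε s B.NS B.NE (fun i e => (B.entry j b 0 e i : ℝ)) =
      (if j = 0 ∧ b = 0 then B.DT * U B ε s 0 0 else 0) + (B.DT * V B ε s j b - s * G B ε s j b) := by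
  have hne : B.nl ≤ B.NE := by omega
  simp only [Bell.entry, if_true, list_sum_range]
  push_cast
  rw [M_add, M_sub, M_mul, M_sum]
  congr 1
  · split_ifs with h
    · rw [M_mul, U, M_cut ε s B.NS _ (fun i l hl => by rw [uc_zero B hl]; simp) hne]
    · exact M_zero ..
  · congr 1
    · congr 1
      refine sum_congr rfl fun m hm => ?_
      by_cases h : B.reg = true ∨ m = 0
      · simp only [h, true_and, if_true]
        rw [M_shift ε s B.NS (fun i l => ((j + 1 + m).choose (m + 1) : ℝ) * (B.uc (j + 1 + m) i l b : ℝ))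
          (nl := B.nl) (fun i l hl => by rw [uc_zero B hl]; simp)
          (by have := mem_range.1 hm; omega), M_mul, U, mul_assoc]
      · simp only [h, false_and, if_false]
        exact M_zero ..
    · rw [M_shift_s ε s B.NS B.NE (fun i l => (B.gg j i l b : ℝ))
        (fun i l hl => by rw [gg_zero' B hl]; simp), G,
        M_cut ε s B.NS _ (fun i l hl => by rw [gg_zero B hl]; simp) hne]

theorem M_entry_pos (ε s : ℝ) (hne : B.nl ≤ B.NE) (j b : ℕ) {a : ℕ} (ha : a ≠ 0)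
    (h2 : 2 ≤ fd B.fs a) (hK : B.nl + fd B.fs a ≤ B.NE + 2) :
    ε ^ 2 * M ε s B.NS B.NE (fun i e => (B.entry j b a e i : ℝ)) =
      ε ^ 2 * ((if j = 0 ∧ b = 0 then B.DT * U B ε s 0 a else 0) +
        (if a = 1 then G B ε s j b else 0)) - (-ε) ^ fd B.fs a * D B ε s j a b := by
  obtain ⟨d, hd⟩ := Nat.exists_eq_add_of_le h2
  simp only [Bell.entry, if_neg ha]
  push_cast
  rw [M_add, M_sub]
  have e1 : M ε s B.NS B.NE (fun i e => if j = 0 ∧ b = 0 then (B.DT : ℝ) * (B.uc 0 i e a : ℝ) else 0) =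
      if j = 0 ∧ b = 0 then B.DT * U B ε s 0 a else 0 := by
    split_ifs with h
    · rw [M_mul, U, M_cut ε s B.NS _ (fun i l hl => by rw [uc_zero B hl]; simp) hne]
    · exact M_zero ..
  have e2 : M ε s B.NS B.NE (fun i e => if a = 1 then (B.gg j i e b : ℝ) else 0) =
      if a = 1 then G B ε s j b else 0 := by
    split_ifs with h
    · rw [G, M_cut ε s B.NS _ (fun i l hl => by rw [gg_zero B hl]; simp) hne]
    · exact M_zero ..
  have e3 : M ε s B.NS B.NE (fun i e => if fd B.fs a ≤ e + 2 then (-1 : ℝ) ^ fd B.fs a *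
      (dot3 (B.pg j i (e + 2 - fd B.fs a)) (B.TT.getD a []) (B.TT.getD b []) : ℝ) else 0) =
      ε ^ d * ((-1 : ℝ) ^ fd B.fs a * D B ε s j a b) := by
    rw [D, ← M_mul, ← M_shift ε s B.NS _ (N := B.NE) (d := d)
      (fun i l hl => by rw [pg_nil B hl]; simp [dot3]) (by omega)]
    congr 1
    funext i e
    rw [hd]
    by_cases h : d ≤ e
    · rw [if_pos h, if_pos (by omega), show e + 2 - (2 + d) = e - d by omega]
    · rw [if_neg h, if_neg (by omega)]
  rw [e1, e2, e3, neg_pow ε, hd]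
  ring

theorem ok_facts (h : B.ok = true) : 1 < B.fs.length ∧ B.fs.getD 0 (0, 0, 0) = (0, 0, 0) ∧
    B.fs.getD 1 (0, 0, 0) = (1, 0, 0) ∧ (∀ a < B.fs.length, a ≠ 0 → 2 ≤ fd B.fs a) ∧
    (∀ a ∈ B.fs, fdeg a ≤ B.K) ∧ 0 < B.R ∧ B.nl + B.K ≤ B.NE + 2 ∧ B.nl + 2 * B.R ≤ B.NE + 2 := by
  simp only [Bell.ok, fsOK, Bool.and_eq_true, decide_eq_true_eq, List.all_eq_true] at h
  obtain ⟨⟨⟨⟨⟨⟨⟨⟨h1, h2⟩, h3⟩, -⟩, hR⟩, -⟩, -⟩, h4⟩, h5⟩ := h
  unfold fd
  generalize B.fs = fs at *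
  rcases fs with _ | ⟨x, _ | ⟨y, l⟩⟩
  · simp at h1
  · simp at h1
  · simp only [List.take_succ_cons, List.cons.injEq] at h1
    refine ⟨by simp, by simp [h1.1], by simp [h1.2.1], fun a ha h0 => ?_, h3, hR, h4, h5⟩
    obtain ⟨a, rfl⟩ := Nat.exists_eq_succ_of_ne_zero h0
    have ha' : a < (y :: l).length := by simpa using ha
    have := h2 ((y :: l)[a]) (List.getElem_mem _)
    rw [List.getD_cons_succ, List.getD_eq_getElem _ _ ha']
    unfold fdeg at *
    omega

theorem fd_le (h : B.ok = true) {a : ℕ} (ha : a < B.fs.length) : fd B.fs a ≤ B.K := by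
  unfold fd
  rw [List.getD_eq_getElem _ _ ha]
  exact (ok_facts B h).2.2.2.2.1 _ (List.getElem_mem _)

theorem fd_zero (h : B.ok = true) : fd B.fs 0 = 0 := by
  unfold fd; rw [(ok_facts B h).2.1]; rfl

theorem ft_zero (h : B.ok = true) (p : Vec 3) : ft B.fs 0 p = 1 := by
  unfold ft; rw [(ok_facts B h).2.1]; simp [feat]

theorem ft_one (h : B.ok = true) (p : Vec 3) : ft B.fs 1 p = fx p := by
  unfold ft; rw [(ok_facts B h).2.2.1]; simp [feat]

theorem TT_len (hT : TabOK 3 B.fs B.lams B.TT B.DT) {a : ℕ} (ha : a < B.fs.length) :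
    (B.TT.getD a []).length ≤ B.lams.length := by
  rw [List.getD_eq_getElem _ _ (by rw [hT.2.1]; exact ha)]
  exact (hT.2.2.1 _ (List.getElem_mem _)).le

theorem TT_zero (h : B.ok = true) (hT : TabOK 3 B.fs B.lams B.TT B.DT) {t : ℕ}
    (ht : t < B.lams.length) : ((B.TT.getD 0 []).getD t 0 : ℝ) = B.DT := by
  have := hT.2.2.2.2 1 simp_one t ht
  rw [mbar_one, mul_one, sum_eq_single 0] at this
  · rw [this, (ok_facts B h).2.1]; simp [feat]
  · intro a ha h0
    have h2 := (ok_facts B h).2.2.2.1 a (mem_range.1 ha) h0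
    rw [feat_one (by unfold fd at h2; omega), mul_zero]
  · intro h0
    exact absurd (mem_range.2 (by have := (ok_facts B h).1; omega)) h0

theorem D_eq (hT : TabOK 3 B.fs B.lams B.TT B.DT) (ε s : ℝ) (j b : ℕ) {a : ℕ}
    (ha : a < B.fs.length) : D B ε s j a b = ∑ t ∈ range B.lams.length,
      ((B.TT.getD a []).getD t 0 : ℝ) * ((B.TT.getD b []).getD t 0 : ℝ) *
        M ε s B.NS B.nl fun i l => ((B.pg j i l).getD t 0 : ℝ) := by
  unfold D
  simp only [dot3_eq _ _ _ (TT_len B hT ha)]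
  push_cast
  rw [M_sum]
  refine sum_congr rfl fun t _ => ?_
  rw [← M_mul]
  congr 1
  funext i l
  ring

theorem D_zero (h : B.ok = true) (hT : TabOK 3 B.fs B.lams B.TT B.DT) (ε s : ℝ) {j b : ℕ}
    (hj : j < B.R) (hb : b < B.fs.length) : D B ε s j 0 b = B.DT * U B ε s j b := by
  rw [D_eq B hT ε s j b (by have := (ok_facts B h).1; omega), U]
  simp only [Bell.uc, if_pos hj, dotZ_eq _ _ (TT_len B hT hb)]
  push_cast
  rw [M_sum, mul_sum]
  refine sum_congr rfl fun t ht => ?_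
  rw [TT_zero B h hT (mem_range.1 ht), mul_assoc, ← M_mul]
  congr 2
  funext i l
  ring

theorem key (h : B.ok = true) (hT : TabOK 3 B.fs B.lams B.TT B.DT) (ε s : ℝ) (p : Vec 3) {j b : ℕ}
    (hj : j < B.R) (hb : b < B.fs.length) :
    ε ^ 2 * ∑ a ∈ range B.fs.length,
        ft B.fs a p * M ε s B.NS B.NE (fun i e => (B.entry j b a e i : ℝ)) =
      (if j = 0 ∧ b = 0 then
        ε ^ 2 * B.DT * ∑ a ∈ range B.fs.length, U B ε s 0 a * ft B.fs a p else 0) +
      (ε ^ 2 * (B.DT * V B ε s j b + (fx p - s) * G B ε s j b) + B.DT * U B ε s j b) -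
      ∑ a ∈ range B.fs.length, ft B.fs a p * ((-ε) ^ fd B.fs a * D B ε s j a b) := by
  obtain ⟨hn, -, -, h2, -, hR, hK, hR2⟩ := ok_facts B h
  have e : ∀ a ∈ range B.fs.length,
      ε ^ 2 * (ft B.fs a p * M ε s B.NS B.NE (fun i e => (B.entry j b a e i : ℝ))) =
      (if j = 0 ∧ b = 0 then ε ^ 2 * B.DT * (U B ε s 0 a * ft B.fs a p) else 0) +
      ((if a = 0 then ε ^ 2 * (B.DT * V B ε s j b - s * G B ε s j b) + B.DT * U B ε s j b else 0) +
      (if a = 1 then ε ^ 2 * (fx p * G B ε s j b) else 0)) -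
      ft B.fs a p * ((-ε) ^ fd B.fs a * D B ε s j a b) := by
    intro a ha
    have ha' := mem_range.1 ha
    by_cases h0 : a = 0
    · subst h0
      rw [M_entry_zero B ε s hR2 hj, D_zero B h hT ε s hj hb, fd_zero B h, ft_zero B h,
        if_pos rfl, if_neg (show ¬ (0 = 1) by omega)]
      split_ifs <;> ring
    · rw [mul_left_comm, M_entry_pos B ε s (by omega) j b h0 (h2 a ha' h0)
        (by have := fd_le B h ha'; omega), if_neg h0]
      by_cases h1 : a = 1
      · subst h1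
        rw [ft_one B h, if_pos rfl, if_pos rfl]
        split_ifs <;> ring
      · simp only [if_neg h1]
        split_ifs <;> ring
  rw [mul_sum, sum_congr rfl e, sum_sub_distrib, sum_add_distrib, sum_add_distrib,
    sum_ite_eq', sum_ite_eq', if_pos (mem_range.2 (by omega)), if_pos (mem_range.2 hn)]
  congr 1
  congr 1
  · split_ifs
    · rw [mul_sum]
    · simp
  · ring

theorem lhs_eq (hT : TabOK 3 B.fs B.lams B.TT B.DT) (ε s θ : ℝ) {w p : Vec 3} (hw : Simp w)
    (hp : Simp p) (ht : Tok 3 (-ε)) :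
    (B.DT : ℝ) ^ 2 * ∑ t ∈ range B.lams.length, B.πR ε s θ t *
        (mbar (B.lams.getD t []) w * mbar (B.lams.getD t []) (Tv (-ε) p)) =
      ∑ j ∈ range B.R, ∑ b ∈ range B.fs.length, θ ^ j * ft B.fs b w *
        ∑ a ∈ range B.fs.length, ft B.fs a p * ((-ε) ^ fd B.fs a * D B ε s j a b) := by
  have e : ∀ t ∈ range B.lams.length, (B.DT : ℝ) ^ 2 * (B.πR ε s θ t *
      (mbar (B.lams.getD t []) w * mbar (B.lams.getD t []) (Tv (-ε) p))) =
      ∑ j ∈ range B.R, ∑ b ∈ range B.fs.length, ∑ a ∈ range B.fs.length,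
        θ ^ j * ft B.fs b w * (ft B.fs a p * ((-ε) ^ fd B.fs a *
          (((B.TT.getD a []).getD t 0 : ℝ) * ((B.TT.getD b []).getD t 0 : ℝ) *
            M ε s B.NS B.nl fun i l => ((B.pg j i l).getD t 0 : ℝ)))) := by
    intro t ht'
    have h1 := hT.2.2.2.2 w hw t (mem_range.1 ht')
    have h2 := hT.2.2.2.2 _ (hp.Tv ht) t (mem_range.1 ht')
    have h3 : B.πR ε s θ t = ∑ j ∈ range B.R, θ ^ j *
        M ε s B.NS B.nl fun i l => ((B.pg j i l).getD t 0 : ℝ) := by
      simp only [Bell.πR, M, mul_sum, mul_assoc]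
    calc _ = B.πR ε s θ t * ((B.DT * mbar (B.lams.getD t []) w) *
          (B.DT * mbar (B.lams.getD t []) (Tv (-ε) p))) := by ring
      _ = _ := by
        rw [h1, h2, h3, sum_mul_sum, sum_mul]
        refine sum_congr rfl fun j _ => ?_
        rw [mul_sum]
        refine sum_congr rfl fun b _ => ?_
        rw [mul_sum]
        refine sum_congr rfl fun a _ => ?_
        rw [feat_Tv _ _ hp]
        unfold ft fd
        ring
  rw [mul_sum, sum_congr rfl e, sum_comm]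
  refine sum_congr rfl fun j _ => ?_
  rw [sum_comm]
  refine sum_congr rfl fun b _ => ?_
  rw [sum_comm, mul_sum]
  refine sum_congr rfl fun a ha => ?_
  rw [D_eq B hT ε s j b (mem_range.1 ha)]
  simp only [mul_sum]

theorem u_eq (hT : TabOK 3 B.fs B.lams B.TT B.DT) (ε s : ℝ) (j : ℕ) (w : Vec 3) :
    B.DT * B.u ε s j w = ∑ b ∈ range B.fs.length, U B ε s j b * ft B.fs b w := by
  have : (B.DT : ℝ) ≠ 0 := Nat.cast_ne_zero.2 hT.1.ne'
  unfold Bell.u
  rw [mul_div_cancel₀ _ this]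
  rfl

theorem γ_eq (hT : TabOK 3 B.fs B.lams B.TT B.DT) (ε s : ℝ) (j : ℕ) (w : Vec 3) :
    (B.DT : ℝ) ^ 2 * B.γ ε s j w = ∑ b ∈ range B.fs.length, G B ε s j b * ft B.fs b w := by
  have : (B.DT : ℝ) ^ 2 ≠ 0 := pow_ne_zero _ (Nat.cast_ne_zero.2 hT.1.ne')
  unfold Bell.γ
  rw [mul_div_cancel₀ _ this]
  rfl

theorem dU_eq (hT : TabOK 3 B.fs B.lams B.TT B.DT) (ε s θ : ℝ) (w : Vec 3) :
    B.DT * B.dU ε s θ w = ∑ j ∈ range B.R, θ ^ j *
      ∑ b ∈ range B.fs.length, V B ε s j b * ft B.fs b w := by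
  unfold Bell.dU V
  rw [mul_sum]
  refine sum_congr rfl fun j _ => ?_
  simp only [sum_mul]
  rw [sum_comm, mul_sum, mul_sum]
  refine sum_congr rfl fun m _ => ?_
  split_ifs
  · rw [mul_left_comm, u_eq B hT, mul_sum, mul_sum]
    exact sum_congr rfl fun b _ => by ring
  · simp

theorem real_form {ε s θmax : ℝ} (h : B.Checked ε s θmax) {θ : ℝ} (h0 : 0 ≤ θ) (h1 : θ ≤ θmax)
    {w p : Vec 3} (hw : Simp w) (hp : Simp p) :
    0 ≤ ∑ j ∈ range B.R, ∑ b ∈ range B.fs.length, θ ^ j * ft B.fs b w * ∑ a ∈ range B.fs.length,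
      ft B.fs a p * M ε s B.NS B.NE (fun i e => (B.entry j b a e i : ℝ)) := by
  obtain ⟨hok, -, ⟨rp, rw, tnet, enet, snet, sp, sw, hP, hsp, hsw, hrp, hrw, htn, hen, hsn⟩, -⟩ := h
  obtain ⟨ρ, φ, hρ0, hρ1, hφ, hf⟩ := hsp p hp
  obtain ⟨ρ', φ', hρ0', hρ1', hφ', hf'⟩ := hsw w hw
  have hd := domT_of (degs := B.fs.map fdeg) (hrp ρ hρ0 hρ1) (by simpa using hφ) (fun d hd => by
    obtain ⟨a, ha, rfl⟩ := List.mem_map.1 hd
    exact Nat.lt_succ_of_le ((ok_facts B hok).2.2.2.2.1 a ha))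
  have H := hP.real hd (hrw ρ' hρ0' hρ1') (htn θ h0 h1) hφ' hen hsn
  refine H.trans_eq (sum_congr rfl fun j hj => ?_)
  rw [sum_comm]
  refine sum_congr rfl fun b hb => ?_
  have hb' := mem_range.1 hb
  rw [sum_eq_single (fd B.fs b), List.length_map, mul_sum]
  · refine sum_congr rfl fun a ha => ?_
    have ha' := mem_range.1 ha
    rw [M, sum_comm, mul_sum, mul_sum]
    refine sum_congr rfl fun i hi => ?_
    rw [mul_sum, mul_sum]
    refine sum_congr rfl fun e he => ?_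
    rw [g6_arrP B (mem_range.1 hj) (Nat.lt_succ_of_le (fd_le B hok hb')) hb' ha' (mem_range.1 he)
      (mem_range.1 hi), if_pos rfl]
    have e1 : (B.fs.map fdeg).getD a 0 = fd B.fs a := by
      unfold fd
      rw [List.getD_eq_getElem _ _ (by simpa using ha'), List.getD_eq_getElem _ _ ha']
      simp
    have e2 : ft B.fs a p = ρ ^ fd B.fs a * φ a := hf a ha'
    have e3 : ft B.fs b w = ρ' ^ fd B.fs b * φ' b := hf' b hb'
    rw [e1, e2, e3]
    ring
  · intro k hk hne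
    rw [List.length_map]
    refine sum_eq_zero fun a ha => sum_eq_zero fun e he => sum_eq_zero fun i hi => ?_
    rw [g6_arrP B (mem_range.1 hj) (mem_range.1 hk) hb' (mem_range.1 ha) (mem_range.1 he)
      (mem_range.1 hi), if_neg hne.symm]
    simp
  · intro hk
    exact absurd (mem_range.2 (Nat.lt_succ_of_le (fd_le B hok hb'))) hk

end Crest.Agent.R163.BellPairH

namespace Crest.Agent.R163.Ck

open Finset

namespace Bell

variable {B : Bell} {ε s θmax : ℝ}

theorem pair_ineq (h : B.Checked ε s θmax) {θ : ℝ} (h0 : 0 ≤ θ) (h1 : θ ≤ θmax) {w p : Vec 3}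
    (hw : Simp w) (hp : Simp p) (ht : Tok 3 (-ε)) :
    ∑ t ∈ range B.lams.length, B.πR ε s θ t *
        (mbar (B.lams.getD t []) w * mbar (B.lams.getD t []) (Tv (-ε) p)) ≤
      ∑ j ∈ range B.R, θ ^ j * B.u ε s j w + ε ^ 2 * (B.u ε s 0 p + B.dU ε s θ w +
        (fx p - s) * ∑ j ∈ range B.R, θ ^ j * B.γ ε s j w) := by
  have hok := h.1
  have hT := h.2.1
  obtain ⟨hn, -, -, -, -, hR, -, -⟩ := BellPairH.ok_facts B hok
  have hD : (0 : ℝ) < (B.DT : ℝ) ^ 2 := pow_pos (Nat.cast_pos.2 hT.1) 2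
  have H := mul_nonneg (sq_nonneg ε) (BellPairH.real_form B h h0 h1 hw hp)
  refine le_of_mul_le_mul_left ?_ hD
  rw [BellPairH.lhs_eq B hT ε s θ hw hp ht, ← sub_nonneg]
  refine H.trans_eq ?_
  have e : ∀ j ∈ range B.R, ∀ b ∈ range B.fs.length, ε ^ 2 * (θ ^ j * ft B.fs b w *
      ∑ a ∈ range B.fs.length, ft B.fs a p *
        BellPairH.M ε s B.NS B.NE (fun i e => (B.entry j b a e i : ℝ))) =
      (if b = 0 then (if j = 0 then ε ^ 2 * B.DT * (B.DT * B.u ε s 0 p) else 0) else 0) +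
      (ε ^ 2 * B.DT * (θ ^ j * (BellPairH.V B ε s j b * ft B.fs b w)) +
        ε ^ 2 * (fx p - s) * (θ ^ j * (BellPairH.G B ε s j b * ft B.fs b w)) +
        B.DT * (θ ^ j * (BellPairH.U B ε s j b * ft B.fs b w))) -
      θ ^ j * ft B.fs b w * ∑ a ∈ range B.fs.length,
        ft B.fs a p * ((-ε) ^ fd B.fs a * BellPairH.D B ε s j a b) := by
    intro j hj b hb
    rw [mul_left_comm, BellPairH.key B hok hT ε s p (mem_range.1 hj) (mem_range.1 hb),
      ← BellPairH.u_eq B hT]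
    by_cases hb0 : b = 0
    · by_cases hj0 : j = 0
      · subst hb0 hj0
        simp only [and_self, if_true, BellPairH.ft_zero B hok]
        ring
      · simp only [hj0, false_and, if_false, ite_self]
        ring
    · simp only [hb0, and_false, if_false]
      ring
  rw [mul_sum, sum_congr rfl fun j hj => by rw [mul_sum, sum_congr rfl (e j hj)]]
  have h0n : 0 ∈ range B.fs.length := mem_range.2 (by omega)
  simp only [sum_sub_distrib, sum_add_distrib, sum_ite_eq', ← mul_sum, h0n, mem_range.2 hR, if_true]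
  rw [← BellPairH.dU_eq B hT]
  simp only [← BellPairH.u_eq B hT, ← BellPairH.γ_eq B hT, mul_left_comm (θ ^ _), ← mul_sum]
  ring

end Bell

end Crest.Agent.R163.Ck
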