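import Crest.Agent.R163.Order

/-! Row 163: a flow of bounded cubic potential yields reconstruction. -/

set_option autoImplicit false

namespace Crest.Agent.R163

open Finset Filter Crest.ProbabilityR.TreeBroadcast

namespace CapBwdH

theorem fold {q : ℕ} [NeZero q] {C : Law q → Prop} {κ c : ℝ} (h : FerroLaw q C κ)
    (h' : ConvLaw q C c) {V : Type*} (F : V → Law q) (y : V → ℝ) (B Mb : ℝ) :
    ∀ (l : List V) (W : Law q), C W → (∀ u ∈ l, C (F u) ∧ (F u).X ≤ y u) →
      W.X + (l.map y).sum ≤ B →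
      W.M + (l.map fun u => (F u).M).sum + c * B * (l.map y).sum ≤ Mb →
      C ((l.map F).foldl Law.star W) ∧ ((l.map F).foldl Law.star W).X ≤ B ∧
        ((l.map F).foldl Law.star W).M ≤ Mb ∧
        W.X + (l.map fun u => (F u).X).sum -
          c * (B * (l.map fun u => (F u).M).sum + (l.map y).sum * Mb) ≤
          ((l.map F).foldl Law.star W).X := by
  intro l
  induction l with
  | nil =>
    intro W hW _ h1 h2
    simp only [List.map_nil, List.sum_nil, List.foldl_nil] at h1 h2 ⊢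
    exact ⟨hW, by linarith, by linarith, by linarith⟩
  | cons u l ih =>
    intro W hW hl h1 h2
    simp only [List.map_cons, List.sum_cons, List.foldl_cons] at h1 h2 ⊢
    obtain ⟨hu, hyu⟩ := hl u (by simp)
    have hl' : ∀ w ∈ l, C (F w) ∧ (F w).X ≤ y w := fun w hw => hl w (by simp [hw])
    have hc := h'.cpos
    have x0 := W.X_nonneg
    have x1 := (F u).X_nonneg
    have m0 := h'.M_nonneg W hW
    have m1 := h'.M_nonneg _ hu
    have sy : 0 ≤ (l.map y).sum := List.sum_nonneg (by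
      intro z hz
      obtain ⟨w, hw, rfl⟩ := List.mem_map.1 hz
      exact (F w).X_nonneg.trans (hl' w hw).2)
    have sm : 0 ≤ (l.map fun u => (F u).M).sum := List.sum_nonneg (by
      intro z hz
      obtain ⟨w, hw, rfl⟩ := List.mem_map.1 hz
      exact h'.M_nonneg _ (hl' w hw).1)
    have y0 : 0 ≤ y u := x1.trans hyu
    have hWB : W.X ≤ B := by linarith
    have hB : 0 ≤ B := x0.trans hWB
    have hWM : W.M ≤ Mb := by
      have : 0 ≤ c * B * (y u + (l.map y).sum) := by positivity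
      linarith
    have a1 := h.sub W (F u) hW hu
    have a1' : 0 ≤ κ * (W.X * (F u).X * (W.X + (F u).X)) := by
      have := h.kpos; positivity
    have a2 := h'.M_star W (F u) hW hu
    have a2' : c * (W.X * (F u).X) ≤ c * (B * y u) :=
      mul_le_mul_of_nonneg_left (mul_le_mul hWB hyu x1 hB) hc
    have a3 := h'.X_star W (F u) hW hu
    have a3' : c * (W.X * (F u).M + (F u).X * W.M) ≤ c * (B * (F u).M + y u * Mb) :=
      mul_le_mul_of_nonneg_left (add_le_add (mul_le_mul_of_nonneg_right hWB m1)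
        (mul_le_mul hyu hWM m0 y0)) hc
    obtain ⟨b1, b2, b3, b4⟩ := ih (W.star (F u)) (h.star _ _ hW hu) hl' (by linarith)
      (by linarith)
    exact ⟨b1, b2, b3, by linarith⟩

theorem quad_ineq {t z a : ℝ} (h0 : 0 < t) (h1 : t < 1) (hz : 0 ≤ z) (ha : 0 ≤ a) :
    (t * (z + a)) ^ 2 + (z + a) * a ≤ z ^ 2 + (2 + 9 / (4 * (1 - t ^ 2))) * a ^ 2 := by
  have hs : 0 < 1 - t ^ 2 := by nlinarith
  have e1 : 3 * z * a ≤ (1 - t ^ 2) * z ^ 2 + 9 / (4 * (1 - t ^ 2)) * a ^ 2 := by
    have : (1 - t ^ 2) * z ^ 2 + 9 / (4 * (1 - t ^ 2)) * a ^ 2 - 3 * z * a =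
        (2 * (1 - t ^ 2) * z - 3 * a) ^ 2 / (4 * (1 - t ^ 2)) := by
      field_simp; ring
    have h2 : 0 ≤ (2 * (1 - t ^ 2) * z - 3 * a) ^ 2 / (4 * (1 - t ^ 2)) := by positivity
    linarith
  have e2 : 0 ≤ (1 - t ^ 2) * (z * a) := by positivity
  have e3 : 0 ≤ (1 - t ^ 2) * a ^ 2 := by positivity
  nlinarith

theorem main {q : ℕ} [NeZero q] {C : Law q → Prop} {κ c : ℝ} (h : FerroLaw q C κ)
    (h' : ConvLaw q C c) {V : Type*} [DecidableEq V] (T : LocFinTree V) {t : ℝ} (ht : Tok q t)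
    (h0 : 0 < t) (h1 : t < 1) (a r : V → ℝ) (A δ : ℝ) (hδ : 0 < δ) (hA : 0 ≤ A)
    (ha0 : ∀ v, 0 ≤ a v) (ha : ∀ v, a v = t ^ 2 * ∑ u ∈ T.children v, a u)
    (hr : ∀ v, ∀ u ∈ T.children v, r u = r v - a v ^ 2) (hr0 : ∀ v, 0 < a v → 0 ≤ r v)
    (leaf : V → Law q) (hl : ∀ v, C (leaf v) ∧ (leaf v).X = δ * a v ∧
      (leaf v).M ≤ c * Real.sqrt (δ * A) * (δ * a v)) :
    ∀ k v, C (treeLaw T t ht leaf k v) ∧ (treeLaw T t ht leaf k v).X ≤ δ * a v ∧
      ∀ z, 0 ≤ z → 2 * c * δ * z * (treeLaw T t ht leaf k v).M +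
        (δ * a v - (treeLaw T t ht leaf k v).X) ≤
        2 * c ^ 2 * δ ^ 2 * a v * (δ * (z ^ 2 + (2 + 9 / (4 * (1 - t ^ 2))) * r v) + A) := by
  have hc := h'.cpos
  have hs : 0 < 1 - t ^ 2 := by nlinarith
  set K := 2 + 9 / (4 * (1 - t ^ 2)) with hK
  have hK0 : 0 ≤ K := by positivity
  intro k
  induction k with
  | zero =>
    intro v
    obtain ⟨l1, l2, l3⟩ := hl v
    change C (leaf v) ∧ (leaf v).X ≤ _ ∧ ∀ z, 0 ≤ z → _ * (leaf v).M + (_ - (leaf v).X) ≤ _
    refine ⟨l1, l2.le, fun z hz => ?_⟩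
    rw [l2, sub_self, add_zero]
    have e1 : z * Real.sqrt (δ * A) ≤ δ * z ^ 2 + A := by
      rw [Real.sqrt_mul hδ.le]
      have s1 := Real.sq_sqrt hδ.le
      have s2 := Real.sq_sqrt hA
      have s3 : 0 ≤ δ * z ^ 2 := by positivity
      nlinarith [sq_nonneg (Real.sqrt δ * z - Real.sqrt A)]
    have e2 : 0 ≤ a v * r v := by
      rcases (ha0 v).eq_or_lt with h2 | h2
      · rw [← h2, zero_mul]
      · exact mul_nonneg h2.le (hr0 v h2)
    have av0 := ha0 v
    calc 2 * c * δ * z * (leaf v).M ≤ 2 * c * δ * z * (c * Real.sqrt (δ * A) * (δ * a v)) :=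
          mul_le_mul_of_nonneg_left l3 (by positivity)
      _ = 2 * c ^ 2 * δ ^ 2 * a v * (z * Real.sqrt (δ * A)) := by ring
      _ ≤ 2 * c ^ 2 * δ ^ 2 * a v * (δ * z ^ 2 + A) :=
          mul_le_mul_of_nonneg_left e1 (by positivity)
      _ ≤ 2 * c ^ 2 * δ ^ 2 * a v * (δ * z ^ 2 + A) + 2 * c ^ 2 * δ ^ 3 * K * (a v * r v) :=
          le_add_of_nonneg_right (by positivity)
      _ = _ := by ring
  | succ k ih =>
    intro v
    set L : V → Law q := fun u => treeLaw T t ht leaf k u with hL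
    have av0 := ha0 v
    have sy : ((T.children v).toList.map fun u => t ^ 2 * (δ * a u)).sum = δ * a v := by
      rw [Finset.sum_map_toList, ha v, mul_sum, mul_sum]
      exact sum_congr rfl fun u _ => by ring
    have sM : ((T.children v).toList.map fun u => ((L u).T t ht).M).sum =
        ∑ u ∈ T.children v, t ^ 3 * (L u).M := by
      rw [Finset.sum_map_toList]
      exact sum_congr rfl fun u _ => (L u).M_T t ht
    have sX : ((T.children v).toList.map fun u => ((L u).T t ht).X).sum =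
        ∑ u ∈ T.children v, t ^ 2 * (L u).X := by
      rw [Finset.sum_map_toList]
      exact sum_congr rfl fun u _ => (L u).X_T t ht
    have X1 : (Law.one : Law q).X = 0 := by rw [Law.X, Law.one_Ex, fx_one]
    have M1 : (Law.one : Law q).M = 0 := by rw [Law.M, Law.one_Ex, fm_one]
    set S := ∑ u ∈ T.children v, t ^ 3 * (L u).M with hS
    have hS0 : 0 ≤ S := sum_nonneg fun u _ =>
      mul_nonneg (by positivity) (h'.M_nonneg _ (ih u).1)
    obtain ⟨b1, b2, b3, b4⟩ := fold h h' (fun u => (L u).T t ht) (fun u => t ^ 2 * (δ * a u))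
      (δ * a v) (S + c * (δ * a v) ^ 2) (T.children v).toList Law.one h.one
      (fun u _ => ⟨h.T _ t ht h0.le (ih u).1, by
        rw [Law.X_T]; exact mul_le_mul_of_nonneg_left (ih u).2.1 (by positivity)⟩)
      (by rw [sy, X1, zero_add]) (by rw [sy, sM, M1]; apply le_of_eq; ring)
    rw [sy, sM, sX, X1] at b4
    change C (treeLaw T t ht leaf (k + 1) v) at b1
    change (treeLaw T t ht leaf (k + 1) v).X ≤ _ at b2
    change (treeLaw T t ht leaf (k + 1) v).M ≤ _ at b3
    change _ ≤ (treeLaw T t ht leaf (k + 1) v).X at b4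
    refine ⟨b1, b2, fun z hz => ?_⟩
    have e1 : ∑ u ∈ T.children v, t ^ 2 * (2 * c * δ * (t * (z + a v)) * (L u).M +
        (δ * a u - (L u).X)) ≤ ∑ u ∈ T.children v, t ^ 2 * (2 * c ^ 2 * δ ^ 2 * a u *
          (δ * ((t * (z + a v)) ^ 2 + K * (r v - a v ^ 2)) + A)) := by
      refine sum_le_sum fun u hu => mul_le_mul_of_nonneg_left ?_ (by positivity)
      rw [← hr v u hu]
      exact (ih u).2.2 _ (by positivity)
    have e2 : ∑ u ∈ T.children v, t ^ 2 * (2 * c * δ * (t * (z + a v)) * (L u).M +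
        (δ * a u - (L u).X)) =
        2 * c * δ * (z + a v) * S + δ * a v - ∑ u ∈ T.children v, t ^ 2 * (L u).X := by
      conv_rhs => rw [hS, ← sy, Finset.sum_map_toList, mul_sum, ← sum_add_distrib,
        ← sum_sub_distrib]
      exact sum_congr rfl fun u _ => by ring
    have e3 : ∑ u ∈ T.children v, t ^ 2 * (2 * c ^ 2 * δ ^ 2 * a u *
          (δ * ((t * (z + a v)) ^ 2 + K * (r v - a v ^ 2)) + A)) =
        2 * c ^ 2 * δ ^ 2 * (t ^ 2 * ∑ u ∈ T.children v, a u) *
          (δ * ((t * (z + a v)) ^ 2 + K * (r v - a v ^ 2)) + A) := by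
      rw [mul_sum, mul_sum, sum_mul]
      exact sum_congr rfl fun u _ => by ring
    rw [e2, e3, ← ha v] at e1
    have e4 := quad_ineq h0 h1 hz av0
    rw [← hK] at e4
    have e5 : 2 * c * δ * z * (treeLaw T t ht leaf (k + 1) v).M ≤
        2 * c * δ * z * (S + c * (δ * a v) ^ 2) := mul_le_mul_of_nonneg_left b3 (by positivity)
    have e6 : 2 * c ^ 2 * δ ^ 3 * a v * ((t * (z + a v)) ^ 2 + (z + a v) * a v) ≤
        2 * c ^ 2 * δ ^ 3 * a v * (z ^ 2 + K * a v ^ 2) :=
      mul_le_mul_of_nonneg_left e4 (by positivity)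
    have e7 : 0 ≤ c ^ 2 * (δ * a v) ^ 3 := by positivity
    nlinarith

variable {V : Type*} [DecidableEq V] (T : LocFinTree V)

theorem mem_children {v u : V} : u ∈ T.children v ↔ T.depth u = T.depth v + 1 ∧ T.parent u = v := by
  rw [LocFinTree.children, mem_filter, T.mem_level_iff]

theorem ne_root {v u : V} (h : u ∈ T.children v) : u ≠ T.root := by
  intro e
  have h1 := ((mem_children T).1 h).1
  rw [(T.depth_eq_zero_iff u).2 e] at h1
  omega

omit [DecidableEq V] in
theorem depth_iterate (v : V) : ∀ k ≤ T.depth v, T.depth (T.parent^[k] v) = T.depth v - k := by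
  intro k
  induction k with
  | zero => simp
  | succ k ih =>
    intro hk
    have h1 := ih (by omega)
    have h2 : T.parent^[k] v ≠ T.root := by
      intro e
      rw [(T.depth_eq_zero_iff _).2 e] at h1
      omega
    have h3 := T.depth_parent _ h2
    rw [Function.iterate_succ_apply']
    omega

theorem exists_ray {θ : V → ℝ} (hθ : IsFlow T θ) {v : V} (hv : v ≠ T.root) (hpos : 0 < θ v) :
    ∃ ξ : ℕ → V, T.IsRay ξ ∧ ∀ n ≤ T.depth v, ξ n = T.parent^[T.depth v - n] v := by
  classical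
  have hnext : ∀ w, ∃ u, w ≠ T.root → 0 < θ w → u ∈ T.children w ∧ 0 < θ u := by
    intro w
    by_cases hw : w ≠ T.root ∧ 0 < θ w
    · have h1 := hw.2
      rw [hθ.2 w hw.1] at h1
      obtain ⟨u, hu, hu'⟩ := Finset.exists_lt_of_sum_lt (s := T.children w) (f := fun _ => (0 : ℝ))
        (g := θ) (by simpa using h1)
      exact ⟨u, fun _ _ => ⟨hu, hu'⟩⟩
    · exact ⟨w, fun h1 h2 => absurd ⟨h1, h2⟩ hw⟩
  choose nx hnx using hnext
  have inv : ∀ j, nx^[j] v ≠ T.root ∧ 0 < θ (nx^[j] v) := by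
    intro j
    induction j with
    | zero => exact ⟨hv, hpos⟩
    | succ j ih =>
      rw [Function.iterate_succ_apply']
      exact ⟨ne_root T (hnx _ ih.1 ih.2).1, (hnx _ ih.1 ih.2).2⟩
  refine ⟨fun n => T.parent^[T.depth v - n] (nx^[n - T.depth v] v), ⟨?_, fun n => ?_⟩,
    fun n hn => ?_⟩
  · simp only [Nat.sub_zero, Nat.zero_sub, Function.iterate_zero, id]
    rw [← T.depth_eq_zero_iff, depth_iterate T v _ le_rfl, Nat.sub_self]
  · dsimp only
    rcases lt_or_ge n (T.depth v) with hn | hn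
    · rw [show n + 1 - T.depth v = 0 by omega, show n - T.depth v = 0 by omega,
        show T.depth v - n = (T.depth v - (n + 1)) + 1 by omega]
      simp only [Function.iterate_zero, id]
      rw [mem_children, depth_iterate T v _ (by omega), depth_iterate T v _ (by omega),
        Function.iterate_succ_apply']
      exact ⟨by omega, rfl⟩
    · rw [show T.depth v - (n + 1) = 0 by omega, show T.depth v - n = 0 by omega,
        show n + 1 - T.depth v = (n - T.depth v) + 1 by omega]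
      simp only [Function.iterate_zero, id]
      rw [Function.iterate_succ_apply']
      exact (hnx _ (inv _).1 (inv _).2).1
  · dsimp only
    rw [show n - T.depth v = 0 by omega]
    rfl

/-- the potential accumulated between the root and `v` -/
noncomputable def pot (t : ℝ) (θ : V → ℝ) (v : V) : ℝ :=
  ∑ k ∈ range (T.depth v), (θ (T.parent^[k] v) / t ^ (2 * T.depth (T.parent^[k] v))) ^ 2

theorem pot_child (t : ℝ) (θ : V → ℝ) {v u : V} (h : u ∈ T.children v) :
    pot T t θ u = pot T t θ v + (θ u / t ^ (2 * T.depth u)) ^ 2 := by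
  obtain ⟨h1, h2⟩ := (mem_children T).1 h
  unfold pot
  conv_lhs => rw [h1, sum_range_succ']
  simp only [Function.iterate_succ_apply, h2, Function.iterate_zero, id]

omit [DecidableEq V] in
theorem pot_root (t : ℝ) (θ : V → ℝ) : pot T t θ T.root = 0 := by
  unfold pot
  rw [(T.depth_eq_zero_iff _).2 rfl, sum_range_zero]

omit [DecidableEq V] in
theorem pot_nonneg (t : ℝ) (θ : V → ℝ) (v : V) : 0 ≤ pot T t θ v :=
  sum_nonneg fun _ _ => sq_nonneg _

theorem pot_le {t : ℝ} {θ : V → ℝ} (hθ : IsFlow T θ)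
    (hp : ∀ ξ : ℕ → V, T.IsRay ξ → rayPotential t θ ξ ≤ 1) {v : V} (hv : v ≠ T.root)
    (hpos : 0 < θ v) : pot T t θ v ≤ 1 := by
  obtain ⟨ξ, hξ, hξ'⟩ := exists_ray T hθ hv hpos
  have h1 := (ENNReal.sum_le_tsum (range (T.depth v))).trans (hp ξ hξ)
  rw [← ENNReal.ofReal_sum_of_nonneg (fun _ _ => sq_nonneg _), ENNReal.ofReal_le_one] at h1
  refine le_trans (le_of_eq ?_) h1
  unfold pot
  rw [← sum_range_reflect]
  refine sum_congr rfl fun n hn => ?_
  rw [mem_range] at hn
  rw [hξ' (n + 1) hn, depth_iterate T v _ (by omega),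
    show T.depth v - 1 - n = T.depth v - (n + 1) by omega,
    show T.depth v - (T.depth v - (n + 1)) = n + 1 by omega]

end CapBwdH

open CapBwdH in
theorem cap_bwd {q : ℕ} [NeZero q] (hq : 2 ≤ q) {C : Law q → Prop} {κ c : ℝ} (h : FerroLaw q C κ)
    (h' : ConvLaw q C c) {V : Type*} [DecidableEq V] (T : LocFinTree V) {t : ℝ} (ht : Tok q t)
    (h0 : 0 < t) (h1 : t < 1) {θ : V → ℝ} (hθ : IsFlow T θ) (hm : 0 < flowMass T θ)
    (hp : ∀ ξ : ℕ → V, T.IsRay ξ → rayPotential t θ ξ ≤ 1) :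
    ∃ ε : ℝ, 0 < ε ∧ ∀ n, ε ≤ (treeLaw T t ht (fun _ => Law.perfect) n T.root).X := by
  have hc := h'.cpos
  have hs : 0 < 1 - t ^ 2 := by nlinarith
  have hq1 : (1 : ℝ) ≤ (q : ℝ) - 1 := by
    have : (2 : ℝ) ≤ q := by exact_mod_cast hq
    linarith
  set m := flowMass T θ with hmdef
  set a : V → ℝ := fun v => if v = T.root then m else θ v / t ^ (2 * T.depth v) with hadef
  have aroot : a T.root = m := if_pos rfl
  have ane : ∀ v, v ≠ T.root → a v = θ v / t ^ (2 * T.depth v) := fun v hv => if_neg hv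
  have ha0 : ∀ v, 0 ≤ a v := fun v => by
    by_cases hv : v = T.root
    · rw [hv, aroot]; exact hm.le
    · rw [ane v hv]; exact div_nonneg (hθ.1 v) (by positivity)
  have ha : ∀ v, a v = t ^ 2 * ∑ u ∈ T.children v, a u := fun v => by
    have e : ∑ u ∈ T.children v, a u = (∑ u ∈ T.children v, θ u) / t ^ (2 * (T.depth v + 1)) := by
      rw [sum_div]
      exact sum_congr rfl fun u hu => by
        rw [ane u (ne_root T hu), ((mem_children T).1 hu).1]
    rw [e]
    by_cases hv : v = T.root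
    · rw [hv, aroot, (T.depth_eq_zero_iff _).2 rfl, hmdef, flowMass]
      field_simp
    · rw [ane v hv, ← hθ.2 v hv]
      field_simp
      ring
  have hpot : ∀ v, 0 < a v → pot T t θ v ≤ 1 := fun v hv => by
    by_cases hv' : v = T.root
    · rw [hv', pot_root]; exact zero_le_one
    · refine pot_le T hθ hp hv' ?_
      rw [ane v hv'] at hv
      exact (div_pos_iff_of_pos_right (by positivity)).1 hv
  set A := max 1 m with hA
  have hA1 : 1 ≤ A := le_max_left _ _
  have haA : ∀ v, a v ≤ A := fun v => by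
    by_cases hv : v = T.root
    · rw [hv, aroot]; exact le_max_right _ _
    · rcases (ha0 v).eq_or_lt with h2 | h2
      · rw [← h2]; linarith
      · have h3 := hpot v h2
        have h4 : v ∈ T.children (T.parent v) :=
          (mem_children T).2 ⟨(T.depth_parent v hv).symm, rfl⟩
        rw [pot_child T t θ h4, ← ane v hv] at h3
        have h5 := pot_nonneg T t θ (T.parent v)
        have h6 : a v ≤ 1 := by nlinarith
        linarith
  set K := 2 + 9 / (4 * (1 - t ^ 2)) with hK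
  have hK0 : 0 ≤ K := by positivity
  set D := K * (1 + m ^ 2) + A with hD
  have hD0 : 0 < D := by positivity
  set δ := min (1 / A) (1 / (4 * c ^ 2 * D + 1)) with hδdef
  have hδ : 0 < δ := lt_min (by positivity) (by positivity)
  have hδA : δ * A ≤ 1 := by
    have : δ ≤ 1 / A := min_le_left _ _
    rwa [le_div_iff₀ (by positivity)] at this
  have hδD : δ * (4 * c ^ 2 * D + 1) ≤ 1 := by
    have : δ ≤ 1 / (4 * c ^ 2 * D + 1) := min_le_right _ _
    rwa [le_div_iff₀ (by positivity)] at this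
  have hδ1 : δ ≤ 1 := by nlinarith
  set τ : V → ℝ := fun v => Real.sqrt (δ * a v / (q - 1)) with hτ
  have τ0 : ∀ v, 0 ≤ τ v := fun v => Real.sqrt_nonneg _
  have τsq : ∀ v, τ v ^ 2 = δ * a v / (q - 1) := fun v =>
    Real.sq_sqrt (div_nonneg (mul_nonneg hδ.le (ha0 v)) (by linarith))
  have τle' : ∀ v, δ * a v / (q - 1) ≤ δ * a v := fun v =>
    div_le_self (mul_nonneg hδ.le (ha0 v)) hq1
  have τle : ∀ v, τ v ≤ Real.sqrt (δ * A) := fun v =>
    Real.sqrt_le_sqrt ((τle' v).trans (mul_le_mul_of_nonneg_left (haA v) hδ.le))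
  have τok : ∀ v, Tok q (τ v) := fun v =>
    ⟨(τle v).trans (Real.sqrt_le_one.2 hδA), by have := τ0 v; positivity⟩
  have hmain := main h h' T ht h0 h1 a (fun v => 1 - pot T t θ v + a v ^ 2) A δ hδ (by linarith)
    ha0 ha (fun v u hu => by
      rw [pot_child T t θ hu, ← ane u (ne_root T hu)]; ring)
    (fun v hv => by have := hpot v hv; positivity)
    (fun v => Law.perfect.T (τ v) (τok v)) (fun v => ⟨h.T _ _ _ (τ0 v) h.perfect, by
      rw [Law.X_T, h'.X_perfect, τsq]; field_simp, by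
      rw [Law.M_T]
      have t0 := τ0 v
      calc τ v ^ 3 * (Law.perfect : Law q).M ≤ τ v ^ 3 * c :=
            mul_le_mul_of_nonneg_left h'.M_perfect (by positivity)
        _ = c * τ v * τ v ^ 2 := by ring
        _ ≤ c * Real.sqrt (δ * A) * (δ * a v) := by
            rw [τsq]
            exact mul_le_mul (mul_le_mul_of_nonneg_left (τle v) hc) (τle' v)
              (by rw [← τsq]; positivity) (by positivity)⟩)
  refine ⟨δ * m / 2, by positivity, fun n => ?_⟩
  have e1 := (hmain n T.root).2.2 0 le_rfl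
  rw [pot_root, aroot, ← hK] at e1
  have e2 := (treeLaw_mono T t ht (leaf := fun v => Law.perfect.T (τ v) (τok v))
    (leaf' := fun _ => Law.perfect) (fun v => Law.T_le _ _ (τ0 v)) n T.root).X
  refine le_trans ?_ e2
  have e3 : δ * (0 ^ 2 + K * (1 - 0 + m ^ 2)) + A ≤ D := by
    have : 0 ≤ (1 - δ) * (K * (1 + m ^ 2)) := mul_nonneg (by linarith) (by positivity)
    rw [hD]; nlinarith
  have e4 : 2 * c ^ 2 * δ ^ 2 * m * (δ * (0 ^ 2 + K * (1 - 0 + m ^ 2)) + A) ≤
      2 * c ^ 2 * δ ^ 2 * m * D := mul_le_mul_of_nonneg_left e3 (by positivity)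
  have e5 : δ * m / 2 * (δ * (4 * c ^ 2 * D + 1)) ≤ δ * m / 2 * 1 :=
    mul_le_mul_of_nonneg_left hδD (by positivity)
  have e6 : 0 ≤ δ ^ 2 * m := by positivity
  nlinarith

end Crest.Agent.R163
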