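import Crest.Agent.R163.Order

/-! Row 163: reconstruction on a tree yields a flow of bounded cubic potential. -/

set_option autoImplicit false

namespace Crest.Agent.R163

open Finset Filter Crest.ProbabilityR.TreeBroadcast

namespace CapFwdH

section tree

variable {V : Type*} [DecidableEq V] (T : LocFinTree V)

theorem mem_children {v c : V} :
    c ∈ T.children v ↔ T.depth c = T.depth v + 1 ∧ T.parent c = v := by
  unfold LocFinTree.children
  rw [mem_filter, T.mem_level_iff]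

omit [DecidableEq V] in
theorem depth_root : T.depth T.root = 0 := (T.depth_eq_zero_iff _).2 rfl

theorem depth_ray {ξ : ℕ → V} (h : T.IsRay ξ) (k : ℕ) : T.depth (ξ k) = k := by
  induction k with
  | zero => rw [h.1, depth_root]
  | succ k ih => rw [((mem_children T).1 (h.2 k)).1, ih]

/-- a compactness argument -/
theorem limit_flow {t M m : ℝ} (hm0 : 0 < m) (θ : ℕ → V → ℝ)
    (hb : ∀ n v, T.depth v ≤ n → 0 ≤ θ n v ∧ θ n v ≤ M)
    (hc : ∀ n v, T.depth v < n → θ n v = ∑ w ∈ T.children v, θ n w)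
    (hm : ∀ n, m ≤ θ n T.root)
    (hp : ∀ n ξ, T.IsRay ξ → ∑ k ∈ range n, (θ n (ξ (k + 1)) / t ^ (2 * (k + 1))) ^ 2 ≤ 1) :
    ∃ θ : V → ℝ, IsFlow T θ ∧ 0 < flowMass T θ ∧
      ∀ ξ : ℕ → V, T.IsRay ξ → rayPotential t θ ξ ≤ 1 := by
  have hU : ((hyperfilter ℕ : Ultrafilter ℕ) : Filter ℕ) ≤ atTop := by
    rw [← Nat.cofinite_eq_atTop]; exact hyperfilter_le_cofinite
  have hlim : ∀ v, ∃ x ∈ Set.Icc (0 : ℝ) M,
      Tendsto (fun n => θ n v) (hyperfilter ℕ : Ultrafilter ℕ) (nhds x) := fun v => by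
    refine isCompact_Icc.ultrafilter_le_nhds ((hyperfilter ℕ).map fun n => θ n v) ?_
    rw [Ultrafilter.coe_map, le_principal_iff, Filter.mem_map]
    exact hU ((eventually_ge_atTop (T.depth v)).mono fun n hn => hb n v hn)
  choose f hf hlim using hlim
  have hcons : ∀ v, f v = ∑ w ∈ T.children v, f w := fun v =>
    tendsto_nhds_unique_of_eventuallyEq (hlim v) (tendsto_finsetSum _ fun w _ => hlim w)
      (hU ((eventually_gt_atTop (T.depth v)).mono fun n hn => hc n v hn))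
  refine ⟨f, ⟨fun v => (hf v).1, fun v _ => hcons v⟩, ?_, fun ξ hξ => ?_⟩
  · unfold flowMass
    rw [← hcons]
    exact hm0.trans_le (ge_of_tendsto' (hlim T.root) hm)
  · refine ENNReal.tsum_le_of_sum_range_le fun N => ?_
    rw [← ENNReal.ofReal_sum_of_nonneg fun _ _ => sq_nonneg _, ← ENNReal.ofReal_one]
    refine ENNReal.ofReal_le_ofReal ?_
    refine le_of_tendsto (tendsto_finsetSum (range N) fun k _ =>
      ((hlim (ξ (k + 1))).div_const (t ^ (2 * (k + 1)))).pow 2) ?_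
    refine hU ((eventually_ge_atTop N).mono fun n hn => le_trans ?_ (hp n ξ hξ))
    exact sum_le_sum_of_subset_of_nonneg (range_mono hn) fun _ _ _ => sq_nonneg _

/-- the multiplicative weights along the path to the root -/
noncomputable def Rr (r : ℝ) (a b : V → ℝ) : ℕ → V → ℝ
  | 0, _ => r
  | k + 1, v => Rr r a b k (T.parent v) * (a v * b (T.parent v))

theorem finite_flow {t κ M : ℝ} (h0 : 0 < t) (h1 : t ≤ 1) (hκ : 0 < κ) (n : ℕ) (g : V → ℝ)
    (hg0 : ∀ v, 0 ≤ g v) (hgM : ∀ v, g v ≤ M) (hg3 : ∀ v, 0 ≤ g v - κ * g v ^ 3)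
    (hH : ∀ v, T.depth v < n → g v ≤ ∑ c ∈ T.children v, t ^ 2 * (g c - κ * g c ^ 3)) :
    ∃ θ : V → ℝ, (∀ v, T.depth v ≤ n → 0 ≤ θ v ∧ θ v ≤ √κ * M) ∧
      (∀ v, T.depth v < n → θ v = ∑ w ∈ T.children v, θ w) ∧ θ T.root = √κ * g T.root ∧
      ∀ ξ, T.IsRay ξ → ∑ k ∈ range n, (θ (ξ (k + 1)) / t ^ (2 * (k + 1))) ^ 2 ≤ 1 := by
  set H : V → ℝ := fun v => ∑ c ∈ T.children v, t ^ 2 * (g c - κ * g c ^ 3) with hHdef
  set a : V → ℝ := fun v => 1 - κ * g v ^ 2 with ha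
  set b : V → ℝ := fun v => g v / H v with hb
  set R : V → ℝ := fun v => Rr T (√κ) a b (T.depth v) v with hR
  have hr : 0 < √κ := Real.sqrt_pos.2 hκ
  have ha0 : ∀ v, 0 ≤ a v := fun v => by
    rcases (hg0 v).eq_or_lt with e | e
    · simp [ha, ← e]
    · refine nonneg_of_mul_nonneg_right ?_ e
      have := hg3 v
      simp only [ha]
      linarith
  have ha1 : ∀ v, a v ≤ 1 := fun v => by
    have : 0 ≤ κ * g v ^ 2 := by positivity
    simp only [ha]
    linarith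
  have hH0 : ∀ v, 0 ≤ H v := fun v =>
    sum_nonneg fun c _ => mul_nonneg (sq_nonneg _) (hg3 c)
  have hb0 : ∀ v, 0 ≤ b v := fun v => div_nonneg (hg0 v) (hH0 v)
  have hb1 : ∀ v, T.depth v < n → b v ≤ 1 := fun v hv => div_le_one_of_le₀ (hH v hv) (hH0 v)
  have hbH : ∀ v, T.depth v < n → b v * H v = g v := fun v hv => by
    rcases (hH0 v).eq_or_lt with e | e
    · rw [← e, mul_zero]
      exact le_antisymm (hg0 v) ((hH v hv).trans_eq e.symm)
    · exact div_mul_cancel₀ _ e.ne'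
  have hroot : R T.root = √κ := by simp only [hR, depth_root, Rr]
  have hchild : ∀ v c, c ∈ T.children v → R c = R v * (a c * b v) := fun v c hc => by
    obtain ⟨e₁, e₂⟩ := (mem_children T).1 hc
    simp only [hR, e₁, Rr, e₂]
  have hR0 : ∀ k v, 0 ≤ Rr T (√κ) a b k v := fun k => by
    induction k with
    | zero => exact fun _ => hr.le
    | succ k ih => exact fun v => mul_nonneg (ih _) (mul_nonneg (ha0 _) (hb0 _))
  have hR1 : ∀ k v, T.depth v = k → k ≤ n → R v ≤ √κ := fun k => by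
    induction k with
    | zero => intro v hv _; rw [(T.depth_eq_zero_iff v).1 hv, hroot]
    | succ k ih =>
      intro v hv hk
      have hne : v ≠ T.root := fun e => by rw [e, depth_root] at hv; omega
      have hd := T.depth_parent v hne
      rw [hchild (T.parent v) v ((mem_children T).2 ⟨hd.symm, rfl⟩)]
      exact (mul_le_of_le_one_right (hR0 _ _)
        (mul_le_one₀ (ha1 _) (hb0 _) (hb1 _ (by omega)))).trans (ih _ (by omega) (by omega))
  refine ⟨fun v => R v * t ^ (2 * T.depth v) * g v, fun v hv => ⟨?_, ?_⟩, fun v hv => ?_, ?_,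
    fun ξ hξ => ?_⟩
  · exact mul_nonneg (mul_nonneg (hR0 _ _) (by positivity)) (hg0 v)
  · refine mul_le_mul ?_ (hgM v) (hg0 v) hr.le
    exact (mul_le_of_le_one_right (hR0 _ _) (pow_le_one₀ h0.le h1)).trans (hR1 _ v rfl hv)
  · beta_reduce
    rw [← hbH v hv]
    simp only [hHdef, mul_sum]
    refine sum_congr rfl fun c hc => ?_
    rw [hchild v c hc, ((mem_children T).1 hc).1]
    simp only [ha]
    ring
  · simp only [hroot, depth_root, mul_zero, pow_zero, mul_one]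
  · have key : ∀ k ∈ range n, (R (ξ (k + 1)) * t ^ (2 * T.depth (ξ (k + 1))) * g (ξ (k + 1)) /
        t ^ (2 * (k + 1))) ^ 2 ≤ (R (ξ k) - R (ξ (k + 1))) / √κ := fun k hk => by
      have hk' := mem_range.1 hk
      have e : R (ξ (k + 1)) * t ^ (2 * T.depth (ξ (k + 1))) * g (ξ (k + 1)) /
          t ^ (2 * (k + 1)) = R (ξ (k + 1)) * g (ξ (k + 1)) := by
        rw [depth_ray T hξ]
        field_simp
      have h₁ : R (ξ (k + 1)) ≤ R (ξ k) * a (ξ (k + 1)) := by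
        rw [hchild _ _ (hξ.2 k)]
        exact mul_le_mul_of_nonneg_left (mul_le_of_le_one_right (ha0 _)
          (hb1 _ (by rw [depth_ray T hξ]; exact hk'))) (hR0 _ _)
      have h₂ : R (ξ (k + 1)) ≤ R (ξ k) :=
        h₁.trans (mul_le_of_le_one_right (hR0 _ _) (ha1 _))
      have h₃ : R (ξ (k + 1)) ≤ √κ := hR1 _ _ (depth_ray T hξ _) hk'
      have h₄ : 0 ≤ R (ξ (k + 1)) := hR0 _ _
      rw [e, le_div_iff₀ hr]
      calc (R (ξ (k + 1)) * g (ξ (k + 1))) ^ 2 * √κ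
          = R (ξ (k + 1)) * R (ξ (k + 1)) * √κ * g (ξ (k + 1)) ^ 2 := by ring
        _ ≤ R (ξ k) * √κ * √κ * g (ξ (k + 1)) ^ 2 := by gcongr; exact hR0 _ _
        _ = R (ξ k) - R (ξ k) * a (ξ (k + 1)) := by
          rw [mul_assoc (R (ξ k)), Real.mul_self_sqrt hκ.le]
          simp only [ha]
          ring
        _ ≤ _ := by linarith
    refine (sum_le_sum key).trans ?_
    rw [← sum_div, sum_range_sub' (fun k => R (ξ k)), hξ.1, hroot, div_le_one hr]
    have : 0 ≤ R (ξ n) := hR0 _ _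
    linarith

end tree

/-- the corrected chi-square -/
noncomputable def G (κ x : ℝ) : ℝ := x + κ / 3 * x ^ 3

theorem G_nonneg {κ x : ℝ} (hκ : 0 < κ) (hx : 0 ≤ x) : 0 ≤ G κ x := by
  unfold G; positivity

theorem le_G {κ x : ℝ} (hκ : 0 < κ) (hx : 0 ≤ x) : x ≤ G κ x := by
  have : 0 ≤ κ / 3 * x ^ 3 := by positivity
  unfold G; linarith

theorem G_mono {κ x y : ℝ} (hκ : 0 < κ) (hx : 0 ≤ x) (hxy : x ≤ y) : G κ x ≤ G κ y := by
  unfold G; gcongr

theorem G_sub {κ x y z : ℝ} (hκ : 0 < κ) (hx : 0 ≤ x) (hy : 0 ≤ y) (hz : 0 ≤ z)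
    (h : z ≤ x + y - κ * (x * y * (x + y))) : G κ z ≤ G κ x + G κ y := by
  have h1 : 0 ≤ κ * (x * y * (x + y)) := by positivity
  have h2 : κ / 3 * z ^ 3 ≤ κ / 3 * (x + y) ^ 3 := by gcongr; linarith
  unfold G
  linarith

theorem G_T {κ t x m : ℝ} (hκ : 0 < κ) (h0 : 0 < t) (h1 : t < 1) (hx : 0 ≤ x) (hm : x ≤ m) :
    G κ (t ^ 2 * x) ≤
      t ^ 2 * (G κ x - κ / 3 * (1 - t ^ 4) / (1 + κ / 3 * m ^ 2) ^ 3 * G κ x ^ 3) := by
  have ht : 0 ≤ 1 - t ^ 4 := sub_nonneg.2 (pow_le_one₀ h0.le h1.le)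
  have hD : 0 < 1 + κ / 3 * m ^ 2 := by positivity
  have h2 : G κ x ≤ x * (1 + κ / 3 * m ^ 2) := by
    calc G κ x = x * (1 + κ / 3 * x ^ 2) := by unfold G; ring
      _ ≤ _ := by gcongr
  have h3 : κ / 3 * (1 - t ^ 4) / (1 + κ / 3 * m ^ 2) ^ 3 * G κ x ^ 3 ≤
      κ / 3 * (1 - t ^ 4) * x ^ 3 := by
    calc _ ≤ κ / 3 * (1 - t ^ 4) / (1 + κ / 3 * m ^ 2) ^ 3 * (x * (1 + κ / 3 * m ^ 2)) ^ 3 := by
          gcongr
          exact G_nonneg hκ hx
      _ = _ := by field_simp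
  calc G κ (t ^ 2 * x) = t ^ 2 * (G κ x - κ / 3 * (1 - t ^ 4) * x ^ 3) := by unfold G; ring
    _ ≤ _ := by gcongr

variable {q : ℕ} [NeZero q] {C : Law q → Prop} {κ : ℝ}

theorem foldl_le (h : FerroLaw q C κ) (l : List (Law q)) (hl : ∀ L ∈ l, C L) (A : Law q)
    (hA : C A) : C (l.foldl Law.star A) ∧
      G κ (l.foldl Law.star A).X ≤ G κ A.X + (l.map fun L => G κ L.X).sum := by
  induction l generalizing A with
  | nil => exact ⟨hA, by simp⟩
  | cons L l ih =>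
    have hL := hl L List.mem_cons_self
    obtain ⟨h₁, h₂⟩ := ih (fun L' hL' => hl L' (List.mem_cons_of_mem _ hL')) (A.star L)
      (h.star A L hA hL)
    refine ⟨h₁, ?_⟩
    have h₃ := G_sub h.kpos A.X_nonneg L.X_nonneg (A.star L).X_nonneg (h.sub A L hA hL)
    rw [List.foldl_cons, List.map_cons, List.sum_cons]
    linarith

variable {V : Type*} [DecidableEq V] (T : LocFinTree V) {t : ℝ} (ht : Tok q t)

theorem tree_mem (h : FerroLaw q C κ) (h0 : 0 ≤ t) (k : ℕ) :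
    ∀ v, C (treeLaw T t ht (fun _ => Law.perfect) k v) := by
  induction k with
  | zero => exact fun _ => h.perfect
  | succ k ih =>
    intro v
    refine (foldl_le h _ (fun L hL => ?_) _ h.one).1
    obtain ⟨c, -, rfl⟩ := List.mem_map.1 hL
    exact h.T _ t ht h0 (ih c)

theorem tree_le (h : FerroLaw q C κ) (h0 : 0 ≤ t) (k : ℕ) (v : V) :
    G κ (treeLaw T t ht (fun _ => Law.perfect) (k + 1) v).X ≤
      ∑ c ∈ T.children v, G κ (t ^ 2 * (treeLaw T t ht (fun _ => Law.perfect) k c).X) := by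
  refine (foldl_le h _ (fun L hL => ?_) _ h.one).2.trans_eq ?_
  · obtain ⟨c, -, rfl⟩ := List.mem_map.1 hL
    exact h.T _ t ht h0 (tree_mem T ht h h0 k c)
  · have e : (Law.one : Law q).X = 0 := (Law.one_Ex fx).trans fx_one
    rw [e, List.map_map, Finset.sum_map_toList]
    simp only [G, Function.comp, Law.X_T]
    simp

end CapFwdH

open CapFwdH in
theorem cap_fwd {q : ℕ} [NeZero q] {C : Law q → Prop} {κ : ℝ} (h : FerroLaw q C κ) {V : Type*}
    [DecidableEq V] (T : LocFinTree V) {t : ℝ} (ht : Tok q t) (h0 : 0 < t) (h1 : t < 1) {ε : ℝ}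
    (hε : 0 < ε) (hX : ∀ n, ε ≤ (treeLaw T t ht (fun _ => Law.perfect) n T.root).X) :
    ∃ θ : V → ℝ, IsFlow T θ ∧ 0 < flowMass T θ ∧
      ∀ ξ : ℕ → V, T.IsRay ξ → rayPotential t θ ξ ≤ 1 := by
  have hκ := h.kpos
  set k3 : ℝ := κ / 3 * (1 - t ^ 4) / (1 + κ / 3 * ((q : ℝ) - 1) ^ 2) ^ 3 with hk3
  have hk : 0 < k3 := by
    have : 0 < 1 - t ^ 4 := sub_pos.2 (pow_lt_one₀ h0.le h1 (by norm_num))
    positivity
  have hG : ∀ L : Law q, G κ (t ^ 2 * L.X) ≤ t ^ 2 * (G κ L.X - k3 * G κ L.X ^ 3) := fun L =>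
    G_T hκ h0 h1 L.X_nonneg L.X_le
  have key := fun n : ℕ => finite_flow T (M := G κ ((q : ℝ) - 1)) h0 h1.le hk n
    (fun v => G κ (treeLaw T t ht (fun _ => Law.perfect) (n - T.depth v) v).X)
    (fun v => G_nonneg hκ (Law.X_nonneg _)) (fun v => G_mono hκ (Law.X_nonneg _) (Law.X_le _))
    (fun v => nonneg_of_mul_nonneg_right
      ((G_nonneg hκ (mul_nonneg (sq_nonneg t) (Law.X_nonneg _))).trans (hG _)) (by positivity))
    (fun v hv => by
      obtain ⟨k, hk⟩ : ∃ k, n - T.depth v = k + 1 := ⟨n - T.depth v - 1, by omega⟩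
      rw [hk]
      refine (tree_le T ht h h0.le k v).trans (sum_le_sum fun c hc => ?_)
      have e : n - T.depth c = k := by rw [((mem_children T).1 hc).1]; omega
      rw [e]
      exact hG _)
  choose θ h₁ h₂ h₃ h₄ using key
  refine limit_flow T (m := √k3 * ε) (mul_pos (Real.sqrt_pos.2 hk) hε) θ h₁ h₂ (fun n => ?_) h₄
  rw [h₃ n, depth_root, Nat.sub_zero]
  exact mul_le_mul_of_nonneg_left ((hX n).trans (le_G hκ (Law.X_nonneg _))) (Real.sqrt_nonneg _)

end Crest.Agent.R163
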