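import Crest.Agent.R163.CkDefs

/-! Row 163: statements checked by the certificate checker and the coefficient arrays. -/

set_option autoImplicit false

namespace Crest.Agent.R163.Ck

open Finset

abbrev L2 := List (List ℤ)
abbrev L3 := List L2
abbrev L4 := List L3
abbrev L5 := List L4
abbrev L6 := List L5

def g2 (A : L2) (i j : ℕ) : ℤ := (A.getD i []).getD j 0
def g3 (A : L4) (i j k : ℕ) : List ℤ := ((A.getD i []).getD j []).getD k []
def g5 (A : L5) (a z t e s : ℕ) : ℤ := g2 (((A.getD a []).getD z []).getD t []) e s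
def g6 (A : L6) (j k b a e s : ℕ) : ℤ := g5 (A.getD j []) k b a e s

/-- the `i`-th block of length `m` -/
def chunk {α : Type} (m i : ℕ) (l : List α) : List α := (l.drop (i * m)).take m

def AllLt (n : ℕ) (P : ℕ → Prop) : Prop := ∀ i < n, P i

theorem AllLt.zero {P : ℕ → Prop} : AllLt 0 P := fun _ h => absurd h (Nat.not_lt_zero _)

theorem AllLt.step {n : ℕ} {P : ℕ → Prop} (h : AllLt n P) (c : P n) : AllLt (n + 1) P :=
  fun i hi => (Nat.lt_succ_iff_lt_or_eq.1 hi).elim (h i) fun e => e ▸ c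

/-- the six-fold form of `A[j][k][b][a][e][s]` is nonnegative on all control rows -/
def PairOK (A : L6) (degs : List ℕ) (rp : List (List ℕ)) (sp : L2) (rnet tnet : List (List ℕ))
    (sub : L2) (enet snet : List (List ℕ)) : Prop :=
  ∀ cs ∈ snet, ∀ ce ∈ enet, ∀ c ∈ sub, ∀ r ∈ rnet, ∀ t ∈ tnet, ∀ r' ∈ rp, ∀ c' ∈ sp,
    0 ≤ ∑ j ∈ range t.length, ∑ k ∈ range r.length, ∑ b ∈ range c.length,
      ∑ a ∈ range degs.length, ∑ e ∈ range ce.length, ∑ s ∈ range cs.length,
        (t.getD j 0 : ℤ) * (r.getD k 0 : ℤ) * c.getD b 0 *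
          ((r'.getD (degs.getD a 0) 0 : ℤ) * c'.getD a 0) * (ce.getD e 0 : ℤ) * (cs.getD s 0 : ℤ) *
          g6 A j k b a e s

/-- the five-fold form of `A[a][z][t][e][s]` is nonnegative on all control rows -/
def OneOK (A : L5) (degs : List ℕ) (rp : List (List ℕ)) (sp : L2)
    (znet tnet enet snet : List (List ℕ)) : Prop :=
  ∀ cs ∈ snet, ∀ ce ∈ enet, ∀ ct ∈ tnet, ∀ cz ∈ znet, ∀ r' ∈ rp, ∀ c' ∈ sp,
    0 ≤ ∑ a ∈ range degs.length, ∑ z ∈ range cz.length, ∑ t ∈ range ct.length,
      ∑ e ∈ range ce.length, ∑ s ∈ range cs.length,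
        ((r'.getD (degs.getD a 0) 0 : ℤ) * c'.getD a 0) * (cz.getD z 0 : ℤ) * (ct.getD t 0 : ℤ) *
          (ce.getD e 0 : ℤ) * (cs.getD s 0 : ℤ) * g5 A a z t e s

/-- the executable pair check; `cols` are the packed columns of a shape net with `ns` rows -/
noncomputable def pcAll (W : ℕ) (A : L6) (degs : List ℕ) (rp : List (List ℕ)) (ns : ℕ)
    (cols : List (ℕ × ℕ)) (rnet tnet : List (List ℕ)) (sub : L2) (enet snet : List (List ℕ)) :
    Bool :=
  allL (fun cs => allL (fun ce => pc W (Nat.mul rp.length ns) (packFs W ns rp degs cols)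
    (contr ce cs A) rnet tnet sub) enet) snet

/-- the executable one-sided check -/
noncomputable def ecAll (W : ℕ) (A : L5) (degs : List ℕ) (rp : List (List ℕ)) (ns : ℕ)
    (cols : List (ℕ × ℕ)) (znet tnet enet snet : List (List ℕ)) : Bool :=
  ec W (Nat.mul rp.length ns) (packFs W ns rp degs cols) A znet tnet enet snet

/-- control row of the single point `num / den` -/
def ptNet (D den num : ℕ) : List (List ℕ) :=
  [(List.range (D + 1)).map fun k => num ^ k * den ^ (D - k)]

/-- control rows for `z = 1/√b ∈ [lo/den, hi/den]` -/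
def sqNet (D b den lo hi : ℕ) : List (List ℕ) :=
  [lo, hi].map fun e => (List.range (D + 1)).map fun k =>
    b ^ (D - k / 2) * (if k % 2 = 0 then den else e)

abbrev Fs := List (ℕ × ℕ × ℕ)

def fd (fs : Fs) (a : ℕ) : ℕ := fdeg (fs.getD a (0, 0, 0))

noncomputable def ft {q : ℕ} (fs : Fs) (a : ℕ) (p : Vec q) : ℝ := feat (fs.getD a (0, 0, 0)) p

/-- the feature list starts with `1, x, m, x²`, all later features have positive degree, and all
degrees are at most `K` -/
def fsOK (K : ℕ) (fs : Fs) (lams : List (List ℕ)) : Bool :=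
  decide (fs.take 4 = [(0, 0, 0), (1, 0, 0), (0, 1, 0), (2, 0, 0)]) &&
    fs.tail.all (fun a => decide (0 < fdeg a)) && fs.all (fun a => decide (fdeg a ≤ K)) &&
    lams.all (fun l => decide (l.sum ≤ K))

/-! ### ferromagnetic certificates -/

/-- one-sided array: `Z ψ(r) - DT π(Z r)` -/
noncomputable def ferE (K : ℕ) (fs : Fs) (lams : List (List ℕ)) (TT : L2) (π ψ : List ℤ) : L5 :=
  (List.range fs.length).map fun a => (List.range (K + 1)).map fun z =>
    [[[(if z = 1 then ψ.getD a 0 else 0) - dotDeg z π (TT.getD a []) (lams.map List.sum)]]]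

/-- the small symmetric matrix on `1, x, m, x²` -/
def xmat (m0 n0 w u v : ℤ) : L2 := [[0, m0, n0], [m0, w, u, v], [n0, u], [0, v]]

def gam (ψc k : List ℤ) (c : ℤ) (X : L2) (b a : ℕ) : ℤ :=
  ψc.getD a 0 * k.getD b 0 + k.getD a 0 * ψc.getD b 0 + c * (ψc.getD a 0 * ψc.getD b 0) + g2 X b a

/-- pair array -/
noncomputable def ferP (K : ℕ) (fs : Fs) (TT : L2) (π ψc k : List ℤ) (c : ℤ) (X : L2) : L6 :=
  [(List.range (K + 1)).map fun d => (List.range fs.length).map fun b =>
    if fd fs b = d then (List.range fs.length).map fun a =>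
      [[dot3 π (TT.getD a []) (TT.getD b []) - gam ψc k c X b a]] else []]

/-- array for the nonnegativity of a feature combination -/
def ferK (k : List ℤ) : L5 := k.map fun v => [[[[v]]]]

/-! ### Bellman certificates -/

/-- data of a Bellman certificate: `π[j][i][l]` is the coefficient vector of `θ^j s^i ε^l` -/
structure Bell where
  reg : Bool
  K : ℕ
  R : ℕ
  NS : ℕ
  nl : ℕ
  NE : ℕ
  DT : ℕ
  fs : Fs
  lams : List (List ℕ)
  TT : L2
  π : L4
  cR : L2
  ga : L4

namespace Bell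

variable (B : Bell)

def pg (j i l : ℕ) : List ℤ := if l < B.nl then g3 B.π j i l else []

def gg (j i l b : ℕ) : ℤ := if l < B.nl ∧ i + 1 < B.NS then (g3 B.ga j i l).getD b 0 else 0

/-- `DT` times the coefficient of `θ^j s^i ε^l f_b` in the potential -/
noncomputable def uc (j i l b : ℕ) : ℤ :=
  if j < B.R then dotZ (B.pg j i l) (B.TT.getD b [])
  else if j = B.R ∧ b = 0 ∧ l < B.nl then B.DT * g2 B.cR i l else 0

noncomputable def entry (j b a e i : ℕ) : ℤ :=
  (if j = 0 ∧ b = 0 then B.DT * B.uc 0 i e a else 0) +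
  (if a = 0 then B.DT * ((List.range (B.R - j)).map fun m =>
      if (B.reg = true ∨ m = 0) ∧ 2 * m ≤ e then
        ((j + 1 + m).choose (m + 1) : ℤ) * B.uc (j + 1 + m) i (e - 2 * m) b else 0).sum -
      (if 1 ≤ i then B.gg j (i - 1) e b else 0)
    else (if a = 1 then B.gg j i e b else 0) -
      (if fd B.fs a ≤ e + 2 then (-1) ^ fd B.fs a *
        dot3 (B.pg j i (e + 2 - fd B.fs a)) (B.TT.getD a []) (B.TT.getD b []) else 0))

/-- pair array `[j][k][b][a][e][i]` -/
noncomputable def arrP : L6 :=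
  (List.range B.R).map fun j => (List.range (B.K + 1)).map fun k =>
    (List.range B.fs.length).map fun b => if fd B.fs b = k then
      (List.range B.fs.length).map fun a => (List.range B.NE).map fun e =>
        trimZ ((List.range B.NS).map fun i => B.entry j b a e i) else []

/-- one-sided array `[a][z][j][l][i]` -/
noncomputable def arrE : L5 :=
  (List.range B.fs.length).map fun a => (List.range (B.K + 1)).map fun z =>
    (List.range B.R).map fun j => (List.range B.nl).map fun l =>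
      trimZ ((List.range B.NS).map fun i =>
        dotDeg z (B.pg j i l) (B.TT.getD a []) (B.lams.map List.sum) -
          (if z = 1 then B.uc j i l a else 0))

/-- gain array `[l][i]` -/
noncomputable def arrG : L2 :=
  (List.range B.nl).map fun l => (List.range B.NS).map fun i =>
    -((List.range (B.R + 1)).map fun j => B.uc j i l 0).sum -
      (if l = 0 ∧ i + 1 = B.NS then 1 else 0)

/-- size conditions -/
def ok : Bool :=
  fsOK B.K B.fs B.lams && decide (0 < B.R) && decide (0 < B.NS) && decide (0 < B.nl) &&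
    decide (B.nl + B.K ≤ B.NE + 2) && decide (B.nl + 2 * B.R ≤ B.NE + 2)

/-- everything that is checked for a block of parameters, at the point `(ε, s)`; `θmax` is the
right end of the range of `θ` -/
def Checked (ε s θmax : ℝ) : Prop :=
  B.ok = true ∧ TabOK 3 B.fs B.lams B.TT B.DT ∧
  (∃ (rp rw tnet enet snet : List (List ℕ)) (sp sw : L2),
    PairOK B.arrP (B.fs.map fdeg) rp sp rw tnet sw enet snet ∧ Cover 3 B.fs sp ∧ Cover 3 B.fs sw ∧
    (∀ ρ : ℝ, 0 ≤ ρ → ρ ≤ 1 → DomN rp (B.K + 1) fun k => ρ ^ k) ∧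
    (∀ ρ : ℝ, 0 ≤ ρ → ρ ≤ 1 → DomN rw (B.K + 1) fun k => ρ ^ k) ∧
    (∀ θ : ℝ, 0 ≤ θ → θ ≤ θmax → DomN tnet B.R fun k => θ ^ k) ∧
    DomN enet B.NE (fun k => ε ^ k) ∧ DomN snet B.NS (fun k => s ^ k)) ∧
  (∃ (rp znet tnet enet snet : List (List ℕ)) (sp : L2),
    OneOK B.arrE (B.fs.map fdeg) rp sp znet tnet enet snet ∧ Cover 3 B.fs sp ∧
    (∀ ρ : ℝ, 0 ≤ ρ → ρ ≤ 1 → DomN rp (B.K + 1) fun k => ρ ^ k) ∧
    (∀ Z : ℝ, 1 - 2 * ε ≤ Z → Z ≤ 1 + ε → DomN znet (B.K + 1) fun k => Z ^ k) ∧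
    (∀ θ : ℝ, 0 ≤ θ → θ ≤ θmax → DomN tnet B.R fun k => θ ^ k) ∧
    DomN enet B.nl (fun k => ε ^ k) ∧ DomN snet B.NS (fun k => s ^ k)) ∧
  (∃ enet snet : List (List ℕ), sc B.arrG enet snet = true ∧
    DomN enet B.nl (fun k => ε ^ k) ∧ DomN snet B.NS (fun k => s ^ k))

end Bell

end Crest.Agent.R163.Ck
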