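import Crest.Agent.R163.Iface

/-! Row 163: the certificate checker (definitions only).  Integer vectors are packed into one natural
number in base `2^W` with a common offset, which is also stored as the top digit. -/

set_option autoImplicit false

namespace Crest.Agent.R163.Ck

open Finset

/-! ### list primitives (written with recursors for fast kernel evaluation) -/

noncomputable def allL {α : Type} (p : α → Bool) (l : List α) : Bool :=
  List.rec (motive := fun _ => Bool) true (fun a _ r => Bool.rec false r (p a)) l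

noncomputable def mapL {α β : Type} (f : α → β) (l : List α) : List β :=
  List.rec (motive := fun _ => List β) [] (fun a _ r => f a :: r) l

/-- `∑ c_k v_k` -/
noncomputable def combN (c : List ℕ) : List ℕ → ℕ :=
  List.rec (motive := fun _ => List ℕ → ℕ) (fun _ => 0)
    (fun x _ r A => List.casesOn (motive := fun _ => ℕ) A 0 (fun v A' =>
      Bool.rec (Nat.add (Nat.mul x v) (r A')) (r A') (Nat.beq x 0))) c

/-- `∑ max(c_k,0) v_k` -/
noncomputable def combP (c : List ℤ) : List ℕ → ℕ :=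
  List.rec (motive := fun _ => List ℕ → ℕ) (fun _ => 0)
    (fun x _ r A => List.casesOn (motive := fun _ => ℕ) A 0 (fun v A' =>
      Int.rec (fun n => Bool.rec (Nat.add (Nat.mul n v) (r A')) (r A')
        (Bool.rec (Nat.beq v 0) true (Nat.beq n 0))) (fun _ => r A') x)) c

/-- `∑ max(-c_k,0) v_k` -/
noncomputable def combM (c : List ℤ) : List ℕ → ℕ :=
  List.rec (motive := fun _ => List ℕ → ℕ) (fun _ => 0)
    (fun x _ r A => List.casesOn (motive := fun _ => ℕ) A 0 (fun v A' =>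
      Int.rec (fun _ => r A') (fun n => Bool.rec (Nat.add (Nat.mul (Nat.succ n) v) (r A')) (r A')
        (Nat.beq v 0)) x)) c

/-- `∑ c_k l_k` for a natural and an integer list -/
noncomputable def dotZN (c : List ℕ) : List ℤ → ℤ :=
  List.rec (motive := fun _ => List ℤ → ℤ) (fun _ => 0)
    (fun x _ r A => List.casesOn (motive := fun _ => ℤ) A 0 (fun v A' =>
      Int.add (Int.mul (Int.ofNat x) v) (r A'))) c

/-- `∑ a_k b_k c_k` -/
noncomputable def dot3 (a : List ℤ) : List ℤ → List ℤ → ℤ :=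
  List.rec (motive := fun _ => List ℤ → List ℤ → ℤ) (fun _ _ => 0)
    (fun x _ r B C => List.casesOn (motive := fun _ => ℤ) B 0 (fun y B' =>
      List.casesOn (motive := fun _ => ℤ) C 0 (fun z C' =>
        Int.add (Int.mul x (Int.mul y z)) (r B' C')))) a

/-- `∑_{k : d_k = z} a_k b_k` -/
noncomputable def dotDeg (z : ℕ) (a : List ℤ) : List ℤ → List ℕ → ℤ :=
  List.rec (motive := fun _ => List ℤ → List ℕ → ℤ) (fun _ _ => 0)
    (fun x _ r B C => List.casesOn (motive := fun _ => ℤ) B 0 (fun y B' =>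
      List.casesOn (motive := fun _ => ℤ) C 0 (fun d C' =>
        Bool.rec (r B' C') (Int.add (Int.mul x y) (r B' C')) (Nat.beq d z)))) a

/-- `∑ a_k b_k` -/
noncomputable def dotZ (a : List ℤ) : List ℤ → ℤ :=
  List.rec (motive := fun _ => List ℤ → ℤ) (fun _ => 0)
    (fun x _ r B => List.casesOn (motive := fun _ => ℤ) B 0 (fun y B' =>
      Int.add (Int.mul x y) (r B'))) a

/-- a list of zeros is replaced by the empty list -/
noncomputable def trimZ (l : List ℤ) : List ℤ :=
  Bool.rec l [] (allL (fun x => decide (x = 0)) l)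

/-! ### packed vectors -/

/-- `∑_{i<n} 2^(W i)` -/
def ones (W n : ℕ) : ℕ := Nat.div (Nat.sub (Nat.shiftLeft 1 (Nat.mul W n)) 1) (Nat.sub (Nat.shiftLeft 1 W) 1)

/-- `V` encodes the integer vector `e 0, …, e (n-1)` -/
def Enc (W n V : ℕ) (e : ℕ → ℤ) : Prop :=
  ∃ m : ℕ, (∀ i < n, |e i| ≤ m) ∧
    (V : ℤ) = ∑ i ∈ range n, (e i + m) * 2 ^ (W * i) + m * 2 ^ (W * n)

/-- negation; `o = ones W (n+1)`, `sh = W n` -/
def negP (o sh V : ℕ) : ℕ := Nat.sub (Nat.mul (Nat.mul 2 (Nat.shiftRight V sh)) o) V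

noncomputable def combZ (o sh : ℕ) (c : List ℤ) (A : List ℕ) : ℕ :=
  Nat.add (combP c A) (negP o sh (combM c A))

/-- all entries nonnegative; `H = 2^(W-1)`, `hm = H * o` -/
noncomputable def okP (o sh H hm V : ℕ) : Bool :=
  Bool.rec false
    (Nat.beq (Nat.land (Nat.add V (Nat.mul (Nat.sub H (Nat.shiftRight V sh)) o)) hm) hm)
    (Nat.ble (Nat.succ (Nat.shiftRight V sh)) H)

noncomputable def maxAbs (l : List ℤ) : ℕ :=
  List.rec (motive := fun _ => ℕ) 0 (fun x _ r => Bool.rec x.natAbs r (Nat.ble x.natAbs r)) l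

noncomputable def maxN (l : List ℕ) : ℕ :=
  List.rec (motive := fun _ => ℕ) 0 (fun x _ r => Bool.rec x r (Nat.ble x r)) l

/-- Horner packing with offset `m` (no top digit) -/
noncomputable def packS (W m : ℕ) (l : List ℤ) : ℕ :=
  List.rec (motive := fun _ => ℕ) 0
    (fun x _ r => Nat.add (Int.toNat (Int.add x (Int.ofNat m))) (Nat.shiftLeft r W)) l

/-- offsets and packed columns of a net -/
noncomputable def packCols (W nf : ℕ) (net : List (List ℤ)) : List (ℕ × ℕ) :=
  (List.range nf).map fun a =>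
    (maxAbs (net.map fun c => c.getD a 0), packS W (maxAbs (net.map fun c => c.getD a 0))
      (net.map fun c => c.getD a 0))

/-- packed tensor product of the column `d` of `rnet` with a packed column of length `ns` -/
noncomputable def packF (W ns : ℕ) (rnet : List (List ℕ)) (d : ℕ) (ms : ℕ × ℕ) : ℕ :=
  List.rec (motive := fun _ => ℕ) (Nat.mul (maxN (mapL (fun r => r.getD d 0) rnet)) ms.1)
    (fun x _ acc => Nat.add (Nat.add (Nat.mul x ms.2)
      (Nat.mul (Nat.mul (Nat.sub (maxN (mapL (fun r => r.getD d 0) rnet)) x) ms.1) (ones W ns)))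
      (Nat.shiftLeft acc (Nat.mul W ns))) (mapL (fun r => r.getD d 0) rnet)

/-- packed features on the tensor net -/
noncomputable def packFs (W ns : ℕ) (rnet : List (List ℕ)) (degs : List ℕ) (sp : List (ℕ × ℕ)) :
    List ℕ :=
  List.zipWith (packF W ns rnet) degs sp

/-- pair check, inner loops -/
noncomputable def pcCore (o sh H hm : ℕ) (V : List (List (List ℕ))) (rnet tnet : List (List ℕ))
    (sub : List (List ℤ)) : Bool :=
  allL (fun c => (fun U : List (List ℕ) =>
    allL (fun r => (fun X : List ℕ => allL (fun t => okP o sh H hm (combN t X)) tnet)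
      (mapL (combN r) U)) rnet) (mapL (mapL (combZ o sh c)) V)) sub

/-- pair check: `A[j][k][b][a]`; `a` indexes the packed features `Fs` (of length `n`), `b` the rows
of `sub`, `k` the rows of `rnet`, `j` the rows of `tnet` -/
noncomputable def pc (W n : ℕ) (Fs : List ℕ) (A : List (List (List (List ℤ))))
    (rnet tnet : List (List ℕ)) (sub : List (List ℤ)) : Bool :=
  (fun o sh H => pcCore o sh H (Nat.mul H o) (mapL (mapL (mapL fun l => combZ o sh l Fs)) A)
    rnet tnet sub) (ones W (Nat.succ n)) (Nat.mul W n) (Nat.shiftLeft 1 (Nat.sub W 1))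

/-- contraction of the two innermost indices of `A[j][k][b][a][e][s]` -/
noncomputable def contr (ce cs : List ℕ) (A : List (List (List (List (List (List ℤ)))))) :
    List (List (List (List ℤ))) :=
  mapL (mapL (mapL (mapL fun l => dotZN ce (mapL (dotZN cs) l)))) A

/-- one-sided check: `A[a][z][t][e][s]` -/
noncomputable def ec (W n : ℕ) (Fs : List ℕ) (A : List (List (List (List (List ℤ)))))
    (znet tnet enet snet : List (List ℕ)) : Bool :=
  (fun o sh H => (fun hm =>
    allL (fun cs => (fun A1 : List (List (List (List ℤ))) =>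
      allL (fun ce => (fun A2 : List (List (List ℤ)) =>
        allL (fun ct => (fun A3 : List (List ℤ) =>
          allL (fun cz => okP o sh H hm (combZ o sh (mapL (dotZN cz) A3) Fs)) znet)
          (mapL (mapL (dotZN ct)) A2)) tnet)
        (mapL (mapL (mapL (dotZN ce))) A1)) enet)
      (mapL (mapL (mapL (mapL (dotZN cs)))) A)) snet) (Nat.mul H o))
    (ones W (Nat.succ n)) (Nat.mul W n) (Nat.shiftLeft 1 (Nat.sub W 1))

/-- scalar check: `A[e][s]` -/
noncomputable def sc (A : List (List ℤ)) (enet snet : List (List ℕ)) : Bool :=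
  allL (fun cs => allL (fun ce => decide (0 ≤ dotZN ce (mapL (dotZN cs) A))) enet) snet

/-! ### control nets -/

/-- every linear functional that is nonnegative on the rows of `net` is nonnegative at `z` -/
def Dom (net : List (List ℤ)) (N : ℕ) (z : ℕ → ℝ) : Prop :=
  (∀ c ∈ net, c.length ≤ N) ∧ ∀ a : ℕ → ℝ,
    (∀ c ∈ net, 0 ≤ ∑ k ∈ range N, (c.getD k 0 : ℝ) * a k) → 0 ≤ ∑ k ∈ range N, z k * a k

def DomN (net : List (List ℕ)) (N : ℕ) (z : ℕ → ℝ) : Prop :=
  (∀ c ∈ net, c.length ≤ N) ∧ ∀ a : ℕ → ℝ,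
    (∀ c ∈ net, 0 ≤ ∑ k ∈ range N, (c.getD k 0 : ℝ) * a k) → 0 ≤ ∑ k ∈ range N, z k * a k

/-- the same for a tensor net -/
def DomT (rnet : List (List ℕ)) (snet : List (List ℤ)) (degs : List ℕ) (z : ℕ → ℝ) : Prop :=
  ∀ a : ℕ → ℝ, (∀ r ∈ rnet, ∀ c ∈ snet, 0 ≤ ∑ k ∈ range degs.length,
    ((r.getD (degs.getD k 0) 0 : ℝ) * (c.getD k 0 : ℝ)) * a k) →
      0 ≤ ∑ k ∈ range degs.length, z k * a k

/-- multiplication of a binary form (coefficient list) by `lo b̄ + hi b` -/
def linGo (lo hi : ℤ) : ℤ → List ℤ → List ℤ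
  | prev, [] => [hi * prev]
  | prev, c :: cs => (lo * c + hi * prev) :: linGo lo hi c cs

def mulLin (lo hi : ℤ) (l : List ℤ) : List ℤ := linGo lo hi 0 l

/-- control rows of `1, z, …, z^D` on `[lo/den, hi/den]` -/
def uniNet (D den lo hi : ℕ) : List (List ℕ) :=
  (List.range (D + 1)).map fun i => (List.range (D + 1)).map fun k =>
    (((mulLin lo hi)^[k] ((mulLin den den)^[D - k] [1])).getD i 0).toNat

/-- control rows on all cells of a list of breakpoints -/
def uniNets (D den : ℕ) : List ℕ → List (List ℕ)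
  | lo :: hi :: l => uniNet D den lo hi ++ uniNets D den (hi :: l)
  | _ => []

/-- `q = 3`: control rows of `x̂^i m̂^j` for `y ∈ [lo/4, hi/4]`, `x̂ = 1/2 + 2y/3`, `m̂ = y - 1/4` -/
def shape3 (DY : ℕ) (fs : List (ℕ × ℕ × ℕ)) (lo hi : ℕ) : List (List ℤ) :=
  (List.range (DY + 1)).map fun i => fs.map fun a =>
    ((mulLin (6 + 2 * lo) (6 + 2 * hi))^[a.1] ((mulLin (3 * lo - 3) (3 * hi - 3))^[a.2.1]
      ((mulLin 12 12)^[DY - a.1 - a.2.1] [1]))).getD i 0

def shapes3 (DY : ℕ) (fs : List (ℕ × ℕ × ℕ)) : List ℕ → List (List ℤ)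
  | lo :: hi :: l => shape3 DY fs lo hi ++ shapes3 DY fs (hi :: l)
  | _ => []

def addL : List ℤ → List ℤ → List ℤ
  | [], l => l
  | l, [] => l
  | a :: l, b :: m => (a + b) :: addL l m

def outGo (f g : List ℤ → List ℤ) : List ℤ → List (List ℤ) → List (List ℤ)
  | prev, [] => [g prev]
  | prev, r :: rs => addL (f r) (g prev) :: outGo f g r rs

/-- multiplication of a biform by `c̄ (f00 b̄ + f10 b) + c (f01 b̄ + f11 b)` -/
def mulBi (f00 f10 f01 f11 : ℤ) (P : List (List ℤ)) : List (List ℤ) :=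
  outGo (mulLin f00 f10) (mulLin f01 f11) [] P

/-- `128 g'` at the height `t/4` above the point `σ' = s/4` of a strip (`up`: the strip lies in
`σ' ≥ 2`) -/
def gval (up : Bool) (s t : ℕ) : ℤ :=
  (4 - t : ℤ) * (if up then 24 * (s : ℤ) ^ 2 - 2048 else -(s : ℤ) ^ 3) + t * (s : ℤ) ^ 3

def xval (s : ℕ) : ℤ := 4608 + 144 * (s : ℤ) ^ 2
def mval (up : Bool) (s t : ℕ) : ℤ := -3072 + 144 * (s : ℤ) ^ 2 + 3 * gval up s t
def eval4 (up : Bool) (s t : ℕ) : ℤ := -512 + 96 * (s : ℤ) ^ 2 - 4 * gval up s t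

/-- `q = 4`: control rows of `x̂^i m̂^j ê^k` on the trapezoid `[s0,s1] × [t0,t1]` -/
def shape4 (DY DG : ℕ) (fs : List (ℕ × ℕ × ℕ)) (s0 s1 t0 t1 : ℕ) : List (List ℤ) :=
  (fun (up : Bool) => (fun cols : List (List (List ℤ)) =>
    (List.range (DG + 1)).flatMap fun l => (List.range (DY + 1)).map fun i =>
      cols.map fun col => (col.getD l []).getD i 0)
    (fs.map fun a =>
      (List.map (mulLin (xval s0) (xval s1)))^[a.1]
      ((mulBi (mval up s0 t0) (mval up s1 t0) (mval up s0 t1) (mval up s1 t1))^[a.2.1]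
      ((mulBi (eval4 up s0 t0) (eval4 up s1 t0) (eval4 up s0 t1) (eval4 up s1 t1))^[a.2.2]
      ((List.map (mulLin 13824 13824))^[DY - a.1 - a.2.1 - a.2.2]
      ((outGo id id [])^[DG - a.2.1 - a.2.2] [[1]])))))) (decide (8 ≤ s0))

def strip4 (DY DG : ℕ) (fs : List (ℕ × ℕ × ℕ)) (s0 s1 : ℕ) : List ℕ → List (List ℤ)
  | t0 :: t1 :: l => shape4 DY DG fs s0 s1 t0 t1 ++ strip4 DY DG fs s0 s1 (t1 :: l)
  | _ => []

/-- strips are given as `(s0, s1, [0, …, 4])` -/
def shapes4 (DY DG : ℕ) (fs : List (ℕ × ℕ × ℕ)) (st : List (ℕ × ℕ × List ℕ)) : List (List ℤ) :=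
  st.flatMap fun x => strip4 DY DG fs x.1 x.2.1 x.2.2

/-- increasing breakpoints from `lo` to `hi` -/
def brkOK (lo hi : ℕ) : List ℕ → Bool
  | [a, b] => decide (a = lo) && decide (b = hi) && decide (a ≤ b)
  | a :: b :: l => decide (a = lo) && decide (a ≤ b) && brkOK b hi (b :: l)
  | _ => false

/-- the strips cover `[s, 16]`, none crosses `8` -/
def stripsOK : ℕ → List (ℕ × ℕ × List ℕ) → Bool
  | s, [] => decide (s = 16)
  | s, x :: l => decide (x.1 = s) && decide (x.1 < x.2.1) && (decide (x.2.1 ≤ 8) || decide (8 ≤ x.1)) &&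
      brkOK 0 4 x.2.2 && stripsOK x.2.1 l

/-- polar coordinates with dominated shape part -/
def Cover (q : ℕ) (fs : List (ℕ × ℕ × ℕ)) (snet : List (List ℤ)) : Prop :=
  ∀ p : Vec q, Simp p → ∃ (ρ : ℝ) (φ : ℕ → ℝ), 0 ≤ ρ ∧ ρ ≤ 1 ∧ Dom snet fs.length φ ∧
    ∀ k < fs.length, feat (fs.getD k (0, 0, 0)) p = ρ ^ fdeg (fs.getD k (0, 0, 0)) * φ k

/-! ### symmetrised monomials -/

noncomputable def mbar {q : ℕ} (lam : List ℕ) (P : Vec q) : ℝ :=
  (∑ τ : Equiv.Perm (Fin q), ∏ i : Fin q, P (τ i) ^ lam.getD i 0) / q.factorial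

/-- `TT[a][t]` expresses the symmetrised monomials in the features -/
def TabOK (q : ℕ) (fs : List (ℕ × ℕ × ℕ)) (lams : List (List ℕ)) (TT : List (List ℤ)) (DT : ℕ) :
    Prop :=
  0 < DT ∧ TT.length = fs.length ∧ (∀ c ∈ TT, c.length = lams.length) ∧
    (∀ l ∈ lams, l.length = q ∧ 0 < l.sum) ∧
    ∀ p : Vec q, Simp p → ∀ t < lams.length, (DT : ℝ) * mbar (lams.getD t []) p =
      ∑ a ∈ range fs.length, ((TT.getD a []).getD t 0 : ℝ) * feat (fs.getD a (0, 0, 0)) p

/-- linear combination of features -/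
noncomputable def fsum {q : ℕ} (fs : List (ℕ × ℕ × ℕ)) (c : ℕ → ℝ) (p : Vec q) : ℝ :=
  ∑ a ∈ range fs.length, c a * feat (fs.getD a (0, 0, 0)) p

end Crest.Agent.R163.Ck
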