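import Crest.Agent.R163.Shape4

/-! Row 163: polar coordinates and shape nets for four states. -/

set_option autoImplicit false

namespace Crest.Agent.R163.Cover4H

open Ck

theorem core {a b c d : ℝ} (h0 : 0 ≤ a) (hb : a ≤ b) (hc : a ≤ c) (hd : a ≤ d)
    (hs : a + b + c + d = 4) : ∃ ρ σ g : ℝ, 0 ≤ ρ ∧ ρ ≤ 1 ∧ 0 ≤ σ ∧ σ ≤ 4 ∧
    -(2 * σ ^ 3) ≤ g ∧ g ≤ 2 * σ ^ 3 ∧ 12 * σ ^ 2 - 64 ≤ g ∧
    (a - 1) ^ 2 + (b - 1) ^ 2 + (c - 1) ^ 2 + (d - 1) ^ 2 = 4 * (ρ ^ 2 * ((2 + σ ^ 2) / 6)) ∧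
    (a - 1) ^ 3 + (b - 1) ^ 3 + (c - 1) ^ 3 + (d - 1) ^ 3 =
      4 * (ρ ^ 3 * ((-8 + 6 * σ ^ 2 + g) / 36)) ∧
    (a - 1) ^ 4 + (b - 1) ^ 4 + (c - 1) ^ 4 + (d - 1) ^ 4 =
      8 * (ρ ^ 2 * ((2 + σ ^ 2) / 6)) ^ 2 - 4 * (ρ ^ 4 * (-(1 - 3 * σ ^ 2 + g) / 27)) := by
  obtain ⟨ρ, rfl⟩ : ∃ ρ, a = 1 - ρ := ⟨1 - a, by ring⟩
  have hρ : 0 ≤ ρ := by linarith
  obtain ⟨x, y, hx, hy, hz, rfl, rfl, rfl⟩ : ∃ x y : ℝ, 0 ≤ x + 4 / 3 ∧ 0 ≤ y + 4 / 3 ∧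
      0 ≤ -x - y + 4 / 3 ∧ b = 1 + ρ * (1 / 3 + x) ∧ c = 1 + ρ * (1 / 3 + y) ∧
      d = 1 + ρ * (1 / 3 + (-x - y)) := by
    rcases hρ.eq_or_lt with rfl | h
    · exact ⟨0, 0, by norm_num, by norm_num, by norm_num, by linarith, by linarith, by linarith⟩
    · obtain ⟨x, rfl⟩ : ∃ x, b = 1 + ρ * (1 / 3 + x) := ⟨(b - 1) / ρ - 1 / 3, by field_simp; ring⟩
      obtain ⟨y, rfl⟩ : ∃ y, c = 1 + ρ * (1 / 3 + y) := ⟨(c - 1) / ρ - 1 / 3, by field_simp; ring⟩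
      exact ⟨x, y, nonneg_of_mul_nonneg_right (a := ρ) (by linarith) h,
        nonneg_of_mul_nonneg_right (a := ρ) (by linarith) h,
        nonneg_of_mul_nonneg_right (a := ρ) (by linarith) h, rfl, rfl, by linarith⟩
  have hσ := Real.sq_sqrt (show 0 ≤ 3 * (x ^ 2 + x * y + y ^ 2) by nlinarith [sq_nonneg (x + y)])
  have hσ0 := Real.sqrt_nonneg (3 * (x ^ 2 + x * y + y ^ 2))
  generalize Real.sqrt (3 * (x ^ 2 + x * y + y ^ 2)) = σ at hσ hσ0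
  have h1 : (27 * (x * y * (-x - y))) ^ 2 ≤ (2 * σ ^ 3) ^ 2 := by
    rw [show (2 * σ ^ 3) ^ 2 = 4 * (σ ^ 2) ^ 3 by ring, hσ]
    linarith [sq_nonneg ((x - y) * (2 * x + y) * (x + 2 * y))]
  obtain ⟨h2, h3⟩ := abs_le_of_sq_le_sq' h1 (by positivity)
  refine ⟨ρ, σ, _, hρ, by linarith, hσ0, (abs_le_of_sq_le_sq' ?_ (by norm_num)).2, h2, h3, ?_, ?_,
    ?_, ?_⟩ <;> rw [hσ]
  · linarith [mul_nonneg hx hy, mul_nonneg hx hz, mul_nonneg hy hz]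
  · linarith [mul_nonneg (mul_nonneg hx hy) hz]
  all_goals ring

theorem interp {lo hi x : ℝ} (h1 : lo ≤ x) (h2 : x ≤ hi) :
    ∃ c : ℝ, 0 ≤ c ∧ c ≤ 1 ∧ x = lo * (1 - c) + hi * c := by
  rcases (h1.trans h2).eq_or_lt with h | h
  · exact ⟨0, le_rfl, zero_le_one, by linarith⟩
  · have h3 := sub_pos.2 h
    exact ⟨(x - lo) / (hi - lo), div_nonneg (by linarith) h3.le, (div_le_one h3).2 (by linarith),
      by field_simp; ring⟩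

theorem exists_strip {s : ℝ} (hs : s ≤ 16) : ∀ (st : List (ℕ × ℕ × List ℕ)) (s0 : ℕ),
    stripsOK s0 st = true → s0 ≠ 16 → (s0 : ℝ) ≤ s → ∃ x ∈ st, (x.1 : ℝ) ≤ s ∧ s ≤ x.2.1 ∧
      (x.2.1 ≤ 8 ∨ 8 ≤ x.1) ∧ brkOK 0 4 x.2.2 = true
  | [], s0, h, h0, _ => absurd (by simpa [stripsOK] using h) h0
  | x :: l, s0, h, _, h1 => by
    simp only [stripsOK, Bool.and_eq_true, Bool.or_eq_true, decide_eq_true_eq] at h
    obtain ⟨⟨⟨⟨rfl, -⟩, a3⟩, a4⟩, a5⟩ := h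
    rcases le_or_gt s x.2.1 with h2 | h2
    · exact ⟨x, List.mem_cons_self, h1, h2, a3, a4⟩
    · obtain ⟨y, hy, hy'⟩ := exists_strip hs l _ a5 (fun e => by
        rw [e] at h2
        exact absurd hs (not_le.2 (by exact_mod_cast h2))) h2.le
      exact ⟨y, List.mem_cons_of_mem _ hy, hy'⟩

variable {DY DG s0 s1 : ℕ} {fs : List (ℕ × ℕ × ℕ)} {c : List ℤ}

theorem of_mem_strip : ∀ l : List ℕ, c ∈ strip4 DY DG fs s0 s1 l →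
    ∃ t0 t1, c ∈ shape4 DY DG fs s0 s1 t0 t1
  | [], h => by simp [strip4] at h
  | [_], h => by simp [strip4] at h
  | t0 :: t1 :: l, h => by
    rw [strip4, List.mem_append] at h
    exact h.elim (fun h => ⟨t0, t1, h⟩) (of_mem_strip (t1 :: l))

theorem mem_strip : ∀ (l : List ℕ) (i : ℕ), i + 1 < l.length →
    c ∈ shape4 DY DG fs s0 s1 (l.getD i 0) (l.getD (i + 1) 0) → c ∈ strip4 DY DG fs s0 s1 l
  | [], _, h, _ => by simp at h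
  | [_], _, h, _ => by simp at h
  | t0 :: t1 :: l, 0, _, h => by
    rw [strip4]
    exact List.mem_append_left _ h
  | t0 :: t1 :: l, i + 1, hi, h => by
    rw [strip4]
    exact List.mem_append_right _ (mem_strip (t1 :: l) i (by simpa using hi) h)

theorem chord {s u v b : ℝ} (hs : 0 ≤ s) (hu : 0 ≤ u) (hv : 0 ≤ v) (h0 : 0 ≤ b) (h1 : b ≤ 1)
    (h : s ^ 2 = u ^ 2 * (1 - b) + v ^ 2 * b) : s ^ 3 ≤ u ^ 3 * (1 - b) + v ^ 3 * b := by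
  have a1 := mul_nonneg (mul_nonneg (sq_nonneg (u - s)) (by positivity : 0 ≤ u + s / 2))
    (sub_nonneg.2 h1)
  have a2 := mul_nonneg (mul_nonneg (sq_nonneg (v - s)) (by positivity : 0 ≤ v + s / 2)) h0
  have a3 : s ^ 3 = s * (u ^ 2 * (1 - b) + v ^ 2 * b) := by rw [← h]; ring
  linarith

end Crest.Agent.R163.Cover4H

namespace Crest.Agent.R163.Ck

open Finset Cover4H

/-- polar coordinates on the four-state simplex -/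
theorem polar4 {p : Vec 4} (hp : Simp p) : ∃ ρ σ g : ℝ, 0 ≤ ρ ∧ ρ ≤ 1 ∧ 0 ≤ σ ∧ σ ≤ 4 ∧
    -(2 * σ ^ 3) ≤ g ∧ g ≤ 2 * σ ^ 3 ∧ 12 * σ ^ 2 - 64 ≤ g ∧
    fx p = ρ ^ 2 * ((2 + σ ^ 2) / 6) ∧ fm p = ρ ^ 3 * ((-8 + 6 * σ ^ 2 + g) / 36) ∧
    fe p = ρ ^ 4 * (-(1 - 3 * σ ^ 2 + g) / 27) := by
  have hs : p 0 + p 1 + p 2 + p 3 = 4 := by
    have := hp.2
    simp only [av, Fin.sum_univ_four, Nat.cast_ofNat] at this
    linarith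
  suffices h : ∃ ρ σ g : ℝ, 0 ≤ ρ ∧ ρ ≤ 1 ∧ 0 ≤ σ ∧ σ ≤ 4 ∧
      -(2 * σ ^ 3) ≤ g ∧ g ≤ 2 * σ ^ 3 ∧ 12 * σ ^ 2 - 64 ≤ g ∧
      (p 0 - 1) ^ 2 + (p 1 - 1) ^ 2 + (p 2 - 1) ^ 2 + (p 3 - 1) ^ 2 =
        4 * (ρ ^ 2 * ((2 + σ ^ 2) / 6)) ∧
      (p 0 - 1) ^ 3 + (p 1 - 1) ^ 3 + (p 2 - 1) ^ 3 + (p 3 - 1) ^ 3 =
        4 * (ρ ^ 3 * ((-8 + 6 * σ ^ 2 + g) / 36)) ∧
      (p 0 - 1) ^ 4 + (p 1 - 1) ^ 4 + (p 2 - 1) ^ 4 + (p 3 - 1) ^ 4 =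
        8 * (ρ ^ 2 * ((2 + σ ^ 2) / 6)) ^ 2 - 4 * (ρ ^ 4 * (-(1 - 3 * σ ^ 2 + g) / 27)) by
    obtain ⟨ρ, σ, g, a1, a2, a3, a4, a5, a6, a7, b2, b3, b4⟩ := h
    refine ⟨ρ, σ, g, a1, a2, a3, a4, a5, a6, a7, ?_, ?_, ?_⟩ <;>
      simp only [fx, fm, fe, mom, Fin.sum_univ_four, Nat.cast_ofNat, b2, b3, b4] <;> ring
  obtain ⟨i, hi⟩ := Finite.exists_min p
  fin_cases i
  · exact core (hp.1 0) (hi 1) (hi 2) (hi 3) hs
  · simpa only [add_comm, add_left_comm, add_assoc] using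
      core (hp.1 1) (hi 0) (hi 2) (hi 3) (by linarith)
  · simpa only [add_comm, add_left_comm, add_assoc] using
      core (hp.1 2) (hi 0) (hi 1) (hi 3) (by linarith)
  · simpa only [add_comm, add_left_comm, add_assoc] using
      core (hp.1 3) (hi 0) (hi 1) (hi 2) (by linarith)

theorem cover4 (DY DG : ℕ) {fs : List (ℕ × ℕ × ℕ)}
    (hfs : ∀ a ∈ fs, a.1 + a.2.1 + a.2.2 ≤ DY ∧ a.2.1 + a.2.2 ≤ DG)
    {st : List (ℕ × ℕ × List ℕ)} (hst : stripsOK 0 st = true) :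
    Cover 4 fs (shapes4 DY DG fs st) := by
  intro p hp
  obtain ⟨ρ, σ, g, a1, a2, a3, a4, a5, a6, a7, b2, b3, b4⟩ := polar4 hp
  obtain ⟨⟨s0, s1, l⟩, hx, c1, c2, c3, c4⟩ := exists_strip (s := 4 * σ) (by linarith) st 0 hst
    (by norm_num) (by simpa using a3)
  simp only at c1 c2 c3 c4
  obtain ⟨b, hb0, hb1, hb⟩ := interp (pow_le_pow_left₀ (Nat.cast_nonneg s0) c1 2)
    (pow_le_pow_left₀ (by positivity) c2 2)
  have hU := chord (by positivity) (Nat.cast_nonneg s0) (Nat.cast_nonneg s1) hb0 hb1 hb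
  set low : ℕ → ℤ := fun s => if decide (8 ≤ s0) then 24 * (s : ℤ) ^ 2 - 2048 else -(s : ℤ) ^ 3
    with hlow
  have hL : (low s0 : ℝ) * (1 - b) + low s1 * b ≤ 32 * g := by
    simp only [hlow]
    split_ifs <;> push_cast <;> linarith
  obtain ⟨τ, hτ0, hτ1, hτ⟩ := interp hL
    (show 32 * g ≤ (s0 : ℝ) ^ 3 * (1 - b) + (s1 : ℝ) ^ 3 * b by linarith)
  obtain ⟨i, hi, -, d1, d2, -⟩ := exists_cell c4 (x := 4 * τ) (by simpa using hτ0)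
    (by push_cast; linarith)
  obtain ⟨c, hc0, hc1, hc⟩ := interp d1 d2
  have hD := dom_shape4 DY DG hfs s0 s1 (l.getD i 0) (l.getD (i + 1) 0) hb0 hb1 hc0 hc1
  have hg : ∀ s t, gval (decide (8 ≤ s0)) s t = (4 - t : ℤ) * low s + t * (s : ℤ) ^ 3 :=
    fun _ _ => rfl
  refine ⟨ρ, _, a1, a2, ⟨fun r hr => ?_, fun a ha => hD.2 a fun r hr => ha r
    (List.mem_flatMap.2 ⟨_, hx, mem_strip l i hi hr⟩)⟩, fun k _ => ?_⟩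
  · obtain ⟨x, -, hr⟩ := List.mem_flatMap.1 hr
    obtain ⟨t0, t1, hr⟩ := of_mem_strip _ hr
    exact (dom_shape4 DY DG hfs _ _ t0 t1 hb0 hb1 hc0 hc1).1 r hr
  · generalize l.getD i 0 = t0 at hc
    generalize l.getD (i + 1) 0 = t1 at hc
    have e1 : (xval s0 * (1 - b) + xval s1 * b) / 13824 = (2 + σ ^ 2) / 6 := by
      simp only [xval]
      push_cast
      linarith
    have e2 : bil (mval (decide (8 ≤ s0)) s0 t0) (mval (decide (8 ≤ s0)) s1 t0)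
        (mval (decide (8 ≤ s0)) s0 t1) (mval (decide (8 ≤ s0)) s1 t1) b c / 13824 =
        (-8 + 6 * σ ^ 2 + g) / 36 := by
      simp only [bil, mval, hg]
      push_cast
      linear_combination (-1 / 96) * hb - (1 / 1152) * hτ + (1 / 4608) *
        ((low s0 : ℝ) * (1 - b) + low s1 * b - ((s0 : ℝ) ^ 3 * (1 - b) + (s1 : ℝ) ^ 3 * b)) * hc
    have e3 : bil (eval4 (decide (8 ≤ s0)) s0 t0) (eval4 (decide (8 ≤ s0)) s1 t0)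
        (eval4 (decide (8 ≤ s0)) s0 t1) (eval4 (decide (8 ≤ s0)) s1 t1) b c / 13824 =
        -(1 - 3 * σ ^ 2 + g) / 27 := by
      simp only [bil, eval4, hg]
      push_cast
      linear_combination (-1 / 144) * hb + (1 / 864) * hτ - (1 / 3456) *
        ((low s0 : ℝ) * (1 - b) + low s1 * b - ((s0 : ℝ) ^ 3 * (1 - b) + (s1 : ℝ) ^ 3 * b)) * hc
    simp only [e1, e2, e3, feat, fdeg, b2, b3, b4, mul_pow, ← pow_mul, pow_add]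
    ring

end Crest.Agent.R163.Ck
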