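import Crest.Agent.R163.CkCert
import Crest.Agent.R163.Order

/-! Row 163: density evolution on a logarithmic lattice (definitions).  A law is bounded from below
(in the Blackwell order, on superlinear test functions) by a finite measure on the points
`(a^x, a^y, a^(-x-y))` and their products with `(0,1,1)`, `(1,0,1)`, `(1,1,0)`.  Arrays are packed
into one natural number in base `2^64`, so that a convolution is one multiplication. -/

set_option autoImplicit false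

namespace Crest.Agent.R163.DE

open Finset Ck

/-! ### semantics -/

abbrev Arr := AddMonoidAlgebra ℕ (ℤ × ℤ)

/-- lattice point -/
noncomputable def lp (a : ℝ) (p : ℤ × ℤ) : Vec 3 := ![a ^ p.1, a ^ p.2, a ^ (-p.1 - p.2)]

/-- the vector with a zero at `i` and ones elsewhere -/
def ed (i : Fin 3) : Vec 3 := fun k => if k = i then 0 else 1

noncomputable def Phi (a : ℝ) (w : Arr) (G : Vec 3 → ℝ) : ℝ :=
  w.coeff.sum fun p c => (c : ℝ) * G (lp a p)

def Symm (w : Arr) : Prop :=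
  ∀ x y : ℤ, w.coeff (y, x) = w.coeff (x, y) ∧ w.coeff (x, -x - y) = w.coeff (x, y)

/-- lower bound that is stable under products -/
def LbAB (a : ℝ) (L : Law 3) (A B : Arr) (s : ℝ) : Prop :=
  ∀ H : Vec 3 → ℝ, Sup H → ∀ P, Pos P →
    Phi a A (fun Q => H (P * Q)) + Phi a B (fun Q => ∑ i, H (P * Q * ed i)) ≤
      s * L.E (fun Q => H (P * Q))

def Lb1 (a : ℝ) (L : Law 3) (A B : Arr) (s : ℝ) : Prop :=
  ∀ H : Vec 3 → ℝ, Sup H → Phi a A H + Phi a B (fun Q => ∑ i, H (Q * ed i)) ≤ s * L.E H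

/-- `L'` dominates a sub-mixture of powers of `N` -/
def Mix (L' N : Law 3) (al : List ℕ) : Prop :=
  ∀ G : Vec 3 → ℝ, Sup G →
    ∑ k ∈ range al.length, (al.getD k 0 : ℝ) * (N.pow k).E G ≤ 2 ^ 28 * L'.E G

/-- `V` is the packed form of `w` (stride `S`, offset `o`, width `n`) -/
def Rep (S o n V : ℕ) (w : Arr) : Prop :=
  (∀ p ∈ w.coeff.support, 0 ≤ p.1 + o ∧ p.1 + o < n ∧ 0 ≤ p.2 + o) ∧
    V = w.coeff.sum fun p c => c * 2 ^ (64 * ((p.1 + o).toNat + S * (p.2 + o).toNat))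

def dig (V k : ℕ) : ℕ := V / 2 ^ (64 * k) % 2 ^ 64

/-- the symmetric window -/
def inHex (o n : ℕ) (p : ℤ × ℤ) : Prop :=
  (0 ≤ p.1 + o ∧ p.1 + o < n) ∧ (0 ≤ p.2 + o ∧ p.2 + o < n) ∧
    (0 ≤ -p.1 - p.2 + o ∧ -p.1 - p.2 + o < n)

instance (o n : ℕ) : DecidablePred (inHex o n) := fun _ => by unfold inHex; infer_instance

/-! ### executable part -/

/-- bit field; `m` is the mask -/
def fld (v off m : ℕ) : ℕ := Nat.land (Nat.shiftRight v off) m

noncomputable def mx (a b : ℕ) : ℕ := Bool.rec a b (Nat.ble a b)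
noncomputable def mn (a b : ℕ) : ℕ := Bool.rec b a (Nat.ble a b)

def mult3 (X Y Z : ℕ) : ℕ :=
  if X = Y ∧ Y = Z then 1 else if X = Y ∨ Y = Z ∨ X = Z then 3 else 6

/-- the lattice that carries a state: base `an / ad`, radius `r`, `n` orbit representatives -/
structure Grid where
  an : ℕ
  ad : ℕ
  r : ℕ
  n : ℕ
  reps : ℕ

namespace Grid

variable (g : Grid)

noncomputable def a : ℝ := (g.an : ℝ) / g.ad

def rx (k : ℕ) : ℕ := fld g.reps (Nat.mul 16 k) 255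
def ry (k : ℕ) : ℕ := fld g.reps (Nat.add (Nat.mul 16 k) 8) 255

def pt (k : ℕ) : ℤ × ℤ := ((g.rx k : ℤ) - 2 * g.r, (g.ry k : ℤ) - 2 * g.r)

/-- scaled power `a^(X - 2r)` -/
def ph (X : ℕ) : ℕ := Nat.mul (Nat.pow g.an X) (Nat.pow g.ad (Nat.sub (Nat.mul 6 g.r) X))

/-- the point with offset coordinates `(X, Y, 6r - X - Y)` lies in the orbit of representative `k` -/
noncomputable def orbOK (X Y k : ℕ) : Bool :=
  (fun Z => Nat.ble (Nat.add X Y) (Nat.mul 6 g.r) && Nat.ble (Nat.succ k) g.n &&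
    Nat.beq (mx (mx X Y) Z) (g.rx k) &&
    Nat.beq (Nat.add (mn (mn X Y) Z) (Nat.add (g.rx k) (g.ry k))) (Nat.mul 6 g.r))
    (Nat.sub (Nat.sub (Nat.mul 6 g.r) X) Y)

/-- index of the orbit with largest coordinate `M` and smallest coordinate `m` -/
def idxOf (M m : ℕ) : ℕ :=
  ((List.range (2 * M + m - 6 * g.r)).map fun u => g.r + 1 + u / 3 - u).sum +
    (6 * g.r - M - 2 * m) / 3

noncomputable def idxF (X Y : ℕ) : ℕ :=
  g.idxOf (mx (mx X Y) (6 * g.r - X - Y)) (mn (mn X Y) (6 * g.r - X - Y))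

noncomputable def codeF (X Y : ℕ) : ℕ :=
  if 3 * g.r ≤ X + Y then 8 * g.idxF X Y + mult3 X Y (6 * g.r - X - Y) else 0

noncomputable def nuTab : List (List ℕ) :=
  (List.range (3 * g.r + 1)).map fun Y => (List.range (3 * g.r + 1)).map fun X => g.codeF X Y

noncomputable def ok : Bool :=
  Nat.ble 1 g.an && Nat.ble 1 g.ad &&
    allL (fun Y => allL (fun X => !decide (3 * g.r ≤ X + Y) || g.orbOK X Y (g.idxF X Y))
      (List.range (3 * g.r + 1))) (List.range (3 * g.r + 1))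

/-- value of a digit vector on a test function -/
noncomputable def val (d : ℕ → ℕ) (G : Vec 3 → ℝ) : ℝ :=
  ∑ k ∈ range g.n, (d k : ℝ) * G (lp g.a (g.pt k)) + (d g.n : ℝ) * G (ed 0)

end Grid

/-- the state `V` bounds the law `N` from below -/
def Inv (g : Grid) (N : Law 3) (V : ℕ) : Prop :=
  ∀ G : Vec 3 → ℝ, Sup G → g.val (dig V) G ≤ 2 ^ 54 * N.E G

/-- the accumulator before the completion of the missing mass -/
def Pre (g : Grid) (L : Law 3) (t : ℝ) (ht : Tok 3 t) (acc : ℕ) : Prop :=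
  ∃ (d : ℕ → ℕ) (m : ℝ), acc = ∑ k ∈ range (g.n + 2), d k * 2 ^ (64 * k) ∧
    2 ^ 54 * m ≤ d (g.n + 1) ∧ m ≤ 1 ∧ ∀ G : Vec 3 → ℝ, Sup G →
      g.val d G + 2 ^ 54 * (1 - m) * G (Tv t ((3 : ℝ) • vtx 0)) ≤ 2 ^ 54 * (L.T t ht).E G

def eI0 (v : ℕ) : ℕ := fld v 0 1023
def eC0 (v : ℕ) : ℕ := fld v 10 4294967295
def eI1 (v : ℕ) : ℕ := fld v 42 1023
def eC1 (v : ℕ) : ℕ := fld v 52 4294967295
def eI2 (v : ℕ) : ℕ := fld v 84 1023
def eC2 (v : ℕ) : ℕ := fld v 94 4294967295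
def eCe (v : ℕ) : ℕ := fld v 126 4294967295
def eM (v : ℕ) : ℕ := fld v 158 4294967295

/-- packed row of a table entry -/
def rowE (n v : ℕ) : ℕ :=
  Nat.add (Nat.add (Nat.shiftLeft (eC0 v) (Nat.mul 64 (eI0 v)))
      (Nat.shiftLeft (eC1 v) (Nat.mul 64 (eI1 v))))
    (Nat.add (Nat.shiftLeft (eC2 v) (Nat.mul 64 (eI2 v)))
      (Nat.shiftLeft (Nat.add (eCe v) (Nat.shiftLeft (eM v) 64)) (Nat.mul 64 n)))

def rowB (n c : ℕ) : ℕ :=
  Nat.add (rowE n (Nat.shiftRight c 210))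
    (Nat.add (rowE n (Nat.shiftRight c 420)) (rowE n (Nat.shiftRight c 630)))

/-- the digits of `rowE n v` -/
def rd (n v k : ℕ) : ℕ :=
  (if eI0 v = k then eC0 v else 0) + (if eI1 v = k then eC1 v else 0) +
    (if eI2 v = k then eC2 v else 0) + (if n = k then eCe v else 0) +
    (if n + 1 = k then eM v else 0)

/-- one coordinate of the decomposition inequality -/
def coordOK (g : Grid) (en ed' uA mu tot p v x0 x1 x2 ce : ℕ) : Bool :=
  Nat.ble (Nat.add (Nat.mul (Nat.mul (Nat.mul 3 ed') uA)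
      (Nat.add (Nat.add (Nat.mul (eC0 v) (g.ph x0)) (Nat.mul (eC1 v) (g.ph x1)))
        (Nat.add (Nat.mul (eC2 v) (g.ph x2)) (Nat.mul ce (g.ph (Nat.mul 2 g.r))))))
      (Nat.mul (Nat.mul (Nat.mul mu (Nat.mul 3 en)) (g.ph (Nat.mul 2 g.r))) p))
    (Nat.mul (Nat.mul (Nat.mul mu (Nat.add ed' en)) (g.ph (Nat.mul 2 g.r))) tot)

/-- the entry `v` decomposes `mult * T (p0, p1, p2) / uA` on the grid `g` -/
noncomputable def entryOK (g : Grid) (en ed' uA mult p0 p1 p2 v : ℕ) : Bool :=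
  (fun i j t ie mu tot =>
    g.orbOK (Nat.add i t) (Nat.add j t) (eI0 v) && g.orbOK (Nat.succ i) j (eI1 v) &&
    g.orbOK i (Nat.succ j) (eI2 v) && Nat.ble ie 2 &&
    Nat.ble (Nat.mul mu tot) (Nat.mul (Nat.mul 3 uA) (eM v)) &&
    coordOK g en ed' uA mu tot p0 v (Nat.add i t) (Nat.succ i) i
      (Bool.rec (eCe v) 0 (Nat.beq ie 0)) &&
    coordOK g en ed' uA mu tot p1 v (Nat.add j t) j (Nat.succ j)
      (Bool.rec (eCe v) 0 (Nat.beq ie 1)) &&
    coordOK g en ed' uA mu tot p2 v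
      (Nat.sub (Nat.sub (Nat.mul 6 g.r) (Nat.add i t)) (Nat.add j t))
      (Nat.sub (Nat.sub (Nat.mul 6 g.r) (Nat.succ i)) j)
      (Nat.sub (Nat.sub (Nat.mul 6 g.r) i) (Nat.succ j))
      (Bool.rec (eCe v) 0 (Nat.beq ie 2)))
    (fld v 190 255) (fld v 198 255) (fld v 206 1) (fld v 207 3) (Nat.mul 4194304 mult)
    (Nat.add (Nat.add p0 p1) p2)

/-- scaled power `a^(X - oA)` on the large window -/
def phA (an ad oA X : ℕ) : ℕ := Nat.mul (Nat.pow an X) (Nat.pow ad (Nat.sub (Nat.mul 3 oA) X))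

/-- the four entries attached to the sorted point `(X, Y, 3 oA - X - Y)` -/
noncomputable def repOK (g : Grid) (an ad en ed' S oA X Y c : ℕ) : Bool :=
  (fun Z => (fun uA mult p0 p1 p2 =>
    Nat.ble (Nat.succ X) S && Nat.ble Y X && Nat.ble (Nat.add X Y) (Nat.mul 3 oA) && Nat.ble Z Y &&
    entryOK g en ed' uA mult p0 p1 p2 c &&
    entryOK g en ed' uA mult 0 p1 p2 (Nat.shiftRight c 210) &&
    entryOK g en ed' uA mult p0 0 p2 (Nat.shiftRight c 420) &&
    entryOK g en ed' uA mult p0 p1 0 (Nat.shiftRight c 630))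
    (phA an ad oA oA) (mult3 X Y Z) (phA an ad oA X) (phA an ad oA Y) (phA an ad oA Z))
    (Nat.sub (Nat.sub (Nat.mul 3 oA) X) Y)

noncomputable def rowOK (g : Grid) (an ad en ed' S oA Y : ℕ) (l : List ℕ) : ℕ → Bool :=
  List.rec (motive := fun _ => ℕ → Bool) (fun _ => true)
    (fun c _ r X => Bool.rec false (r (Nat.succ X)) (repOK g an ad en ed' S oA X Y c)) l

/-- the rows of the table start at height `Y` -/
noncomputable def tabOK (g : Grid) (an ad en ed' S oA : ℕ) (tab : List (ℕ × List ℕ)) : ℕ → Bool :=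
  List.rec (motive := fun _ => ℕ → Bool) (fun _ => true)
    (fun x _ r Y => Bool.rec false (r (Nat.succ Y)) (rowOK g an ad en ed' S oA Y x.2 x.1)) tab

/-- `acc + w * row`, skipping zero weights -/
noncomputable def addW (w row acc : ℕ) : ℕ :=
  Bool.rec (Nat.add (Nat.mul w row) acc) acc (Nat.beq w 0)

noncomputable def gatherRow (n : ℕ) (l : List ℕ) : ℕ → ℕ → ℕ :=
  List.rec (motive := fun _ => ℕ → ℕ → ℕ) (fun _ _ => 0)
    (fun c _ r a b => addW (fld a 28 68719476735) (rowE n c)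
      (addW (fld b 28 68719476735) (rowB n c)
        (r (Nat.shiftRight a 64) (Nat.shiftRight b 64)))) l

/-- `sS = 64 S`, `rm = 2^(64 S) - 1` -/
noncomputable def gather (n sS rm : ℕ) (tab : List (ℕ × List ℕ)) : ℕ → ℕ → ℕ :=
  List.rec (motive := fun _ => ℕ → ℕ → ℕ) (fun _ _ => 0)
    (fun x _ r a b => Nat.add
      (gatherRow n x.2 (Nat.shiftRight (Nat.land a rm) (Nat.mul 64 x.1))
        (Nat.shiftRight (Nat.land b rm) (Nat.mul 64 x.1)))
      (r (Nat.shiftRight a sS) (Nat.shiftRight b sS))) tab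

/-- completion of the missing mass at the vertices -/
def fin (n cv acc : ℕ) : ℕ :=
  Nat.mod (Nat.add acc (Nat.mul (Nat.shiftRight
      (Nat.sub 18014398509481984 (Nat.shiftRight acc (Nat.mul 64 (Nat.succ n)))) 22) (rowE n cv)))
    (Nat.shiftLeft 1 (Nat.mul 64 (Nat.succ n)))

noncomputable def expandRow (V : ℕ) (l : List ℕ) : ℕ :=
  List.rec (motive := fun _ => ℕ) 0 (fun c _ r => Bool.rec
    (Nat.add (Nat.div (fld V (Nat.mul 64 (Nat.shiftRight c 3)) 18446744073709551615)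
      (Nat.shiftLeft (Nat.land c 7) 23)) (Nat.shiftLeft r 64))
    (Nat.shiftLeft r 64) (Nat.beq c 0)) l

noncomputable def expand (sS V : ℕ) (tab : List (List ℕ)) : ℕ :=
  List.rec (motive := fun _ => ℕ) 0
    (fun l _ r => Nat.add (expandRow V l) (Nat.shiftLeft r sS)) tab

noncomputable def rowM (oA nA j : ℕ) : ℕ :=
  (fun lo => Nat.shiftLeft (Nat.mul 8589934591
    (ones 64 (Nat.sub (mn nA (Nat.sub (Nat.succ (Nat.mul 3 oA)) j)) lo))) (Nat.mul 64 lo))
    (Nat.sub (Nat.sub (Nat.succ (Nat.mul 3 oA)) nA) j)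

/-- digits `2^33 - 1` on the window, `0` elsewhere -/
noncomputable def mask (S oA nA : ℕ) : ℕ :=
  Nat.rec (motive := fun _ => ℕ) 0
    (fun j acc => Nat.add acc (Nat.shiftLeft (rowM oA nA j) (Nat.mul (Nat.mul 64 S) j))) nA

def trunc (sh M V : ℕ) : ℕ := Nat.land (Nat.shiftRight V (Nat.add sh 31)) M

noncomputable def loop (nu eta sh M : ℕ) (k : ℕ → ℕ → ℕ) (al : List ℕ) : ℕ → ℕ → ℕ → ℕ → ℕ :=
  List.rec (motive := fun _ => ℕ → ℕ → ℕ → ℕ → ℕ) (fun _ _ SA SB => k SA SB)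
    (fun a _ r A B SA SB => r (trunc sh M (Nat.mul nu A))
      (trunc sh M (Nat.add (Nat.mul nu B) (Nat.shiftLeft (Nat.mul eta (Nat.add A B)) sh)))
      (Nat.add SA (Nat.mul a A)) (Nat.add SB (Nat.mul a B))) al

/-- parameters of one step from the grid `g` to the grid `g'` -/
structure Par where
  g : Grid
  g' : Grid
  S : ℕ
  oA : ℕ
  nA : ℕ
  Y0 : ℕ
  tab : List (ℕ × List ℕ)
  nuTab : List (List ℕ)
  cv : ℕ
  al : List ℕ

noncomputable def step (P : Par) (V : ℕ) : ℕ :=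
  (fun sS => loop (expand sS V P.nuTab)
    (Nat.div (fld V (Nat.mul 64 P.g.n) 18446744073709551615) 25165824)
    (Nat.mul (Nat.mul 2 P.g.r) (Nat.add 64 sS)) (mask P.S P.oA P.nA)
    (fun SA SB => fin P.g'.n P.cv (gather P.g'.n sS (Nat.pred (Nat.shiftLeft 1 sS)) P.tab
      (Nat.shiftRight SA (Nat.mul sS P.Y0)) (Nat.shiftRight SB (Nat.mul sS P.Y0))))
    P.al (Nat.shiftLeft 4294967296 (Nat.mul P.oA (Nat.add 64 sS))) 0 0 0) (Nat.mul 64 P.S)

noncomputable def run (P : Par) (k V : ℕ) : ℕ :=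
  Nat.rec (motive := fun _ => ℕ) V (fun _ W => step P W) k

/-- the checked side conditions, for the channel parameter `-en/ed'` -/
structure Par.OK (P : Par) (en ed' : ℕ) : Prop where
  g_ok : P.g.ok = true
  pos : 0 < P.g'.an ∧ 0 < P.g'.ad ∧ 0 < ed'
  size : P.nA + 3 * P.g.r + 1 ≤ P.S ∧ P.oA < P.nA
  nu : P.nuTab = P.g.nuTab
  tab : tabOK P.g' P.g.an P.g.ad en ed' P.S P.oA P.tab P.Y0 = true
  cv : entryOK P.g' en ed' 1 1 3 0 0 P.cv = true

/-- lower bound for `2^24 (2 av - hat fx)` at the `k`-th representative -/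
noncomputable def dlo (g : Grid) (k : ℕ) : ℕ :=
  Bool.rec 0 ((fun p0 p1 p2 => Nat.div
      (Nat.mul 33554432 (Nat.add (Nat.mul p0 p1) (Nat.add (Nat.mul p0 p2) (Nat.mul p1 p2))))
      (Nat.mul (Nat.add (Nat.add p0 p1) p2) (g.ph (Nat.mul 2 g.r))))
    (g.ph (g.rx k)) (g.ph (g.ry k)) (g.ph (Nat.sub (Nat.sub (Nat.mul 6 g.r) (g.rx k)) (g.ry k))))
    (Nat.ble (Nat.add (g.rx k) (g.ry k)) (Nat.mul 6 g.r))

/-- the final check `X ≤ sn / sd` -/
noncomputable def xOK (g : Grid) (en ed' sn sd V : ℕ) : Bool :=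
  Nat.ble 1 en && Nat.ble 1 sd && Nat.ble 1 ed' && Nat.ble 1 g.an && Nat.ble 1 g.ad &&
    Nat.ble (2 * 2 ^ 78 * ed' ^ 2 * sd) (sn * en ^ 2 * 2 ^ 78 +
      (((List.range g.n).map fun k => dig V k * dlo g k).sum + dig V g.n * 2 ^ 24) * ed' ^ 2 * sd)

/-- `2^96 exp (-dn/dd)` from below -/
def expLB (dn dd : ℕ) : ℕ :=
  (fun E => E * E / 2 ^ 96)^[32] (2 ^ 96 * (dd * 2 ^ 32 - dn) / (dd * 2 ^ 32))

def alPoi (dn dd K : ℕ) : List ℕ :=
  (List.range (K + 1)).map fun k => expLB dn dd * dn ^ k * 2 ^ 28 / (2 ^ 96 * dd ^ k * k.factorial)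

def alReg (b : ℕ) : List ℕ := List.replicate b 0 ++ [2 ^ 28]

/-- a sequence of laws that dominates the recursion with weights `al` -/
def Dyn (Lf : ℕ → Law 3) (t : ℝ) (ht : Tok 3 t) (al : List ℕ) : Prop :=
  ∀ n, Mix (Lf (n + 1)) ((Lf n).T t ht) al

end Crest.Agent.R163.DE
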