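import Crest.Agent.R163.DEExpand

/-! Row 163: table entries. -/

set_option autoImplicit false

namespace Crest.Agent.R163.DE

open Finset Ck

namespace DEEntryH

theorem pw {an ad m o X : ℕ} (han : 0 < an) (had : 0 < ad) (ho : o ≤ m) (hX : X ≤ m) :
    ((an : ℝ) ^ X * (ad : ℝ) ^ (m - X)) =
      ((an : ℝ) / ad) ^ ((X : ℤ) - o) * ((an : ℝ) ^ o * (ad : ℝ) ^ (m - o)) := by
  have h1 : (an : ℝ) ≠ 0 := Nat.cast_ne_zero.2 han.ne'
  have h2 : (ad : ℝ) ≠ 0 := Nat.cast_ne_zero.2 had.ne'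
  rw [zpow_sub₀ (div_ne_zero h1 h2), zpow_natCast, zpow_natCast, pow_sub₀ _ h2 ho,
    pow_sub₀ _ h2 hX, div_pow, div_pow]
  field_simp

theorem ph_cast (g : Grid) (X : ℕ) :
    (g.ph X : ℝ) = (g.an : ℝ) ^ X * (g.ad : ℝ) ^ (6 * g.r - X) := by
  have : g.ph X = g.an ^ X * g.ad ^ (6 * g.r - X) := rfl
  rw [this]; push_cast; rfl

theorem ph_eq {g : Grid} (han : 0 < g.an) (had : 0 < g.ad) {X : ℕ} (hX : X ≤ 6 * g.r) :
    (g.ph X : ℝ) = g.a ^ ((X : ℤ) - 2 * g.r) * g.ph (2 * g.r) := by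
  rw [ph_cast, ph_cast, pw han had (o := 2 * g.r) (by omega) hX]
  push_cast
  rfl

theorem coord_sound {g : Grid} {en ed' uA mu tot p v x0 x1 x2 ce : ℕ} (han : 0 < g.an)
    (had : 0 < g.ad) (hed : 0 < ed') (hu : 0 < uA) (h0 : x0 ≤ 6 * g.r) (h1 : x1 ≤ 6 * g.r)
    (h2 : x2 ≤ 6 * g.r) (h : coordOK g en ed' uA mu tot p v x0 x1 x2 ce = true) :
    (eC0 v : ℝ) * g.a ^ ((x0 : ℤ) - 2 * g.r) + eC1 v * g.a ^ ((x1 : ℤ) - 2 * g.r) +
      eC2 v * g.a ^ ((x2 : ℤ) - 2 * g.r) + ce ≤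
      mu * (-((en : ℝ) / ed') * ((p : ℝ) / uA) + (1 - -((en : ℝ) / ed')) * ((tot : ℝ) / uA / 3)) := by
  have h3 : 3 * ed' * uA * (eC0 v * g.ph x0 + eC1 v * g.ph x1 +
      (eC2 v * g.ph x2 + ce * g.ph (2 * g.r))) + mu * (3 * en) * g.ph (2 * g.r) * p ≤
      mu * (ed' + en) * g.ph (2 * g.r) * tot := Nat.le_of_ble_eq_true h
  have h4 : (3 * ed' * uA * (eC0 v * g.ph x0 + eC1 v * g.ph x1 +
      (eC2 v * g.ph x2 + ce * g.ph (2 * g.r))) + mu * (3 * en) * g.ph (2 * g.r) * p : ℝ) ≤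
      mu * (ed' + en) * g.ph (2 * g.r) * tot := by exact_mod_cast h3
  have hD : (0 : ℝ) < g.ph (2 * g.r) := by rw [ph_cast]; positivity
  rw [ph_eq han had h0, ph_eq han had h1, ph_eq han had h2] at h4
  generalize (g.ph (2 * g.r) : ℝ) = D at h4 hD
  have he : (0 : ℝ) < ed' := Nat.cast_pos.2 hed
  have hu' : (0 : ℝ) < uA := Nat.cast_pos.2 hu
  refine le_of_mul_le_mul_left ?_ (show 0 < 3 * ed' * uA * D by positivity)
  have e : 3 * ed' * uA * D * (mu * (-((en : ℝ) / ed') * ((p : ℝ) / uA) +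
      (1 - -((en : ℝ) / ed')) * ((tot : ℝ) / uA / 3))) =
      mu * (ed' + en) * D * tot - mu * (3 * en) * D * p := by
    field_simp
    ring
  rw [e]
  linarith

theorem hom' {G : Vec 3 → ℝ} (hG : Sup G) {c : ℝ} (hc : 0 ≤ c) {P : Vec 3} (h : Pos (c • P)) :
    G (c • P) = c * G P := by
  rcases hc.eq_or_lt with rfl | hc'
  · have := hG.adm.hom 0 le_rfl 0 fun _ => le_rfl
    simpa using this
  · exact hG.adm.hom c hc P fun i => nonneg_of_mul_nonneg_right (h i) hc'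

theorem ed_eq {G : Vec 3 → ℝ} (hG : Sup G) (i : Fin 3) : G (ed i) = G (ed 0) := by
  rw [← hG.sym (Equiv.swap 0 i) _ (pos_ed 0)]
  congr 1
  funext k
  simp only [perm, ed, Equiv.swap_apply_eq_iff, Equiv.swap_apply_left]

theorem val_rd {g : Grid} {v : ℕ} (h0 : eI0 v < g.n) (h1 : eI1 v < g.n) (h2 : eI2 v < g.n)
    (G : Vec 3 → ℝ) : g.val (rd g.n v) G = eC0 v * G (lp g.a (g.pt (eI0 v))) +
      eC1 v * G (lp g.a (g.pt (eI1 v))) + eC2 v * G (lp g.a (g.pt (eI2 v))) +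
      eCe v * G (ed 0) := by
  simp only [Grid.val, rd, Nat.cast_add, Nat.cast_ite, Nat.cast_zero, add_mul, ite_mul, zero_mul,
    sum_add_distrib, sum_ite_eq, mem_range, h0, h1, h2, if_true, h0.ne, h1.ne, h2.ne, if_false,
    lt_self_iff_false, Nat.succ_ne_self, show ¬ g.n + 1 < g.n by omega]
  ring

theorem rd_top {n v : ℕ} (h0 : eI0 v < n) (h1 : eI1 v < n) (h2 : eI2 v < n) :
    rd n v (n + 1) = eM v := by
  rw [rd, if_neg (by omega), if_neg (by omega), if_neg (by omega), if_neg (by omega), if_pos rfl]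
  simp

theorem val_add (g : Grid) (d d' : ℕ → ℕ) (G : Vec 3 → ℝ) :
    g.val (fun k => d k + d' k) G = g.val d G + g.val d' G := by
  simp only [Grid.val, Nat.cast_add, add_mul, sum_add_distrib]
  ring

theorem lp_two {g : Grid} {X Y : ℕ} (h : X + Y ≤ 6 * g.r) :
    lp g.a ((X : ℤ) - 2 * g.r, (Y : ℤ) - 2 * g.r) 2 =
      g.a ^ (((6 * g.r - X - Y : ℕ) : ℤ) - 2 * g.r) := by
  change g.a ^ _ = _
  congr 1
  simp only
  omega

end DEEntryH

open DEEntryH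

theorem rowE_eq {n v : ℕ} (h0 : eI0 v < n) (h1 : eI1 v < n) (h2 : eI2 v < n) :
    rowE n v = ∑ k ∈ range (n + 2), rd n v k * 2 ^ (64 * k) := by
  have e : rowE n v = eC0 v <<< (64 * eI0 v) + eC1 v <<< (64 * eI1 v) +
      (eC2 v <<< (64 * eI2 v) + (eCe v + eM v <<< 64) <<< (64 * n)) := rfl
  simp only [e, Nat.shiftLeft_eq, rd, add_mul, ite_mul, zero_mul, sum_add_distrib, sum_ite_eq,
    mem_range, show eI0 v < n + 2 by omega, show eI1 v < n + 2 by omega,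
    show eI2 v < n + 2 by omega, show n < n + 2 by omega, show n + 1 < n + 2 by omega, if_true]
  ring

theorem entry_sound {g : Grid} {en ed' uA mult p0 p1 p2 v : ℕ} (han : 0 < g.an) (had : 0 < g.ad)
    (hed : 0 < ed') (hu : 0 < uA) (h : entryOK g en ed' uA mult p0 p1 p2 v = true) :
    rowE g.n v = ∑ k ∈ range (g.n + 2), rd g.n v k * 2 ^ (64 * k) ∧
    2 ^ 22 * mult * av (![(p0 : ℝ) / uA, (p1 : ℝ) / uA, (p2 : ℝ) / uA] : Vec 3) ≤
      rd g.n v (g.n + 1) ∧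
    ∀ G : Vec 3 → ℝ, Sup G → g.val (rd g.n v) G ≤ 2 ^ 22 * mult *
      G (Tv (-((en : ℝ) / ed')) ![(p0 : ℝ) / uA, (p1 : ℝ) / uA, (p2 : ℝ) / uA]) := by
  unfold entryOK at h
  generalize fld v 190 255 = i at h
  generalize fld v 198 255 = j at h
  generalize fld v 206 1 = t at h
  generalize fld v 207 3 = ie at h
  simp only [Bool.and_eq_true] at h
  obtain ⟨⟨⟨⟨⟨⟨⟨o0, o1⟩, o2⟩, hie⟩, hM⟩, c0⟩, c1⟩, c2⟩ := h
  obtain ⟨k0, s0, σ0, e0⟩ := orbOK_perm (X := i + t) (Y := j + t) o0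
  obtain ⟨k1, s1, σ1, e1⟩ := orbOK_perm (X := i + 1) (Y := j) o1
  obtain ⟨k2, s2, σ2, e2⟩ := orbOK_perm (X := i) (Y := j + 1) o2
  have hie' : ie ≤ 2 := Nat.le_of_ble_eq_true hie
  have hM' : 4194304 * mult * (p0 + p1 + p2) ≤ 3 * uA * eM v := Nat.le_of_ble_eq_true hM
  have hu' : (0 : ℝ) < uA := Nat.cast_pos.2 hu
  have ha : 0 < g.a := div_pos (Nat.cast_pos.2 han) (Nat.cast_pos.2 had)
  have hav : av (![(p0 : ℝ) / uA, (p1 : ℝ) / uA, (p2 : ℝ) / uA] : Vec 3) =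
      ((p0 + p1 + p2 : ℕ) : ℝ) / uA / 3 := by
    simp only [av, Fin.sum_univ_three, Matrix.cons_val_zero, Matrix.cons_val_one,
      Matrix.cons_val]
    push_cast
    ring
  have hmu : (2 ^ 22 * mult : ℝ) = ((4194304 * mult : ℕ) : ℝ) := by push_cast; norm_num
  refine ⟨rowE_eq k0 k1 k2, ?_, fun G hG => ?_⟩
  · rw [rd_top k0 k1 k2, hav, hmu, div_div, ← mul_div_assoc, div_le_iff₀ (by positivity)]
    have : ((4194304 * mult : ℕ) : ℝ) * ((p0 + p1 + p2 : ℕ) : ℝ) ≤ 3 * uA * eM v := by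
      exact_mod_cast hM'
    linarith
  · have d0 := coord_sound (x0 := i + t) (x1 := i + 1) (x2 := i) (mu := 4194304 * mult)
      (tot := p0 + p1 + p2) han had hed hu (by omega) (by omega) (by omega) c0
    have d1 := coord_sound (x0 := j + t) (x1 := j) (x2 := j + 1) (mu := 4194304 * mult)
      (tot := p0 + p1 + p2) han had hed hu (by omega) (by omega) (by omega) c1
    have d2 := coord_sound (x0 := 6 * g.r - (i + t) - (j + t)) (x1 := 6 * g.r - (i + 1) - j)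
      (x2 := 6 * g.r - i - (j + 1)) (mu := 4194304 * mult)
      (tot := p0 + p1 + p2) han had hed hu (by omega) (by omega) (by omega) c2
    rw [← lp_two s0, ← lp_two s1, ← lp_two s2] at d2
    rw [val_rd k0 k1 k2, ← hG.sym σ0 _ (pos_lp ha _), ← hG.sym σ1 _ (pos_lp ha (g.pt (eI1 v))),
      ← hG.sym σ2 _ (pos_lp ha (g.pt (eI2 v))), ← e0, ← e1, ← e2, ← ed_eq hG ⟨ie, by omega⟩, hmu]
    set P0 := lp g.a (((i + t : ℕ) : ℤ) - 2 * g.r, ((j + t : ℕ) : ℤ) - 2 * g.r) with hP0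
    set P1 := lp g.a (((i + 1 : ℕ) : ℤ) - 2 * g.r, (j : ℤ) - 2 * g.r) with hP1
    set P2 := lp g.a ((i : ℤ) - 2 * g.r, ((j + 1 : ℕ) : ℤ) - 2 * g.r) with hP2
    have q0 : Pos P0 := pos_lp ha _
    have q1 : Pos P1 := pos_lp ha _
    have q2 : Pos P2 := pos_lp ha _
    have q3 : Pos (ed ⟨ie, by omega⟩) := pos_ed _
    have r0 := q0.smul (Nat.cast_nonneg (eC0 v))
    have r1 := q1.smul (Nat.cast_nonneg (eC1 v))
    have r2 := q2.smul (Nat.cast_nonneg (eC2 v))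
    have r3 := q3.smul (Nat.cast_nonneg (eCe v))
    have hle : ∀ k, ((eC0 v : ℝ) • P0 + (eC1 v : ℝ) • P1 + (eC2 v : ℝ) • P2 +
        (eCe v : ℝ) • ed ⟨ie, by omega⟩) k ≤ (((4194304 * mult : ℕ) : ℝ) •
        Tv (-((en : ℝ) / ed')) ![(p0 : ℝ) / uA, (p1 : ℝ) / uA, (p2 : ℝ) / uA]) k := by
      intro k
      simp only [Pi.add_apply, Pi.smul_apply, smul_eq_mul, Tv, hav]
      fin_cases k
      · refine le_trans (le_of_eq ?_) d0
        congr 1
        interval_cases ie <;> simp [ed, Nat.beq]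
      · refine le_trans (le_of_eq ?_) d1
        congr 1
        interval_cases ie <;> simp [ed, Nat.beq]
      · refine le_trans (le_of_eq ?_) d2
        congr 1
        interval_cases ie <;> simp [ed, Nat.beq]
    have hpos := ((r0.add r1).add r2).add r3
    rw [← hom' hG (Nat.cast_nonneg _) fun k => (hpos k).trans (hle k),
      ← hG.adm.hom _ (Nat.cast_nonneg _) _ q0, ← hG.adm.hom _ (Nat.cast_nonneg _) _ q1,
      ← hG.adm.hom _ (Nat.cast_nonneg _) _ q2, ← hG.adm.hom _ (Nat.cast_nonneg _) _ q3]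
    have a1 := hG.sup _ _ r0 r1
    have a2 := hG.sup _ _ (r0.add r1) r2
    have a3 := hG.sup _ _ ((r0.add r1).add r2) r3
    have a4 := Sup.mono' hG hpos hle
    linarith

/-- what one code of the table provides -/
theorem repOK_sound {g : Grid} {an ad en ed' S oA X Y c : ℕ} (han : 0 < g.an) (had : 0 < g.ad)
    (hed : 0 < ed') (ha : 0 < an) (hd : 0 < ad) (h : repOK g an ad en ed' S oA X Y c = true) :
    X < S ∧ Y ≤ X ∧ X + Y ≤ 3 * oA ∧ 3 * oA - X - Y ≤ Y ∧ ∃ dA dB : ℕ → ℕ,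
      rowE g.n c = ∑ k ∈ range (g.n + 2), dA k * 2 ^ (64 * k) ∧
      rowB g.n c = ∑ k ∈ range (g.n + 2), dB k * 2 ^ (64 * k) ∧
      2 ^ 22 * mult3 X Y (3 * oA - X - Y) *
        av (lp ((an : ℝ) / ad) ((X : ℤ) - oA, (Y : ℤ) - oA)) ≤ dA (g.n + 1) ∧
      2 ^ 22 * mult3 X Y (3 * oA - X - Y) *
        ∑ i, av (lp ((an : ℝ) / ad) ((X : ℤ) - oA, (Y : ℤ) - oA) * ed i) ≤ dB (g.n + 1) ∧
      ∀ G : Vec 3 → ℝ, Sup G →
        g.val dA G ≤ 2 ^ 22 * mult3 X Y (3 * oA - X - Y) *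
          G (Tv (-((en : ℝ) / ed')) (lp ((an : ℝ) / ad) ((X : ℤ) - oA, (Y : ℤ) - oA))) ∧
        g.val dB G ≤ 2 ^ 22 * mult3 X Y (3 * oA - X - Y) *
          ∑ i, G (Tv (-((en : ℝ) / ed'))
            (lp ((an : ℝ) / ad) ((X : ℤ) - oA, (Y : ℤ) - oA) * ed i)) := by
  unfold repOK at h
  simp only [Bool.and_eq_true] at h
  obtain ⟨⟨⟨⟨⟨⟨⟨a1, a2⟩, a3⟩, a4⟩, b0⟩, b1⟩, b2⟩, b3⟩ := h
  have a1' : X + 1 ≤ S := Nat.le_of_ble_eq_true a1
  have a2' : Y ≤ X := Nat.le_of_ble_eq_true a2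
  have a3' : X + Y ≤ 3 * oA := Nat.le_of_ble_eq_true a3
  have a4' : 3 * oA - X - Y ≤ Y := Nat.le_of_ble_eq_true a4
  have hc : ∀ W, (phA an ad oA W : ℝ) = (an : ℝ) ^ W * (ad : ℝ) ^ (3 * oA - W) := fun W => by
    have : phA an ad oA W = an ^ W * ad ^ (3 * oA - W) := rfl
    rw [this]; push_cast; rfl
  have hu' : (0 : ℝ) < phA an ad oA oA := by rw [hc]; positivity
  have hu : 0 < phA an ad oA oA := Nat.cast_pos.1 hu'
  have hq : ∀ W, W ≤ 3 * oA → (phA an ad oA W : ℝ) / phA an ad oA oA =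
      ((an : ℝ) / ad) ^ ((W : ℤ) - oA) := fun W hW => by
    rw [div_eq_iff hu'.ne', hc, hc, pw ha hd (o := oA) (by omega) hW]
  have hZ : (((3 * oA - X - Y : ℕ) : ℤ) - oA) = -((X : ℤ) - oA) - ((Y : ℤ) - oA) := by omega
  obtain ⟨r0, m0, v0⟩ := entry_sound (mult := mult3 X Y (3 * oA - X - Y))
    (p2 := phA an ad oA (3 * oA - X - Y)) han had hed hu b0
  obtain ⟨r1, m1, v1⟩ := entry_sound (mult := mult3 X Y (3 * oA - X - Y))
    (p2 := phA an ad oA (3 * oA - X - Y)) han had hed hu b1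
  obtain ⟨r2, m2, v2⟩ := entry_sound (mult := mult3 X Y (3 * oA - X - Y))
    (p2 := phA an ad oA (3 * oA - X - Y)) han had hed hu b2
  obtain ⟨r3, m3, v3⟩ := entry_sound (mult := mult3 X Y (3 * oA - X - Y)) han had hed hu b3
  simp only [hq X (by omega), hq Y (by omega), hq (3 * oA - X - Y) (by omega), hZ, Nat.cast_zero,
    zero_div] at m0 m1 m2 m3 v0 v1 v2 v3
  set A := ((an : ℝ) / ad) ^ ((X : ℤ) - oA)
  set B := ((an : ℝ) / ad) ^ ((Y : ℤ) - oA)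
  set C := ((an : ℝ) / ad) ^ (-((X : ℤ) - oA) - ((Y : ℤ) - oA))
  have e : lp ((an : ℝ) / ad) ((X : ℤ) - oA, (Y : ℤ) - oA) = ![A, B, C] := rfl
  have e0 : (![A, B, C] : Vec 3) * ed 0 = ![0, B, C] := by
    funext k; fin_cases k <;> simp [ed]
  have e1 : (![A, B, C] : Vec 3) * ed 1 = ![A, 0, C] := by
    funext k; fin_cases k <;> simp [ed]
  have e2 : (![A, B, C] : Vec 3) * ed 2 = ![A, B, 0] := by
    funext k; fin_cases k <;> simp [ed]
  refine ⟨a1', a2', a3', a4', rd g.n c, fun k => rd g.n (Nat.shiftRight c 210) k +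
    (rd g.n (Nat.shiftRight c 420) k + rd g.n (Nat.shiftRight c 630) k), r0, ?_, ?_, ?_,
    fun G hG => ⟨?_, ?_⟩⟩
  · simp only [add_mul, sum_add_distrib, ← r1, ← r2, ← r3]
    rfl
  · rw [e]; exact m0
  · rw [e, Fin.sum_univ_three, e0, e1, e2]
    push_cast
    linarith
  · rw [e]; exact v0 G hG
  · rw [e, Fin.sum_univ_three, e0, e1, e2, val_add, val_add]
    linarith [v1 G hG, v2 G hG, v3 G hG]

theorem tabOK_append {g : Grid} {an ad en ed' S oA Y Y' : ℕ} {l l' : List (ℕ × List ℕ)}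
    (h : tabOK g an ad en ed' S oA l Y = true) (h' : tabOK g an ad en ed' S oA l' Y' = true)
    (e : Y' = Y + l.length) : tabOK g an ad en ed' S oA (l ++ l') Y = true := by
  induction l generalizing Y with
  | nil => rw [e] at h'; exact h'
  | cons x l ih =>
    have e1 : ∀ (m : List (ℕ × List ℕ)), tabOK g an ad en ed' S oA (x :: m) Y =
        Bool.rec false (tabOK g an ad en ed' S oA m (Y + 1))
          (rowOK g an ad en ed' S oA Y x.2 x.1) := fun _ => rfl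
    rw [List.cons_append, e1]
    rw [e1] at h
    cases hr : rowOK g an ad en ed' S oA Y x.2 x.1 with
    | false => rw [hr] at h; exact h
    | true =>
      rw [hr] at h
      exact ih h (by rw [e, List.length_cons]; omega)

end Crest.Agent.R163.DE
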