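import Crest.Agent.R163.DEDefs

/-! Row 163: lattice measures as lower bounds of laws. -/

set_option autoImplicit false

namespace Crest.Agent.R163.DE

open Finset Ck

variable {a : ℝ}

theorem pos_lp (ha : 0 < a) (p : ℤ × ℤ) : Pos (lp a p) := by
  intro i
  fin_cases i <;> simp [lp] <;> positivity

theorem pos_ed (i : Fin 3) : Pos (ed i) := by
  intro k
  unfold ed
  split_ifs <;> norm_num

theorem lp_add (ha : 0 < a) (p p' : ℤ × ℤ) : lp a (p + p') = lp a p * lp a p' := by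
  funext i
  fin_cases i
  · simp [lp, zpow_add₀ ha.ne']
  · simp [lp, zpow_add₀ ha.ne']
  · simp only [lp, Prod.fst_add, Prod.snd_add, Pi.mul_apply, Fin.reduceFinMk, Matrix.cons_val]
    rw [← zpow_add₀ ha.ne']
    congr 1
    ring

theorem lp_zero : lp a 0 = 1 := by
  funext i
  fin_cases i <;> simp [lp]

theorem one_le_av_lp (ha : 0 < a) (p : ℤ × ℤ) : 1 ≤ av (lp a p) := by
  have h : ∀ z : ℤ, (z : ℝ) * Real.log a + 1 ≤ a ^ z := fun z => by
    rw [← Real.log_zpow]
    exact (Real.add_one_le_exp _).trans_eq (Real.exp_log (zpow_pos ha z))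
  have h1 := h p.1
  have h2 := h p.2
  have h3 := h (-p.1 - p.2)
  push_cast at h3
  simp only [av, lp, Fin.sum_univ_three, Matrix.cons_val_zero, Matrix.cons_val_one,
    Matrix.cons_val, Nat.cast_ofNat]
  rw [le_div_iff₀ (by norm_num)]
  linarith

theorem sup_av : Sup (av : Vec 3 → ℝ) := by
  exact ⟨adm_av, fun _ h => av_nonneg h, fun P Q _ _ => (av_add P Q).ge, fun σ P _ => av_perm σ P⟩

theorem Sup.mono' {H : Vec 3 → ℝ} (h : Sup H) {P Q : Vec 3} (hP : Pos P) (hPQ : ∀ i, P i ≤ Q i) :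
    H P ≤ H Q := by
  have hD : Pos (Q - P) := fun i => sub_nonneg.2 (hPQ i)
  have h1 := h.sup P (Q - P) hP hD
  rw [add_sub_cancel] at h1
  linarith [h.nonneg _ hD]

theorem Phi_zero (G : Vec 3 → ℝ) : Phi a 0 G = 0 := by
  simp [Phi]

theorem Phi_single (p : ℤ × ℤ) (c : ℕ) (G : Vec 3 → ℝ) :
    Phi a (AddMonoidAlgebra.single p c) G = c * G (lp a p) := by
  unfold Phi
  rw [AddMonoidAlgebra.coeff_single, Finsupp.sum_single_index (by simp)]

theorem Phi_add (w w' : Arr) (G : Vec 3 → ℝ) : Phi a (w + w') G = Phi a w G + Phi a w' G := by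
  unfold Phi
  rw [AddMonoidAlgebra.coeff_add, Finsupp.sum_add_index' (by simp) (by simp [add_mul])]

theorem Phi_smul (c : ℕ) (w : Arr) (G : Vec 3 → ℝ) : Phi a (c • w) G = c * Phi a w G := by
  induction c with
  | zero => simp [Phi_zero]
  | succ c ih => rw [succ_nsmul, Phi_add, ih]; push_cast; ring

theorem Phi_mul (ha : 0 < a) (w w' : Arr) (G : Vec 3 → ℝ) :
    Phi a (w * w') G = Phi a w (fun P => Phi a w' (fun Q => G (P * Q))) := by
  induction w using AddMonoidAlgebra.induction_linear with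
  | zero => rw [zero_mul, Phi_zero, Phi_zero]
  | add x y hx hy => rw [add_mul, Phi_add, Phi_add, hx, hy]
  | single p c =>
    rw [Phi_single]
    induction w' using AddMonoidAlgebra.induction_linear with
    | zero => rw [mul_zero, Phi_zero, Phi_zero, mul_zero]
    | add x y hx hy => rw [mul_add, Phi_add, Phi_add, hx, hy, mul_add]
    | single p' c' =>
      rw [AddMonoidAlgebra.single_mul_single, Phi_single, Phi_single, lp_add ha]
      push_cast
      ring

theorem Lat_Phi_eq (w : Arr) (G : Vec 3 → ℝ) {s : Finset (ℤ × ℤ)} (h : w.coeff.support ⊆ s) :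
    Phi a w G = ∑ p ∈ s, (w.coeff p : ℝ) * G (lp a p) :=
  Finsupp.sum_of_support_subset _ h _ (by simp)

theorem Lat_Phi_mono (ha : 0 < a) (w : Arr) {G G' : Vec 3 → ℝ} (h : ∀ P, Pos P → G P ≤ G' P) :
    Phi a w G ≤ Phi a w G' :=
  sum_le_sum fun p _ => mul_le_mul_of_nonneg_left (h _ (pos_lp ha p)) (Nat.cast_nonneg _)

theorem Lat_Phi_nonneg (ha : 0 < a) (w : Arr) {G : Vec 3 → ℝ} (h : ∀ P, Pos P → 0 ≤ G P) :
    0 ≤ Phi a w G :=
  sum_nonneg fun p _ => mul_nonneg (Nat.cast_nonneg _) (h _ (pos_lp ha p))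

theorem Lat_Phi_sum_fun {ι : Type*} (s : Finset ι) (w : Arr) (G : ι → Vec 3 → ℝ) :
    Phi a w (fun P => ∑ i ∈ s, G i P) = ∑ i ∈ s, Phi a w (G i) := by
  simp only [Phi, Finsupp.sum, mul_sum]
  exact sum_comm

theorem Lat_Phi_add_fun (w : Arr) (G G' : Vec 3 → ℝ) :
    Phi a w (fun P => G P + G' P) = Phi a w G + Phi a w G' := by
  simp only [Phi, Finsupp.sum, mul_add, sum_add_distrib]

theorem Phi_le (ha : 0 < a) {w w' : Arr} {c : ℕ} (h : ∀ p, c * w'.coeff p ≤ w.coeff p)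
    {G : Vec 3 → ℝ} (hG : ∀ P, Pos P → 0 ≤ G P) : c * Phi a w' G ≤ Phi a w G := by
  classical
  rw [Lat_Phi_eq w' G (s := w.coeff.support ∪ w'.coeff.support) subset_union_right,
    Lat_Phi_eq w G (s := w.coeff.support ∪ w'.coeff.support) subset_union_left, mul_sum]
  refine sum_le_sum fun p _ => ?_
  rw [← mul_assoc]
  exact mul_le_mul_of_nonneg_right (by exact_mod_cast h p) (hG _ (pos_lp ha p))

theorem Phi_ge_sum (ha : 0 < a) (w : Arr) {G : Vec 3 → ℝ} (hG : ∀ P, Pos P → 0 ≤ G P)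
    (s : Finset (ℤ × ℤ)) : ∑ p ∈ s, (w.coeff p : ℝ) * G (lp a p) ≤ Phi a w G := by
  classical
  rw [Lat_Phi_eq w G (s := w.coeff.support ∪ s) subset_union_left]
  exact sum_le_sum_of_subset_of_nonneg subset_union_right fun p _ _ =>
    mul_nonneg (Nat.cast_nonneg _) (hG _ (pos_lp ha p))

theorem Symm.zero : Symm 0 := by
  intro x y
  simp

theorem Symm.center (c : ℕ) : Symm (AddMonoidAlgebra.single 0 c) := by
  intro x y
  simp only [AddMonoidAlgebra.coeff_single, Finsupp.single_apply, Prod.ext_iff, Prod.fst_zero,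
    Prod.snd_zero]
  constructor <;> exact if_congr (by omega) rfl rfl

theorem Symm.add {w w' : Arr} (h : Symm w) (h' : Symm w') : Symm (w + w') := by
  intro x y
  simp only [AddMonoidAlgebra.coeff_add, Finsupp.add_apply, (h x y).1, (h x y).2, (h' x y).1,
    (h' x y).2, and_self]

theorem Symm.smul (c : ℕ) {w : Arr} (h : Symm w) : Symm (c • w) := by
  intro x y
  simp only [AddMonoidAlgebra.coeff_smul_apply, (h x y).1, (h x y).2, and_self]

/-- the reflection `(x, y) ↦ (x, -x-y)` -/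
def Lat_refl3 : ℤ × ℤ ≃+ ℤ × ℤ where
  toFun p := (p.1, -p.1 - p.2)
  invFun p := (p.1, -p.1 - p.2)
  left_inv p := by simp
  right_inv p := by simp
  map_add' p p' := by ext <;> simp only [Prod.fst_add, Prod.snd_add]; ring

theorem Lat_inv_mul (e : ℤ × ℤ ≃+ ℤ × ℤ) {w w' : Arr} (h : ∀ p, w.coeff (e p) = w.coeff p)
    (h' : ∀ p, w'.coeff (e p) = w'.coeff p) (p : ℤ × ℤ) :
    (w * w').coeff (e p) = (w * w').coeff p := by
  have key : ∀ v : Arr, ∀ p, (AddMonoidAlgebra.mapDomainRingEquiv ℕ e.symm v).coeff p =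
      v.coeff (e p) := fun v p => by
    rw [AddMonoidAlgebra.coeff_mapDomainRingEquiv, Finsupp.equivMapDomain_apply]
    rfl
  have fix : ∀ v : Arr, (∀ p, v.coeff (e p) = v.coeff p) →
      AddMonoidAlgebra.mapDomainRingEquiv ℕ e.symm v = v := fun v hv =>
    AddMonoidAlgebra.coeff_injective (Finsupp.ext fun p => (key v p).trans (hv p))
  rw [← key, map_mul, fix w h, fix w' h']

theorem Symm.mul {w w' : Arr} (h : Symm w) (h' : Symm w') : Symm (w * w') := by
  intro x y
  exact ⟨Lat_inv_mul (AddEquiv.prodComm) (fun p => (h p.1 p.2).1) (fun p => (h' p.1 p.2).1) (x, y),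
    Lat_inv_mul Lat_refl3 (fun p => (h p.1 p.2).2) (fun p => (h' p.1 p.2).2) (x, y)⟩

theorem Symm.trunc {w w' : Arr} (h : Symm w) {o n c : ℕ}
    (e : ∀ p, w'.coeff p = if inHex o n p then w.coeff p / c else 0) : Symm w' := by
  intro x y
  rw [e, e, e, (h x y).1, (h x y).2]
  constructor <;> exact if_congr (by simp only [inHex]; omega) rfl rfl

theorem LbAB.one (c : ℕ) : LbAB a Law.one (AddMonoidAlgebra.single 0 c) 0 c := by
  intro H _ P _
  rw [Phi_single, Phi_zero, lp_zero, add_zero]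
  rfl

theorem Lat_ed_mul_self (i : Fin 3) : ed i * ed i = ed i := by
  funext k
  simp only [ed, Pi.mul_apply]
  split_ifs <;> norm_num

theorem LbAB.star (ha : 0 < a) {L N : Law 3} {A B ν : Arr} {η : ℕ} {s s' : ℝ} (hs : 0 ≤ s)
    (h : LbAB a L A B s) (h' : LbAB a N ν (AddMonoidAlgebra.single 0 η) s') :
    LbAB a (L.star N) (ν * A) (ν * B + η • (A + B)) (s * s') := by
  intro H hH P hP
  have aL : ∀ {R : Vec 3}, Pos R → Adm fun Q => H (P * Q * R) := fun {R} hR => by
    simpa only [mul_right_comm P R] using hH.adm.mul_left (hP.mul hR)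
  have aI : Adm fun Q => N.E fun R => H (P * (Q * R)) := N.adm_inner (hH.adm.mul_left hP)
  have a1 : Adm fun Q => ∑ y ∈ ν.coeff.support, (ν.coeff y : ℝ) * H (P * Q * lp a y) :=
    Adm.sum _ fun y _ => (aL (pos_lp ha y)).smul _
  have a2 : Adm fun Q => ∑ i, H (P * Q * ed i) := Adm.sum _ fun i _ => aL (pos_ed i)
  have h1 := L.mono (a1.add (a2.smul η)) (aI.smul s') fun Q hQ => by
    have := h' H hH (P * Q) (hP.mul hQ)
    rw [Phi_single, lp_zero] at this
    simpa only [mul_one, mul_assoc, Phi, Finsupp.sum] using this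
  rw [L.smul _ aI, L.add a1 (a2.smul η), L.smul _ a2,
    L.sum _ fun y _ => (aL (pos_lp ha y)).smul _, L.sum _ fun i _ => aL (pos_ed i),
    sum_congr rfl fun y _ => L.smul _ (aL (pos_lp ha y))] at h1
  have h2 : Phi a (ν * A) (fun Q => H (P * Q)) + Phi a (ν * B) (fun Q => ∑ i, H (P * Q * ed i)) ≤
      s * ∑ y ∈ ν.coeff.support, (ν.coeff y : ℝ) * L.E fun Q => H (P * Q * lp a y) := by
    rw [Phi_mul ha, Phi_mul ha, ← Lat_Phi_add_fun, mul_sum]
    refine sum_le_sum fun y _ => ?_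
    rw [mul_left_comm]
    refine mul_le_mul_of_nonneg_left ?_ (Nat.cast_nonneg _)
    have := h H hH (P * lp a y) (hP.mul (pos_lp ha y))
    simpa only [mul_right_comm P _ (lp a y), mul_assoc P (lp a y)] using this
  have h3 : Phi a A (fun Q => ∑ i, H (P * Q * ed i)) + Phi a B (fun Q => ∑ i, H (P * Q * ed i)) ≤
      s * ∑ i, L.E fun Q => H (P * Q * ed i) := by
    rw [Lat_Phi_sum_fun, Lat_Phi_sum_fun, ← sum_add_distrib, mul_sum]
    refine sum_le_sum fun i _ => ?_
    have := h H hH (P * ed i) (hP.mul (pos_ed i))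
    simp only [mul_right_comm P (ed i)] at this
    refine le_trans (add_le_add le_rfl (Lat_Phi_mono ha B fun Q hQ => ?_)) this
    refine le_trans (le_of_eq ?_) (single_le_sum (f := fun j => H (P * Q * ed i * ed j))
      (fun j _ => hH.nonneg _ (((hP.mul hQ).mul (pos_ed i)).mul (pos_ed j))) (mem_univ i))
    rw [mul_assoc _ (ed i), Lat_ed_mul_self]
  rw [Phi_add, Phi_smul, Phi_add]
  have h4 := mul_le_mul_of_nonneg_left h1 hs
  have h5 := mul_le_mul_of_nonneg_left h3 (Nat.cast_nonneg (α := ℝ) η)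
  change _ ≤ s * s' * L.E fun Q => N.E fun R => H (P * (Q * R))
  nlinarith

theorem LbAB.shrink (ha : 0 < a) {L : Law 3} {A B A' B' : Arr} {c : ℕ} (hc : 0 < c) {s : ℝ}
    (h : LbAB a L A B (s * c)) (hA : ∀ p, c * A'.coeff p ≤ A.coeff p)
    (hB : ∀ p, c * B'.coeff p ≤ B.coeff p) : LbAB a L A' B' s := by
  intro H hH P hP
  have h1 := h H hH P hP
  have h2 := Phi_le ha hA (G := fun Q => H (P * Q)) fun Q hQ => hH.nonneg _ (hP.mul hQ)
  have h3 := Phi_le ha hB (G := fun Q => ∑ i, H (P * Q * ed i)) fun Q hQ =>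
    sum_nonneg fun i _ => hH.nonneg _ ((hP.mul hQ).mul (pos_ed i))
  have hc' : (0 : ℝ) < c := by exact_mod_cast hc
  refine le_of_mul_le_mul_left ?_ hc'
  nlinarith

theorem LbAB.lb1 {L : Law 3} {A B : Arr} {s : ℝ} (h : LbAB a L A B s) : Lb1 a L A B s := by
  intro H hH
  simpa only [one_mul] using h H hH 1 pos_one

theorem Lb1.bound (ha : 0 < a) {L : Law 3} {A B : Arr} {s : ℝ} (h : Lb1 a L A B s) (p : ℤ × ℤ) :
    (A.coeff p : ℝ) ≤ s ∧ (B.coeff p : ℝ) ≤ s := by
  have h1 := h av sup_av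
  have e : ∀ Q : Vec 3, ∑ i, av (Q * ed i) = 2 * av Q := fun Q => by
    simp [av, ed, Fin.sum_univ_three]
    ring
  rw [L.norm, mul_one] at h1
  simp only [e] at h1
  have h2 := Phi_ge_sum ha A (G := av) (fun _ h => av_nonneg h) {p}
  have h3 := Phi_ge_sum ha B (G := fun Q => 2 * av Q)
    (fun _ h => mul_nonneg two_pos.le (av_nonneg h)) {p}
  have h4 := Lat_Phi_nonneg ha A (G := av) fun _ h => av_nonneg h
  have h5 := Lat_Phi_nonneg ha B (G := fun Q => 2 * av Q)
    fun _ h => mul_nonneg two_pos.le (av_nonneg h)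
  rw [sum_singleton] at h2 h3
  have h6 := one_le_av_lp ha p
  have h7 : (0 : ℝ) ≤ A.coeff p := Nat.cast_nonneg _
  have h8 : (0 : ℝ) ≤ B.coeff p := Nat.cast_nonneg _
  constructor <;> nlinarith

end Crest.Agent.R163.DE
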