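import Crest.Agent.R163.DETrunc
import Crest.Agent.R163.DELat

/-! Row 163: orbits of lattice points and the symmetrisation of a state. -/

set_option autoImplicit false

namespace Crest.Agent.R163.DEExpandH

open Finset Ck DE

theorem mx_eq (a b : ℕ) : mx a b = max a b := by
  unfold mx
  by_cases h : a ≤ b
  · rw [Nat.ble_eq_true_of_le h, max_eq_right h]
  · have : Nat.ble a b = false := by
      rw [Bool.eq_false_iff]; exact fun h' => h (Nat.le_of_ble_eq_true h')
    rw [this, max_eq_left (by omega)]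

theorem mn_eq (a b : ℕ) : mn a b = min a b := by
  unfold mn
  by_cases h : a ≤ b
  · rw [Nat.ble_eq_true_of_le h, min_eq_left h]
  · have : Nat.ble a b = false := by
      rw [Bool.eq_false_iff]; exact fun h' => h (Nat.le_of_ble_eq_true h')
    rw [this, min_eq_right (by omega)]

theorem allL_true {α : Type} {p : α → Bool} {l : List α} (h : allL p l = true) :
    ∀ x ∈ l, p x = true := by
  induction l with
  | nil => simp
  | cons a l ih =>
    have e : allL p (a :: l) = Bool.rec false (allL p l) (p a) := rfl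
    rw [e] at h
    cases hp : p a with
    | false => rw [hp] at h; exact absurd h (by simp)
    | true =>
      rw [hp] at h
      intro x hx
      rcases List.mem_cons.1 hx with rfl | hx
      · exact hp
      · exact ih h x hx

/-- the content of `orbOK` -/
theorem orb_iff {g : Grid} {X Y k : ℕ} (h : g.orbOK X Y k = true) :
    k < g.n ∧ X + Y ≤ 6 * g.r ∧ max (max X Y) (6 * g.r - X - Y) = g.rx k ∧
      min (min X Y) (6 * g.r - X - Y) + (g.rx k + g.ry k) = 6 * g.r := by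
  unfold Grid.orbOK at h
  simp only [Bool.and_eq_true, mx_eq, mn_eq, Nat.ble_eq, Nat.beq_eq, Nat.add_eq, Nat.mul_eq,
    Nat.sub_eq, Nat.succ_eq_add_one] at h
  obtain ⟨⟨⟨h1, h2⟩, h3⟩, h4⟩ := h
  exact ⟨by omega, h1, h3, h4⟩

theorem six_cases {X Y Z u v w : ℕ} (hs : X + Y + Z = u + v + w) (h2 : max (max X Y) Z = u)
    (h3 : min (min X Y) Z = w) :
    (X = u ∧ Y = v) ∨ (X = u ∧ Y = w) ∨ (X = v ∧ Y = u) ∨ (X = v ∧ Y = w) ∨ (X = w ∧ Y = u) ∨
      (X = w ∧ Y = v) := by
  rcases le_total X Y with a | a <;> rcases le_total Y Z with b | b <;>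
    rcases le_total X Z with c | c <;> simp only [max_def, min_def] at h2 h3 <;>
    split_ifs at h2 h3 <;> omega

/-- the six reorderings -/
theorem orb_cases {g : Grid} {X Y k : ℕ} (h : g.orbOK X Y k = true) :
    g.rx k + g.ry k ≤ 6 * g.r ∧
    ((X, Y) = (g.rx k, g.ry k) ∨ (X, Y) = (g.rx k, 6 * g.r - g.rx k - g.ry k) ∨
      (X, Y) = (g.ry k, g.rx k) ∨ (X, Y) = (g.ry k, 6 * g.r - g.rx k - g.ry k) ∨
      (X, Y) = (6 * g.r - g.rx k - g.ry k, g.rx k) ∨
      (X, Y) = (6 * g.r - g.rx k - g.ry k, g.ry k)) := by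
  obtain ⟨-, h1, h2, h3⟩ := orb_iff h
  simp only [Prod.mk.injEq]
  generalize hm : min (min X Y) (6 * g.r - X - Y) = m at h3
  have h0 : g.rx k + g.ry k ≤ 6 * g.r := by omega
  have hm' : m = 6 * g.r - g.rx k - g.ry k := by omega
  refine ⟨h0, six_cases ?_ h2 (hm.trans hm')⟩
  clear h2 hm
  omega

/-- lattice point given by three offset exponents -/
noncomputable def tr (a : ℝ) (r X Y Z : ℕ) : Vec 3 :=
  ![a ^ ((X : ℤ) - 2 * r), a ^ ((Y : ℤ) - 2 * r), a ^ ((Z : ℤ) - 2 * r)]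

theorem lp_tr (a : ℝ) {r X Y Z : ℕ} (h : X + Y + Z = 6 * r) :
    DE.lp a ((X : ℤ) - 2 * r, (Y : ℤ) - 2 * r) = tr a r X Y Z := by
  unfold DE.lp tr
  have : -((X : ℤ) - 2 * r) - ((Y : ℤ) - 2 * r) = (Z : ℤ) - 2 * r := by omega
  simp only [this]

open Equiv in
theorem sum_perm3 (G : Perm (Fin 3) → ℝ) :
    ∑ σ, G σ = G 1 + G (swap 1 2) + G (swap 0 1) + G (swap 0 1 * swap 1 2) +
      G (swap 1 2 * swap 0 1) + G (swap 0 2) := by
  have e : (univ : Finset (Perm (Fin 3))) =
      {1, swap 1 2, swap 0 1, swap 0 1 * swap 1 2, swap 1 2 * swap 0 1, swap 0 2} := by decide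
  rw [e, sum_insert (by decide), sum_insert (by decide), sum_insert (by decide),
    sum_insert (by decide), sum_insert (by decide), sum_singleton]
  ring

open Equiv in
theorem perm_vec (x y z : ℝ) :
    perm (1 : Perm (Fin 3)) ![x, y, z] = ![x, y, z] ∧
    perm (swap (1 : Fin 3) 2) ![x, y, z] = ![x, z, y] ∧
    perm (swap (0 : Fin 3) 1) ![x, y, z] = ![y, x, z] ∧
    perm (swap (0 : Fin 3) 1 * swap 1 2) ![x, y, z] = ![y, z, x] ∧
    perm (swap (1 : Fin 3) 2 * swap 0 1) ![x, y, z] = ![z, x, y] ∧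
    perm (swap (0 : Fin 3) 2) ![x, y, z] = ![z, y, x] := by
  refine ⟨?_, ?_, ?_, ?_, ?_, ?_⟩ <;> funext i <;> fin_cases i <;> rfl

theorem sum_perm_vec (F : Vec 3 → ℝ) (x y z : ℝ) :
    ∑ σ : Equiv.Perm (Fin 3), F (perm σ ![x, y, z]) = F ![x, y, z] + F ![x, z, y] + F ![y, x, z] +
      F ![y, z, x] + F ![z, x, y] + F ![z, y, x] := by
  obtain ⟨h1, h2, h3, h4, h5, h6⟩ := perm_vec x y z
  rw [sum_perm3, h1, h2, h3, h4, h5, h6]

theorem sum_le_list {α : Type} [DecidableEq α] {f : α → ℝ} (hf : ∀ x, 0 ≤ f x) (l : List α) :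
    ∀ s : Finset α, (∀ x ∈ s, x ∈ l) → ∑ x ∈ s, f x ≤ (l.map f).sum := by
  induction l with
  | nil =>
    intro s hs
    have : s = ∅ := eq_empty_of_forall_notMem fun x hx => by simpa using hs x hx
    simp [this]
  | cons a l ih =>
    intro s hs
    have h1 := ih (s.erase a) fun x hx => by
      rcases List.mem_cons.1 (hs x (mem_of_mem_erase hx)) with h | h
      · exact absurd h (ne_of_mem_erase hx)
      · exact h
    rw [List.map_cons, List.sum_cons]
    by_cases ha : a ∈ s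
    · rw [← add_sum_erase s f ha]; linarith
    · rw [erase_eq_of_notMem ha] at h1; linarith [hf a]

theorem six (u v w : ℕ) {f : ℕ × ℕ → ℝ} (hf : ∀ x, 0 ≤ f x) (s : Finset (ℕ × ℕ))
    (hs : ∀ x ∈ s, x = (u, v) ∨ x = (u, w) ∨ x = (v, u) ∨ x = (v, w) ∨ x = (w, u) ∨ x = (w, v)) :
    (∑ x ∈ s, f x) / mult3 u v w ≤
      (f (u, v) + f (u, w) + f (v, u) + f (v, w) + f (w, u) + f (w, v)) / 6 := by
  unfold mult3
  by_cases h1 : u = v ∧ v = w
  · obtain ⟨rfl, rfl⟩ := h1
    have := sum_le_list hf [(u, u)] s fun x hx => by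
      have := hs x hx; simp only [List.mem_cons]; tauto
    simp only [List.map_cons, List.map_nil, List.sum_cons, List.sum_nil] at this
    simp only [and_self, if_true, Nat.cast_one]
    linarith
  rw [if_neg h1]
  by_cases h2 : u = v ∨ v = w ∨ u = w
  · rw [if_pos h2]
    rcases h2 with rfl | rfl | rfl
    · have := sum_le_list hf [(u, u), (u, w), (w, u)] s fun x hx => by
        have := hs x hx; simp only [List.mem_cons]; tauto
      simp only [List.map_cons, List.map_nil, List.sum_cons, List.sum_nil] at this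
      push_cast
      linarith
    · have := sum_le_list hf [(v, v), (u, v), (v, u)] s fun x hx => by
        have := hs x hx; simp only [List.mem_cons]; tauto
      simp only [List.map_cons, List.map_nil, List.sum_cons, List.sum_nil] at this
      push_cast
      linarith
    · have := sum_le_list hf [(u, u), (u, v), (v, u)] s fun x hx => by
        have := hs x hx; simp only [List.mem_cons]; tauto
      simp only [List.map_cons, List.map_nil, List.sum_cons, List.sum_nil] at this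
      push_cast
      linarith
  · rw [if_neg h2]
    have := sum_le_list hf [(u, v), (u, w), (v, u), (v, w), (w, u), (w, v)] s fun x hx => by
      have := hs x hx; simp only [List.mem_cons]; tauto
    simp only [List.map_cons, List.map_nil, List.sum_cons, List.sum_nil] at this
    push_cast
    linarith

theorem mult3_swap12 (X Y Z : ℕ) : mult3 Y X Z = mult3 X Y Z := by
  unfold mult3; split_ifs <;> omega

theorem mult3_swap23 (X Y Z : ℕ) : mult3 X Z Y = mult3 X Y Z := by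
  unfold mult3; split_ifs <;> omega

theorem mult3_bd (X Y Z : ℕ) : 1 ≤ mult3 X Y Z ∧ mult3 X Y Z < 8 := by
  unfold mult3; split_ifs <;> omega

theorem mult3_orb {g : Grid} {X Y k : ℕ} (h : g.orbOK X Y k = true) :
    mult3 X Y (6 * g.r - X - Y) = mult3 (g.rx k) (g.ry k) (6 * g.r - g.rx k - g.ry k) := by
  obtain ⟨h0, h1⟩ := orb_cases h
  simp only [Prod.mk.injEq] at h1
  generalize hw : 6 * g.r - g.rx k - g.ry k = w at h1 ⊢
  have hs : g.rx k + g.ry k + w = 6 * g.r := by omega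
  clear hw h
  generalize g.rx k = u at *
  generalize g.ry k = v at *
  rcases h1 with ⟨rfl, rfl⟩ | ⟨rfl, rfl⟩ | ⟨rfl, rfl⟩ | ⟨rfl, rfl⟩ | ⟨rfl, rfl⟩ | ⟨rfl, rfl⟩
  · rw [show 6 * g.r - X - Y = w by omega]
  · rw [show 6 * g.r - X - Y = v by omega, mult3_swap23]
  · rw [show 6 * g.r - X - Y = w by omega, mult3_swap12]
  · rw [show 6 * g.r - X - Y = u by omega, mult3_swap23, mult3_swap12]
  · rw [show 6 * g.r - X - Y = v by omega, mult3_swap12, mult3_swap23]
  · rw [show 6 * g.r - X - Y = u by omega, mult3_swap12, mult3_swap23, mult3_swap12]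

/-! ### the expansion -/

/-- the digit attached to a code -/
def eD (V c : ℕ) : ℕ := if c = 0 then 0 else dig V (c / 8) / (c % 8 * 2 ^ 23)

theorem expandRow_cons (V c : ℕ) (l : List ℕ) :
    expandRow V (c :: l) = eD V c + expandRow V l * 2 ^ 64 := by
  have e : expandRow V (c :: l) = Bool.rec
      (Nat.add (Nat.div (fld V (Nat.mul 64 (Nat.shiftRight c 3)) 18446744073709551615)
        (Nat.shiftLeft (Nat.land c 7) 23)) (Nat.shiftLeft (expandRow V l) 64))
      (Nat.shiftLeft (expandRow V l) 64) (Nat.beq c 0) := rfl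
  rw [e, eD]
  by_cases hc : c = 0
  · subst hc
    simp [Nat.shiftLeft_eq]
  · have hb : Nat.beq c 0 = false := by
      rw [Bool.eq_false_iff]; exact fun h' => hc (Nat.eq_of_beq_eq_true h')
    rw [hb, if_neg hc, fld_dig]
    have h1 : Nat.shiftRight c 3 = c / 8 := Nat.shiftRight_eq_div_pow c 3
    have h2 : Nat.land c 7 = c % 8 := Nat.and_two_pow_sub_one_eq_mod c 3
    have h3 : ∀ a b : ℕ, Nat.shiftLeft a b = a * 2 ^ b := fun a b => Nat.shiftLeft_eq a b
    rw [h1, h2, h3, h3]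
    rfl

theorem expandRow_range (V n : ℕ) : ∀ h : ℕ → ℕ,
    expandRow V ((List.range n).map h) = ∑ X ∈ range n, eD V (h X) * 2 ^ (64 * X) := by
  induction n with
  | zero => intro h; rfl
  | succ n ih =>
    intro h
    rw [List.range_succ_eq_map, List.map_cons, List.map_map, expandRow_cons, ih, sum_range_succ',
      sum_mul, add_comm]
    have e1 : ∀ X, eD V ((h ∘ Nat.succ) X) * 2 ^ (64 * X) * 2 ^ 64 =
        eD V (h (X + 1)) * 2 ^ (64 * (X + 1)) := fun X => by
      rw [mul_assoc, ← pow_add, Nat.mul_succ]; rfl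
    simp only [e1, mul_zero, pow_zero, mul_one]

theorem expand_range (S V n : ℕ) : ∀ h : ℕ → List ℕ,
    expand (Nat.mul 64 S) V ((List.range n).map h) =
      ∑ Y ∈ range n, expandRow V (h Y) * 2 ^ (64 * S * Y) := by
  induction n with
  | zero => intro h; rfl
  | succ n ih =>
    intro h
    have e : ∀ (l : List ℕ) (t : List (List ℕ)), expand (Nat.mul 64 S) V (l :: t) =
        expandRow V l + expand (Nat.mul 64 S) V t * 2 ^ (64 * S) := fun l t => by
      rw [← Nat.shiftLeft_eq]; rfl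
    rw [List.range_succ_eq_map, List.map_cons, List.map_map, e, ih, sum_range_succ',
      sum_mul, add_comm]
    have e1 : ∀ Y, expandRow V ((h ∘ Nat.succ) Y) * 2 ^ (64 * S * Y) * 2 ^ (64 * S) =
        expandRow V (h (Y + 1)) * 2 ^ (64 * S * (Y + 1)) := fun Y => by
      rw [mul_assoc, ← pow_add, Nat.mul_succ]; rfl
    simp only [e1, mul_zero, pow_zero, mul_one]

/-- the symmetric digit -/
def c3 (g : Grid) (V X Y Z : ℕ) : ℕ :=
  dig V (g.idxOf (max (max X Y) Z) (min (min X Y) Z)) / (mult3 X Y Z * 2 ^ 23)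

theorem c3_swap12 (g : Grid) (V X Y Z : ℕ) : c3 g V Y X Z = c3 g V X Y Z := by
  unfold c3; rw [max_comm Y X, min_comm Y X, mult3_swap12]

theorem c3_swap23 (g : Grid) (V X Y Z : ℕ) : c3 g V X Z Y = c3 g V X Y Z := by
  unfold c3; rw [max_right_comm, min_right_comm, mult3_swap23]

theorem eD_code (g : Grid) (V X Y : ℕ) : eD V (g.codeF X Y) =
    if 3 * g.r ≤ X + Y then dig V (g.idxF X Y) / (mult3 X Y (6 * g.r - X - Y) * 2 ^ 23)
      else 0 := by
  unfold Grid.codeF eD
  have := mult3_bd X Y (6 * g.r - X - Y)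
  by_cases h : 3 * g.r ≤ X + Y
  · simp only [if_pos h]
    rw [if_neg (by omega), show (8 * g.idxF X Y + mult3 X Y (6 * g.r - X - Y)) / 8 = g.idxF X Y by
      omega, show (8 * g.idxF X Y + mult3 X Y (6 * g.r - X - Y)) % 8 =
        mult3 X Y (6 * g.r - X - Y) by omega]
  · simp only [if_neg h, if_true]

theorem sum_perm_ed (F : Vec 3 → ℝ) :
    ∑ σ : Equiv.Perm (Fin 3), F (perm σ (ed 0)) = 2 * ∑ i, F (ed i) := by
  have e0 : ed 0 = ![0, 1, 1] := by funext i; fin_cases i <;> rfl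
  have e1 : ed 1 = ![1, 0, 1] := by funext i; fin_cases i <;> rfl
  have e2 : ed 2 = ![1, 1, 0] := by funext i; fin_cases i <;> rfl
  rw [Fin.sum_univ_three, e1, e2, e0, sum_perm_vec]
  ring

end Crest.Agent.R163.DEExpandH

namespace Crest.Agent.R163.DE

open Finset Ck DEExpandH

/-- a point in the orbit of a representative is a permutation of it -/
theorem orbOK_perm {g : Grid} {X Y k : ℕ} (h : g.orbOK X Y k = true) :
    k < g.n ∧ X + Y ≤ 6 * g.r ∧ ∃ σ : Equiv.Perm (Fin 3),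
      lp g.a ((X : ℤ) - 2 * g.r, (Y : ℤ) - 2 * g.r) = perm σ (lp g.a (g.pt k)) := by
  obtain ⟨hk, hXY, -, -⟩ := orb_iff h
  refine ⟨hk, hXY, ?_⟩
  obtain ⟨h0, h1⟩ := orb_cases h
  have e : lp g.a (g.pt k) = tr g.a g.r (g.rx k) (g.ry k) (6 * g.r - g.rx k - g.ry k) :=
    lp_tr _ (by omega)
  rw [e]
  generalize hw : 6 * g.r - g.rx k - g.ry k = w at h1 ⊢
  have hs : g.rx k + g.ry k + w = 6 * g.r := by omega
  obtain ⟨p1, p2, p3, p4, p5, p6⟩ := perm_vec (g.a ^ ((g.rx k : ℤ) - 2 * g.r))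
    (g.a ^ ((g.ry k : ℤ) - 2 * g.r)) (g.a ^ ((w : ℤ) - 2 * g.r))
  simp only [Prod.mk.injEq] at h1
  rcases h1 with ⟨rfl, rfl⟩ | ⟨rfl, rfl⟩ | ⟨rfl, rfl⟩ | ⟨rfl, rfl⟩ | ⟨rfl, rfl⟩ | ⟨rfl, rfl⟩
  · exact ⟨_, (lp_tr _ hs).trans p1.symm⟩
  · exact ⟨_, (lp_tr (Z := g.ry k) _ (by omega)).trans p2.symm⟩
  · exact ⟨_, (lp_tr (Z := w) _ (by omega)).trans p3.symm⟩
  · exact ⟨_, (lp_tr (Z := g.rx k) _ (by omega)).trans p4.symm⟩
  · exact ⟨_, (lp_tr (Z := g.ry k) _ (by omega)).trans p5.symm⟩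
  · exact ⟨_, (lp_tr (Z := g.rx k) _ (by omega)).trans p6.symm⟩

/-- sum over a set of distinct points of one orbit against the average over permutations -/
theorem orbit_sum_le {g : Grid} (ha : 0 < g.a) {k : ℕ} (s : Finset (ℕ × ℕ))
    (hs : ∀ x ∈ s, g.orbOK x.1 x.2 k = true) {F : Vec 3 → ℝ} (hF : ∀ P, Pos P → 0 ≤ F P) :
    ∑ x ∈ s, F (lp g.a ((x.1 : ℤ) - 2 * g.r, (x.2 : ℤ) - 2 * g.r)) /
        mult3 x.1 x.2 (6 * g.r - x.1 - x.2) ≤
      (∑ σ : Equiv.Perm (Fin 3), F (perm σ (lp g.a (g.pt k)))) / (3 : ℕ).factorial := by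
  rcases s.eq_empty_or_nonempty with rfl | ⟨x0, hx0⟩
  · rw [sum_empty]
    exact div_nonneg (sum_nonneg fun σ _ => hF _ ((pos_lp ha _).perm σ)) (Nat.cast_nonneg _)
  have h0 := (orb_cases (hs x0 hx0)).1
  rw [sum_congr rfl fun x hx => by rw [mult3_orb (hs x hx)], ← sum_div]
  have key := six (g.rx k) (g.ry k) (6 * g.r - g.rx k - g.ry k)
    (f := fun x => F (lp g.a ((x.1 : ℤ) - 2 * g.r, (x.2 : ℤ) - 2 * g.r)))
    (fun x => hF _ (pos_lp ha _)) s fun x hx => (orb_cases (hs x hx)).2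
  refine key.trans (le_of_eq ?_)
  have e : lp g.a (g.pt k) = tr g.a g.r (g.rx k) (g.ry k) (6 * g.r - g.rx k - g.ry k) :=
    lp_tr _ (by omega)
  rw [e]
  generalize hw : 6 * g.r - g.rx k - g.ry k = w
  have hsum : g.rx k + g.ry k + w = 6 * g.r := by omega
  simp only
  rw [lp_tr _ hsum, lp_tr (X := g.rx k) (Y := w) (Z := g.ry k) _ (by omega),
    lp_tr (X := g.ry k) (Y := g.rx k) (Z := w) _ (by omega),
    lp_tr (X := g.ry k) (Y := w) (Z := g.rx k) _ (by omega),
    lp_tr (X := w) (Y := g.rx k) (Z := g.ry k) _ (by omega),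
    lp_tr (X := w) (Y := g.ry k) (Z := g.rx k) _ (by omega)]
  unfold tr
  rw [sum_perm_vec]
  norm_num [Nat.factorial]

theorem expand_sound {g : Grid} (hg : g.ok = true) {N : Law 3} {V : ℕ} (h : Inv g N V) (S : ℕ) :
    ∃ ν : Arr, Rep S (2 * g.r) (3 * g.r + 1) (expand (Nat.mul 64 S) V g.nuTab) ν ∧ Symm ν ∧
      LbAB g.a N ν (AddMonoidAlgebra.single 0 (dig V g.n / 25165824)) (2 ^ 31) := by
  -- the side conditions
  unfold Grid.ok at hg
  simp only [Bool.and_eq_true, Nat.ble_eq] at hg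
  obtain ⟨⟨han, had⟩, hall⟩ := hg
  have ha : 0 < g.a := div_pos (Nat.cast_pos.2 han) (Nat.cast_pos.2 had)
  have horb : ∀ X Y, X < 3 * g.r + 1 → Y < 3 * g.r + 1 → 3 * g.r ≤ X + Y →
      g.orbOK X Y (g.idxF X Y) = true := fun X Y hX hY hXY => by
    have := allL_true (allL_true hall Y (List.mem_range.2 hY)) X (List.mem_range.2 hX)
    simpa [hXY] using this
  obtain ⟨ν, hrep, hν⟩ := exists_rep S (2 * g.r) (3 * g.r + 1) fun X Y => eD V (g.codeF X Y)
  refine ⟨ν, ?_, ?_, ?_⟩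
  · unfold Grid.nuTab
    rw [expand_range]
    simpa only [expandRow_range] using hrep
  · have hc : ∀ x y : ℤ, ν.coeff (x, y) =
        if (0 ≤ x + 2 * g.r ∧ x ≤ g.r) ∧ (0 ≤ y + 2 * g.r ∧ y ≤ g.r) ∧
          (0 ≤ -x - y + 2 * g.r ∧ -x - y ≤ g.r) then
          c3 g V (x + 2 * g.r).toNat (y + 2 * g.r).toNat (-x - y + 2 * g.r).toNat else 0 := by
      intro x y
      rw [hν, eD_code]
      push_cast
      split_ifs with h1 h2 h3 h3 h4
      · unfold c3 Grid.idxF
        rw [mx_eq, mx_eq, mn_eq, mn_eq, show 6 * g.r - (x + 2 * g.r).toNat - (y + 2 * g.r).toNat =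
          (-x - y + 2 * g.r).toNat by omega]
        rfl
      · omega
      · omega
      · rfl
      · omega
      · rfl
    intro x y
    refine ⟨?_, ?_⟩
    · rw [hc, hc, show -y - x = -x - y by ring, c3_swap12]
      exact if_congr (by tauto) rfl rfl
    · rw [hc, hc, show -x - (-x - y) = y by ring, c3_swap23]
      exact if_congr (by tauto) rfl rfl
  · intro H hH P hP
    have hI := h _ (hH.avg hP)
    rw [← N.E_mul_avg hH.adm hP] at hI
    unfold Grid.val at hI
    have hF : ∀ Q, Pos Q → 0 ≤ H (P * Q) := fun Q hQ => hH.nonneg _ (hP.mul hQ)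
    -- the edge term
    have h2 : 2 ^ 23 * Phi g.a (AddMonoidAlgebra.single 0 (dig V g.n / 25165824))
        (fun Q => ∑ i, H (P * Q * ed i)) ≤ (dig V g.n : ℝ) *
          ((∑ σ : Equiv.Perm (Fin 3), H (P * perm σ (ed 0))) / (3 : ℕ).factorial) := by
      rw [Phi_single, lp_zero, sum_perm_ed fun Q => H (P * Q)]
      simp only [mul_one]
      have h0 : 0 ≤ ∑ i, H (P * ed i) := sum_nonneg fun i _ => hF _ (pos_ed i)
      have h1 : ((dig V g.n / 25165824 : ℕ) : ℝ) ≤ (dig V g.n : ℝ) / (25165824 : ℕ) :=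
        Nat.cast_div_le
      have h3 := mul_le_mul_of_nonneg_right h1 h0
      norm_num [Nat.factorial] at h3 ⊢
      linarith
    -- the lattice term
    obtain ⟨W, hW⟩ : ∃ W : Finset (ℕ × ℕ), ∀ x, x ∈ W ↔
        (x.1 < 3 * g.r + 1 ∧ x.2 < 3 * g.r + 1) ∧ 3 * g.r ≤ x.1 + x.2 :=
      ⟨(range (3 * g.r + 1) ×ˢ range (3 * g.r + 1)).filter fun x => 3 * g.r ≤ x.1 + x.2,
        fun x => by simp only [mem_filter, mem_product, mem_range]⟩
    have hWo : ∀ x ∈ W, g.orbOK x.1 x.2 (g.idxF x.1 x.2) = true := fun x hx => by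
      rw [hW] at hx
      exact horb _ _ hx.1.1 hx.1.2 hx.2
    have h3 : Phi g.a ν (fun Q => H (P * Q)) = ∑ x ∈ W,
        ((dig V (g.idxF x.1 x.2) / (mult3 x.1 x.2 (6 * g.r - x.1 - x.2) * 2 ^ 23) : ℕ) : ℝ) *
          H (P * lp g.a ((x.1 : ℤ) - 2 * g.r, (x.2 : ℤ) - 2 * g.r)) := by
      unfold Phi
      rw [Finsupp.sum_of_support_subset _
        (s := W.image fun x => ((x.1 : ℤ) - 2 * g.r, (x.2 : ℤ) - 2 * g.r)) _ _ (by simp),
        sum_image]
      · refine sum_congr rfl fun x hx => ?_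
        rw [hW] at hx
        rw [hν, if_pos (by push_cast; omega), eD_code]
        have e1 : ((x.1 : ℤ) - 2 * g.r + (2 * g.r : ℕ)).toNat = x.1 := by omega
        have e2 : ((x.2 : ℤ) - 2 * g.r + (2 * g.r : ℕ)).toNat = x.2 := by omega
        simp only [e1, e2, if_pos hx.2]
      · intro x _ y _ hxy
        simp only [Prod.mk.injEq] at hxy
        exact Prod.ext (by omega) (by omega)
      · intro p hp
        rw [Finsupp.mem_support_iff, hν, eD_code] at hp
        split_ifs at hp with h1 h2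
        · refine mem_image.2 ⟨((p.1 + (2 * g.r : ℕ)).toNat, (p.2 + (2 * g.r : ℕ)).toNat), ?_, ?_⟩
          · rw [hW]
            simp only
            omega
          · exact Prod.ext (by simp only; omega) (by simp only; omega)
        · exact absurd rfl hp
        · exact absurd rfl hp
    have h4 : 2 ^ 23 * Phi g.a ν (fun Q => H (P * Q)) ≤ ∑ k ∈ range g.n, (dig V k : ℝ) *
        ((∑ σ : Equiv.Perm (Fin 3), H (P * perm σ (lp g.a (g.pt k)))) / (3 : ℕ).factorial) := by
      have hmap : ∀ x ∈ W, (fun x : ℕ × ℕ => g.idxF x.1 x.2) x ∈ range g.n :=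
        fun x hx => mem_range.2 (orbOK_perm (hWo x hx)).1
      rw [h3, mul_sum, ← sum_fiberwise_of_maps_to hmap]
      refine sum_le_sum fun k _ => ?_
      have hk : ∀ x ∈ W.filter fun x => g.idxF x.1 x.2 = k, g.orbOK x.1 x.2 k = true :=
        fun x hx => (mem_filter.1 hx).2 ▸ hWo x (mem_filter.1 hx).1
      refine le_trans ?_ (mul_le_mul_of_nonneg_left (orbit_sum_le ha _ hk
        (F := fun Q => H (P * Q)) hF) (Nat.cast_nonneg (dig V k)))
      rw [mul_sum]
      refine sum_le_sum fun x hx => ?_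
      rw [(mem_filter.1 hx).2]
      have h5 := hF _ (pos_lp ha ((x.1 : ℤ) - 2 * g.r, (x.2 : ℤ) - 2 * g.r))
      have h6 : (0 : ℝ) < mult3 x.1 x.2 (6 * g.r - x.1 - x.2) :=
        Nat.cast_pos.2 (mult3_bd _ _ _).1
      have h7 : ((dig V k / (mult3 x.1 x.2 (6 * g.r - x.1 - x.2) * 2 ^ 23) : ℕ) : ℝ) ≤
          (dig V k : ℝ) / (mult3 x.1 x.2 (6 * g.r - x.1 - x.2) * 2 ^ 23 : ℕ) := Nat.cast_div_le
      refine (mul_le_mul_of_nonneg_left (mul_le_mul_of_nonneg_right h7 h5)
        (by positivity)).trans (le_of_eq ?_)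
      push_cast
      field_simp
      ring
    beta_reduce at hI
    linarith

end Crest.Agent.R163.DE
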