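import Crest.Agent.R163.DEDefs

/-! Row 163: a lattice (generated). -/

set_option autoImplicit false
set_option Elab.async false
set_option maxRecDepth 100000

namespace Crest.Agent.R163.DE

def G14_13_10 : Grid := ⟨nat_lit 14, nat_lit 13, nat_lit 10, nat_lit 91, nat_lit 0xf1e101e111e101d121e111d101c131e121d111c141e131d121c111b151e141d131c121b111a161e151d141c131b121a171e161d151c141b131a1219181e171d161c151b141a13191218191e181d171c161b151a141913181a1e191d181c171b161a1519141813171b1e1a1d191c181b171a16191518141713161c1e1b1d1a1c191b181a17191618151714161d1e1c1d1b1c1a1b191a181917181617151614151e1e1d1d1c1c1b1b1a1a191918181717161615151414⟩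

noncomputable def G14_13_10_nu : List (List ℕ) := [[nat_lit 0, nat_lit 0, nat_lit 0, nat_lit 0, nat_lit 0, nat_lit 0, nat_lit 0, nat_lit 0, nat_lit 0, nat_lit 0, nat_lit 0, nat_lit 0, nat_lit 0, nat_lit 0, nat_lit 0, nat_lit 0, nat_lit 0, nat_lit 0, nat_lit 0, nat_lit 0, nat_lit 0, nat_lit 0, nat_lit 0, nat_lit 0, nat_lit 0, nat_lit 0, nat_lit 0, nat_lit 0, nat_lit 0, nat_lit 0, nat_lit 83],
  [nat_lit 0, nat_lit 0, nat_lit 0, nat_lit 0, nat_lit 0, nat_lit 0, nat_lit 0, nat_lit 0, nat_lit 0, nat_lit 0, nat_lit 0, nat_lit 0, nat_lit 0, nat_lit 0, nat_lit 0, nat_lit 0, nat_lit 0, nat_lit 0, nat_lit 0, nat_lit 0, nat_lit 0, nat_lit 0, nat_lit 0, nat_lit 0, nat_lit 0, nat_lit 0, nat_lit 0, nat_lit 0, nat_lit 0, nat_lit 166, nat_lit 166],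
  [nat_lit 0, nat_lit 0, nat_lit 0, nat_lit 0, nat_lit 0, nat_lit 0, nat_lit 0, nat_lit 0, nat_lit 0, nat_lit 0, nat_lit 0, nat_lit 0, nat_lit 0, nat_lit 0, nat_lit 0, nat_lit 0, nat_lit 0, nat_lit 0, nat_lit 0, nat_lit 0, nat_lit 0, nat_lit 0, nat_lit 0, nat_lit 0, nat_lit 0, nat_lit 0, nat_lit 0, nat_lit 0, nat_lit 238, nat_lit 75, nat_lit 238],
  [nat_lit 0, nat_lit 0, nat_lit 0, nat_lit 0, nat_lit 0, nat_lit 0, nat_lit 0, nat_lit 0, nat_lit 0, nat_lit 0, nat_lit 0, nat_lit 0, nat_lit 0, nat_lit 0, nat_lit 0, nat_lit 0, nat_lit 0, nat_lit 0, nat_lit 0, nat_lit 0, nat_lit 0, nat_lit 0, nat_lit 0, nat_lit 0, nat_lit 0, nat_lit 0, nat_lit 0, nat_lit 310, nat_lit 158, nat_lit 158, nat_lit 310],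
  [nat_lit 0, nat_lit 0, nat_lit 0, nat_lit 0, nat_lit 0, nat_lit 0, nat_lit 0, nat_lit 0, nat_lit 0, nat_lit 0, nat_lit 0, nat_lit 0, nat_lit 0, nat_lit 0, nat_lit 0, nat_lit 0, nat_lit 0, nat_lit 0, nat_lit 0, nat_lit 0, nat_lit 0, nat_lit 0, nat_lit 0, nat_lit 0, nat_lit 0, nat_lit 0, nat_lit 374, nat_lit 230, nat_lit 67, nat_lit 230, nat_lit 374],
  [nat_lit 0, nat_lit 0, nat_lit 0, nat_lit 0, nat_lit 0, nat_lit 0, nat_lit 0, nat_lit 0, nat_lit 0, nat_lit 0, nat_lit 0, nat_lit 0, nat_lit 0, nat_lit 0, nat_lit 0, nat_lit 0, nat_lit 0, nat_lit 0, nat_lit 0, nat_lit 0, nat_lit 0, nat_lit 0, nat_lit 0, nat_lit 0, nat_lit 0, nat_lit 430, nat_lit 302, nat_lit 150, nat_lit 150, nat_lit 302, nat_lit 430],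
  [nat_lit 0, nat_lit 0, nat_lit 0, nat_lit 0, nat_lit 0, nat_lit 0, nat_lit 0, nat_lit 0, nat_lit 0, nat_lit 0, nat_lit 0, nat_lit 0, nat_lit 0, nat_lit 0, nat_lit 0, nat_lit 0, nat_lit 0, nat_lit 0, nat_lit 0, nat_lit 0, nat_lit 0, nat_lit 0, nat_lit 0, nat_lit 0, nat_lit 486, nat_lit 366, nat_lit 222, nat_lit 59, nat_lit 222, nat_lit 366, nat_lit 486],
  [nat_lit 0, nat_lit 0, nat_lit 0, nat_lit 0, nat_lit 0, nat_lit 0, nat_lit 0, nat_lit 0, nat_lit 0, nat_lit 0, nat_lit 0, nat_lit 0, nat_lit 0, nat_lit 0, nat_lit 0, nat_lit 0, nat_lit 0, nat_lit 0, nat_lit 0, nat_lit 0, nat_lit 0, nat_lit 0, nat_lit 0, nat_lit 534, nat_lit 422, nat_lit 294, nat_lit 142, nat_lit 142, nat_lit 294, nat_lit 422, nat_lit 534],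
  [nat_lit 0, nat_lit 0, nat_lit 0, nat_lit 0, nat_lit 0, nat_lit 0, nat_lit 0, nat_lit 0, nat_lit 0, nat_lit 0, nat_lit 0, nat_lit 0, nat_lit 0, nat_lit 0, nat_lit 0, nat_lit 0, nat_lit 0, nat_lit 0, nat_lit 0, nat_lit 0, nat_lit 0, nat_lit 0, nat_lit 574, nat_lit 478, nat_lit 358, nat_lit 214, nat_lit 51, nat_lit 214, nat_lit 358, nat_lit 478, nat_lit 574],
  [nat_lit 0, nat_lit 0, nat_lit 0, nat_lit 0, nat_lit 0, nat_lit 0, nat_lit 0, nat_lit 0, nat_lit 0, nat_lit 0, nat_lit 0, nat_lit 0, nat_lit 0, nat_lit 0, nat_lit 0, nat_lit 0, nat_lit 0, nat_lit 0, nat_lit 0, nat_lit 0, nat_lit 0, nat_lit 614, nat_lit 526, nat_lit 414, nat_lit 286, nat_lit 134, nat_lit 134, nat_lit 286, nat_lit 414, nat_lit 526, nat_lit 614],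
  [nat_lit 0, nat_lit 0, nat_lit 0, nat_lit 0, nat_lit 0, nat_lit 0, nat_lit 0, nat_lit 0, nat_lit 0, nat_lit 0, nat_lit 0, nat_lit 0, nat_lit 0, nat_lit 0, nat_lit 0, nat_lit 0, nat_lit 0, nat_lit 0, nat_lit 0, nat_lit 0, nat_lit 646, nat_lit 566, nat_lit 470, nat_lit 350, nat_lit 206, nat_lit 43, nat_lit 206, nat_lit 350, nat_lit 470, nat_lit 566, nat_lit 646],
  [nat_lit 0, nat_lit 0, nat_lit 0, nat_lit 0, nat_lit 0, nat_lit 0, nat_lit 0, nat_lit 0, nat_lit 0, nat_lit 0, nat_lit 0, nat_lit 0, nat_lit 0, nat_lit 0, nat_lit 0, nat_lit 0, nat_lit 0, nat_lit 0, nat_lit 0, nat_lit 670, nat_lit 606, nat_lit 518, nat_lit 406, nat_lit 278, nat_lit 126, nat_lit 126, nat_lit 278, nat_lit 406, nat_lit 518, nat_lit 606, nat_lit 670],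
  [nat_lit 0, nat_lit 0, nat_lit 0, nat_lit 0, nat_lit 0, nat_lit 0, nat_lit 0, nat_lit 0, nat_lit 0, nat_lit 0, nat_lit 0, nat_lit 0, nat_lit 0, nat_lit 0, nat_lit 0, nat_lit 0, nat_lit 0, nat_lit 0, nat_lit 694, nat_lit 638, nat_lit 558, nat_lit 462, nat_lit 342, nat_lit 198, nat_lit 35, nat_lit 198, nat_lit 342, nat_lit 462, nat_lit 558, nat_lit 638, nat_lit 694],
  [nat_lit 0, nat_lit 0, nat_lit 0, nat_lit 0, nat_lit 0, nat_lit 0, nat_lit 0, nat_lit 0, nat_lit 0, nat_lit 0, nat_lit 0, nat_lit 0, nat_lit 0, nat_lit 0, nat_lit 0, nat_lit 0, nat_lit 0, nat_lit 710, nat_lit 662, nat_lit 598, nat_lit 510, nat_lit 398, nat_lit 270, nat_lit 118, nat_lit 118, nat_lit 270, nat_lit 398, nat_lit 510, nat_lit 598, nat_lit 662, nat_lit 710],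
  [nat_lit 0, nat_lit 0, nat_lit 0, nat_lit 0, nat_lit 0, nat_lit 0, nat_lit 0, nat_lit 0, nat_lit 0, nat_lit 0, nat_lit 0, nat_lit 0, nat_lit 0, nat_lit 0, nat_lit 0, nat_lit 0, nat_lit 718, nat_lit 686, nat_lit 630, nat_lit 550, nat_lit 454, nat_lit 334, nat_lit 190, nat_lit 27, nat_lit 190, nat_lit 334, nat_lit 454, nat_lit 550, nat_lit 630, nat_lit 686, nat_lit 718],
  [nat_lit 0, nat_lit 0, nat_lit 0, nat_lit 0, nat_lit 0, nat_lit 0, nat_lit 0, nat_lit 0, nat_lit 0, nat_lit 0, nat_lit 0, nat_lit 0, nat_lit 0, nat_lit 0, nat_lit 0, nat_lit 723, nat_lit 702, nat_lit 654, nat_lit 590, nat_lit 502, nat_lit 390, nat_lit 262, nat_lit 110, nat_lit 110, nat_lit 262, nat_lit 390, nat_lit 502, nat_lit 590, nat_lit 654, nat_lit 702, nat_lit 723],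
  [nat_lit 0, nat_lit 0, nat_lit 0, nat_lit 0, nat_lit 0, nat_lit 0, nat_lit 0, nat_lit 0, nat_lit 0, nat_lit 0, nat_lit 0, nat_lit 0, nat_lit 0, nat_lit 0, nat_lit 718, nat_lit 702, nat_lit 675, nat_lit 622, nat_lit 542, nat_lit 446, nat_lit 326, nat_lit 182, nat_lit 19, nat_lit 182, nat_lit 326, nat_lit 446, nat_lit 542, nat_lit 622, nat_lit 675, nat_lit 702, nat_lit 718],
  [nat_lit 0, nat_lit 0, nat_lit 0, nat_lit 0, nat_lit 0, nat_lit 0, nat_lit 0, nat_lit 0, nat_lit 0, nat_lit 0, nat_lit 0, nat_lit 0, nat_lit 0, nat_lit 710, nat_lit 686, nat_lit 654, nat_lit 622, nat_lit 579, nat_lit 494, nat_lit 382, nat_lit 254, nat_lit 102, nat_lit 102, nat_lit 254, nat_lit 382, nat_lit 494, nat_lit 579, nat_lit 622, nat_lit 654, nat_lit 686, nat_lit 710],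
  [nat_lit 0, nat_lit 0, nat_lit 0, nat_lit 0, nat_lit 0, nat_lit 0, nat_lit 0, nat_lit 0, nat_lit 0, nat_lit 0, nat_lit 0, nat_lit 0, nat_lit 694, nat_lit 662, nat_lit 630, nat_lit 590, nat_lit 542, nat_lit 494, nat_lit 435, nat_lit 318, nat_lit 174, nat_lit 11, nat_lit 174, nat_lit 318, nat_lit 435, nat_lit 494, nat_lit 542, nat_lit 590, nat_lit 630, nat_lit 662, nat_lit 694],
  [nat_lit 0, nat_lit 0, nat_lit 0, nat_lit 0, nat_lit 0, nat_lit 0, nat_lit 0, nat_lit 0, nat_lit 0, nat_lit 0, nat_lit 0, nat_lit 670, nat_lit 638, nat_lit 598, nat_lit 550, nat_lit 502, nat_lit 446, nat_lit 382, nat_lit 318, nat_lit 243, nat_lit 94, nat_lit 94, nat_lit 243, nat_lit 318, nat_lit 382, nat_lit 446, nat_lit 502, nat_lit 550, nat_lit 598, nat_lit 638, nat_lit 670],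
  [nat_lit 0, nat_lit 0, nat_lit 0, nat_lit 0, nat_lit 0, nat_lit 0, nat_lit 0, nat_lit 0, nat_lit 0, nat_lit 0, nat_lit 646, nat_lit 606, nat_lit 558, nat_lit 510, nat_lit 454, nat_lit 390, nat_lit 326, nat_lit 254, nat_lit 174, nat_lit 94, nat_lit 1, nat_lit 94, nat_lit 174, nat_lit 254, nat_lit 326, nat_lit 390, nat_lit 454, nat_lit 510, nat_lit 558, nat_lit 606, nat_lit 646],
  [nat_lit 0, nat_lit 0, nat_lit 0, nat_lit 0, nat_lit 0, nat_lit 0, nat_lit 0, nat_lit 0, nat_lit 0, nat_lit 614, nat_lit 566, nat_lit 518, nat_lit 462, nat_lit 398, nat_lit 334, nat_lit 262, nat_lit 182, nat_lit 102, nat_lit 11, nat_lit 94, nat_lit 94, nat_lit 11, nat_lit 102, nat_lit 182, nat_lit 262, nat_lit 334, nat_lit 398, nat_lit 462, nat_lit 518, nat_lit 566, nat_lit 614],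
  [nat_lit 0, nat_lit 0, nat_lit 0, nat_lit 0, nat_lit 0, nat_lit 0, nat_lit 0, nat_lit 0, nat_lit 574, nat_lit 526, nat_lit 470, nat_lit 406, nat_lit 342, nat_lit 270, nat_lit 190, nat_lit 110, nat_lit 19, nat_lit 102, nat_lit 174, nat_lit 243, nat_lit 174, nat_lit 102, nat_lit 19, nat_lit 110, nat_lit 190, nat_lit 270, nat_lit 342, nat_lit 406, nat_lit 470, nat_lit 526, nat_lit 574],
  [nat_lit 0, nat_lit 0, nat_lit 0, nat_lit 0, nat_lit 0, nat_lit 0, nat_lit 0, nat_lit 534, nat_lit 478, nat_lit 414, nat_lit 350, nat_lit 278, nat_lit 198, nat_lit 118, nat_lit 27, nat_lit 110, nat_lit 182, nat_lit 254, nat_lit 318, nat_lit 318, nat_lit 254, nat_lit 182, nat_lit 110, nat_lit 27, nat_lit 118, nat_lit 198, nat_lit 278, nat_lit 350, nat_lit 414, nat_lit 478, nat_lit 534],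
  [nat_lit 0, nat_lit 0, nat_lit 0, nat_lit 0, nat_lit 0, nat_lit 0, nat_lit 486, nat_lit 422, nat_lit 358, nat_lit 286, nat_lit 206, nat_lit 126, nat_lit 35, nat_lit 118, nat_lit 190, nat_lit 262, nat_lit 326, nat_lit 382, nat_lit 435, nat_lit 382, nat_lit 326, nat_lit 262, nat_lit 190, nat_lit 118, nat_lit 35, nat_lit 126, nat_lit 206, nat_lit 286, nat_lit 358, nat_lit 422, nat_lit 486],
  [nat_lit 0, nat_lit 0, nat_lit 0, nat_lit 0, nat_lit 0, nat_lit 430, nat_lit 366, nat_lit 294, nat_lit 214, nat_lit 134, nat_lit 43, nat_lit 126, nat_lit 198, nat_lit 270, nat_lit 334, nat_lit 390, nat_lit 446, nat_lit 494, nat_lit 494, nat_lit 446, nat_lit 390, nat_lit 334, nat_lit 270, nat_lit 198, nat_lit 126, nat_lit 43, nat_lit 134, nat_lit 214, nat_lit 294, nat_lit 366, nat_lit 430],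
  [nat_lit 0, nat_lit 0, nat_lit 0, nat_lit 0, nat_lit 374, nat_lit 302, nat_lit 222, nat_lit 142, nat_lit 51, nat_lit 134, nat_lit 206, nat_lit 278, nat_lit 342, nat_lit 398, nat_lit 454, nat_lit 502, nat_lit 542, nat_lit 579, nat_lit 542, nat_lit 502, nat_lit 454, nat_lit 398, nat_lit 342, nat_lit 278, nat_lit 206, nat_lit 134, nat_lit 51, nat_lit 142, nat_lit 222, nat_lit 302, nat_lit 374],
  [nat_lit 0, nat_lit 0, nat_lit 0, nat_lit 310, nat_lit 230, nat_lit 150, nat_lit 59, nat_lit 142, nat_lit 214, nat_lit 286, nat_lit 350, nat_lit 406, nat_lit 462, nat_lit 510, nat_lit 550, nat_lit 590, nat_lit 622, nat_lit 622, nat_lit 590, nat_lit 550, nat_lit 510, nat_lit 462, nat_lit 406, nat_lit 350, nat_lit 286, nat_lit 214, nat_lit 142, nat_lit 59, nat_lit 150, nat_lit 230, nat_lit 310],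
  [nat_lit 0, nat_lit 0, nat_lit 238, nat_lit 158, nat_lit 67, nat_lit 150, nat_lit 222, nat_lit 294, nat_lit 358, nat_lit 414, nat_lit 470, nat_lit 518, nat_lit 558, nat_lit 598, nat_lit 630, nat_lit 654, nat_lit 675, nat_lit 654, nat_lit 630, nat_lit 598, nat_lit 558, nat_lit 518, nat_lit 470, nat_lit 414, nat_lit 358, nat_lit 294, nat_lit 222, nat_lit 150, nat_lit 67, nat_lit 158, nat_lit 238],
  [nat_lit 0, nat_lit 166, nat_lit 75, nat_lit 158, nat_lit 230, nat_lit 302, nat_lit 366, nat_lit 422, nat_lit 478, nat_lit 526, nat_lit 566, nat_lit 606, nat_lit 638, nat_lit 662, nat_lit 686, nat_lit 702, nat_lit 702, nat_lit 686, nat_lit 662, nat_lit 638, nat_lit 606, nat_lit 566, nat_lit 526, nat_lit 478, nat_lit 422, nat_lit 366, nat_lit 302, nat_lit 230, nat_lit 158, nat_lit 75, nat_lit 166],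
  [nat_lit 83, nat_lit 166, nat_lit 238, nat_lit 310, nat_lit 374, nat_lit 430, nat_lit 486, nat_lit 534, nat_lit 574, nat_lit 614, nat_lit 646, nat_lit 670, nat_lit 694, nat_lit 710, nat_lit 718, nat_lit 723, nat_lit 718, nat_lit 710, nat_lit 694, nat_lit 670, nat_lit 646, nat_lit 614, nat_lit 574, nat_lit 534, nat_lit 486, nat_lit 430, nat_lit 374, nat_lit 310, nat_lit 238, nat_lit 166, nat_lit 83]]

theorem G14_13_10_ok : G14_13_10.ok = true := by decide +kernel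

theorem G14_13_10_nu_eq : G14_13_10_nu = G14_13_10.nuTab := by decide +kernel

end Crest.Agent.R163.DE
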