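import Crest.Agent.R163.DEDefs

/-! Row 163: a lattice (generated). -/

set_option autoImplicit false
set_option Elab.async false
set_option maxRecDepth 100000

namespace Crest.Agent.R163.DE

def G17_16_12 : Grid := ⟨nat_lit 17, nat_lit 16, nat_lit 12, nat_lit 127, nat_lit 0x1224132414241323152414231322162415231422172416231522142118241723162215211420192418231722162115201a241923182217211620151f1b241a23192218211720161f151e1c241b231a2219211820171f161e1d241c231b221a211920181f171e161d1e241d231c221b211a20191f181e171d161c1f241e231d221c211b201a1f191e181d171c20241f231e221d211c201b1f1a1e191d181c171b212420231f221e211d201c1f1b1e1a1d191c181b171a2224212320221f211e201d1f1c1e1b1d1a1c191b181a23242223212220211f201e1f1d1e1c1d1b1c1a1b191a1819242423232222212120201f1f1e1e1d1d1c1c1b1b1a1a19191818⟩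

noncomputable def G17_16_12_nu : List (List ℕ) := [[nat_lit 0, nat_lit 0, nat_lit 0, nat_lit 0, nat_lit 0, nat_lit 0, nat_lit 0, nat_lit 0, nat_lit 0, nat_lit 0, nat_lit 0, nat_lit 0, nat_lit 0, nat_lit 0, nat_lit 0, nat_lit 0, nat_lit 0, nat_lit 0, nat_lit 0, nat_lit 0, nat_lit 0, nat_lit 0, nat_lit 0, nat_lit 0, nat_lit 0, nat_lit 0, nat_lit 0, nat_lit 0, nat_lit 0, nat_lit 0, nat_lit 0, nat_lit 0, nat_lit 0, nat_lit 0, nat_lit 0, nat_lit 0, nat_lit 99],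
  [nat_lit 0, nat_lit 0, nat_lit 0, nat_lit 0, nat_lit 0, nat_lit 0, nat_lit 0, nat_lit 0, nat_lit 0, nat_lit 0, nat_lit 0, nat_lit 0, nat_lit 0, nat_lit 0, nat_lit 0, nat_lit 0, nat_lit 0, nat_lit 0, nat_lit 0, nat_lit 0, nat_lit 0, nat_lit 0, nat_lit 0, nat_lit 0, nat_lit 0, nat_lit 0, nat_lit 0, nat_lit 0, nat_lit 0, nat_lit 0, nat_lit 0, nat_lit 0, nat_lit 0, nat_lit 0, nat_lit 0, nat_lit 198, nat_lit 198],
  [nat_lit 0, nat_lit 0, nat_lit 0, nat_lit 0, nat_lit 0, nat_lit 0, nat_lit 0, nat_lit 0, nat_lit 0, nat_lit 0, nat_lit 0, nat_lit 0, nat_lit 0, nat_lit 0, nat_lit 0, nat_lit 0, nat_lit 0, nat_lit 0, nat_lit 0, nat_lit 0, nat_lit 0, nat_lit 0, nat_lit 0, nat_lit 0, nat_lit 0, nat_lit 0, nat_lit 0, nat_lit 0, nat_lit 0, nat_lit 0, nat_lit 0, nat_lit 0, nat_lit 0, nat_lit 0, nat_lit 286, nat_lit 91, nat_lit 286],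
  [nat_lit 0, nat_lit 0, nat_lit 0, nat_lit 0, nat_lit 0, nat_lit 0, nat_lit 0, nat_lit 0, nat_lit 0, nat_lit 0, nat_lit 0, nat_lit 0, nat_lit 0, nat_lit 0, nat_lit 0, nat_lit 0, nat_lit 0, nat_lit 0, nat_lit 0, nat_lit 0, nat_lit 0, nat_lit 0, nat_lit 0, nat_lit 0, nat_lit 0, nat_lit 0, nat_lit 0, nat_lit 0, nat_lit 0, nat_lit 0, nat_lit 0, nat_lit 0, nat_lit 0, nat_lit 374, nat_lit 190, nat_lit 190, nat_lit 374],
  [nat_lit 0, nat_lit 0, nat_lit 0, nat_lit 0, nat_lit 0, nat_lit 0, nat_lit 0, nat_lit 0, nat_lit 0, nat_lit 0, nat_lit 0, nat_lit 0, nat_lit 0, nat_lit 0, nat_lit 0, nat_lit 0, nat_lit 0, nat_lit 0, nat_lit 0, nat_lit 0, nat_lit 0, nat_lit 0, nat_lit 0, nat_lit 0, nat_lit 0, nat_lit 0, nat_lit 0, nat_lit 0, nat_lit 0, nat_lit 0, nat_lit 0, nat_lit 0, nat_lit 454, nat_lit 278, nat_lit 83, nat_lit 278, nat_lit 454],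
  [nat_lit 0, nat_lit 0, nat_lit 0, nat_lit 0, nat_lit 0, nat_lit 0, nat_lit 0, nat_lit 0, nat_lit 0, nat_lit 0, nat_lit 0, nat_lit 0, nat_lit 0, nat_lit 0, nat_lit 0, nat_lit 0, nat_lit 0, nat_lit 0, nat_lit 0, nat_lit 0, nat_lit 0, nat_lit 0, nat_lit 0, nat_lit 0, nat_lit 0, nat_lit 0, nat_lit 0, nat_lit 0, nat_lit 0, nat_lit 0, nat_lit 0, nat_lit 526, nat_lit 366, nat_lit 182, nat_lit 182, nat_lit 366, nat_lit 526],
  [nat_lit 0, nat_lit 0, nat_lit 0, nat_lit 0, nat_lit 0, nat_lit 0, nat_lit 0, nat_lit 0, nat_lit 0, nat_lit 0, nat_lit 0, nat_lit 0, nat_lit 0, nat_lit 0, nat_lit 0, nat_lit 0, nat_lit 0, nat_lit 0, nat_lit 0, nat_lit 0, nat_lit 0, nat_lit 0, nat_lit 0, nat_lit 0, nat_lit 0, nat_lit 0, nat_lit 0, nat_lit 0, nat_lit 0, nat_lit 0, nat_lit 598, nat_lit 446, nat_lit 270, nat_lit 75, nat_lit 270, nat_lit 446, nat_lit 598],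
  [nat_lit 0, nat_lit 0, nat_lit 0, nat_lit 0, nat_lit 0, nat_lit 0, nat_lit 0, nat_lit 0, nat_lit 0, nat_lit 0, nat_lit 0, nat_lit 0, nat_lit 0, nat_lit 0, nat_lit 0, nat_lit 0, nat_lit 0, nat_lit 0, nat_lit 0, nat_lit 0, nat_lit 0, nat_lit 0, nat_lit 0, nat_lit 0, nat_lit 0, nat_lit 0, nat_lit 0, nat_lit 0, nat_lit 0, nat_lit 662, nat_lit 518, nat_lit 358, nat_lit 174, nat_lit 174, nat_lit 358, nat_lit 518, nat_lit 662],
  [nat_lit 0, nat_lit 0, nat_lit 0, nat_lit 0, nat_lit 0, nat_lit 0, nat_lit 0, nat_lit 0, nat_lit 0, nat_lit 0, nat_lit 0, nat_lit 0, nat_lit 0, nat_lit 0, nat_lit 0, nat_lit 0, nat_lit 0, nat_lit 0, nat_lit 0, nat_lit 0, nat_lit 0, nat_lit 0, nat_lit 0, nat_lit 0, nat_lit 0, nat_lit 0, nat_lit 0, nat_lit 0, nat_lit 718, nat_lit 590, nat_lit 438, nat_lit 262, nat_lit 67, nat_lit 262, nat_lit 438, nat_lit 590, nat_lit 718],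
  [nat_lit 0, nat_lit 0, nat_lit 0, nat_lit 0, nat_lit 0, nat_lit 0, nat_lit 0, nat_lit 0, nat_lit 0, nat_lit 0, nat_lit 0, nat_lit 0, nat_lit 0, nat_lit 0, nat_lit 0, nat_lit 0, nat_lit 0, nat_lit 0, nat_lit 0, nat_lit 0, nat_lit 0, nat_lit 0, nat_lit 0, nat_lit 0, nat_lit 0, nat_lit 0, nat_lit 0, nat_lit 774, nat_lit 654, nat_lit 510, nat_lit 350, nat_lit 166, nat_lit 166, nat_lit 350, nat_lit 510, nat_lit 654, nat_lit 774],
  [nat_lit 0, nat_lit 0, nat_lit 0, nat_lit 0, nat_lit 0, nat_lit 0, nat_lit 0, nat_lit 0, nat_lit 0, nat_lit 0, nat_lit 0, nat_lit 0, nat_lit 0, nat_lit 0, nat_lit 0, nat_lit 0, nat_lit 0, nat_lit 0, nat_lit 0, nat_lit 0, nat_lit 0, nat_lit 0, nat_lit 0, nat_lit 0, nat_lit 0, nat_lit 0, nat_lit 822, nat_lit 710, nat_lit 582, nat_lit 430, nat_lit 254, nat_lit 59, nat_lit 254, nat_lit 430, nat_lit 582, nat_lit 710, nat_lit 822],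
  [nat_lit 0, nat_lit 0, nat_lit 0, nat_lit 0, nat_lit 0, nat_lit 0, nat_lit 0, nat_lit 0, nat_lit 0, nat_lit 0, nat_lit 0, nat_lit 0, nat_lit 0, nat_lit 0, nat_lit 0, nat_lit 0, nat_lit 0, nat_lit 0, nat_lit 0, nat_lit 0, nat_lit 0, nat_lit 0, nat_lit 0, nat_lit 0, nat_lit 0, nat_lit 862, nat_lit 766, nat_lit 646, nat_lit 502, nat_lit 342, nat_lit 158, nat_lit 158, nat_lit 342, nat_lit 502, nat_lit 646, nat_lit 766, nat_lit 862],
  [nat_lit 0, nat_lit 0, nat_lit 0, nat_lit 0, nat_lit 0, nat_lit 0, nat_lit 0, nat_lit 0, nat_lit 0, nat_lit 0, nat_lit 0, nat_lit 0, nat_lit 0, nat_lit 0, nat_lit 0, nat_lit 0, nat_lit 0, nat_lit 0, nat_lit 0, nat_lit 0, nat_lit 0, nat_lit 0, nat_lit 0, nat_lit 0, nat_lit 902, nat_lit 814, nat_lit 702, nat_lit 574, nat_lit 422, nat_lit 246, nat_lit 51, nat_lit 246, nat_lit 422, nat_lit 574, nat_lit 702, nat_lit 814, nat_lit 902],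
  [nat_lit 0, nat_lit 0, nat_lit 0, nat_lit 0, nat_lit 0, nat_lit 0, nat_lit 0, nat_lit 0, nat_lit 0, nat_lit 0, nat_lit 0, nat_lit 0, nat_lit 0, nat_lit 0, nat_lit 0, nat_lit 0, nat_lit 0, nat_lit 0, nat_lit 0, nat_lit 0, nat_lit 0, nat_lit 0, nat_lit 0, nat_lit 934, nat_lit 854, nat_lit 758, nat_lit 638, nat_lit 494, nat_lit 334, nat_lit 150, nat_lit 150, nat_lit 334, nat_lit 494, nat_lit 638, nat_lit 758, nat_lit 854, nat_lit 934],
  [nat_lit 0, nat_lit 0, nat_lit 0, nat_lit 0, nat_lit 0, nat_lit 0, nat_lit 0, nat_lit 0, nat_lit 0, nat_lit 0, nat_lit 0, nat_lit 0, nat_lit 0, nat_lit 0, nat_lit 0, nat_lit 0, nat_lit 0, nat_lit 0, nat_lit 0, nat_lit 0, nat_lit 0, nat_lit 0, nat_lit 958, nat_lit 894, nat_lit 806, nat_lit 694, nat_lit 566, nat_lit 414, nat_lit 238, nat_lit 43, nat_lit 238, nat_lit 414, nat_lit 566, nat_lit 694, nat_lit 806, nat_lit 894, nat_lit 958],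
  [nat_lit 0, nat_lit 0, nat_lit 0, nat_lit 0, nat_lit 0, nat_lit 0, nat_lit 0, nat_lit 0, nat_lit 0, nat_lit 0, nat_lit 0, nat_lit 0, nat_lit 0, nat_lit 0, nat_lit 0, nat_lit 0, nat_lit 0, nat_lit 0, nat_lit 0, nat_lit 0, nat_lit 0, nat_lit 982, nat_lit 926, nat_lit 846, nat_lit 750, nat_lit 630, nat_lit 486, nat_lit 326, nat_lit 142, nat_lit 142, nat_lit 326, nat_lit 486, nat_lit 630, nat_lit 750, nat_lit 846, nat_lit 926, nat_lit 982],
  [nat_lit 0, nat_lit 0, nat_lit 0, nat_lit 0, nat_lit 0, nat_lit 0, nat_lit 0, nat_lit 0, nat_lit 0, nat_lit 0, nat_lit 0, nat_lit 0, nat_lit 0, nat_lit 0, nat_lit 0, nat_lit 0, nat_lit 0, nat_lit 0, nat_lit 0, nat_lit 0, nat_lit 998, nat_lit 950, nat_lit 886, nat_lit 798, nat_lit 686, nat_lit 558, nat_lit 406, nat_lit 230, nat_lit 35, nat_lit 230, nat_lit 406, nat_lit 558, nat_lit 686, nat_lit 798, nat_lit 886, nat_lit 950, nat_lit 998],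
  [nat_lit 0, nat_lit 0, nat_lit 0, nat_lit 0, nat_lit 0, nat_lit 0, nat_lit 0, nat_lit 0, nat_lit 0, nat_lit 0, nat_lit 0, nat_lit 0, nat_lit 0, nat_lit 0, nat_lit 0, nat_lit 0, nat_lit 0, nat_lit 0, nat_lit 0, nat_lit 1006, nat_lit 974, nat_lit 918, nat_lit 838, nat_lit 742, nat_lit 622, nat_lit 478, nat_lit 318, nat_lit 134, nat_lit 134, nat_lit 318, nat_lit 478, nat_lit 622, nat_lit 742, nat_lit 838, nat_lit 918, nat_lit 974, nat_lit 1006],
  [nat_lit 0, nat_lit 0, nat_lit 0, nat_lit 0, nat_lit 0, nat_lit 0, nat_lit 0, nat_lit 0, nat_lit 0, nat_lit 0, nat_lit 0, nat_lit 0, nat_lit 0, nat_lit 0, nat_lit 0, nat_lit 0, nat_lit 0, nat_lit 0, nat_lit 1011, nat_lit 990, nat_lit 942, nat_lit 878, nat_lit 790, nat_lit 678, nat_lit 550, nat_lit 398, nat_lit 222, nat_lit 27, nat_lit 222, nat_lit 398, nat_lit 550, nat_lit 678, nat_lit 790, nat_lit 878, nat_lit 942, nat_lit 990, nat_lit 1011],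
  [nat_lit 0, nat_lit 0, nat_lit 0, nat_lit 0, nat_lit 0, nat_lit 0, nat_lit 0, nat_lit 0, nat_lit 0, nat_lit 0, nat_lit 0, nat_lit 0, nat_lit 0, nat_lit 0, nat_lit 0, nat_lit 0, nat_lit 0, nat_lit 1006, nat_lit 990, nat_lit 963, nat_lit 910, nat_lit 830, nat_lit 734, nat_lit 614, nat_lit 470, nat_lit 310, nat_lit 126, nat_lit 126, nat_lit 310, nat_lit 470, nat_lit 614, nat_lit 734, nat_lit 830, nat_lit 910, nat_lit 963, nat_lit 990, nat_lit 1006],
  [nat_lit 0, nat_lit 0, nat_lit 0, nat_lit 0, nat_lit 0, nat_lit 0, nat_lit 0, nat_lit 0, nat_lit 0, nat_lit 0, nat_lit 0, nat_lit 0, nat_lit 0, nat_lit 0, nat_lit 0, nat_lit 0, nat_lit 998, nat_lit 974, nat_lit 942, nat_lit 910, nat_lit 867, nat_lit 782, nat_lit 670, nat_lit 542, nat_lit 390, nat_lit 214, nat_lit 19, nat_lit 214, nat_lit 390, nat_lit 542, nat_lit 670, nat_lit 782, nat_lit 867, nat_lit 910, nat_lit 942, nat_lit 974, nat_lit 998],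
  [nat_lit 0, nat_lit 0, nat_lit 0, nat_lit 0, nat_lit 0, nat_lit 0, nat_lit 0, nat_lit 0, nat_lit 0, nat_lit 0, nat_lit 0, nat_lit 0, nat_lit 0, nat_lit 0, nat_lit 0, nat_lit 982, nat_lit 950, nat_lit 918, nat_lit 878, nat_lit 830, nat_lit 782, nat_lit 723, nat_lit 606, nat_lit 462, nat_lit 302, nat_lit 118, nat_lit 118, nat_lit 302, nat_lit 462, nat_lit 606, nat_lit 723, nat_lit 782, nat_lit 830, nat_lit 878, nat_lit 918, nat_lit 950, nat_lit 982],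
  [nat_lit 0, nat_lit 0, nat_lit 0, nat_lit 0, nat_lit 0, nat_lit 0, nat_lit 0, nat_lit 0, nat_lit 0, nat_lit 0, nat_lit 0, nat_lit 0, nat_lit 0, nat_lit 0, nat_lit 958, nat_lit 926, nat_lit 886, nat_lit 838, nat_lit 790, nat_lit 734, nat_lit 670, nat_lit 606, nat_lit 531, nat_lit 382, nat_lit 206, nat_lit 11, nat_lit 206, nat_lit 382, nat_lit 531, nat_lit 606, nat_lit 670, nat_lit 734, nat_lit 790, nat_lit 838, nat_lit 886, nat_lit 926, nat_lit 958],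
  [nat_lit 0, nat_lit 0, nat_lit 0, nat_lit 0, nat_lit 0, nat_lit 0, nat_lit 0, nat_lit 0, nat_lit 0, nat_lit 0, nat_lit 0, nat_lit 0, nat_lit 0, nat_lit 934, nat_lit 894, nat_lit 846, nat_lit 798, nat_lit 742, nat_lit 678, nat_lit 614, nat_lit 542, nat_lit 462, nat_lit 382, nat_lit 291, nat_lit 110, nat_lit 110, nat_lit 291, nat_lit 382, nat_lit 462, nat_lit 542, nat_lit 614, nat_lit 678, nat_lit 742, nat_lit 798, nat_lit 846, nat_lit 894, nat_lit 934],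
  [nat_lit 0, nat_lit 0, nat_lit 0, nat_lit 0, nat_lit 0, nat_lit 0, nat_lit 0, nat_lit 0, nat_lit 0, nat_lit 0, nat_lit 0, nat_lit 0, nat_lit 902, nat_lit 854, nat_lit 806, nat_lit 750, nat_lit 686, nat_lit 622, nat_lit 550, nat_lit 470, nat_lit 390, nat_lit 302, nat_lit 206, nat_lit 110, nat_lit 1, nat_lit 110, nat_lit 206, nat_lit 302, nat_lit 390, nat_lit 470, nat_lit 550, nat_lit 622, nat_lit 686, nat_lit 750, nat_lit 806, nat_lit 854, nat_lit 902],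
  [nat_lit 0, nat_lit 0, nat_lit 0, nat_lit 0, nat_lit 0, nat_lit 0, nat_lit 0, nat_lit 0, nat_lit 0, nat_lit 0, nat_lit 0, nat_lit 862, nat_lit 814, nat_lit 758, nat_lit 694, nat_lit 630, nat_lit 558, nat_lit 478, nat_lit 398, nat_lit 310, nat_lit 214, nat_lit 118, nat_lit 11, nat_lit 110, nat_lit 110, nat_lit 11, nat_lit 118, nat_lit 214, nat_lit 310, nat_lit 398, nat_lit 478, nat_lit 558, nat_lit 630, nat_lit 694, nat_lit 758, nat_lit 814, nat_lit 862],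
  [nat_lit 0, nat_lit 0, nat_lit 0, nat_lit 0, nat_lit 0, nat_lit 0, nat_lit 0, nat_lit 0, nat_lit 0, nat_lit 0, nat_lit 822, nat_lit 766, nat_lit 702, nat_lit 638, nat_lit 566, nat_lit 486, nat_lit 406, nat_lit 318, nat_lit 222, nat_lit 126, nat_lit 19, nat_lit 118, nat_lit 206, nat_lit 291, nat_lit 206, nat_lit 118, nat_lit 19, nat_lit 126, nat_lit 222, nat_lit 318, nat_lit 406, nat_lit 486, nat_lit 566, nat_lit 638, nat_lit 702, nat_lit 766, nat_lit 822],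
  [nat_lit 0, nat_lit 0, nat_lit 0, nat_lit 0, nat_lit 0, nat_lit 0, nat_lit 0, nat_lit 0, nat_lit 0, nat_lit 774, nat_lit 710, nat_lit 646, nat_lit 574, nat_lit 494, nat_lit 414, nat_lit 326, nat_lit 230, nat_lit 134, nat_lit 27, nat_lit 126, nat_lit 214, nat_lit 302, nat_lit 382, nat_lit 382, nat_lit 302, nat_lit 214, nat_lit 126, nat_lit 27, nat_lit 134, nat_lit 230, nat_lit 326, nat_lit 414, nat_lit 494, nat_lit 574, nat_lit 646, nat_lit 710, nat_lit 774],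
  [nat_lit 0, nat_lit 0, nat_lit 0, nat_lit 0, nat_lit 0, nat_lit 0, nat_lit 0, nat_lit 0, nat_lit 718, nat_lit 654, nat_lit 582, nat_lit 502, nat_lit 422, nat_lit 334, nat_lit 238, nat_lit 142, nat_lit 35, nat_lit 134, nat_lit 222, nat_lit 310, nat_lit 390, nat_lit 462, nat_lit 531, nat_lit 462, nat_lit 390, nat_lit 310, nat_lit 222, nat_lit 134, nat_lit 35, nat_lit 142, nat_lit 238, nat_lit 334, nat_lit 422, nat_lit 502, nat_lit 582, nat_lit 654, nat_lit 718],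
  [nat_lit 0, nat_lit 0, nat_lit 0, nat_lit 0, nat_lit 0, nat_lit 0, nat_lit 0, nat_lit 662, nat_lit 590, nat_lit 510, nat_lit 430, nat_lit 342, nat_lit 246, nat_lit 150, nat_lit 43, nat_lit 142, nat_lit 230, nat_lit 318, nat_lit 398, nat_lit 470, nat_lit 542, nat_lit 606, nat_lit 606, nat_lit 542, nat_lit 470, nat_lit 398, nat_lit 318, nat_lit 230, nat_lit 142, nat_lit 43, nat_lit 150, nat_lit 246, nat_lit 342, nat_lit 430, nat_lit 510, nat_lit 590, nat_lit 662],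
  [nat_lit 0, nat_lit 0, nat_lit 0, nat_lit 0, nat_lit 0, nat_lit 0, nat_lit 598, nat_lit 518, nat_lit 438, nat_lit 350, nat_lit 254, nat_lit 158, nat_lit 51, nat_lit 150, nat_lit 238, nat_lit 326, nat_lit 406, nat_lit 478, nat_lit 550, nat_lit 614, nat_lit 670, nat_lit 723, nat_lit 670, nat_lit 614, nat_lit 550, nat_lit 478, nat_lit 406, nat_lit 326, nat_lit 238, nat_lit 150, nat_lit 51, nat_lit 158, nat_lit 254, nat_lit 350, nat_lit 438, nat_lit 518, nat_lit 598],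
  [nat_lit 0, nat_lit 0, nat_lit 0, nat_lit 0, nat_lit 0, nat_lit 526, nat_lit 446, nat_lit 358, nat_lit 262, nat_lit 166, nat_lit 59, nat_lit 158, nat_lit 246, nat_lit 334, nat_lit 414, nat_lit 486, nat_lit 558, nat_lit 622, nat_lit 678, nat_lit 734, nat_lit 782, nat_lit 782, nat_lit 734, nat_lit 678, nat_lit 622, nat_lit 558, nat_lit 486, nat_lit 414, nat_lit 334, nat_lit 246, nat_lit 158, nat_lit 59, nat_lit 166, nat_lit 262, nat_lit 358, nat_lit 446, nat_lit 526],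
  [nat_lit 0, nat_lit 0, nat_lit 0, nat_lit 0, nat_lit 454, nat_lit 366, nat_lit 270, nat_lit 174, nat_lit 67, nat_lit 166, nat_lit 254, nat_lit 342, nat_lit 422, nat_lit 494, nat_lit 566, nat_lit 630, nat_lit 686, nat_lit 742, nat_lit 790, nat_lit 830, nat_lit 867, nat_lit 830, nat_lit 790, nat_lit 742, nat_lit 686, nat_lit 630, nat_lit 566, nat_lit 494, nat_lit 422, nat_lit 342, nat_lit 254, nat_lit 166, nat_lit 67, nat_lit 174, nat_lit 270, nat_lit 366, nat_lit 454],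
  [nat_lit 0, nat_lit 0, nat_lit 0, nat_lit 374, nat_lit 278, nat_lit 182, nat_lit 75, nat_lit 174, nat_lit 262, nat_lit 350, nat_lit 430, nat_lit 502, nat_lit 574, nat_lit 638, nat_lit 694, nat_lit 750, nat_lit 798, nat_lit 838, nat_lit 878, nat_lit 910, nat_lit 910, nat_lit 878, nat_lit 838, nat_lit 798, nat_lit 750, nat_lit 694, nat_lit 638, nat_lit 574, nat_lit 502, nat_lit 430, nat_lit 350, nat_lit 262, nat_lit 174, nat_lit 75, nat_lit 182, nat_lit 278, nat_lit 374],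
  [nat_lit 0, nat_lit 0, nat_lit 286, nat_lit 190, nat_lit 83, nat_lit 182, nat_lit 270, nat_lit 358, nat_lit 438, nat_lit 510, nat_lit 582, nat_lit 646, nat_lit 702, nat_lit 758, nat_lit 806, nat_lit 846, nat_lit 886, nat_lit 918, nat_lit 942, nat_lit 963, nat_lit 942, nat_lit 918, nat_lit 886, nat_lit 846, nat_lit 806, nat_lit 758, nat_lit 702, nat_lit 646, nat_lit 582, nat_lit 510, nat_lit 438, nat_lit 358, nat_lit 270, nat_lit 182, nat_lit 83, nat_lit 190, nat_lit 286],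
  [nat_lit 0, nat_lit 198, nat_lit 91, nat_lit 190, nat_lit 278, nat_lit 366, nat_lit 446, nat_lit 518, nat_lit 590, nat_lit 654, nat_lit 710, nat_lit 766, nat_lit 814, nat_lit 854, nat_lit 894, nat_lit 926, nat_lit 950, nat_lit 974, nat_lit 990, nat_lit 990, nat_lit 974, nat_lit 950, nat_lit 926, nat_lit 894, nat_lit 854, nat_lit 814, nat_lit 766, nat_lit 710, nat_lit 654, nat_lit 590, nat_lit 518, nat_lit 446, nat_lit 366, nat_lit 278, nat_lit 190, nat_lit 91, nat_lit 198],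
  [nat_lit 99, nat_lit 198, nat_lit 286, nat_lit 374, nat_lit 454, nat_lit 526, nat_lit 598, nat_lit 662, nat_lit 718, nat_lit 774, nat_lit 822, nat_lit 862, nat_lit 902, nat_lit 934, nat_lit 958, nat_lit 982, nat_lit 998, nat_lit 1006, nat_lit 1011, nat_lit 1006, nat_lit 998, nat_lit 982, nat_lit 958, nat_lit 934, nat_lit 902, nat_lit 862, nat_lit 822, nat_lit 774, nat_lit 718, nat_lit 662, nat_lit 598, nat_lit 526, nat_lit 454, nat_lit 374, nat_lit 286, nat_lit 198, nat_lit 99]]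

theorem G17_16_12_ok : G17_16_12.ok = true := by decide +kernel

theorem G17_16_12_nu_eq : G17_16_12_nu = G17_16_12.nuTab := by decide +kernel

end Crest.Agent.R163.DE
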