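import Crest.Agent.R163.DETrunc
import Crest.Agent.R163.DELat

/-! Row 163: the convolution loop. -/

set_option autoImplicit false

namespace Crest.Agent.R163.DE

open Finset Ck

namespace DELoopH

theorem loop_cons (nu η sh M : ℕ) (k : ℕ → ℕ → ℕ) (c : ℕ) (al : List ℕ) (A B SA SB : ℕ) :
    loop nu η sh M k (c :: al) A B SA SB = loop nu η sh M k al (trunc sh M (nu * A))
      (trunc sh M (nu * B + Nat.shiftLeft (η * (A + B)) sh)) (SA + c * A) (SB + c * B) := rfl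

theorem shrink_le {w w' : Arr} {o n c : ℕ}
    (e : ∀ p, w'.coeff p = if inHex o n p then w.coeff p / c else 0) (p : ℤ × ℤ) :
    c * w'.coeff p ≤ w.coeff p := by
  rw [e]
  split_ifs
  · exact Nat.mul_div_le _ _
  · simp

theorem lt_of_le {x : ℕ} (h : (x : ℝ) ≤ 2 ^ 32 * 2 ^ 31) : x < 2 ^ 64 := by
  have : (x : ℝ) < 2 ^ 64 := h.trans_lt (by norm_num)
  exact_mod_cast this

theorem aux {a : ℝ} (ha : 0 < a) {S o nν oA nA nu η : ℕ} {ν : Arr} {N : Law 3}
    (hS : nA + nν ≤ S) (ho : o ≤ nν) (hν : Rep S o nν nu ν)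
    (hs : Symm ν) (hN : LbAB a N ν (AddMonoidAlgebra.single 0 η) (2 ^ 31))
    (k : ℕ → ℕ → ℕ) (al : List ℕ) : ∀ (k0 A B SA SB : ℕ) (wA wB uA uB : Arr),
      Rep S oA nA A wA → Rep S oA nA B wB → Rep S oA nA SA uA → Rep S oA nA SB uB →
      Symm wA → Symm wB → Symm uA → Symm uB → LbAB a (N.pow k0) wA wB (2 ^ 32) →
      ∃ (SA' SB' : ℕ) (uA' uB' : Arr),
        loop nu η (Nat.mul o (Nat.add 64 (Nat.mul 64 S))) (mask S oA nA) k al A B SA SB =
          k SA' SB' ∧ Rep S oA nA SA' uA' ∧ Rep S oA nA SB' uB' ∧ Symm uA' ∧ Symm uB' ∧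
        ∀ H : Vec 3 → ℝ, Sup H → Phi a uA' H + Phi a uB' (fun Q => ∑ i, H (Q * ed i)) ≤
          Phi a uA H + Phi a uB (fun Q => ∑ i, H (Q * ed i)) +
            2 ^ 32 * ∑ j ∈ range al.length, (al.getD j 0 : ℝ) * (N.pow (k0 + j)).E H := by
  induction al with
  | nil =>
    intro k0 A B SA SB wA wB uA uB _ _ r3 r4 _ _ s3 s4 _
    exact ⟨SA, SB, uA, uB, rfl, r3, r4, s3, s4, fun H _ => by simp⟩
  | cons c al ih =>
    intro k0 A B SA SB wA wB uA uB r1 r2 r3 r4 s1 s2 s3 s4 hL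
    have hst := hL.star ha (by positivity) hN
    have hb := hst.lb1.bound ha
    have q1 := hν.mul r1
    have q2 := (hν.mul r2).add ((((r1.add r2).smul η).shift o).mono (by omega))
    obtain ⟨wA', t1, e1⟩ := trunc_rep (nA := nA) q1 (by omega) (by omega) fun p => lt_of_le (hb p).1
    obtain ⟨wB', t2, e2⟩ := trunc_rep (nA := nA) q2 (by omega) (by omega) fun p => lt_of_le (hb p).2
    have hL' : LbAB a (N.pow (k0 + 1)) wA' wB' (2 ^ 32) :=
      LbAB.shrink ha (c := 2 ^ 31) (by positivity) (by rw [Nat.cast_pow, Nat.cast_ofNat]; exact hst) (shrink_le e1)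
        (shrink_le e2)
    obtain ⟨SA', SB', uA', uB', f1, f2, f3, f4, f5, f6⟩ := ih (k0 + 1) _ _ _ _ wA' wB' _ _ t1 t2
      (r3.add (r1.smul c)) (r4.add (r2.smul c)) ((hs.mul s1).trunc e1)
      (((hs.mul s2).add ((s1.add s2).smul η)).trunc e2) (s3.add (s1.smul c)) (s4.add (s2.smul c)) hL'
    refine ⟨SA', SB', uA', uB', (loop_cons ..).trans f1, f2, f3, f4, f5, fun H hH => ?_⟩
    have g1 := f6 H hH
    have g2 := mul_le_mul_of_nonneg_left (hL.lb1 H hH) (Nat.cast_nonneg (α := ℝ) c)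
    rw [Phi_add, Phi_add, Phi_smul, Phi_smul] at g1
    rw [List.length_cons, sum_range_succ']
    simp only [List.getD_cons_succ, List.getD_cons_zero, add_zero]
    simp only [add_assoc k0, add_comm 1] at g1
    linarith

end DELoopH

theorem loop_sound {a : ℝ} (ha : 0 < a) {S o nν oA nA nu η : ℕ} {ν : Arr} {N L' : Law 3}
    {al : List ℕ} (hS : nA + nν ≤ S) (ho : o ≤ nν) (hc : oA < nA) (hν : Rep S o nν nu ν)
    (hs : Symm ν) (hN : LbAB a N ν (AddMonoidAlgebra.single 0 η) (2 ^ 31)) (hM : Mix L' N al)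
    (k : ℕ → ℕ → ℕ) : ∃ (SA SB : ℕ) (wA wB : Arr),
      loop nu η (Nat.mul o (Nat.add 64 (Nat.mul 64 S))) (mask S oA nA) k al
        (Nat.shiftLeft 4294967296 (Nat.mul oA (Nat.add 64 (Nat.mul 64 S)))) 0 0 0 = k SA SB ∧
      Rep S oA nA SA wA ∧ Rep S oA nA SB wB ∧ Symm wA ∧ Symm wB ∧ Lb1 a L' wA wB (2 ^ 60) := by
  obtain ⟨SA, SB, uA, uB, f1, f2, f3, f4, f5, f6⟩ := DELoopH.aux ha hS ho hν hs hN k al 0 _ 0 0 0
    _ 0 0 0 (Rep.center 4294967296 hc) Rep.zero Rep.zero Rep.zero (Symm.center _) Symm.zero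
    Symm.zero Symm.zero (by
      have := LbAB.one (a := a) 4294967296
      norm_num at this ⊢
      exact this)
  refine ⟨SA, SB, uA, uB, f1, f2, f3, f4, f5, fun H hH => ?_⟩
  have g1 := f6 H hH
  have g2 := hM H hH
  simp only [Phi_zero, zero_add] at g1
  linarith

end Crest.Agent.R163.DE
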