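import Crest.Agent.R163.DEDefs

/-! Row 163: packed arrays. -/

set_option autoImplicit false

namespace Crest.Agent.R163.DE

open Finset Ck

variable {S o o' n n' V V' : ℕ} {w w' : Arr}

namespace DEPackH

theorem shl_eq (c a S : ℕ) :
    Nat.shiftLeft c (Nat.mul a (Nat.add 64 (Nat.mul 64 S))) = c * 2 ^ (64 * (a + S * a)) := by
  have e : Nat.mul a (Nat.add 64 (Nat.mul 64 S)) = 64 * (a + S * a) := by
    show a * (64 + 64 * S) = _
    ring
  rw [e]
  exact Nat.shiftLeft_eq _ _

theorem single {p : ℤ × ℤ} (c : ℕ) (hp : 0 ≤ p.1 + o ∧ p.1 + o < n ∧ 0 ≤ p.2 + o) :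
    Rep S o n (c * 2 ^ (64 * ((p.1 + o).toNat + S * (p.2 + o).toNat)))
      (AddMonoidAlgebra.single p c) := by
  refine ⟨fun q hq => ?_, ?_⟩
  · rw [mem_singleton.1 (Finsupp.support_single_subset hq)]
    exact hp
  · rw [AddMonoidAlgebra.coeff_single, Finsupp.sum_single_index (zero_mul _)]

theorem sum_lt {m : ℕ} {d : ℕ → ℕ} (hd : ∀ k < m, d k < 2 ^ 64) :
    ∑ j ∈ range m, d j * 2 ^ (64 * j) < 2 ^ (64 * m) := by
  induction m with
  | zero => simp
  | succ m ih =>
    have h1 := ih fun k hk => hd k (by omega)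
    have h2 : (d m + 1) * 2 ^ (64 * m) ≤ 2 ^ 64 * 2 ^ (64 * m) :=
      Nat.mul_le_mul_right _ (hd m (by omega))
    rw [sum_range_succ, mul_add 64, pow_add, mul_one, mul_comm (2 ^ (64 * m))]
    rw [add_mul, one_mul] at h2
    omega

end DEPackH

theorem Rep.zero : Rep S o n 0 0 := by
  exact ⟨by simp, by simp⟩

theorem Rep.center (c : ℕ) (h : o < n) :
    Rep S o n (Nat.shiftLeft c (Nat.mul o (Nat.add 64 (Nat.mul 64 S))))
      (AddMonoidAlgebra.single 0 c) := by
  have e : Nat.shiftLeft c (Nat.mul o (Nat.add 64 (Nat.mul 64 S))) =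
      c * 2 ^ (64 * ((((0 : ℤ × ℤ).1 + o).toNat) + S * ((0 : ℤ × ℤ).2 + o).toNat)) := by
    rw [DEPackH.shl_eq]
    simp
  rw [e]
  exact DEPackH.single c ⟨by simp, by simpa using h, by simp⟩

theorem Rep.mono (h : Rep S o n V w) (hn : n ≤ n') : Rep S o n' V w := by
  refine ⟨fun p hp => ?_, h.2⟩
  have := h.1 p hp
  omega

theorem Rep.add (h : Rep S o n V w) (h' : Rep S o n V' w') : Rep S o n (V + V') (w + w') := by
  classical
  refine ⟨fun p hp => ?_, ?_⟩
  · rw [AddMonoidAlgebra.coeff_add] at hp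
    rcases mem_union.1 (Finsupp.support_add hp) with hp | hp
    · exact h.1 p hp
    · exact h'.1 p hp
  · rw [AddMonoidAlgebra.coeff_add, Finsupp.sum_add_index' (fun _ => zero_mul _)
      fun _ _ _ => add_mul _ _ _, ← h.2, ← h'.2]

theorem Rep.sum {ι : Type*} {s : Finset ι} {U : ι → ℕ} {u : ι → Arr}
    (h : ∀ i ∈ s, Rep S o n (U i) (u i)) : Rep S o n (∑ i ∈ s, U i) (∑ i ∈ s, u i) := by
  classical
  induction s using Finset.induction_on with
  | empty => exact Rep.zero
  | insert a s ha ih =>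
    rw [sum_insert ha, sum_insert ha]
    exact (h a (mem_insert_self _ _)).add (ih fun i hi => h i (mem_insert_of_mem hi))

theorem Rep.smul (c : ℕ) (h : Rep S o n V w) : Rep S o n (c * V) (c • w) := by
  refine ⟨fun p hp => h.1 p (Finsupp.support_smul hp), ?_⟩
  rw [AddMonoidAlgebra.coeff_smul, Finsupp.sum_smul_index' fun _ => zero_mul _, h.2,
    Finsupp.mul_sum]
  exact Finsupp.sum_congr fun p _ => by rw [smul_eq_mul, mul_assoc]

theorem Rep.mul (h : Rep S o n V w) (h' : Rep S o' n' V' w') :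
    Rep S (o + o') (n + n') (V * V') (w * w') := by
  rw [AddMonoidAlgebra.mul_def, h.2, h'.2, Finsupp.sum, Finsupp.sum, Finsupp.sum, sum_mul_sum]
  refine Rep.sum fun p hp => Rep.sum fun q hq => ?_
  have a := h.1 p hp
  have b := h'.1 q hq
  have e1 : ((p + q).1 + (o + o' : ℕ)).toNat = (p.1 + o).toNat + (q.1 + o').toNat := by
    rw [Prod.fst_add]
    omega
  have e2 : ((p + q).2 + (o + o' : ℕ)).toNat = (p.2 + o).toNat + (q.2 + o').toNat := by
    rw [Prod.snd_add]
    omega
  have r := DEPackH.single (S := S) (o := o + o') (n := n + n') (p := p + q)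
    (w.coeff p * w'.coeff q) (by rw [Prod.fst_add, Prod.snd_add]; omega)
  rw [e1, e2] at r
  convert r using 1
  ring

theorem Rep.shift (h : Rep S o n V w) (o' : ℕ) :
    Rep S (o' + o) (o' + n) (Nat.shiftLeft V (Nat.mul o' (Nat.add 64 (Nat.mul 64 S)))) w := by
  refine ⟨fun p hp => ?_, ?_⟩
  · have := h.1 p hp
    omega
  · rw [DEPackH.shl_eq, h.2, Finsupp.sum_mul]
    refine Finsupp.sum_congr fun p hp => ?_
    have := h.1 p hp
    have e1 : (p.1 + (o' + o : ℕ)).toNat = o' + (p.1 + o).toNat := by omega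
    have e2 : (p.2 + (o' + o : ℕ)).toNat = o' + (p.2 + o).toNat := by omega
    rw [e1, e2]
    ring

/-- digits of a sum with small coefficients -/
theorem dig_sum {m : ℕ} {d : ℕ → ℕ} (hd : ∀ k < m, d k < 2 ^ 64) (t : ℕ) {k : ℕ} (hk : k < m) :
    dig (∑ j ∈ range m, d j * 2 ^ (64 * j) + t * 2 ^ (64 * m)) k = d k := by
  induction m generalizing t with
  | zero => omega
  | succ m ih =>
    have e : ∑ j ∈ range (m + 1), d j * 2 ^ (64 * j) + t * 2 ^ (64 * (m + 1)) =
        ∑ j ∈ range m, d j * 2 ^ (64 * j) + (d m + t * 2 ^ 64) * 2 ^ (64 * m) := by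
      rw [sum_range_succ, mul_add 64, pow_add, mul_one, add_mul, add_assoc, mul_assoc t,
        mul_comm (2 ^ 64)]
    rw [e]
    rcases Nat.lt_succ_iff_lt_or_eq.1 hk with hk | rfl
    · exact ih (fun k hk => hd k (by omega)) _ hk
    · rw [dig, Nat.add_mul_div_right _ _ (by positivity),
        Nat.div_eq_of_lt (DEPackH.sum_lt fun j hj => hd j (by omega)), zero_add,
        Nat.add_mul_mod_self_right, Nat.mod_eq_of_lt (hd k hk)]

theorem Rep.dig (h : Rep S o n V w) (hn : n ≤ S) (hb : ∀ p, w.coeff p < 2 ^ 64) {X : ℕ} (hX : X < S)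
    (Y : ℕ) : dig V (X + S * Y) = w.coeff ((X : ℤ) - o, (Y : ℤ) - o) := by
  have hS : 0 < S := by omega
  set pos : ℤ × ℤ → ℕ := fun p => (p.1 + o).toNat + S * (p.2 + o).toNat with hpos
  set d : ℕ → ℕ := fun j => w.coeff (((j % S : ℕ) : ℤ) - o, ((j / S : ℕ) : ℤ) - o) with hd
  have key : ∀ p ∈ w.coeff.support,
      ((((pos p % S : ℕ) : ℤ) - o, ((pos p / S : ℕ) : ℤ) - o) : ℤ × ℤ) = p := by
    intro p hp
    have a := h.1 p hp
    have b : (p.1 + o).toNat < S := by omega
    rw [hpos]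
    simp only
    rw [Nat.add_mul_mod_self_left, Nat.mod_eq_of_lt b, Nat.add_mul_div_left _ _ hS,
      Nat.div_eq_of_lt b, zero_add]
    exact Prod.ext (by simp only; omega) (by simp only; omega)
  have e : V = ∑ j ∈ range (w.coeff.support.sup pos + (X + S * Y) + 1), d j * 2 ^ (64 * j) := by
    rw [h.2, Finsupp.sum]
    refine sum_of_injOn pos (fun p hp q hq e => ?_) (fun p hp => ?_) (fun j _ hj => ?_)
      fun p hp => ?_
    · rw [← key p hp, e, key q hq]
    · have := le_sup (f := pos) hp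
      rw [mem_coe, mem_range]
      omega
    · refine mul_eq_zero_of_left (by_contra fun h0 => hj ⟨_, Finsupp.mem_support_iff.2 h0, ?_⟩) _
      simp only [hpos, sub_add_cancel, Int.toNat_natCast]
      exact Nat.mod_add_div j S
    · rw [hd]
      simp only
      rw [key p hp]
  have r := dig_sum (m := w.coeff.support.sup pos + (X + S * Y) + 1) (d := d) (fun k _ => hb _) 0
    (k := X + S * Y) (by omega)
  rw [zero_mul, add_zero, ← e] at r
  rw [r, hd]
  simp only
  rw [Nat.add_mul_mod_self_left, Nat.mod_eq_of_lt hX, Nat.add_mul_div_left _ _ hS,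
    Nat.div_eq_of_lt hX, zero_add]

/-- an array given by its digits on a square -/
theorem exists_rep (S o n : ℕ) (f : ℕ → ℕ → ℕ) : ∃ w : Arr,
    Rep S o n (∑ Y ∈ range n, (∑ X ∈ range n, f X Y * 2 ^ (64 * X)) * 2 ^ (64 * S * Y)) w ∧
    ∀ p : ℤ × ℤ, w.coeff p = if (0 ≤ p.1 + o ∧ p.1 + o < n) ∧ (0 ≤ p.2 + o ∧ p.2 + o < n) then
      f (p.1 + o).toNat (p.2 + o).toNat else 0 := by
  refine ⟨∑ Y ∈ range n, ∑ X ∈ range n,
    AddMonoidAlgebra.single ((X : ℤ) - o, (Y : ℤ) - o) (f X Y), Rep.sum fun Y hY => ?_, fun p => ?_⟩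
  · rw [sum_mul]
    refine Rep.sum fun X hX => ?_
    have hX' := mem_range.1 hX
    have r := DEPackH.single (S := S) (o := o) (n := n) (p := ((X : ℤ) - o, (Y : ℤ) - o)) (f X Y)
      (by simp only; omega)
    simp only [sub_add_cancel, Int.toNat_natCast] at r
    convert r using 1
    ring
  · simp only [AddMonoidAlgebra.coeff_sum, Finsupp.finsetSum_apply, AddMonoidAlgebra.coeff_single,
      Finsupp.single_apply]
    split_ifs with hp
    · rw [sum_eq_single (p.2 + o).toNat, sum_eq_single (p.1 + o).toNat, if_pos]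
      · exact Prod.ext (by simp only; omega) (by simp only; omega)
      · exact fun X _ hX => if_neg fun e => hX (by rw [← e]; simp)
      · exact fun h => absurd (mem_range.2 (by omega)) h
      · exact fun Y _ hY => sum_eq_zero fun X _ => if_neg fun e => hY (by rw [← e]; simp)
      · exact fun h => absurd (mem_range.2 (by omega)) h
    · refine sum_eq_zero fun Y hY => sum_eq_zero fun X hX => if_neg fun e => hp ?_
      have := mem_range.1 hX
      have := mem_range.1 hY
      rw [← e]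
      simp only
      omega

end Crest.Agent.R163.DE
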