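import Crest.Agent.R163.DEPack

/-! Row 163: truncation of packed arrays. -/

set_option autoImplicit false

namespace Crest.Agent.R163.DE

open Finset Ck

theorem fld_dig (V k : ℕ) : fld V (Nat.mul 64 k) 18446744073709551615 = dig V k := by
  change (V >>> (64 * k)) &&& (2 ^ 64 - 1) = _
  rw [Nat.and_two_pow_sub_one_eq_mod, Nat.shiftRight_eq_div_pow, dig]

theorem fld_low (V : ℕ) : fld V 28 68719476735 = dig V 0 / 2 ^ 28 := by
  change (V >>> 28) &&& (2 ^ 36 - 1) = _
  rw [Nat.and_two_pow_sub_one_eq_mod, Nat.shiftRight_eq_div_pow, dig, mul_zero, pow_zero,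
    Nat.div_one, show 64 = 28 + 36 from rfl, pow_add, Nat.mod_mul_right_div_self]

theorem dig_shiftRight (V j k : ℕ) : dig (Nat.shiftRight V (64 * j)) k = dig V (k + j) := by
  change dig (V >>> (64 * j)) k = _
  rw [dig, dig, Nat.shiftRight_eq_div_pow, Nat.div_div_eq_div_mul, ← pow_add, ← mul_add, add_comm j]

theorem dig_land (V M k : ℕ) : dig (Nat.land V M) k = Nat.land (dig V k) (dig M k) := by
  change dig (V &&& M) k = dig V k &&& dig M k
  rw [dig, dig, dig, Nat.and_div_two_pow, Nat.and_mod_two_pow]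

namespace TruncH

theorem ones64 (n : ℕ) : ones 64 n = ∑ i ∈ range n, 2 ^ (64 * i) := by
  have := Nat.geomSum_eq (m := 2 ^ 64) (by norm_num) n
  simp only [← pow_mul] at this
  rw [this]
  change (1 <<< (64 * n) - 1) / (1 <<< 64 - 1) = _
  rw [Nat.one_shiftLeft, Nat.one_shiftLeft]

theorem mn_eq (a b : ℕ) : mn a b = min a b := by
  unfold mn
  rcases h : Nat.ble a b with _ | _
  · have : ¬ a ≤ b := fun h' => by simp [Nat.ble_eq_true_of_le h'] at h
    exact (min_eq_right (le_of_not_ge this)).symm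
  · exact (min_eq_left (Nat.le_of_ble_eq_true h)).symm

theorem rowM_eq (oA nA : ℕ) {Y : ℕ} (hY : Y < nA) : rowM oA nA Y = ∑ X ∈ range nA,
    (if inHex oA nA ((X : ℤ) - oA, (Y : ℤ) - oA) then 2 ^ 33 - 1 else 0) * 2 ^ (64 * X) := by
  have e : rowM oA nA Y = ((2 ^ 33 - 1) * ones 64 (mn nA (3 * oA + 1 - Y) - (3 * oA + 1 - nA - Y))) <<<
      (64 * (3 * oA + 1 - nA - Y)) := rfl
  rw [e, mn_eq, ones64, Nat.shiftLeft_eq, mul_assoc, sum_mul, mul_sum]
  simp only [ite_mul, zero_mul]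
  rw [← sum_filter, show (range nA).filter (fun X : ℕ => inHex oA nA ((X : ℤ) - oA, (Y : ℤ) - oA)) =
    Ico (3 * oA + 1 - nA - Y) (min nA (3 * oA + 1 - Y)) by
      ext X
      simp only [mem_filter, mem_range, mem_Ico, inHex]
      omega, sum_Ico_eq_sum_range]
  refine sum_congr rfl fun i _ => ?_
  rw [← pow_add, ← mul_add, add_comm i]

theorem mask_aux (S : ℕ) (f : ℕ → ℕ) (m : ℕ) : Nat.rec (motive := fun _ => ℕ) 0
    (fun j acc => Nat.add acc (Nat.shiftLeft (f j) (Nat.mul (Nat.mul 64 S) j))) m =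
      ∑ Y ∈ range m, f Y * 2 ^ (64 * S * Y) := by
  induction m with
  | zero => rfl
  | succ m ih =>
    rw [sum_range_succ, ← ih, ← Nat.shiftLeft_eq]
    rfl

theorem eq_of_dig {V W : ℕ} (h : ∀ k, dig V k = dig W k) : V = W := by
  refine Nat.eq_of_testBit_eq fun i => ?_
  have key : ∀ U : ℕ, (dig U (i / 64)).testBit (i % 64) = U.testBit i := fun U => by
    rw [dig, Nat.testBit_mod_two_pow, Nat.testBit_div_two_pow, add_comm, Nat.div_add_mod,
      decide_eq_true (Nat.mod_lt i (by norm_num)), Bool.true_and]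
  rw [← key, ← key, h]

theorem dig_low (V j k : ℕ) :
    Nat.land (dig (Nat.shiftRight V (Nat.add (64 * j) 31)) k) (2 ^ 33 - 1) =
      dig V (k + j) / 2 ^ 31 := by
  change dig (V >>> (64 * j + 31)) k &&& (2 ^ 33 - 1) = _
  rw [Nat.and_two_pow_sub_one_eq_mod, dig, dig, Nat.mod_mod_of_dvd _ (pow_dvd_pow 2 (by norm_num)),
    Nat.shiftRight_eq_div_pow, Nat.div_div_eq_div_mul, ← pow_add,
    show 64 * j + 31 + 64 * k = 64 * (k + j) + 31 by ring, pow_add, ← Nat.div_div_eq_div_mul,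
    show (2 : ℕ) ^ 64 = 2 ^ 31 * 2 ^ 33 by norm_num, Nat.mod_mul_right_div_self]

/-- an array which is given on the window -/
theorem exists_hex (S oA nA : ℕ) (F : ℤ × ℤ → ℕ) : ∃ w : Arr,
    Rep S oA nA (∑ Y ∈ range nA, (∑ X ∈ range nA,
      (if inHex oA nA ((X : ℤ) - oA, (Y : ℤ) - oA) then F ((X : ℤ) - oA, (Y : ℤ) - oA) else 0) *
        2 ^ (64 * X)) * 2 ^ (64 * S * Y)) w ∧
    ∀ p, w.coeff p = if inHex oA nA p then F p else 0 := by
  obtain ⟨w, h1, h2⟩ := exists_rep S oA nA fun X Y =>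
    if inHex oA nA ((X : ℤ) - oA, (Y : ℤ) - oA) then F ((X : ℤ) - oA, (Y : ℤ) - oA) else 0
  refine ⟨w, h1, fun p => ?_⟩
  rw [h2]
  split_ifs with h3 h4 h5 h6 h7
  all_goals first | rfl | skip
  all_goals try (rw [Int.toNat_of_nonneg h3.1.1, Int.toNat_of_nonneg h3.2.1, add_sub_cancel_right,
    add_sub_cancel_right] at *)
  all_goals first | rfl | contradiction | exact absurd ⟨h7.1, h7.2.1⟩ h3

end TruncH

open TruncH

theorem mask_eq (S oA nA : ℕ) : mask S oA nA = ∑ Y ∈ range nA, (∑ X ∈ range nA,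
    (if inHex oA nA ((X : ℤ) - oA, (Y : ℤ) - oA) then 2 ^ 33 - 1 else 0) * 2 ^ (64 * X)) *
      2 ^ (64 * S * Y) := by
  rw [mask, mask_aux]
  exact sum_congr rfl fun Y hY => by rw [rowM_eq oA nA (mem_range.1 hY)]

theorem trunc_rep {S o oA nA n V : ℕ} {w : Arr} (h : Rep S (o + oA) n V w) (hn : n ≤ S)
    (hS : nA + o ≤ S) (hb : ∀ p, w.coeff p < 2 ^ 64) : ∃ w' : Arr,
    Rep S oA nA (trunc (Nat.mul o (Nat.add 64 (Nat.mul 64 S))) (mask S oA nA) V) w' ∧
      ∀ p, w'.coeff p = if inHex oA nA p then w.coeff p / 2 ^ 31 else 0 := by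
  obtain ⟨w', h1, h2⟩ := exists_hex S oA nA fun p => w.coeff p / 2 ^ 31
  obtain ⟨m, hm1, hm2⟩ := exists_hex S oA nA fun _ => 2 ^ 33 - 1
  rw [← mask_eq] at hm1
  refine ⟨w', ?_, h2⟩
  convert h1 using 1
  rcases Nat.eq_zero_or_pos S with rfl | hS0
  · obtain rfl : nA = 0 := by omega
    exact Nat.and_zero _
  refine eq_of_dig fun k => ?_
  have hX := Nat.mod_lt k hS0
  rw [← Nat.mod_add_div k S]
  generalize k % S = X at hX
  generalize k / S = Y
  have hb' : ∀ p, w'.coeff p < 2 ^ 64 := fun p => by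
    rw [h2]
    split_ifs
    · exact (Nat.div_le_self _ _).trans_lt (hb p)
    · norm_num
  have hbm : ∀ p, m.coeff p < 2 ^ 64 := fun p => by
    rw [hm2]
    split_ifs <;> norm_num
  rw [h1.dig (by omega) hb' hX, trunc, dig_land, hm1.dig (by omega) hbm hX, h2, hm2]
  split_ifs with hh
  · have hX' : X + o < S := by
      have := hh.1.2
      simp only at this
      omega
    rw [show Nat.mul o (Nat.add 64 (Nat.mul 64 S)) = 64 * (o + S * o) by
      change o * (64 + 64 * S) = _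
      ring, dig_low, show X + S * Y + (o + S * o) = X + o + S * (Y + o) by ring,
      h.dig hn hb hX']
    congr 3 <;> push_cast <;> ring
  · exact Nat.and_zero _

end Crest.Agent.R163.DE
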