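import Crest.Agent.R163.DP2T
import Crest.Agent.R163.DP2R
import Crest.Agent.R163.DEStep

/-! Row 163: density evolution, conclusion (generated). -/

set_option autoImplicit false
set_option Elab.async false
set_option maxRecDepth 100000

namespace Crest.Agent.R163.DE

theorem DP2_ok : DP2.OK 502 1024 :=
  ⟨G17_16_12_ok, by decide, by decide, G17_16_12_nu_eq, (tabOK_append DP2_t0 (tabOK_append DP2_t1 (tabOK_append DP2_t2 (tabOK_append DP2_t3 DP2_t4 (by decide +kernel)) (by decide +kernel)) (by decide +kernel)) (by decide +kernel)), DP2_cv⟩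

theorem DP2_X (h0 : (0 : ℝ) ≤ ((1048576 : ℕ) : ℝ) / ((247009 : ℕ) : ℝ)) (ht : Tok 3 (-(((502 : ℕ) : ℝ) / ((1024 : ℕ) : ℝ)))) :
    ∃ n, (gwL 3 (((1048576 : ℕ) : ℝ) / ((247009 : ℕ) : ℝ)) h0 (-(((502 : ℕ) : ℝ) / ((1024 : ℕ) : ℝ))) ht n).X ≤ ((1 : ℕ) : ℝ) / ((4 : ℕ) : ℝ) := by
  have hD : Dyn (gwL 3 (((1048576 : ℕ) : ℝ) / ((247009 : ℕ) : ℝ)) h0 (-(((502 : ℕ) : ℝ) / ((1024 : ℕ) : ℝ))) ht) _ ht DP2.al :=
    (by decide +kernel : alPoi 1048576 247009 14 = DP2.al) ▸ dyn_poi 1048576 247009 14 (by norm_num) ht h0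
  have s0 : St DP2.g (gwL 3 (((1048576 : ℕ) : ℝ) / ((247009 : ℕ) : ℝ)) h0 (-(((502 : ℕ) : ℝ) / ((1024 : ℕ) : ℝ))) ht) _ ht 0 DP2_V0 := St.init DP2_ok ht _ DP2_i
  have s1 := St.run DP2_ok rfl hD s0 DP2_r0
  have s2 := St.run DP2_ok rfl hD s1 DP2_r1
  have s3 := St.run DP2_ok rfl hD s2 DP2_r2
  have s4 := St.run DP2_ok rfl hD s3 DP2_r3
  have s5 := St.run DP2_ok rfl hD s4 DP2_r4
  have s6 := St.run DP2_ok rfl hD s5 DP2_r5
  have s7 := St.run DP2_ok rfl hD s6 DP2_r6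
  have s8 := St.run DP2_ok rfl hD s7 DP2_r7
  have s9 := St.run DP2_ok rfl hD s8 DP2_r8
  have s10 := St.run DP2_ok rfl hD s9 DP2_r9
  have s11 := St.run DP2_ok rfl hD s10 DP2_r10
  have s12 := St.run DP2_ok rfl hD s11 DP2_r11
  have s13 := St.run DP2_ok rfl hD s12 DP2_r12
  have s14 := St.run DP2_ok rfl hD s13 DP2_r13
  have s15 := St.run DP2_ok rfl hD s14 DP2_r14
  have s16 := St.run DP2_ok rfl hD s15 DP2_r15
  exact ⟨_, St.final s16 DP2_x⟩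

end Crest.Agent.R163.DE
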