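import Crest.Agent.R163.DP3D

/-! Row 163: density evolution, check of the table (generated). -/

set_option autoImplicit false
set_option Elab.async false
set_option maxRecDepth 100000

namespace Crest.Agent.R163.DE

theorem DP3_t0 : tabOK G17_16_12 17 16 497 1024 158 72 DP3_T0 48 = true := by decide +kernel

theorem DP3_t1 : tabOK G17_16_12 17 16 497 1024 158 72 DP3_T1 67 = true := by decide +kernel

theorem DP3_t2 : tabOK G17_16_12 17 16 497 1024 158 72 DP3_T2 75 = true := by decide +kernel

theorem DP3_t3 : tabOK G17_16_12 17 16 497 1024 158 72 DP3_T3 83 = true := by decide +kernel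

theorem DP3_t4 : tabOK G17_16_12 17 16 497 1024 158 72 DP3_T4 93 = true := by decide +kernel

theorem DP3_cv : entryOK G17_16_12 497 1024 1 1 3 0 0 DP3.cv = true := by decide +kernel

end Crest.Agent.R163.DE
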