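import Crest.Agent.R163.DQ0D

/-! Row 163: density evolution, check of the table (generated). -/

set_option autoImplicit false
set_option Elab.async false
set_option maxRecDepth 100000

namespace Crest.Agent.R163.DE

theorem DQ0_t0 : tabOK G14_13_10 14 13 480 1024 142 66 DQ0_T0 44 = true := by decide +kernel

theorem DQ0_t1 : tabOK G14_13_10 14 13 480 1024 142 66 DQ0_T1 63 = true := by decide +kernel

theorem DQ0_t2 : tabOK G14_13_10 14 13 480 1024 142 66 DQ0_T2 72 = true := by decide +kernel

theorem DQ0_t3 : tabOK G14_13_10 14 13 480 1024 142 66 DQ0_T3 83 = true := by decide +kernel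

theorem DQ0_cv : entryOK G14_13_10 480 1024 1 1 3 0 0 DQ0.cv = true := by decide +kernel

end Crest.Agent.R163.DE
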