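import Crest.Agent.R163.DR4D

/-! Row 163: density evolution, check of the table (generated). -/

set_option autoImplicit false
set_option Elab.async false
set_option maxRecDepth 100000

namespace Crest.Agent.R163.DE

theorem DR4_t0 : tabOK G9_8_10 9 8 1 2 140 64 DR4_T0 42 = true := by decide +kernel

theorem DR4_t1 : tabOK G9_8_10 9 8 1 2 140 64 DR4_T1 61 = true := by decide +kernel

theorem DR4_t2 : tabOK G9_8_10 9 8 1 2 140 64 DR4_T2 70 = true := by decide +kernel

theorem DR4_t3 : tabOK G9_8_10 9 8 1 2 140 64 DR4_T3 80 = true := by decide +kernel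

theorem DR4_cv : entryOK G9_8_10 1 2 1 1 3 0 0 DR4.cv = true := by decide +kernel

end Crest.Agent.R163.DE
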