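import Crest.Agent.R163.CkCert

/-! Row 163: univariate control nets. -/

set_option autoImplicit false

namespace Crest.Agent.R163.Ck

open Finset

/-- value of a binary form of degree `n` given by its coefficient list at `(1 - b, b)` -/
noncomputable def evB (n : ℕ) (l : List ℤ) (b : ℝ) : ℝ :=
  ∑ i ∈ range (n + 1), (l.getD i 0 : ℝ) * (b ^ i * (1 - b) ^ (n - i))

namespace NetUniH

theorem length_linGo (lo hi : ℤ) (l : List ℤ) : ∀ prev : ℤ,
    (linGo lo hi prev l).length = l.length + 1 := by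
  induction l with
  | nil => intro prev; simp [linGo]
  | cons c cs ih => intro prev; simp [linGo, ih]

theorem getD_linGo (lo hi : ℤ) (l : List ℤ) : ∀ (prev : ℤ) (i : ℕ),
    (linGo lo hi prev l).getD i 0 = lo * l.getD i 0 + hi * (prev :: l).getD i 0 := by
  induction l with
  | nil =>
    intro prev i
    cases i with
    | zero => simp [linGo]
    | succ i => simp [linGo]
  | cons c cs ih =>
    intro prev i
    cases i with
    | zero => simp [linGo]
    | succ i =>
      have := ih c i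
      simpa [linGo] using this

theorem getD_mulLin_nonneg {lo hi : ℤ} (hlo : 0 ≤ lo) (hhi : 0 ≤ hi) {l : List ℤ}
    (h : ∀ i, 0 ≤ l.getD i 0) (i : ℕ) : 0 ≤ (mulLin lo hi l).getD i 0 := by
  unfold mulLin
  rw [getD_linGo]
  refine add_nonneg (mul_nonneg hlo (h i)) (mul_nonneg hhi ?_)
  cases i with
  | zero => simp
  | succ i => simpa using h i

theorem getD_iter_nonneg {lo hi : ℤ} (hlo : 0 ≤ lo) (hhi : 0 ≤ hi) {l : List ℤ}
    (h : ∀ i, 0 ≤ l.getD i 0) (k : ℕ) : ∀ i, 0 ≤ ((mulLin lo hi)^[k] l).getD i 0 := by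
  induction k with
  | zero => exact h
  | succ k ih => rw [Function.iterate_succ_apply']; exact getD_mulLin_nonneg hlo hhi ih

theorem exists_param {lo hi x : ℝ} (h1 : lo ≤ x) (h2 : x ≤ hi) :
    ∃ t : ℝ, 0 ≤ t ∧ t ≤ 1 ∧ x = lo * (1 - t) + hi * t := by
  rcases (h1.trans h2).eq_or_lt with h | h
  · exact ⟨0, le_rfl, zero_le_one, by linarith⟩
  · have hd : 0 < hi - lo := by linarith
    refine ⟨(x - lo) / (hi - lo), div_nonneg (by linarith) hd.le,
      (div_le_one hd).2 (by linarith), ?_⟩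
    field_simp
    ring

theorem getD_map_range {α : Type} (f : ℕ → α) (d : α) {n k : ℕ} (hk : k < n) :
    ((List.range n).map f).getD k d = f k := by
  simp [List.getD_eq_getElem?_getD, hk]

theorem domN_mono {net net' : List (List ℕ)} {N : ℕ} {z : ℕ → ℝ} (h : DomN net N z)
    (hs : ∀ c ∈ net, c ∈ net') (hl : ∀ c ∈ net', c.length ≤ N) : DomN net' N z :=
  ⟨hl, fun a ha => h.2 a fun c hc => ha c (hs c hc)⟩

theorem length_uniNet {D den lo hi : ℕ} : ∀ c ∈ uniNet D den lo hi, c.length ≤ D + 1 := by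
  intro c hc
  simp only [uniNet, List.mem_map] at hc
  obtain ⟨i, -, rfl⟩ := hc
  simp

theorem length_uniNets {D den : ℕ} : ∀ (brk : List ℕ), ∀ c ∈ uniNets D den brk, c.length ≤ D + 1
  | [] => by simp [uniNets]
  | [_] => by simp [uniNets]
  | a :: b :: l => by
    intro c hc
    rw [uniNets, List.mem_append] at hc
    exact hc.elim (length_uniNet c) (length_uniNets (b :: l) c)

theorem mem_uniNets {D den : ℕ} : ∀ (brk : List ℕ) (i : ℕ), i + 1 < brk.length →
    ∀ c ∈ uniNet D den (brk.getD i 0) (brk.getD (i + 1) 0), c ∈ uniNets D den brk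
  | [], i, h => by simp at h
  | [_], i, h => by simp at h
  | a :: b :: l, 0, _ => by
    intro c hc
    rw [uniNets, List.mem_append]
    exact Or.inl (by simpa using hc)
  | a :: b :: l, i + 1, h => by
    intro c hc
    rw [uniNets, List.mem_append]
    exact Or.inr (mem_uniNets (b :: l) i (by simpa using h) c (by simpa using hc))

end NetUniH

open NetUniH

theorem length_mulLin (lo hi : ℤ) (l : List ℤ) : (mulLin lo hi l).length = l.length + 1 := by
  exact length_linGo lo hi l 0

theorem evB_mulLin (lo hi : ℤ) {n : ℕ} {l : List ℤ} (h : l.length ≤ n + 1) (b : ℝ) :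
    evB (n + 1) (mulLin lo hi l) b = (lo * (1 - b) + hi * b) * evB n l b := by
  unfold evB mulLin
  simp only [getD_linGo]
  push_cast
  simp only [add_mul, Finset.sum_add_distrib]
  congr 1
  · rw [Finset.sum_range_succ, List.getD_eq_default _ _ h, Finset.mul_sum]
    simp only [Int.cast_zero, mul_zero, zero_mul, add_zero]
    refine Finset.sum_congr rfl fun i hi => ?_
    have hi' : i ≤ n := Nat.lt_succ_iff.1 (Finset.mem_range.1 hi)
    rw [show n + 1 - i = (n - i) + 1 by omega]
    ring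
  · rw [Finset.sum_range_succ', Finset.mul_sum]
    simp only [List.getD_cons_succ, List.getD_cons_zero, Int.cast_zero, mul_zero, zero_mul, add_zero]
    refine Finset.sum_congr rfl fun i _ => ?_
    rw [show n + 1 - (i + 1) = n - i by omega]
    ring

theorem NetUniH.length_iter (lo hi : ℤ) (l : List ℤ) (k : ℕ) :
    ((mulLin lo hi)^[k] l).length = l.length + k := by
  induction k with
  | zero => rfl
  | succ k ih => rw [Function.iterate_succ_apply', length_mulLin, ih]; ring

theorem NetUniH.evB_iter (lo hi : ℤ) {n : ℕ} {l : List ℤ} (h : l.length ≤ n + 1) (b : ℝ) (k : ℕ) :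
    evB (n + k) ((mulLin lo hi)^[k] l) b = (lo * (1 - b) + hi * b) ^ k * evB n l b := by
  induction k with
  | zero => simp
  | succ k ih =>
    rw [Function.iterate_succ_apply', ← add_assoc, evB_mulLin lo hi (by rw [length_iter]; omega), ih]
    ring

theorem exists_cell {lo hi : ℕ} {brk : List ℕ} (hb : brkOK lo hi brk = true) {x : ℝ}
    (h1 : (lo : ℝ) ≤ x) (h2 : x ≤ hi) :
    ∃ i, i + 1 < brk.length ∧ brk.getD i 0 ≤ brk.getD (i + 1) 0 ∧ (brk.getD i 0 : ℝ) ≤ x ∧
      x ≤ (brk.getD (i + 1) 0 : ℝ) ∧ brkOK (brk.getD i 0) hi (brk.drop i) = true := by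
  induction brk generalizing lo with
  | nil => simp [brkOK] at hb
  | cons a l ih =>
    rcases l with _ | ⟨b, _ | ⟨c, l⟩⟩
    · simp [brkOK] at hb
    · simp only [brkOK, Bool.and_eq_true, decide_eq_true_eq] at hb
      obtain ⟨⟨rfl, rfl⟩, hab⟩ := hb
      exact ⟨0, by simp, by simpa using hab, by simpa using h1, by simpa using h2,
        by simp [brkOK, hab]⟩
    · have hb' := hb
      simp only [brkOK, Bool.and_eq_true, decide_eq_true_eq] at hb
      obtain ⟨⟨rfl, hab⟩, hr⟩ := hb
      by_cases hx : x ≤ b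
      · exact ⟨0, by simp, by simpa using hab, by simpa using h1, by simpa using hx,
          by simpa using hb'⟩
      · obtain ⟨i, k1, k2, k3, k4, k5⟩ := ih hr (not_le.1 hx).le
        exact ⟨i + 1, by simpa using k1, by simpa using k2, by simpa using k3, by simpa using k4,
          by simpa using k5⟩

theorem domN_uniNet (D : ℕ) {den lo hi : ℕ} (hden : 0 < den) {z : ℝ} (h1 : (lo : ℝ) ≤ den * z)
    (h2 : den * z ≤ hi) : DomN (uniNet D den lo hi) (D + 1) (fun k => z ^ k) := by
  refine ⟨length_uniNet, fun a ha => ?_⟩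
  obtain ⟨t, ht0, ht1, ht⟩ := exists_param h1 h2
  have hden' : (0 : ℝ) < den := by exact_mod_cast hden
  set L : ℕ → List ℤ := fun k => (mulLin lo hi)^[k] ((mulLin den den)^[D - k] [1]) with hL
  have hnn : ∀ k i, 0 ≤ (L k).getD i 0 := fun k =>
    getD_iter_nonneg (Int.natCast_nonneg _) (Int.natCast_nonneg _)
      (getD_iter_nonneg (Int.natCast_nonneg _) (Int.natCast_nonneg _) (fun i => by
        cases i <;> simp) _) _
  have hev : ∀ k ∈ range (D + 1), evB D (L k) t = (den : ℝ) ^ D * z ^ k := by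
    intro k hk
    have hk' : k ≤ D := Nat.lt_succ_iff.1 (Finset.mem_range.1 hk)
    have e1 := evB_iter (den : ℤ) (den : ℤ) (n := 0) (l := [1]) (by simp) t (D - k)
    have e2 := evB_iter (lo : ℤ) (hi : ℤ) (n := 0 + (D - k))
      (l := (mulLin den den)^[D - k] [1]) (by rw [length_iter]; simp; omega) t k
    rw [e1, show 0 + (D - k) + k = D by omega] at e2
    rw [hL]
    simp only
    rw [e2]
    push_cast
    have e3 : evB 0 [1] t = 1 := by simp [evB]
    have e4 : (den : ℝ) ^ D = den ^ k * den ^ (D - k) := by rw [← pow_add]; congr 1; omega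
    rw [e3, ← ht, e4, show (den : ℝ) * (1 - t) + den * t = den by ring, mul_pow]
    ring
  have hrow : ∀ i ∈ range (D + 1), 0 ≤ ∑ k ∈ range (D + 1), ((L k).getD i 0 : ℝ) * a k := by
    intro i hi'
    have := ha ((List.range (D + 1)).map fun k => ((L k).getD i 0).toNat)
      (List.mem_map.2 ⟨i, by simpa using hi', rfl⟩)
    refine this.trans_eq (Finset.sum_congr rfl fun k hk => ?_)
    rw [getD_map_range _ _ (Finset.mem_range.1 hk)]
    congr 1
    have := Int.toNat_of_nonneg (hnn k i)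
    exact_mod_cast this
  have key : (den : ℝ) ^ D * ∑ k ∈ range (D + 1), z ^ k * a k =
      ∑ i ∈ range (D + 1), (t ^ i * (1 - t) ^ (D - i)) *
        ∑ k ∈ range (D + 1), ((L k).getD i 0 : ℝ) * a k := by
    simp only [Finset.mul_sum]
    rw [Finset.sum_comm]
    refine Finset.sum_congr rfl fun k hk => ?_
    rw [← mul_assoc, ← hev k hk, evB, Finset.sum_mul]
    exact Finset.sum_congr rfl fun i _ => by ring
  have h0 : 0 ≤ (den : ℝ) ^ D * ∑ k ∈ range (D + 1), z ^ k * a k := by
    rw [key]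
    exact Finset.sum_nonneg fun i hi' =>
      mul_nonneg (mul_nonneg (pow_nonneg ht0 _) (pow_nonneg (by linarith) _)) (hrow i hi')
  exact (mul_nonneg_iff_of_pos_left (pow_pos hden' D)).1 h0

theorem domN_uniNets (D : ℕ) {den lo hi : ℕ} {brk : List ℕ} (hden : 0 < den)
    (hb : brkOK lo hi brk = true) {z : ℝ} (h1 : (lo : ℝ) ≤ den * z) (h2 : den * z ≤ hi) :
    DomN (uniNets D den brk) (D + 1) (fun k => z ^ k) := by
  obtain ⟨i, k1, -, k3, k4, -⟩ := exists_cell hb h1 h2
  exact domN_mono (domN_uniNet D hden k3 k4) (mem_uniNets brk i k1) (length_uniNets brk)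

theorem domN_pair (D : ℕ) {den lo hi : ℕ} {brk : List ℕ} (hden : 0 < den)
    (hb : brkOK lo hi brk = true) {z z' : ℝ} (h1 : (lo : ℝ) ≤ den * z) (h : z ≤ z')
    (h2 : den * z' ≤ hi) :
    ∃ i, i + 1 < brk.length ∧
      DomN (uniNet D den (brk.getD i 0) (brk.getD (i + 1) 0)) (D + 1) (fun k => z ^ k) ∧
      DomN (uniNets D den (brk.drop i)) (D + 1) (fun k => z' ^ k) := by
  have hzz : (den : ℝ) * z ≤ den * z' := mul_le_mul_of_nonneg_left h (Nat.cast_nonneg _)
  obtain ⟨i, k1, -, k3, k4, k5⟩ := exists_cell hb h1 (hzz.trans h2)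
  exact ⟨i, k1, domN_uniNet D hden k3 k4, domN_uniNets D hden k5 (k3.trans hzz) h2⟩

theorem domN_ptNet (D : ℕ) {den num : ℕ} (hden : 0 < den) {z : ℝ} (h : den * z = num) :
    DomN (ptNet D den num) (D + 1) (fun k => z ^ k) := by
  refine ⟨by simp [ptNet], fun a ha => ?_⟩
  have hden' : (0 : ℝ) < den := by exact_mod_cast hden
  have h1 := ha ((List.range (D + 1)).map fun k => num ^ k * den ^ (D - k)) (by simp [ptNet])
  have key : (den : ℝ) ^ D * ∑ k ∈ range (D + 1), z ^ k * a k = ∑ k ∈ range (D + 1),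
      ((((List.range (D + 1)).map fun k => num ^ k * den ^ (D - k)).getD k 0 : ℕ) : ℝ) * a k := by
    rw [Finset.mul_sum]
    refine Finset.sum_congr rfl fun k hk => ?_
    have hk' : k ≤ D := Nat.lt_succ_iff.1 (Finset.mem_range.1 hk)
    rw [getD_map_range _ _ (Finset.mem_range.1 hk)]
    push_cast
    have e4 : (den : ℝ) ^ D = den ^ k * den ^ (D - k) := by rw [← pow_add]; congr 1; omega
    rw [← h, e4, mul_pow]
    ring
  rw [← key] at h1
  exact (mul_nonneg_iff_of_pos_left (pow_pos hden' D)).1 h1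

theorem domN_sqNet (D : ℕ) {b den lo hi : ℕ} (hden : 0 < den) {z : ℝ} (hb : b * z ^ 2 = 1)
    (h1 : (lo : ℝ) ≤ den * z) (h2 : den * z ≤ hi) :
    DomN (sqNet D b den lo hi) (D + 1) (fun k => z ^ k) := by
  refine ⟨by simp [sqNet], fun a ha => ?_⟩
  obtain ⟨t, ht0, ht1, ht⟩ := exists_param h1 h2
  have hden' : (0 : ℝ) < den := by exact_mod_cast hden
  have hb0 : (0 : ℝ) < b := by
    rcases (Nat.cast_nonneg b : (0 : ℝ) ≤ b).eq_or_lt with h | h
    · rw [← h] at hb; simp at hb
    · exact h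
  have hrow : ∀ e ∈ [lo, hi], 0 ≤ ∑ k ∈ range (D + 1),
      ((b : ℝ) ^ (D - k / 2) * (if k % 2 = 0 then (den : ℝ) else e)) * a k := by
    intro e he
    have := ha ((List.range (D + 1)).map fun k => b ^ (D - k / 2) * (if k % 2 = 0 then den else e))
      (List.mem_map.2 ⟨e, he, rfl⟩)
    refine this.trans_eq (Finset.sum_congr rfl fun k hk => ?_)
    rw [getD_map_range _ _ (Finset.mem_range.1 hk)]
    push_cast
    rfl
  have r1 := hrow lo (by simp)
  have r2 := hrow hi (by simp)
  have key : ((den : ℝ) * b ^ D) * ∑ k ∈ range (D + 1), z ^ k * a k =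
      (1 - t) * (∑ k ∈ range (D + 1),
        ((b : ℝ) ^ (D - k / 2) * (if k % 2 = 0 then (den : ℝ) else lo)) * a k) +
      t * ∑ k ∈ range (D + 1),
        ((b : ℝ) ^ (D - k / 2) * (if k % 2 = 0 then (den : ℝ) else hi)) * a k := by
    simp only [Finset.mul_sum, ← Finset.sum_add_distrib]
    refine Finset.sum_congr rfl fun k hk => ?_
    have hk' : k ≤ D := Nat.lt_succ_iff.1 (Finset.mem_range.1 hk)
    have e1 : (b : ℝ) ^ D = b ^ (D - k / 2) * b ^ (k / 2) := by rw [← pow_add]; congr 1; omega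
    have e2 : z ^ k = (z ^ 2) ^ (k / 2) * z ^ (k % 2) := by
      rw [← pow_mul, ← pow_add]; congr 1; omega
    have e3 : (b : ℝ) ^ (k / 2) * (z ^ 2) ^ (k / 2) = 1 := by rw [← mul_pow, hb, one_pow]
    have e4 : (b : ℝ) ^ D * z ^ k = b ^ (D - k / 2) * z ^ (k % 2) := by
      rw [e1, e2]
      calc _ = (b : ℝ) ^ (D - k / 2) * ((b : ℝ) ^ (k / 2) * (z ^ 2) ^ (k / 2)) * z ^ (k % 2) := by ring
        _ = _ := by rw [e3, mul_one]
    have e5 : (den : ℝ) * b ^ D * (z ^ k * a k) = den * (b ^ (D - k / 2) * z ^ (k % 2)) * a k := by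
      rw [← e4]; ring
    rw [e5]
    split_ifs with h
    · rw [h]; ring
    · rw [show k % 2 = 1 by omega, pow_one]
      have : (den : ℝ) * (b ^ (D - k / 2) * z) * a k = b ^ (D - k / 2) * (den * z) * a k := by ring
      rw [this, ht]; ring
  have h0 : 0 ≤ ((den : ℝ) * b ^ D) * ∑ k ∈ range (D + 1), z ^ k * a k := by
    rw [key]
    exact add_nonneg (mul_nonneg (by linarith) r1) (mul_nonneg ht0 r2)
  exact (mul_nonneg_iff_of_pos_left (by positivity)).1 h0

end Crest.Agent.R163.Ck
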