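import Crest.Agent.R163.PVReal
import Crest.Agent.R163.NetUni
import Crest.Agent.R163.SymAvg

/-! Row 163: ferromagnetic certificates: from checked arrays to pointwise inequalities. -/

set_option autoImplicit false
set_option linter.unusedSectionVars false

namespace Crest.Agent.R163.Ck

open Finset

variable {q : ℕ} [NeZero q]

/-- combination of features with integer coefficients -/
noncomputable def fz (fs : Fs) (c : List ℤ) (p : Vec q) : ℝ := fsum fs (fun a => (c.getD a 0 : ℝ)) p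

theorem bddS_fz (fs : Fs) (c : List ℤ) : BddS (fz fs c : Vec q → ℝ) := by
  exact BddS.sum (range fs.length) (f := fun a p => (c.getD a 0 : ℝ) * feat (fs.getD a (0, 0, 0)) p)
    fun a _ => (bddS_feat _).smul _

namespace FerroCertH

omit [NeZero q] in
theorem getD_degs (fs : Fs) {a : ℕ} (ha : a < fs.length) : (fs.map fdeg).getD a 0 = fd fs a := by
  simp [fd, List.getD_eq_getElem?_getD, List.getElem?_eq_getElem ha]

theorem getD_mem {α : Type} {l : List α} {a : ℕ} (ha : a < l.length) (d : α) : l.getD a d ∈ l := by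
  rw [List.getD_eq_getElem _ _ ha]; exact List.getElem_mem ha

theorem domT_congr {rp : List (List ℕ)} {sp : L2} {degs : List ℕ} {z z' : ℕ → ℝ}
    (h : DomT rp sp degs z) (e : ∀ k < degs.length, z k = z' k) : DomT rp sp degs z' := by
  intro a ha
  rw [← sum_congr rfl fun k hk => by rw [← e k (mem_range.1 hk)]]
  exact h a ha

omit [NeZero q] in
theorem domT_ft {K : ℕ} {fs : Fs} {rp : List (List ℕ)} {sp : L2} (hK : ∀ a ∈ fs, fdeg a ≤ K)
    {p : Vec q} {ρ : ℝ} {φ : ℕ → ℝ} (hr : DomN rp (K + 1) fun k => ρ ^ k)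
    (hφ : Dom sp fs.length φ)
    (he : ∀ k < fs.length, feat (fs.getD k (0, 0, 0)) p = ρ ^ fdeg (fs.getD k (0, 0, 0)) * φ k) :
    DomT rp sp (fs.map fdeg) fun a => ft fs a p := by
  refine domT_congr (domT_of (degs := fs.map fdeg) hr (by simpa using hφ) fun d hd => ?_)
    fun k hk => ?_
  · obtain ⟨a, ha, rfl⟩ := List.mem_map.1 hd
    exact Nat.lt_succ_of_le (hK a ha)
  · rw [List.length_map] at hk
    rw [getD_degs fs hk, ft, he k hk, fd]

theorem g5_ferK (k : List ℤ) (a : ℕ) : g5 (ferK k) a 0 0 0 0 = k.getD a 0 := by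
  simp only [g5, g2, ferK, List.getD_eq_getElem?_getD, List.getElem?_map]
  cases k[a]? <;> simp

theorem g5_ferE {K : ℕ} {fs : Fs} (lams : List (List ℕ)) (TT : L2) (π ψ : List ℤ) {a z : ℕ}
    (ha : a < fs.length) (hz : z < K + 1) : g5 (ferE K fs lams TT π ψ) a z 0 0 0 =
      (if z = 1 then ψ.getD a 0 else 0) - dotDeg z π (TT.getD a []) (lams.map List.sum) := by
  simp only [g5, g2, ferE, List.getD_eq_getElem?_getD, List.getElem?_map, List.getElem?_range ha,
    List.getElem?_range hz, Option.map_some, Option.getD_some, List.getElem?_cons_zero]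

theorem g6_ferP {K : ℕ} {fs : Fs} (TT : L2) (π ψc k : List ℤ) (c : ℤ) (X : L2) {d a b : ℕ}
    (hd : d < K + 1) (hb : b < fs.length) (ha : a < fs.length) :
    g6 (ferP K fs TT π ψc k c X) 0 d b a 0 0 =
      if fd fs b = d then dot3 π (TT.getD a []) (TT.getD b []) - gam ψc k c X b a else 0 := by
  simp only [g6, g5, g2, ferP, List.getD_eq_getElem?_getD, List.getElem?_map,
    List.getElem?_range hb, List.getElem?_range hd, Option.map_some, Option.getD_some,
    List.getElem?_cons_zero]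
  split_ifs with h
  · simp only [List.getElem?_map, List.getElem?_range ha, Option.map_some, Option.getD_some,
      List.getElem?_cons_zero]
  · simp

theorem g2_xmat (m0 n0 w u v : ℤ) {b a : ℕ} (h : 4 ≤ b ∨ 4 ≤ a) :
    g2 (xmat m0 n0 w u v) b a = 0 := by
  rcases h with h | h
  · obtain ⟨b, rfl⟩ := Nat.exists_eq_add_of_le' h
    simp [g2, xmat]
  · obtain ⟨a, rfl⟩ := Nat.exists_eq_add_of_le' h
    match b with
    | 0 | 1 | 2 | 3 => simp [g2, xmat]
    | b + 4 => simp [g2, xmat]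

theorem of_fsOK {K : ℕ} {fs : Fs} {lams : List (List ℕ)} (h : fsOK K fs lams = true) :
    (∃ l, fs = (0, 0, 0) :: (1, 0, 0) :: (0, 1, 0) :: (2, 0, 0) :: l) ∧ (∀ a ∈ fs, fdeg a ≤ K) ∧
      ∀ l ∈ lams, l.sum ≤ K := by
  simp only [fsOK, Bool.and_eq_true, decide_eq_true_eq, List.all_eq_true] at h
  obtain ⟨⟨⟨h1, -⟩, h2⟩, h3⟩ := h
  refine ⟨⟨fs.drop 4, ?_⟩, h2, h3⟩
  conv_lhs => rw [← List.take_append_drop 4 fs, h1]
  rfl

omit [NeZero q] in
theorem sum_xmat {l : Fs} (m0 n0 w u v : ℤ) (p p' : Vec q) {fs : Fs}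
    (h : fs = (0, 0, 0) :: (1, 0, 0) :: (0, 1, 0) :: (2, 0, 0) :: l) :
    ∑ b ∈ range fs.length, ∑ a ∈ range fs.length,
        ft fs b p' * ft fs a p * (g2 (xmat m0 n0 w u v) b a : ℝ) =
      m0 * (fx p + fx p') + n0 * (fm p + fm p') + w * (fx p * fx p') +
        u * (fx p * fm p' + fm p * fx p') + v * (fx p * fx p' ^ 2 + fx p ^ 2 * fx p') := by
  have h4 : range 4 ⊆ range fs.length := range_subset_range.2 (by rw [h]; simp)
  rw [← sum_subset h4 fun b _ hb => sum_eq_zero fun a _ => by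
    rw [g2_xmat _ _ _ _ _ (Or.inl (by simpa using hb))]; simp]
  rw [sum_congr rfl fun b _ => (sum_subset h4 fun a _ ha => by
    rw [g2_xmat _ _ _ _ _ (Or.inr (by simpa using ha))]; simp).symm]
  subst h
  simp [sum_range_succ, ft, feat, g2, xmat]
  ring

end FerroCertH

open FerroCertH

theorem fz_nonneg {K : ℕ} {fs : Fs} {k : List ℤ} {rp : List (List ℕ)} {sp : L2}
    (hK : ∀ a ∈ fs, fdeg a ≤ K) (hcov : Cover q fs sp)
    (hr : ∀ ρ : ℝ, 0 ≤ ρ → ρ ≤ 1 → DomN rp (K + 1) fun k => ρ ^ k)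
    (h : OneOK (ferK k) (fs.map fdeg) rp sp [[1]] [[1]] [[1]] [[1]]) {p : Vec q} (hp : Simp p) :
    0 ≤ fz fs k p := by
  obtain ⟨ρ, φ, h0, h1, hφ, he⟩ := hcov p hp
  have := h.real (domT_ft hK (hr ρ h0 h1) hφ he) domN_one domN_one domN_one domN_one
  simp only [sum_range_one, mul_one, g5_ferK, List.length_map] at this
  unfold fz fsum
  simpa only [ft, mul_comm] using this

namespace FerroCertH

omit [NeZero q] in
theorem one_sided {K DT : ℕ} {fs : Fs} {lams : List (List ℕ)} {TT : L2} {π ψ : List ℤ}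
    {rE znet : List (List ℕ)} {sE : L2}
    (hok : fsOK K fs lams = true) (hT : TabOK q fs lams TT DT) (hcE : Cover q fs sE)
    (hrE : ∀ ρ : ℝ, 0 ≤ ρ → ρ ≤ 1 → DomN rE (K + 1) fun k => ρ ^ k)
    (hE : OneOK (ferE K fs lams TT π ψ) (fs.map fdeg) rE sE znet [[1]] [[1]] [[1]])
    {r : Vec q} (hr : Simp r) {Z : ℝ} (hz : DomN znet (K + 1) fun k => Z ^ k) :
    ∑ t ∈ range lams.length, (DT * (π.getD t 0 : ℝ)) *
      (Z ^ (lams.getD t []).sum * mbar (lams.getD t []) r) ≤ Z * fz fs ψ r := by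
  obtain ⟨⟨l, hl⟩, hK, hK'⟩ := of_fsOK hok
  obtain ⟨-, hlen, hrow, -, htab⟩ := hT
  have hK1 : 1 < K + 1 := by
    have := hK (1, 0, 0) (by rw [hl]; simp)
    simp only [fdeg] at this
    omega
  obtain ⟨ρ, φ, h0, h1, hφ, he⟩ := hcE r hr
  have h := hE.real (domT_ft hK (hrE ρ h0 h1) hφ he) hz domN_one domN_one domN_one
  simp only [sum_range_one, mul_one, List.length_map] at h
  have key : ∀ a ∈ range fs.length, ∑ z ∈ range (K + 1),
      ft fs a r * Z ^ z * (g5 (ferE K fs lams TT π ψ) a z 0 0 0 : ℝ) =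
      Z * ((ψ.getD a 0 : ℝ) * ft fs a r) - ∑ t ∈ range lams.length,
        (π.getD t 0 : ℝ) * Z ^ (lams.getD t []).sum *
          (((TT.getD a []).getD t 0 : ℝ) * ft fs a r) := by
    intro a ha
    have ha' := mem_range.1 ha
    have hla : (TT.getD a []).length ≤ (lams.map List.sum).length := by
      rw [List.length_map, hrow _ (getD_mem (hlen ▸ ha') _)]
    rw [sum_congr rfl fun z hz => by
      rw [g5_ferE lams TT π ψ ha' (mem_range.1 hz), dotDeg_eq _ _ _ _ hla, List.length_map]]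
    push_cast
    simp only [mul_sub, sum_sub_distrib, mul_ite, mul_zero, mul_sum]
    rw [sum_ite_eq', if_pos (mem_range.2 hK1), sum_comm]
    congr 1
    · ring
    · refine sum_congr rfl fun t ht => ?_
      have ht' := mem_range.1 ht
      have e : (lams.map List.sum).getD t 0 = (lams.getD t []).sum := by
        simp [List.getD_eq_getElem?_getD, List.getElem?_eq_getElem ht']
      rw [e, sum_ite_eq, if_pos (mem_range.2 (Nat.lt_succ_of_le (hK' _ (getD_mem ht' _))))]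
      ring
  rw [sum_congr rfl key, sum_sub_distrib, ← mul_sum, sum_comm, sub_nonneg] at h
  refine le_of_eq_of_le (sum_congr rfl fun t ht => ?_) h
  rw [← mul_sum]
  simp only [ft]
  rw [← htab r hr t (mem_range.1 ht)]
  ring

omit [NeZero q] in
theorem sum_dot3 {DT : ℕ} {fs : Fs} {lams : List (List ℕ)} {TT : L2} (π : List ℤ)
    (hT : TabOK q fs lams TT DT) {p p' : Vec q} (hp : Simp p) (hp' : Simp p') :
    ∑ b ∈ range fs.length, ∑ a ∈ range fs.length,
        ft fs b p' * ft fs a p * (dot3 π (TT.getD a []) (TT.getD b []) : ℝ) =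
      DT * ∑ t ∈ range lams.length, (DT * (π.getD t 0 : ℝ)) *
        (mbar (lams.getD t []) p * mbar (lams.getD t []) p') := by
  obtain ⟨-, hlen, hrow, -, htab⟩ := hT
  rw [sum_congr rfl fun b _ => sum_congr rfl fun a ha => by
    rw [dot3_eq π _ _ (hrow _ (getD_mem (hlen ▸ mem_range.1 ha) _)).le]]
  push_cast
  simp only [mul_sum]
  rw [sum_congr rfl fun b _ => sum_comm, sum_comm]
  refine sum_congr rfl fun t ht => ?_
  have e : (DT : ℝ) * (DT * (π.getD t 0 : ℝ) * (mbar (lams.getD t []) p * mbar (lams.getD t []) p'))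
      = π.getD t 0 * ((DT * mbar (lams.getD t []) p') * (DT * mbar (lams.getD t []) p)) := by ring
  rw [e, htab p hp t (mem_range.1 ht), htab p' hp' t (mem_range.1 ht), sum_mul_sum, mul_sum]
  refine sum_congr rfl fun b _ => ?_
  rw [mul_sum]
  refine sum_congr rfl fun a _ => ?_
  simp only [ft]
  ring

omit [NeZero q] in
theorem sum_gam {l : Fs} (ψc k : List ℤ) (c m0 n0 w u v : ℤ) (p p' : Vec q) {fs : Fs}
    (h : fs = (0, 0, 0) :: (1, 0, 0) :: (0, 1, 0) :: (2, 0, 0) :: l) :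
    ∑ b ∈ range fs.length, ∑ a ∈ range fs.length,
        ft fs b p' * ft fs a p * (gam ψc k c (xmat m0 n0 w u v) b a : ℝ) =
      fz fs ψc p * fz fs k p' + fz fs k p * fz fs ψc p' + c * (fz fs ψc p * fz fs ψc p') +
      m0 * (fx p + fx p') + n0 * (fm p + fm p') + w * (fx p * fx p') +
      u * (fx p * fm p' + fm p * fx p') + v * (fx p * fx p' ^ 2 + fx p ^ 2 * fx p') := by
  have e : ∀ x y : List ℤ, fz fs x p * fz fs y p' = ∑ b ∈ range fs.length, ∑ a ∈ range fs.length,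
      ft fs b p' * ft fs a p * ((x.getD a 0 : ℝ) * (y.getD b 0 : ℝ)) := fun x y => by
    unfold fz fsum
    rw [mul_comm, sum_mul_sum]
    exact sum_congr rfl fun b _ => sum_congr rfl fun a _ => by simp only [ft]; ring
  have hx := sum_xmat m0 n0 w u v p p' h
  have e' : ∑ b ∈ range fs.length, ∑ a ∈ range fs.length,
        ft fs b p' * ft fs a p * (gam ψc k c (xmat m0 n0 w u v) b a : ℝ) =
      fz fs ψc p * fz fs k p' + fz fs k p * fz fs ψc p' + c * (fz fs ψc p * fz fs ψc p') +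
      ∑ b ∈ range fs.length, ∑ a ∈ range fs.length,
        ft fs b p' * ft fs a p * (g2 (xmat m0 n0 w u v) b a : ℝ) := by
    rw [e, e, e]
    simp only [mul_sum, ← sum_add_distrib]
    refine sum_congr rfl fun b _ => sum_congr rfl fun a _ => ?_
    simp only [gam]
    push_cast
    ring
  rw [e', hx]
  ring

omit [NeZero q] in
theorem pair_le {K den : ℕ} {fs : Fs} {TT : L2} {π ψc k : List ℤ} {c : ℤ} {X sp : L2}
    {brk : List ℕ} (hK : ∀ a ∈ fs, fdeg a ≤ K) (hden : 0 < den) (hb : brkOK 0 den brk = true)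
    (hP : AllLt (brk.length - 1) fun i =>
      PairOK (ferP K fs TT π ψc k c X) (fs.map fdeg)
        (uniNet K den (brk.getD i 0) (brk.getD (i + 1) 0)) sp (uniNets K den (brk.drop i)) [[1]] sp
        [[1]] [[1]])
    {p p' : Vec q} {ρ ρ' : ℝ} {φ φ' : ℕ → ℝ} (h0 : 0 ≤ ρ) (h : ρ ≤ ρ') (h1 : ρ' ≤ 1)
    (hφ : Dom sp fs.length φ) (hφ' : Dom sp fs.length φ')
    (he : ∀ k < fs.length, feat (fs.getD k (0, 0, 0)) p = ρ ^ fdeg (fs.getD k (0, 0, 0)) * φ k)
    (he' : ∀ k < fs.length,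
      feat (fs.getD k (0, 0, 0)) p' = ρ' ^ fdeg (fs.getD k (0, 0, 0)) * φ' k) :
    ∑ b ∈ range fs.length, ∑ a ∈ range fs.length, ft fs b p' * ft fs a p * (gam ψc k c X b a : ℝ) ≤
      ∑ b ∈ range fs.length, ∑ a ∈ range fs.length,
        ft fs b p' * ft fs a p * (dot3 π (TT.getD a []) (TT.getD b []) : ℝ) := by
  have hd : (0 : ℝ) < den := Nat.cast_pos.2 hden
  obtain ⟨i, hi, d1, d2⟩ := domN_pair K hden hb (z := ρ) (z' := ρ')
    (by rw [Nat.cast_zero]; positivity) h (mul_le_of_le_one_right hd.le h1)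
  have H := (hP i (by omega)).real (domT_ft hK d1 hφ he) d2 domN_one hφ' domN_one domN_one
  simp only [sum_range_one, mul_one, one_mul, List.length_map] at H
  rw [sum_comm] at H
  rw [← sub_nonneg, ← sum_sub_distrib]
  refine le_of_le_of_eq H (sum_congr rfl fun b hb' => ?_)
  have hb'' := mem_range.1 hb'
  rw [sum_comm, ← sum_sub_distrib]
  refine sum_congr rfl fun a ha => ?_
  rw [sum_congr rfl fun d hd => by
    rw [g6_ferP TT π ψc k c X (mem_range.1 hd) hb'' (mem_range.1 ha)]]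
  push_cast
  simp only [mul_ite, mul_zero]
  rw [sum_ite_eq, if_pos (show fd fs b ∈ range (K + 1) from
    mem_range.2 (Nat.lt_succ_of_le (hK _ (getD_mem hb'' _))))]
  have : ft fs b p' = ρ' ^ fd fs b * φ' b := he' b hb''
  rw [this]
  ring

end FerroCertH

theorem ferro_form {K DT den : ℕ} {fs : Fs} {lams : List (List ℕ)} {TT : L2} {π ψ ψc k : List ℤ}
    {c m0 n0 w u v : ℤ} {rE znet : List (List ℕ)} {sE sp : L2} {brk : List ℕ}
    (hok : fsOK K fs lams = true) (hT : TabOK q fs lams TT DT) (hcE : Cover q fs sE)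
    (hcP : Cover q fs sp) (hrE : ∀ ρ : ℝ, 0 ≤ ρ → ρ ≤ 1 → DomN rE (K + 1) fun k => ρ ^ k)
    (hz : ∀ Z : ℝ, 0 ≤ Z → Z ≤ q → DomN znet (K + 1) fun k => Z ^ k)
    (hE : OneOK (ferE K fs lams TT π ψ) (fs.map fdeg) rE sE znet [[1]] [[1]] [[1]])
    (hden : 0 < den) (hb : brkOK 0 den brk = true)
    (hP : AllLt (brk.length - 1) fun i =>
      PairOK (ferP K fs TT π ψc k c (xmat m0 n0 w u v)) (fs.map fdeg)
        (uniNet K den (brk.getD i 0) (brk.getD (i + 1) 0)) sp (uniNets K den (brk.drop i)) [[1]] sp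
        [[1]] [[1]])
    {p p' : Vec q} (hp : Simp p) (hp' : Simp p') :
    fz fs ψc p * fz fs k p' + fz fs k p * fz fs ψc p' + c * (fz fs ψc p * fz fs ψc p') +
      m0 * (fx p + fx p') + n0 * (fm p + fm p') + w * (fx p * fx p') +
      u * (fx p * fm p' + fm p * fx p') + v * (fx p * fx p' ^ 2 + fx p ^ 2 * fx p') ≤
        DT * sAv (fz fs ψ) p p' := by
  obtain ⟨⟨l, hl⟩, hK, -⟩ := of_fsOK hok
  have h1 := tangent_ge hT.2.2.2.1 (fun t => DT * (π.getD t 0 : ℝ)) (f := fz fs ψ) hp.1 hp'.1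
    (lo := 0) (hi := q)
    (fun σ => ⟨av_nonneg (hp.1.mul (hp'.1.perm σ)), by
      have := av_mul_le hp.1 (hp'.1.perm σ)
      rwa [av_perm, hp.2, hp'.2, mul_one, mul_one] at this⟩)
    fun r hr Z z0 z1 => one_sided hok hT hcE hrE hE hr (hz Z z0 z1)
  refine le_trans ?_ (mul_le_mul_of_nonneg_left h1 (Nat.cast_nonneg DT))
  obtain ⟨ρ, φ, a0, a1, hφ, he⟩ := hcP p hp
  obtain ⟨ρ', φ', b0, b1, hφ', he'⟩ := hcP p' hp'
  rcases le_total ρ ρ' with h | h
  · have := pair_le hK hden hb hP a0 h b1 hφ hφ' he he'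
    rwa [sum_gam ψc k c m0 n0 w u v p p' hl, sum_dot3 π hT hp hp'] at this
  · have := pair_le hK hden hb hP b0 h a1 hφ' hφ he' he
    rw [sum_gam ψc k c m0 n0 w u v p' p hl, sum_dot3 π hT hp' hp] at this
    simp only [mul_comm (mbar _ p') (mbar _ p)] at this
    refine le_of_eq_of_le ?_ this
    ring

omit [NeZero q] in
theorem FerroCertH.sAv_scale {F G : Vec q → ℝ} {a b : ℝ} (h : ∀ p, a * F p = b * G p)
    (p p' : Vec q) : a * sAv F p p' = b * sAv G p p' := by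
  rw [← sAv_smul, ← sAv_smul, funext h]

/-- the inequality `S` of `FerroPt` -/
theorem ferroS_of {a b D M c : ℝ} {Ψ κ F : Vec q → ℝ} (hD : 0 < D) (hM : 0 < M) (hc : 0 ≤ c)
    (hΨ : ∀ p, Ψ p = D * psi a b p) (hκ : BddS κ) (hκ0 : ∀ p, Simp p → 0 ≤ κ p) {DT : ℝ}
    (hF : ∀ p, DT * F p = M * psi a b p)
    (h : ∀ p p', Simp p → Simp p' → Ψ p * κ p' + κ p * Ψ p' + c * (Ψ p * Ψ p') +
      (0 : ℤ) * (fx p + fx p') + (0 : ℤ) * (fm p + fm p') + (0 : ℤ) * (fx p * fx p') +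
      (0 : ℤ) * (fx p * fm p' + fm p * fx p') + (0 : ℤ) * (fx p * fx p' ^ 2 + fx p ^ 2 * fx p') ≤
        DT * sAv F p p') :
    ∃ (k : Vec q → ℝ) (c : ℝ), BddS k ∧ (∀ p, Simp p → 0 ≤ k p) ∧ 0 ≤ c ∧
      ∀ p p', Simp p → Simp p' →
        psi a b p * k p' + k p * psi a b p' + c * (psi a b p * psi a b p') ≤ sAv (psi a b) p p' := by
  refine ⟨fun p => D / M * κ p, c * D ^ 2 / M, hκ.smul _,
    fun p hp => mul_nonneg (by positivity) (hκ0 p hp), by positivity, fun p p' hp hp' => ?_⟩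
  have := h p p' hp hp'
  rw [sAv_scale hF, hΨ, hΨ] at this
  push_cast at this
  refine le_of_mul_le_mul_left (le_of_eq_of_le ?_ this) hM
  field_simp
  ring

/-- the inequality `D` of `FerroPt` -/
theorem ferroD_of {a b D c : ℝ} {M v : ℤ} {Ψ κ F : Vec q → ℝ} (hD : 0 < D) (hM : 0 < M)
    (hc : 0 ≤ c) (hv : 0 < v) (hΨ : ∀ p, Ψ p = D * psi a b p) (hκ : BddS κ)
    (hκ0 : ∀ p, Simp p → 0 ≤ κ p) {DT : ℝ} (hF : ∀ p, DT * F p = -M * fx p)
    (h : ∀ p p', Simp p → Simp p' → Ψ p * κ p' + κ p * Ψ p' + c * (Ψ p * Ψ p') +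
      (-M : ℤ) * (fx p + fx p') + (0 : ℤ) * (fm p + fm p') + (0 : ℤ) * (fx p * fx p') +
      (0 : ℤ) * (fx p * fm p' + fm p * fx p') + v * (fx p * fx p' ^ 2 + fx p ^ 2 * fx p') ≤
        DT * sAv F p p') :
    ∃ (k : Vec q → ℝ) (c κ : ℝ), BddS k ∧ (∀ p, Simp p → 0 ≤ k p) ∧ 0 ≤ c ∧ 0 < κ ∧
      ∀ p p', Simp p → Simp p' →
        sAv fx p p' ≤ fx p + fx p' - κ * (fx p * fx p' * (fx p + fx p')) -
          psi a b p * k p' - k p * psi a b p' - c * (psi a b p * psi a b p') := by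
  have hM' : (0 : ℝ) < M := by exact_mod_cast hM
  have hv' : (0 : ℝ) < v := by exact_mod_cast hv
  refine ⟨fun p => D / M * κ p, c * D ^ 2 / M, v / M, hκ.smul _,
    fun p hp => mul_nonneg (by positivity) (hκ0 p hp), by positivity, by positivity,
    fun p p' hp hp' => ?_⟩
  have := h p p' hp hp'
  rw [sAv_scale hF, hΨ, hΨ] at this
  push_cast at this
  refine le_of_mul_le_mul_left ?_ hM'
  have e : (M : ℝ) * (fx p + fx p' - v / M * (fx p * fx p' * (fx p + fx p')) -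
      psi a b p * (D / M * κ p') - D / M * κ p * psi a b p' -
      c * D ^ 2 / M * (psi a b p * psi a b p')) = M * (fx p + fx p') -
      v * (fx p * fx p' * (fx p + fx p')) - psi a b p * (D * κ p') - D * κ p * psi a b p' -
      c * D ^ 2 * (psi a b p * psi a b p') := by
    field_simp
  rw [e]
  linarith

/-- the inequality `U1` of `ConvPt` -/
theorem convU1_of {N v : ℤ} {Ψ κ F : Vec 4 → ℝ} (hN : 0 < N) (hv : 0 ≤ v) (hΨ : ∀ p, Ψ p = 0)
    {c DT : ℝ} (hF : ∀ p, DT * F p = 3 * N * fx p)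
    (h : ∀ p p', Simp p → Simp p' → Ψ p * κ p' + κ p * Ψ p' + c * (Ψ p * Ψ p') +
      (3 * N : ℤ) * (fx p + fx p') + (0 : ℤ) * (fm p + fm p') + (0 : ℤ) * (fx p * fx p') +
      (-2 * N : ℤ) * (fx p * fm p' + fm p * fx p') +
      (-v : ℤ) * (fx p * fx p' ^ 2 + fx p ^ 2 * fx p') ≤ DT * sAv F p p') :
    ∃ c : ℝ, 0 ≤ c ∧ ∀ p p' : Vec 4, Simp p → Simp p' →
      fx p + fx p' - fx p * (2 / 3 * fm p' + c * fx p' ^ 2) -
        fx p' * (2 / 3 * fm p + c * fx p ^ 2) ≤ sAv fx p p' := by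
  have hN' : (0 : ℝ) < N := by exact_mod_cast hN
  have hv' : (0 : ℝ) ≤ v := by exact_mod_cast hv
  refine ⟨v / (3 * N), by positivity, fun p p' hp hp' => ?_⟩
  have := h p p' hp hp'
  rw [sAv_scale hF, hΨ, hΨ] at this
  push_cast at this
  refine le_of_mul_le_mul_left (le_of_eq_of_le ?_ this) (by positivity)
  field_simp
  ring

/-- the inequality `U2` of `ConvPt` -/
theorem convU2_of {M w : ℤ} {Ψ κ F : Vec 4 → ℝ} (hM : 0 < M) (hw : 0 ≤ w) (hΨ : ∀ p, Ψ p = 0)
    {c DT : ℝ} (hF : ∀ p, DT * F p = -M * fm p)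
    (h : ∀ p p', Simp p → Simp p' → Ψ p * κ p' + κ p * Ψ p' + c * (Ψ p * Ψ p') +
      (0 : ℤ) * (fx p + fx p') + (-M : ℤ) * (fm p + fm p') + (-w : ℤ) * (fx p * fx p') +
      (0 : ℤ) * (fx p * fm p' + fm p * fx p') +
      (0 : ℤ) * (fx p * fx p' ^ 2 + fx p ^ 2 * fx p') ≤ DT * sAv F p p') :
    ∃ c : ℝ, 0 ≤ c ∧ ∀ p p' : Vec 4, Simp p → Simp p' →
      sAv fm p p' ≤ fm p + fm p' + c * (fx p * fx p') := by
  have hM' : (0 : ℝ) < M := by exact_mod_cast hM
  have hw' : (0 : ℝ) ≤ w := by exact_mod_cast hw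
  refine ⟨w / M, by positivity, fun p p' hp hp' => ?_⟩
  have := h p p' hp hp'
  rw [sAv_scale hF, hΨ, hΨ] at this
  push_cast at this
  refine le_of_mul_le_mul_left ?_ hM'
  have e : (M : ℝ) * (fm p + fm p' + w / M * (fx p * fx p')) =
      M * (fm p + fm p') + w * (fx p * fx p') := by
    field_simp
  rw [e]
  linarith

end Crest.Agent.R163.Ck
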