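import Crest.Agent.R163.N3FD
import Crest.Agent.R163.Cover3

/-! Row 163: control nets (generated). -/

set_option autoImplicit false
set_option Elab.async false
set_option maxRecDepth 100000

namespace Crest.Agent.R163.Ck

theorem N3F_sp_eq : N3F_sp = shapes3 3 fs3_6 [0, 2, 5, 9] := by decide +kernel

theorem N3F_cols_eq : N3F_cols = packCols 144 N3F_degs.length N3F_sp := by decide +kernel

theorem N3F_degs_eq : fs3_6.map fdeg = N3F_degs := by decide +kernel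

theorem N3F_len : 12 = N3F_sp.length := by decide +kernel

theorem N3F_cover : Cover 3 fs3_6 N3F_sp := N3F_sp_eq ▸ cover3 3 (by decide) (by decide)

theorem N3F_rE_eq : N3F_rE = uniNets 6 8 [0, 2, 3, 4, 5, 7, 8] := by decide +kernel

theorem N3F_z_eq : N3F_z = uniNets 6 4 [0, 2, 4, 6, 8, 10, 12] := by decide +kernel

theorem N3F_rE_dom (ρ : ℝ) (h0 : 0 ≤ ρ) (h1 : ρ ≤ 1) : DomN N3F_rE (6 + 1) fun k => ρ ^ k :=
  N3F_rE_eq ▸ domN_uniNets 6 (lo := 0) (hi := 8) (by norm_num) (by decide) (by push_cast; linarith)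
    (by push_cast; linarith)

theorem N3F_z_dom (Z : ℝ) (h0 : 0 ≤ Z) (h1 : Z ≤ (3 : ℕ)) : DomN N3F_z (6 + 1) fun k => Z ^ k :=
  N3F_z_eq ▸ domN_uniNets 6 (lo := 0) (hi := 12) (by norm_num) (by decide) (by push_cast; linarith)
    (by push_cast at h1 ⊢; linarith)

theorem N3F_c0 : uniNet 6 8 ([0, 3, 5, 7, 8].getD 0 0) ([0, 3, 5, 7, 8].getD (0 + 1) 0) = chunk 7 0 N3F_r := by
  decide +kernel

theorem N3F_d0 : uniNets 6 8 ([0, 3, 5, 7, 8].drop 0) = N3F_r.drop 0 := by decide +kernel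

theorem N3F_c1 : uniNet 6 8 ([0, 3, 5, 7, 8].getD 1 0) ([0, 3, 5, 7, 8].getD (1 + 1) 0) = chunk 7 1 N3F_r := by
  decide +kernel

theorem N3F_d1 : uniNets 6 8 ([0, 3, 5, 7, 8].drop 1) = N3F_r.drop 7 := by decide +kernel

theorem N3F_c2 : uniNet 6 8 ([0, 3, 5, 7, 8].getD 2 0) ([0, 3, 5, 7, 8].getD (2 + 1) 0) = chunk 7 2 N3F_r := by
  decide +kernel

theorem N3F_d2 : uniNets 6 8 ([0, 3, 5, 7, 8].drop 2) = N3F_r.drop 14 := by decide +kernel

theorem N3F_c3 : uniNet 6 8 ([0, 3, 5, 7, 8].getD 3 0) ([0, 3, 5, 7, 8].getD (3 + 1) 0) = chunk 7 3 N3F_r := by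
  decide +kernel

theorem N3F_d3 : uniNets 6 8 ([0, 3, 5, 7, 8].drop 3) = N3F_r.drop 21 := by decide +kernel


end Crest.Agent.R163.Ck
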