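import Crest.Agent.R163.F3DC0
import Crest.Agent.R163.N3F
import Crest.Agent.R163.TabK3
import Crest.Agent.R163.PVSound
import Crest.Agent.R163.FerroCert

/-! Row 163: gluing of the kernel checks (generated). -/

set_option autoImplicit false
set_option Elab.async false
set_option maxRecDepth 100000

namespace Crest.Agent.R163.Ck

theorem F3D_P0 : PairOK F3D_A N3F_degs (chunk 7 0 N3F_r) N3F_sp (N3F_r.drop 0) [[1]] N3F_sp [[1]] [[1]] :=
  PairOK.of_sub (m := 12) (n := 1) (AllLt.step AllLt.zero (pcAll_sound N3F_sp (by norm_num) N3F_len N3F_cols_eq F3D_p0_0)) (by decide +kernel)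

theorem F3D_P1 : PairOK F3D_A N3F_degs (chunk 7 1 N3F_r) N3F_sp (N3F_r.drop 7) [[1]] N3F_sp [[1]] [[1]] :=
  PairOK.of_sub (m := 12) (n := 1) (AllLt.step AllLt.zero (pcAll_sound N3F_sp (by norm_num) N3F_len N3F_cols_eq F3D_p1_0)) (by decide +kernel)

theorem F3D_P2 : PairOK F3D_A N3F_degs (chunk 7 2 N3F_r) N3F_sp (N3F_r.drop 14) [[1]] N3F_sp [[1]] [[1]] :=
  PairOK.of_sub (m := 12) (n := 1) (AllLt.step AllLt.zero (pcAll_sound N3F_sp (by norm_num) N3F_len N3F_cols_eq F3D_p2_0)) (by decide +kernel)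

theorem F3D_P3 : PairOK F3D_A N3F_degs (chunk 7 3 N3F_r) N3F_sp (N3F_r.drop 21) [[1]] N3F_sp [[1]] [[1]] :=
  PairOK.of_sub (m := 12) (n := 1) (AllLt.step AllLt.zero (pcAll_sound N3F_sp (by norm_num) N3F_len N3F_cols_eq F3D_p3_0)) (by decide +kernel)

theorem F3D_E0 : OneOK F3D_E N3F_degs (chunk 7 0 N3F_rE) N3F_sp N3F_z [[1]] [[1]] [[1]] :=
  OneOK.of_znet (m := 42) (n := 1) (AllLt.step AllLt.zero (ecAll_sound N3F_sp (by norm_num) N3F_len N3F_cols_eq F3D_e0_0)) (by decide +kernel)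

theorem F3D_E1 : OneOK F3D_E N3F_degs (chunk 7 1 N3F_rE) N3F_sp N3F_z [[1]] [[1]] [[1]] :=
  OneOK.of_znet (m := 42) (n := 1) (AllLt.step AllLt.zero (ecAll_sound N3F_sp (by norm_num) N3F_len N3F_cols_eq F3D_e1_0)) (by decide +kernel)

theorem F3D_E2 : OneOK F3D_E N3F_degs (chunk 7 2 N3F_rE) N3F_sp N3F_z [[1]] [[1]] [[1]] :=
  OneOK.of_znet (m := 42) (n := 1) (AllLt.step AllLt.zero (ecAll_sound N3F_sp (by norm_num) N3F_len N3F_cols_eq F3D_e2_0)) (by decide +kernel)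

theorem F3D_E3 : OneOK F3D_E N3F_degs (chunk 7 3 N3F_rE) N3F_sp N3F_z [[1]] [[1]] [[1]] :=
  OneOK.of_znet (m := 42) (n := 1) (AllLt.step AllLt.zero (ecAll_sound N3F_sp (by norm_num) N3F_len N3F_cols_eq F3D_e3_0)) (by decide +kernel)

theorem F3D_E4 : OneOK F3D_E N3F_degs (chunk 7 4 N3F_rE) N3F_sp N3F_z [[1]] [[1]] [[1]] :=
  OneOK.of_znet (m := 42) (n := 1) (AllLt.step AllLt.zero (ecAll_sound N3F_sp (by norm_num) N3F_len N3F_cols_eq F3D_e4_0)) (by decide +kernel)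

theorem F3D_E5 : OneOK F3D_E N3F_degs (chunk 7 5 N3F_rE) N3F_sp N3F_z [[1]] [[1]] [[1]] :=
  OneOK.of_znet (m := 42) (n := 1) (AllLt.step AllLt.zero (ecAll_sound N3F_sp (by norm_num) N3F_len N3F_cols_eq F3D_e5_0)) (by decide +kernel)

theorem F3D_EE : OneOK F3D_E N3F_degs N3F_rE N3F_sp N3F_z [[1]] [[1]] [[1]] :=
  OneOK.of_rp (m := 7) (n := 6) (AllLt.step (AllLt.step (AllLt.step (AllLt.step (AllLt.step (AllLt.step AllLt.zero F3D_E0) F3D_E1) F3D_E2) F3D_E3) F3D_E4) F3D_E5) (by decide +kernel)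

theorem F3D_KK : OneOK (ferK F3D_k) N3F_degs N3F_rE N3F_sp [[1]] [[1]] [[1]] [[1]] :=
  OneOK.of_rp (m := 7) (n := 6) (AllLt.step (AllLt.step (AllLt.step (AllLt.step (AllLt.step (AllLt.step AllLt.zero (ecAll_sound N3F_sp (by norm_num) N3F_len N3F_cols_eq F3D_k0)) (ecAll_sound N3F_sp (by norm_num) N3F_len N3F_cols_eq F3D_k1)) (ecAll_sound N3F_sp (by norm_num) N3F_len N3F_cols_eq F3D_k2)) (ecAll_sound N3F_sp (by norm_num) N3F_len N3F_cols_eq F3D_k3)) (ecAll_sound N3F_sp (by norm_num) N3F_len N3F_cols_eq F3D_k4)) (ecAll_sound N3F_sp (by norm_num) N3F_len N3F_cols_eq F3D_k5)) (by decide +kernel)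

theorem F3D_A_eq : ferP 6 fs3_6 TT3_6 F3D_pi F3D_psc F3D_k (203141312142336) (xmat (-854980241758617600) (0) (0) (0) (6679533138739200)) = F3D_A := by
  decide +kernel

theorem F3D_E_eq : ferE 6 fs3_6 lams3_6 TT3_6 F3D_pi F3D_psi = F3D_E := by decide +kernel

theorem F3D_form (p p' : Vec 3) (hp : Simp p) (hp' : Simp p') :
    fz fs3_6 F3D_psc p * fz fs3_6 F3D_k p' + fz fs3_6 F3D_k p * fz fs3_6 F3D_psc p' + ((203141312142336 : ℤ) : ℝ) * (fz fs3_6 F3D_psc p * fz fs3_6 F3D_psc p') +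
      ((-854980241758617600 : ℤ) : ℝ) * (fx p + fx p') + ((0 : ℤ) : ℝ) * (fm p + fm p') + ((0 : ℤ) : ℝ) * (fx p * fx p') +
      ((0 : ℤ) : ℝ) * (fx p * fm p' + fm p * fx p') + ((6679533138739200 : ℤ) : ℝ) * (fx p * fx p' ^ 2 + fx p ^ 2 * fx p') ≤
        ((32 : ℕ) : ℝ) * sAv (fz fs3_6 F3D_psi) p p' := by
  refine ferro_form (K := 6) (den := 8) (brk := [0, 3, 5, 7, 8]) (π := F3D_pi) (by decide) tab3_6 N3F_cover N3F_cover N3F_rE_dom N3F_z_dom ?_ (by norm_num) (by decide) ?_ hp hp'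
  · rw [F3D_E_eq, N3F_degs_eq]; exact F3D_EE
  · rw [F3D_A_eq, N3F_degs_eq]
    exact (AllLt.step (AllLt.step (AllLt.step (AllLt.step AllLt.zero (by rw [N3F_c0, N3F_d0]; exact F3D_P0)) (by rw [N3F_c1, N3F_d1]; exact F3D_P1)) (by rw [N3F_c2, N3F_d2]; exact F3D_P2)) (by rw [N3F_c3, N3F_d3]; exact F3D_P3))

theorem F3D_k_nonneg (p : Vec 3) (hp : Simp p) : 0 ≤ fz fs3_6 F3D_k p :=
  fz_nonneg (K := 6) (by decide) N3F_cover N3F_rE_dom (by rw [N3F_degs_eq]; exact F3D_KK) hp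

theorem F3D : ∃ (k : Vec 3 → ℝ) (c κ : ℝ), BddS k ∧ (∀ p, Simp p → 0 ≤ k p) ∧ 0 ≤ c ∧ 0 < κ ∧
    ∀ p p', Simp p → Simp p' → sAv fx p p' ≤ fx p + fx p' - κ * (fx p * fx p' * (fx p + fx p')) -
      psi (3 / 10) (0) p * k p' - k p * psi (3 / 10) (0) p' - c * (psi (3 / 10) (0) p * psi (3 / 10) (0) p') :=
  ferroD_of (D := 10) (M := 854980241758617600) (by norm_num) (by norm_num) (by norm_num) (by norm_num)
    (fun p => by simp [fz, fsum, fs3_6, F3D_psc, Finset.sum_range_succ, feat, psi]; ring) (bddS_fz _ _) F3D_k_nonneg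
    (fun p => by simp [fz, fsum, fs3_6, F3D_psi, Finset.sum_range_succ, feat]; ring) F3D_form

end Crest.Agent.R163.Ck
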