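import Crest.Agent.R163.N3FD

/-! Row 163: certificate data (generated). -/

set_option autoImplicit false
set_option Elab.async false
set_option maxRecDepth 100000

namespace Crest.Agent.R163.Ck

noncomputable def F3D_pi : List ℤ := [.negSucc (nat_lit 1677420634421249), .ofNat (nat_lit 10529853728175), .ofNat (nat_lit 3688254157970250), .negSucc (nat_lit 5707041121799), .negSucc (nat_lit 380450426048099), .ofNat (nat_lit 2365227764588700), .ofNat (nat_lit 1474070887800), .negSucc (nat_lit 907974514435049), .negSucc (nat_lit 911392834691249), .negSucc (nat_lit 9537815339995949), .negSucc (nat_lit 175076712449), .ofNat (nat_lit 258729170811300), .ofNat (nat_lit 778565184199200), .ofNat (nat_lit 3195823303239300), .ofNat (nat_lit 6133230887987700), .ofNat (nat_lit 6964849325), .negSucc (nat_lit 21040525315949), .negSucc (nat_lit 84391952658449), .negSucc (nat_lit 334471144063799), .negSucc (nat_lit 63337497643849), .negSucc (nat_lit 1901833206016649),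 .negSucc (nat_lit 605831165137199)]

noncomputable def F3D_psi : List ℤ := [.ofNat (nat_lit 0), .negSucc (nat_lit 26718132554956799), .ofNat (nat_lit 0), .ofNat (nat_lit 0), .ofNat (nat_lit 0), .ofNat (nat_lit 0), .ofNat (nat_lit 0)]

noncomputable def F3D_psc : List ℤ := [.ofNat (nat_lit 0), .ofNat (nat_lit 0), .ofNat (nat_lit 10), .negSucc (nat_lit 2), .ofNat (nat_lit 0), .ofNat (nat_lit 0), .ofNat (nat_lit 0)]

noncomputable def F3D_k : List ℤ := [.ofNat (nat_lit 0), .ofNat (nat_lit 85498024175861760), .negSucc (nat_lit 63909336898621439), .negSucc (nat_lit 53605727086003199), .ofNat (nat_lit 73191658942080000), .ofNat (nat_lit 4350497664568320), .negSucc (nat_lit 26710362768291839)]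

noncomputable def F3D_A : L6 := [[[[[[.ofNat (nat_lit 0)]],
  [[.ofNat (nat_lit 0)]],
  [[.ofNat (nat_lit 0)]],
  [[.ofNat (nat_lit 0)]],
  [[.ofNat (nat_lit 0)]],
  [[.ofNat (nat_lit 0)]],
  [[.ofNat (nat_lit 0)]]],
  [],
  [],
  [],
  [],
  [],
  []],
  [[],
  [],
  [],
  [],
  [],
  [],
  []],
  [[],
  [[[.ofNat (nat_lit 0)]],
  [[.ofNat (nat_lit 427490120879308800)]],
  [[.ofNat (nat_lit 0)]],
  [[.negSucc (nat_lit 379121763990251519)]],
  [[.ofNat (nat_lit 201774939969600000)]],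
  [[.negSucc (nat_lit 180548536550399)]],
  [[.ofNat (nat_lit 0)]]],
  [],
  [],
  [],
  [],
  []],
  [[],
  [],
  [[[.ofNat (nat_lit 0)]],
  [[.ofNat (nat_lit 0)]],
  [[.ofNat (nat_lit 0)]],
  [[.ofNat (nat_lit 24149606103740160)]],
  [[.ofNat (nat_lit 900188229167481600)]],
  [[.negSucc (nat_lit 43866073718783999)]],
  [[.negSucc (nat_lit 836591351830847999)]]],
  [],
  [],
  [],
  []],
  [[],
  [],
  [],
  [[[.ofNat (nat_lit 0)]],
  [[.negSucc (nat_lit 379121763990251519)]],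
  [[.ofNat (nat_lit 24149606103740160)]],
  [[.ofNat (nat_lit 161423637784718976)]],
  [[.negSucc (nat_lit 118605006224812799)]],
  [[.ofNat (nat_lit 177583344675572160)]],
  [[.negSucc (nat_lit 80492185377976319)]]],
  [],
  [],
  []],
  [[],
  [],
  [],
  [],
  [[[.ofNat (nat_lit 0)]],
  [[.ofNat (nat_lit 201774939969600000)]],
  [[.ofNat (nat_lit 900188229167481600)]],
  [[.negSucc (nat_lit 118605006224812799)]],
  [[.negSucc (nat_lit 2785860453285676799)]],
  [[.ofNat (nat_lit 164622125950142400)]],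
  [[.ofNat (nat_lit 1875279368586240000)]]],
  [],
  []],
  [[],
  [],
  [],
  [],
  [],
  [[[.ofNat (nat_lit 0)]],
  [[.negSucc (nat_lit 180548536550399)]],
  [[.negSucc (nat_lit 43866073718783999)]],
  [[.ofNat (nat_lit 177583344675572160)]],
  [[.ofNat (nat_lit 164622125950142400)]],
  [[.negSucc (nat_lit 218689782622351199)]],
  [[.ofNat (nat_lit 109471266447840000)]]],
  [[[.ofNat (nat_lit 0)]],
  [[.ofNat (nat_lit 0)]],
  [[.negSucc (nat_lit 836591351830847999)]],
  [[.negSucc (nat_lit 80492185377976319)]],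
  [[.ofNat (nat_lit 1875279368586240000)]],
  [[.ofNat (nat_lit 109471266447840000)]],
  [[.negSucc (nat_lit 1541580045305126399)]]]]]]

noncomputable def F3D_E : L5 := [[[[[.ofNat (nat_lit 0)]]],
  [[[.ofNat (nat_lit 53677460301480000)]]],
  [[[.negSucc (nat_lit 118361088374349599)]]],
  [[[.negSucc (nat_lit 63330249517401599)]]],
  [[[.ofNat (nat_lit 363382675783502400)]]],
  [[[.negSucc (nat_lit 331717551024801599)]]],
  [[[.ofNat (nat_lit 96348752831570400)]]]],
  [[[[.ofNat (nat_lit 0)]]],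
  [[[.negSucc (nat_lit 26718132554956799)]]],
  [[[.ofNat (nat_lit 58675111208222400)]]],
  [[[.ofNat (nat_lit 114078808647950400)]]],
  [[[.negSucc (nat_lit 414515381237380799)]]],
  [[[.ofNat (nat_lit 385684554472804800)]]],
  [[[.negSucc (nat_lit 117204960536639999)]]]],
  [[[[.ofNat (nat_lit 0)]]],
  [[[.ofNat (nat_lit 0)]]],
  [[[.ofNat (nat_lit 0)]]],
  [[[.negSucc (nat_lit 81591869967710399)]]],
  [[[.ofNat (nat_lit 232164676155031200)]]],
  [[[.negSucc (nat_lit 219553742406931199)]]],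
  [[[.ofNat (nat_lit 68980936219610400)]]]],
  [[[[.ofNat (nat_lit 0)]]],
  [[[.ofNat (nat_lit 0)]]],
  [[[.ofNat (nat_lit 0)]]],
  [[[.ofNat (nat_lit 0)]]],
  [[[.ofNat (nat_lit 11284283534400)]]],
  [[[.negSucc (nat_lit 22568567068799)]]],
  [[[.ofNat (nat_lit 11284283534400)]]]],
  [[[[.ofNat (nat_lit 0)]]],
  [[[.ofNat (nat_lit 0)]]],
  [[[.ofNat (nat_lit 0)]]],
  [[[.ofNat (nat_lit 0)]]],
  [[[.ofNat (nat_lit 0)]]],
  [[[.ofNat (nat_lit 0)]]],
  [[[.ofNat (nat_lit 0)]]]],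
  [[[[.ofNat (nat_lit 0)]]],
  [[[.ofNat (nat_lit 0)]]],
  [[[.ofNat (nat_lit 0)]]],
  [[[.ofNat (nat_lit 0)]]],
  [[[.ofNat (nat_lit 0)]]],
  [[[.ofNat (nat_lit 0)]]],
  [[[.ofNat (nat_lit 0)]]]],
  [[[[.ofNat (nat_lit 0)]]],
  [[[.ofNat (nat_lit 0)]]],
  [[[.ofNat (nat_lit 0)]]],
  [[[.ofNat (nat_lit 0)]]],
  [[[.ofNat (nat_lit 0)]]],
  [[[.ofNat (nat_lit 0)]]],
  [[[.ofNat (nat_lit 0)]]]]]


end Crest.Agent.R163.Ck
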