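import Crest.Agent.R163.F3SD

/-! Row 163: kernel checks (generated). -/

set_option autoImplicit false
set_option Elab.async false
set_option maxRecDepth 100000

namespace Crest.Agent.R163.Ck

theorem F3S_p0_0 : pcAll 144 F3S_A N3F_degs (chunk 7 0 N3F_r) 12 N3F_cols (N3F_r.drop 0) [[1]]
    (chunk 12 0 N3F_sp) [[1]] [[1]] = true := by decide +kernel

theorem F3S_p1_0 : pcAll 144 F3S_A N3F_degs (chunk 7 1 N3F_r) 12 N3F_cols (N3F_r.drop 7) [[1]]
    (chunk 12 0 N3F_sp) [[1]] [[1]] = true := by decide +kernel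

theorem F3S_p2_0 : pcAll 144 F3S_A N3F_degs (chunk 7 2 N3F_r) 12 N3F_cols (N3F_r.drop 14) [[1]]
    (chunk 12 0 N3F_sp) [[1]] [[1]] = true := by decide +kernel

theorem F3S_p3_0 : pcAll 144 F3S_A N3F_degs (chunk 7 3 N3F_r) 12 N3F_cols (N3F_r.drop 21) [[1]]
    (chunk 12 0 N3F_sp) [[1]] [[1]] = true := by decide +kernel

theorem F3S_e0_0 : ecAll 144 F3S_E N3F_degs (chunk 7 0 N3F_rE) 12 N3F_cols (chunk 42 0 N3F_z)
    [[1]] [[1]] [[1]] = true := by decide +kernel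

theorem F3S_e1_0 : ecAll 144 F3S_E N3F_degs (chunk 7 1 N3F_rE) 12 N3F_cols (chunk 42 0 N3F_z)
    [[1]] [[1]] [[1]] = true := by decide +kernel

theorem F3S_e2_0 : ecAll 144 F3S_E N3F_degs (chunk 7 2 N3F_rE) 12 N3F_cols (chunk 42 0 N3F_z)
    [[1]] [[1]] [[1]] = true := by decide +kernel

theorem F3S_e3_0 : ecAll 144 F3S_E N3F_degs (chunk 7 3 N3F_rE) 12 N3F_cols (chunk 42 0 N3F_z)
    [[1]] [[1]] [[1]] = true := by decide +kernel

theorem F3S_e4_0 : ecAll 144 F3S_E N3F_degs (chunk 7 4 N3F_rE) 12 N3F_cols (chunk 42 0 N3F_z)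
    [[1]] [[1]] [[1]] = true := by decide +kernel

theorem F3S_e5_0 : ecAll 144 F3S_E N3F_degs (chunk 7 5 N3F_rE) 12 N3F_cols (chunk 42 0 N3F_z)
    [[1]] [[1]] [[1]] = true := by decide +kernel

theorem F3S_k0 : ecAll 144 (ferK F3S_k) N3F_degs (chunk 7 0 N3F_rE) 12 N3F_cols [[1]]
    [[1]] [[1]] [[1]] = true := by decide +kernel

theorem F3S_k1 : ecAll 144 (ferK F3S_k) N3F_degs (chunk 7 1 N3F_rE) 12 N3F_cols [[1]]
    [[1]] [[1]] [[1]] = true := by decide +kernel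

theorem F3S_k2 : ecAll 144 (ferK F3S_k) N3F_degs (chunk 7 2 N3F_rE) 12 N3F_cols [[1]]
    [[1]] [[1]] [[1]] = true := by decide +kernel

theorem F3S_k3 : ecAll 144 (ferK F3S_k) N3F_degs (chunk 7 3 N3F_rE) 12 N3F_cols [[1]]
    [[1]] [[1]] [[1]] = true := by decide +kernel

theorem F3S_k4 : ecAll 144 (ferK F3S_k) N3F_degs (chunk 7 4 N3F_rE) 12 N3F_cols [[1]]
    [[1]] [[1]] [[1]] = true := by decide +kernel

theorem F3S_k5 : ecAll 144 (ferK F3S_k) N3F_degs (chunk 7 5 N3F_rE) 12 N3F_cols [[1]]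
    [[1]] [[1]] [[1]] = true := by decide +kernel


end Crest.Agent.R163.Ck
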