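import Crest.Agent.R163.N3FD

/-! Row 163: certificate data (generated). -/

set_option autoImplicit false
set_option Elab.async false
set_option maxRecDepth 100000

namespace Crest.Agent.R163.Ck

noncomputable def F3S_pi : List ℤ := [.negSucc (nat_lit 90621752771249), .ofNat (nat_lit 313159785893550), .negSucc (nat_lit 1876897232974799), .negSucc (nat_lit 115932670372574), .ofNat (nat_lit 3568490659076850), .ofNat (nat_lit 4059516350709000), .ofNat (nat_lit 19741437124530), .negSucc (nat_lit 1259007957453569), .negSucc (nat_lit 2118404384195309), .negSucc (nat_lit 9071059971161699), .negSucc (nat_lit 1572946276644), .ofNat (nat_lit 187380952111190), .ofNat (nat_lit 1300005214715860), .ofNat (nat_lit 2456599523022130), .ofNat (nat_lit 5086884541740990), .ofNat (nat_lit 47643535450), .negSucc (nat_lit 9938514648649), .negSucc (nat_lit 123858607397899), .negSucc (nat_lit 231375981165299), .negSucc (nat_lit 113824805678349), .negSucc (nat_lit 1505057244078949), .negSucc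 (nat_lit 474274039754549)]

noncomputable def F3S_psi : List ℤ := [.ofNat (nat_lit 0), .ofNat (nat_lit 0), .ofNat (nat_lit 8906044184985600), .negSucc (nat_lit 2671813255495679), .ofNat (nat_lit 0), .ofNat (nat_lit 0), .ofNat (nat_lit 0)]

noncomputable def F3S_psc : List ℤ := [.ofNat (nat_lit 0), .ofNat (nat_lit 0), .ofNat (nat_lit 10), .negSucc (nat_lit 2), .ofNat (nat_lit 0), .ofNat (nat_lit 0), .ofNat (nat_lit 0)]

noncomputable def F3S_k : List ℤ := [.ofNat (nat_lit 28499341391953920), .negSucc (nat_lit 108548241995151359), .ofNat (nat_lit 80812481216302080), .ofNat (nat_lit 106125177536040960), .negSucc (nat_lit 158263508787517439), .ofNat (nat_lit 853973811256320), .ofNat (nat_lit 57316449445263360)]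

noncomputable def F3S_A : L6 := [[[[[[.ofNat (nat_lit 0)]],
  [[.ofNat (nat_lit 0)]],
  [[.ofNat (nat_lit 0)]],
  [[.ofNat (nat_lit 0)]],
  [[.ofNat (nat_lit 0)]],
  [[.ofNat (nat_lit 0)]],
  [[.ofNat (nat_lit 0)]]],
  [],
  [],
  [],
  [],
  [],
  []],
  [[],
  [],
  [],
  [],
  [],
  [],
  []],
  [[],
  [[[.ofNat (nat_lit 0)]],
  [[.ofNat (nat_lit 420239310420303360)]],
  [[.negSucc (nat_lit 111489918510551039)]],
  [[.negSucc (nat_lit 393243513782999039)]],
  [[.ofNat (nat_lit 719854787682869760)]],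
  [[.negSucc (nat_lit 143850755805465599)]],
  [[.ofNat (nat_lit 0)]]],
  [],
  [],
  [],
  [],
  []],
  [[],
  [],
  [[[.ofNat (nat_lit 0)]],
  [[.negSucc (nat_lit 111489918510551039)]],
  [[.negSucc (nat_lit 1823338907726446079)]],
  [[.ofNat (nat_lit 109587270927594240)]],
  [[.ofNat (nat_lit 2342311704839681280)]],
  [[.negSucc (nat_lit 296241249723494399)]],
  [[.negSucc (nat_lit 1044388966554201599)]]],
  [],
  [],
  [],
  []],
  [[],
  [],
  [],
  [[[.ofNat (nat_lit 0)]],
  [[.negSucc (nat_lit 393243513782999039)]],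
  [[.ofNat (nat_lit 109587270927594240)]],
  [[.ofNat (nat_lit 594490415135976576)]],
  [[.negSucc (nat_lit 1121779174960592639)]],
  [[.ofNat (nat_lit 300065658629780160)]],
  [[.negSucc (nat_lit 115752163275141119)]]],
  [],
  [],
  []],
  [[],
  [],
  [],
  [],
  [[[.ofNat (nat_lit 0)]],
  [[.ofNat (nat_lit 719854787682869760)]],
  [[.ofNat (nat_lit 2342311704839681280)]],
  [[.negSucc (nat_lit 1121779174960592639)]],
  [[.negSucc (nat_lit 2259929552463273599)]],
  [[.ofNat (nat_lit 369429115098744000)]],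
  [[.ofNat (nat_lit 1391209869357964800)]]],
  [],
  []],
  [[],
  [],
  [],
  [],
  [],
  [[[.ofNat (nat_lit 0)]],
  [[.negSucc (nat_lit 143850755805465599)]],
  [[.negSucc (nat_lit 296241249723494399)]],
  [[.ofNat (nat_lit 300065658629780160)]],
  [[.ofNat (nat_lit 369429115098744000)]],
  [[.negSucc (nat_lit 320671034243697599)]],
  [[.ofNat (nat_lit 196853920270704000)]]],
  [[[.ofNat (nat_lit 0)]],
  [[.ofNat (nat_lit 0)]],
  [[.negSucc (nat_lit 1044388966554201599)]],
  [[.negSucc (nat_lit 115752163275141119)]],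
  [[.ofNat (nat_lit 1391209869357964800)]],
  [[.ofNat (nat_lit 196853920270704000)]],
  [[.negSucc (nat_lit 1258640153184383999)]]]]]]

noncomputable def F3S_E : L5 := [[[[[.ofNat (nat_lit 0)]]],
  [[[.ofNat (nat_lit 2899896088680000)]]],
  [[[.ofNat (nat_lit 50039598306600000)]]],
  [[[.negSucc (nat_lit 240386378861224799)]]],
  [[[.ofNat (nat_lit 397719388021953600)]]],
  [[[.negSucc (nat_lit 288937513130032799)]]],
  [[[.ofNat (nat_lit 78665009574024000)]]]],
  [[[[.ofNat (nat_lit 0)]]],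
  [[[.ofNat (nat_lit 0)]]],
  [[[.negSucc (nat_lit 40051468876190399)]]],
  [[[.ofNat (nat_lit 205986321189799200)]]],
  [[[.negSucc (nat_lit 378768852585899999)]]],
  [[[.ofNat (nat_lit 299784617107164000)]]],
  [[[.negSucc (nat_lit 86950616834872799)]]]],
  [[[[.ofNat (nat_lit 0)]]],
  [[[.ofNat (nat_lit 8906044184985600)]]],
  [[[.ofNat (nat_lit 0)]]],
  [[[.negSucc (nat_lit 69098827225535999)]]],
  [[[.ofNat (nat_lit 132025007217477600)]]],
  [[[.negSucc (nat_lit 101283753683275199)]]],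
  [[[.ofNat (nat_lit 29451529506348000)]]]],
  [[[[.ofNat (nat_lit 0)]]],
  [[[.negSucc (nat_lit 2671813255495679)]]],
  [[[.ofNat (nat_lit 0)]]],
  [[[.ofNat (nat_lit 0)]]],
  [[[.ofNat (nat_lit 19677925259824320)]]],
  [[[.negSucc (nat_lit 25996784242170239)]]],
  [[[.ofNat (nat_lit 8990672237841600)]]]],
  [[[[.ofNat (nat_lit 0)]]],
  [[[.ofNat (nat_lit 0)]]],
  [[[.ofNat (nat_lit 0)]]],
  [[[.ofNat (nat_lit 0)]]],
  [[[.ofNat (nat_lit 0)]]],
  [[[.ofNat (nat_lit 0)]]],
  [[[.ofNat (nat_lit 0)]]]],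
  [[[[.ofNat (nat_lit 0)]]],
  [[[.ofNat (nat_lit 0)]]],
  [[[.ofNat (nat_lit 0)]]],
  [[[.ofNat (nat_lit 0)]]],
  [[[.ofNat (nat_lit 0)]]],
  [[[.ofNat (nat_lit 0)]]],
  [[[.ofNat (nat_lit 0)]]]],
  [[[[.ofNat (nat_lit 0)]]],
  [[[.ofNat (nat_lit 0)]]],
  [[[.ofNat (nat_lit 0)]]],
  [[[.ofNat (nat_lit 0)]]],
  [[[.ofNat (nat_lit 0)]]],
  [[[.ofNat (nat_lit 0)]]],
  [[[.ofNat (nat_lit 0)]]]]]


end Crest.Agent.R163.Ck
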