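import Crest.Agent.R163.F4DD

/-! Row 163: kernel checks (generated). -/

set_option autoImplicit false
set_option Elab.async false
set_option maxRecDepth 100000

namespace Crest.Agent.R163.Ck

theorem F4D_p0_40 : pcAll 264 F4D_A N4D_degs (chunk 9 0 N4D_r) 210 N4D_cols (N4D_r.drop 0) [[1]]
    (chunk 5 40 N4D_sp) [[1]] [[1]] = true := by decide +kernel

theorem F4D_p0_41 : pcAll 264 F4D_A N4D_degs (chunk 9 0 N4D_r) 210 N4D_cols (N4D_r.drop 0) [[1]]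
    (chunk 5 41 N4D_sp) [[1]] [[1]] = true := by decide +kernel

theorem F4D_p1_0 : pcAll 264 F4D_A N4D_degs (chunk 9 1 N4D_r) 210 N4D_cols (N4D_r.drop 9) [[1]]
    (chunk 6 0 N4D_sp) [[1]] [[1]] = true := by decide +kernel

theorem F4D_p1_1 : pcAll 264 F4D_A N4D_degs (chunk 9 1 N4D_r) 210 N4D_cols (N4D_r.drop 9) [[1]]
    (chunk 6 1 N4D_sp) [[1]] [[1]] = true := by decide +kernel

theorem F4D_p1_2 : pcAll 264 F4D_A N4D_degs (chunk 9 1 N4D_r) 210 N4D_cols (N4D_r.drop 9) [[1]]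
    (chunk 6 2 N4D_sp) [[1]] [[1]] = true := by decide +kernel

theorem F4D_p1_3 : pcAll 264 F4D_A N4D_degs (chunk 9 1 N4D_r) 210 N4D_cols (N4D_r.drop 9) [[1]]
    (chunk 6 3 N4D_sp) [[1]] [[1]] = true := by decide +kernel

theorem F4D_p1_4 : pcAll 264 F4D_A N4D_degs (chunk 9 1 N4D_r) 210 N4D_cols (N4D_r.drop 9) [[1]]
    (chunk 6 4 N4D_sp) [[1]] [[1]] = true := by decide +kernel

theorem F4D_p1_5 : pcAll 264 F4D_A N4D_degs (chunk 9 1 N4D_r) 210 N4D_cols (N4D_r.drop 9) [[1]]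
    (chunk 6 5 N4D_sp) [[1]] [[1]] = true := by decide +kernel

theorem F4D_p1_6 : pcAll 264 F4D_A N4D_degs (chunk 9 1 N4D_r) 210 N4D_cols (N4D_r.drop 9) [[1]]
    (chunk 6 6 N4D_sp) [[1]] [[1]] = true := by decide +kernel

theorem F4D_p1_7 : pcAll 264 F4D_A N4D_degs (chunk 9 1 N4D_r) 210 N4D_cols (N4D_r.drop 9) [[1]]
    (chunk 6 7 N4D_sp) [[1]] [[1]] = true := by decide +kernel

theorem F4D_p1_8 : pcAll 264 F4D_A N4D_degs (chunk 9 1 N4D_r) 210 N4D_cols (N4D_r.drop 9) [[1]]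
    (chunk 6 8 N4D_sp) [[1]] [[1]] = true := by decide +kernel

theorem F4D_p1_9 : pcAll 264 F4D_A N4D_degs (chunk 9 1 N4D_r) 210 N4D_cols (N4D_r.drop 9) [[1]]
    (chunk 6 9 N4D_sp) [[1]] [[1]] = true := by decide +kernel

theorem F4D_p1_10 : pcAll 264 F4D_A N4D_degs (chunk 9 1 N4D_r) 210 N4D_cols (N4D_r.drop 9) [[1]]
    (chunk 6 10 N4D_sp) [[1]] [[1]] = true := by decide +kernel

theorem F4D_p1_11 : pcAll 264 F4D_A N4D_degs (chunk 9 1 N4D_r) 210 N4D_cols (N4D_r.drop 9) [[1]]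
    (chunk 6 11 N4D_sp) [[1]] [[1]] = true := by decide +kernel

theorem F4D_p1_12 : pcAll 264 F4D_A N4D_degs (chunk 9 1 N4D_r) 210 N4D_cols (N4D_r.drop 9) [[1]]
    (chunk 6 12 N4D_sp) [[1]] [[1]] = true := by decide +kernel

theorem F4D_p1_13 : pcAll 264 F4D_A N4D_degs (chunk 9 1 N4D_r) 210 N4D_cols (N4D_r.drop 9) [[1]]
    (chunk 6 13 N4D_sp) [[1]] [[1]] = true := by decide +kernel

theorem F4D_p1_14 : pcAll 264 F4D_A N4D_degs (chunk 9 1 N4D_r) 210 N4D_cols (N4D_r.drop 9) [[1]]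
    (chunk 6 14 N4D_sp) [[1]] [[1]] = true := by decide +kernel

theorem F4D_p1_15 : pcAll 264 F4D_A N4D_degs (chunk 9 1 N4D_r) 210 N4D_cols (N4D_r.drop 9) [[1]]
    (chunk 6 15 N4D_sp) [[1]] [[1]] = true := by decide +kernel

theorem F4D_p1_16 : pcAll 264 F4D_A N4D_degs (chunk 9 1 N4D_r) 210 N4D_cols (N4D_r.drop 9) [[1]]
    (chunk 6 16 N4D_sp) [[1]] [[1]] = true := by decide +kernel

theorem F4D_p1_17 : pcAll 264 F4D_A N4D_degs (chunk 9 1 N4D_r) 210 N4D_cols (N4D_r.drop 9) [[1]]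
    (chunk 6 17 N4D_sp) [[1]] [[1]] = true := by decide +kernel

theorem F4D_p1_18 : pcAll 264 F4D_A N4D_degs (chunk 9 1 N4D_r) 210 N4D_cols (N4D_r.drop 9) [[1]]
    (chunk 6 18 N4D_sp) [[1]] [[1]] = true := by decide +kernel

theorem F4D_p1_19 : pcAll 264 F4D_A N4D_degs (chunk 9 1 N4D_r) 210 N4D_cols (N4D_r.drop 9) [[1]]
    (chunk 6 19 N4D_sp) [[1]] [[1]] = true := by decide +kernel

theorem F4D_p1_20 : pcAll 264 F4D_A N4D_degs (chunk 9 1 N4D_r) 210 N4D_cols (N4D_r.drop 9) [[1]]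
    (chunk 6 20 N4D_sp) [[1]] [[1]] = true := by decide +kernel

theorem F4D_p1_21 : pcAll 264 F4D_A N4D_degs (chunk 9 1 N4D_r) 210 N4D_cols (N4D_r.drop 9) [[1]]
    (chunk 6 21 N4D_sp) [[1]] [[1]] = true := by decide +kernel

theorem F4D_p1_22 : pcAll 264 F4D_A N4D_degs (chunk 9 1 N4D_r) 210 N4D_cols (N4D_r.drop 9) [[1]]
    (chunk 6 22 N4D_sp) [[1]] [[1]] = true := by decide +kernel

theorem F4D_p1_23 : pcAll 264 F4D_A N4D_degs (chunk 9 1 N4D_r) 210 N4D_cols (N4D_r.drop 9) [[1]]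
    (chunk 6 23 N4D_sp) [[1]] [[1]] = true := by decide +kernel

theorem F4D_p1_24 : pcAll 264 F4D_A N4D_degs (chunk 9 1 N4D_r) 210 N4D_cols (N4D_r.drop 9) [[1]]
    (chunk 6 24 N4D_sp) [[1]] [[1]] = true := by decide +kernel

theorem F4D_p1_25 : pcAll 264 F4D_A N4D_degs (chunk 9 1 N4D_r) 210 N4D_cols (N4D_r.drop 9) [[1]]
    (chunk 6 25 N4D_sp) [[1]] [[1]] = true := by decide +kernel

theorem F4D_p1_26 : pcAll 264 F4D_A N4D_degs (chunk 9 1 N4D_r) 210 N4D_cols (N4D_r.drop 9) [[1]]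
    (chunk 6 26 N4D_sp) [[1]] [[1]] = true := by decide +kernel

theorem F4D_p1_27 : pcAll 264 F4D_A N4D_degs (chunk 9 1 N4D_r) 210 N4D_cols (N4D_r.drop 9) [[1]]
    (chunk 6 27 N4D_sp) [[1]] [[1]] = true := by decide +kernel

theorem F4D_p1_28 : pcAll 264 F4D_A N4D_degs (chunk 9 1 N4D_r) 210 N4D_cols (N4D_r.drop 9) [[1]]
    (chunk 6 28 N4D_sp) [[1]] [[1]] = true := by decide +kernel

theorem F4D_p1_29 : pcAll 264 F4D_A N4D_degs (chunk 9 1 N4D_r) 210 N4D_cols (N4D_r.drop 9) [[1]]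
    (chunk 6 29 N4D_sp) [[1]] [[1]] = true := by decide +kernel

theorem F4D_p1_30 : pcAll 264 F4D_A N4D_degs (chunk 9 1 N4D_r) 210 N4D_cols (N4D_r.drop 9) [[1]]
    (chunk 6 30 N4D_sp) [[1]] [[1]] = true := by decide +kernel

theorem F4D_p1_31 : pcAll 264 F4D_A N4D_degs (chunk 9 1 N4D_r) 210 N4D_cols (N4D_r.drop 9) [[1]]
    (chunk 6 31 N4D_sp) [[1]] [[1]] = true := by decide +kernel

theorem F4D_p1_32 : pcAll 264 F4D_A N4D_degs (chunk 9 1 N4D_r) 210 N4D_cols (N4D_r.drop 9) [[1]]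
    (chunk 6 32 N4D_sp) [[1]] [[1]] = true := by decide +kernel

theorem F4D_p1_33 : pcAll 264 F4D_A N4D_degs (chunk 9 1 N4D_r) 210 N4D_cols (N4D_r.drop 9) [[1]]
    (chunk 6 33 N4D_sp) [[1]] [[1]] = true := by decide +kernel

theorem F4D_p1_34 : pcAll 264 F4D_A N4D_degs (chunk 9 1 N4D_r) 210 N4D_cols (N4D_r.drop 9) [[1]]
    (chunk 6 34 N4D_sp) [[1]] [[1]] = true := by decide +kernel

theorem F4D_p2_0 : pcAll 264 F4D_A N4D_degs (chunk 9 2 N4D_r) 210 N4D_cols (N4D_r.drop 18) [[1]]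
    (chunk 8 0 N4D_sp) [[1]] [[1]] = true := by decide +kernel

theorem F4D_p2_1 : pcAll 264 F4D_A N4D_degs (chunk 9 2 N4D_r) 210 N4D_cols (N4D_r.drop 18) [[1]]
    (chunk 8 1 N4D_sp) [[1]] [[1]] = true := by decide +kernel

theorem F4D_p2_2 : pcAll 264 F4D_A N4D_degs (chunk 9 2 N4D_r) 210 N4D_cols (N4D_r.drop 18) [[1]]
    (chunk 8 2 N4D_sp) [[1]] [[1]] = true := by decide +kernel


end Crest.Agent.R163.Ck
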