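import Crest.Agent.R163.F4DD

/-! Row 163: kernel checks (generated). -/

set_option autoImplicit false
set_option Elab.async false
set_option maxRecDepth 100000

namespace Crest.Agent.R163.Ck

theorem F4D_p2_3 : pcAll 264 F4D_A N4D_degs (chunk 9 2 N4D_r) 210 N4D_cols (N4D_r.drop 18) [[1]]
    (chunk 8 3 N4D_sp) [[1]] [[1]] = true := by decide +kernel

theorem F4D_p2_4 : pcAll 264 F4D_A N4D_degs (chunk 9 2 N4D_r) 210 N4D_cols (N4D_r.drop 18) [[1]]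
    (chunk 8 4 N4D_sp) [[1]] [[1]] = true := by decide +kernel

theorem F4D_p2_5 : pcAll 264 F4D_A N4D_degs (chunk 9 2 N4D_r) 210 N4D_cols (N4D_r.drop 18) [[1]]
    (chunk 8 5 N4D_sp) [[1]] [[1]] = true := by decide +kernel

theorem F4D_p2_6 : pcAll 264 F4D_A N4D_degs (chunk 9 2 N4D_r) 210 N4D_cols (N4D_r.drop 18) [[1]]
    (chunk 8 6 N4D_sp) [[1]] [[1]] = true := by decide +kernel

theorem F4D_p2_7 : pcAll 264 F4D_A N4D_degs (chunk 9 2 N4D_r) 210 N4D_cols (N4D_r.drop 18) [[1]]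
    (chunk 8 7 N4D_sp) [[1]] [[1]] = true := by decide +kernel

theorem F4D_p2_8 : pcAll 264 F4D_A N4D_degs (chunk 9 2 N4D_r) 210 N4D_cols (N4D_r.drop 18) [[1]]
    (chunk 8 8 N4D_sp) [[1]] [[1]] = true := by decide +kernel

theorem F4D_p2_9 : pcAll 264 F4D_A N4D_degs (chunk 9 2 N4D_r) 210 N4D_cols (N4D_r.drop 18) [[1]]
    (chunk 8 9 N4D_sp) [[1]] [[1]] = true := by decide +kernel

theorem F4D_p2_10 : pcAll 264 F4D_A N4D_degs (chunk 9 2 N4D_r) 210 N4D_cols (N4D_r.drop 18) [[1]]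
    (chunk 8 10 N4D_sp) [[1]] [[1]] = true := by decide +kernel

theorem F4D_p2_11 : pcAll 264 F4D_A N4D_degs (chunk 9 2 N4D_r) 210 N4D_cols (N4D_r.drop 18) [[1]]
    (chunk 8 11 N4D_sp) [[1]] [[1]] = true := by decide +kernel

theorem F4D_p2_12 : pcAll 264 F4D_A N4D_degs (chunk 9 2 N4D_r) 210 N4D_cols (N4D_r.drop 18) [[1]]
    (chunk 8 12 N4D_sp) [[1]] [[1]] = true := by decide +kernel

theorem F4D_p2_13 : pcAll 264 F4D_A N4D_degs (chunk 9 2 N4D_r) 210 N4D_cols (N4D_r.drop 18) [[1]]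
    (chunk 8 13 N4D_sp) [[1]] [[1]] = true := by decide +kernel

theorem F4D_p2_14 : pcAll 264 F4D_A N4D_degs (chunk 9 2 N4D_r) 210 N4D_cols (N4D_r.drop 18) [[1]]
    (chunk 8 14 N4D_sp) [[1]] [[1]] = true := by decide +kernel

theorem F4D_p2_15 : pcAll 264 F4D_A N4D_degs (chunk 9 2 N4D_r) 210 N4D_cols (N4D_r.drop 18) [[1]]
    (chunk 8 15 N4D_sp) [[1]] [[1]] = true := by decide +kernel

theorem F4D_p2_16 : pcAll 264 F4D_A N4D_degs (chunk 9 2 N4D_r) 210 N4D_cols (N4D_r.drop 18) [[1]]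
    (chunk 8 16 N4D_sp) [[1]] [[1]] = true := by decide +kernel

theorem F4D_p2_17 : pcAll 264 F4D_A N4D_degs (chunk 9 2 N4D_r) 210 N4D_cols (N4D_r.drop 18) [[1]]
    (chunk 8 17 N4D_sp) [[1]] [[1]] = true := by decide +kernel

theorem F4D_p2_18 : pcAll 264 F4D_A N4D_degs (chunk 9 2 N4D_r) 210 N4D_cols (N4D_r.drop 18) [[1]]
    (chunk 8 18 N4D_sp) [[1]] [[1]] = true := by decide +kernel

theorem F4D_p2_19 : pcAll 264 F4D_A N4D_degs (chunk 9 2 N4D_r) 210 N4D_cols (N4D_r.drop 18) [[1]]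
    (chunk 8 19 N4D_sp) [[1]] [[1]] = true := by decide +kernel

theorem F4D_p2_20 : pcAll 264 F4D_A N4D_degs (chunk 9 2 N4D_r) 210 N4D_cols (N4D_r.drop 18) [[1]]
    (chunk 8 20 N4D_sp) [[1]] [[1]] = true := by decide +kernel

theorem F4D_p2_21 : pcAll 264 F4D_A N4D_degs (chunk 9 2 N4D_r) 210 N4D_cols (N4D_r.drop 18) [[1]]
    (chunk 8 21 N4D_sp) [[1]] [[1]] = true := by decide +kernel

theorem F4D_p2_22 : pcAll 264 F4D_A N4D_degs (chunk 9 2 N4D_r) 210 N4D_cols (N4D_r.drop 18) [[1]]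
    (chunk 8 22 N4D_sp) [[1]] [[1]] = true := by decide +kernel

theorem F4D_p2_23 : pcAll 264 F4D_A N4D_degs (chunk 9 2 N4D_r) 210 N4D_cols (N4D_r.drop 18) [[1]]
    (chunk 8 23 N4D_sp) [[1]] [[1]] = true := by decide +kernel

theorem F4D_p2_24 : pcAll 264 F4D_A N4D_degs (chunk 9 2 N4D_r) 210 N4D_cols (N4D_r.drop 18) [[1]]
    (chunk 8 24 N4D_sp) [[1]] [[1]] = true := by decide +kernel

theorem F4D_p2_25 : pcAll 264 F4D_A N4D_degs (chunk 9 2 N4D_r) 210 N4D_cols (N4D_r.drop 18) [[1]]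
    (chunk 8 25 N4D_sp) [[1]] [[1]] = true := by decide +kernel

theorem F4D_p2_26 : pcAll 264 F4D_A N4D_degs (chunk 9 2 N4D_r) 210 N4D_cols (N4D_r.drop 18) [[1]]
    (chunk 8 26 N4D_sp) [[1]] [[1]] = true := by decide +kernel

theorem F4D_p3_0 : pcAll 264 F4D_A N4D_degs (chunk 9 3 N4D_r) 210 N4D_cols (N4D_r.drop 27) [[1]]
    (chunk 12 0 N4D_sp) [[1]] [[1]] = true := by decide +kernel

theorem F4D_p3_1 : pcAll 264 F4D_A N4D_degs (chunk 9 3 N4D_r) 210 N4D_cols (N4D_r.drop 27) [[1]]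
    (chunk 12 1 N4D_sp) [[1]] [[1]] = true := by decide +kernel

theorem F4D_p3_2 : pcAll 264 F4D_A N4D_degs (chunk 9 3 N4D_r) 210 N4D_cols (N4D_r.drop 27) [[1]]
    (chunk 12 2 N4D_sp) [[1]] [[1]] = true := by decide +kernel

theorem F4D_p3_3 : pcAll 264 F4D_A N4D_degs (chunk 9 3 N4D_r) 210 N4D_cols (N4D_r.drop 27) [[1]]
    (chunk 12 3 N4D_sp) [[1]] [[1]] = true := by decide +kernel

theorem F4D_p3_4 : pcAll 264 F4D_A N4D_degs (chunk 9 3 N4D_r) 210 N4D_cols (N4D_r.drop 27) [[1]]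
    (chunk 12 4 N4D_sp) [[1]] [[1]] = true := by decide +kernel

theorem F4D_p3_5 : pcAll 264 F4D_A N4D_degs (chunk 9 3 N4D_r) 210 N4D_cols (N4D_r.drop 27) [[1]]
    (chunk 12 5 N4D_sp) [[1]] [[1]] = true := by decide +kernel

theorem F4D_p3_6 : pcAll 264 F4D_A N4D_degs (chunk 9 3 N4D_r) 210 N4D_cols (N4D_r.drop 27) [[1]]
    (chunk 12 6 N4D_sp) [[1]] [[1]] = true := by decide +kernel

theorem F4D_p3_7 : pcAll 264 F4D_A N4D_degs (chunk 9 3 N4D_r) 210 N4D_cols (N4D_r.drop 27) [[1]]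
    (chunk 12 7 N4D_sp) [[1]] [[1]] = true := by decide +kernel

theorem F4D_p3_8 : pcAll 264 F4D_A N4D_degs (chunk 9 3 N4D_r) 210 N4D_cols (N4D_r.drop 27) [[1]]
    (chunk 12 8 N4D_sp) [[1]] [[1]] = true := by decide +kernel

theorem F4D_p3_9 : pcAll 264 F4D_A N4D_degs (chunk 9 3 N4D_r) 210 N4D_cols (N4D_r.drop 27) [[1]]
    (chunk 12 9 N4D_sp) [[1]] [[1]] = true := by decide +kernel

theorem F4D_p3_10 : pcAll 264 F4D_A N4D_degs (chunk 9 3 N4D_r) 210 N4D_cols (N4D_r.drop 27) [[1]]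
    (chunk 12 10 N4D_sp) [[1]] [[1]] = true := by decide +kernel

theorem F4D_p3_11 : pcAll 264 F4D_A N4D_degs (chunk 9 3 N4D_r) 210 N4D_cols (N4D_r.drop 27) [[1]]
    (chunk 12 11 N4D_sp) [[1]] [[1]] = true := by decide +kernel

theorem F4D_p3_12 : pcAll 264 F4D_A N4D_degs (chunk 9 3 N4D_r) 210 N4D_cols (N4D_r.drop 27) [[1]]
    (chunk 12 12 N4D_sp) [[1]] [[1]] = true := by decide +kernel

theorem F4D_p3_13 : pcAll 264 F4D_A N4D_degs (chunk 9 3 N4D_r) 210 N4D_cols (N4D_r.drop 27) [[1]]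
    (chunk 12 13 N4D_sp) [[1]] [[1]] = true := by decide +kernel

theorem F4D_p3_14 : pcAll 264 F4D_A N4D_degs (chunk 9 3 N4D_r) 210 N4D_cols (N4D_r.drop 27) [[1]]
    (chunk 12 14 N4D_sp) [[1]] [[1]] = true := by decide +kernel

theorem F4D_p3_15 : pcAll 264 F4D_A N4D_degs (chunk 9 3 N4D_r) 210 N4D_cols (N4D_r.drop 27) [[1]]
    (chunk 12 15 N4D_sp) [[1]] [[1]] = true := by decide +kernel


end Crest.Agent.R163.Ck
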