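import Crest.Agent.R163.F4DD

/-! Row 163: kernel checks (generated). -/

set_option autoImplicit false
set_option Elab.async false
set_option maxRecDepth 100000

namespace Crest.Agent.R163.Ck

theorem F4D_p3_16 : pcAll 264 F4D_A N4D_degs (chunk 9 3 N4D_r) 210 N4D_cols (N4D_r.drop 27) [[1]]
    (chunk 12 16 N4D_sp) [[1]] [[1]] = true := by decide +kernel

theorem F4D_p3_17 : pcAll 264 F4D_A N4D_degs (chunk 9 3 N4D_r) 210 N4D_cols (N4D_r.drop 27) [[1]]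
    (chunk 12 17 N4D_sp) [[1]] [[1]] = true := by decide +kernel

theorem F4D_p4_0 : pcAll 264 F4D_A N4D_degs (chunk 9 4 N4D_r) 210 N4D_cols (N4D_r.drop 36) [[1]]
    (chunk 21 0 N4D_sp) [[1]] [[1]] = true := by decide +kernel

theorem F4D_p4_1 : pcAll 264 F4D_A N4D_degs (chunk 9 4 N4D_r) 210 N4D_cols (N4D_r.drop 36) [[1]]
    (chunk 21 1 N4D_sp) [[1]] [[1]] = true := by decide +kernel

theorem F4D_p4_2 : pcAll 264 F4D_A N4D_degs (chunk 9 4 N4D_r) 210 N4D_cols (N4D_r.drop 36) [[1]]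
    (chunk 21 2 N4D_sp) [[1]] [[1]] = true := by decide +kernel

theorem F4D_p4_3 : pcAll 264 F4D_A N4D_degs (chunk 9 4 N4D_r) 210 N4D_cols (N4D_r.drop 36) [[1]]
    (chunk 21 3 N4D_sp) [[1]] [[1]] = true := by decide +kernel

theorem F4D_p4_4 : pcAll 264 F4D_A N4D_degs (chunk 9 4 N4D_r) 210 N4D_cols (N4D_r.drop 36) [[1]]
    (chunk 21 4 N4D_sp) [[1]] [[1]] = true := by decide +kernel

theorem F4D_p4_5 : pcAll 264 F4D_A N4D_degs (chunk 9 4 N4D_r) 210 N4D_cols (N4D_r.drop 36) [[1]]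
    (chunk 21 5 N4D_sp) [[1]] [[1]] = true := by decide +kernel

theorem F4D_p4_6 : pcAll 264 F4D_A N4D_degs (chunk 9 4 N4D_r) 210 N4D_cols (N4D_r.drop 36) [[1]]
    (chunk 21 6 N4D_sp) [[1]] [[1]] = true := by decide +kernel

theorem F4D_p4_7 : pcAll 264 F4D_A N4D_degs (chunk 9 4 N4D_r) 210 N4D_cols (N4D_r.drop 36) [[1]]
    (chunk 21 7 N4D_sp) [[1]] [[1]] = true := by decide +kernel

theorem F4D_p4_8 : pcAll 264 F4D_A N4D_degs (chunk 9 4 N4D_r) 210 N4D_cols (N4D_r.drop 36) [[1]]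
    (chunk 21 8 N4D_sp) [[1]] [[1]] = true := by decide +kernel

theorem F4D_p4_9 : pcAll 264 F4D_A N4D_degs (chunk 9 4 N4D_r) 210 N4D_cols (N4D_r.drop 36) [[1]]
    (chunk 21 9 N4D_sp) [[1]] [[1]] = true := by decide +kernel

theorem F4D_e0_0 : ecAll 264 F4D_E N4D_degs (chunk 9 0 N4D_rE) 210 N4D_cols (chunk 72 0 N4D_z)
    [[1]] [[1]] [[1]] = true := by decide +kernel

theorem F4D_e1_0 : ecAll 264 F4D_E N4D_degs (chunk 9 1 N4D_rE) 210 N4D_cols (chunk 72 0 N4D_z)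
    [[1]] [[1]] [[1]] = true := by decide +kernel

theorem F4D_e2_0 : ecAll 264 F4D_E N4D_degs (chunk 9 2 N4D_rE) 210 N4D_cols (chunk 72 0 N4D_z)
    [[1]] [[1]] [[1]] = true := by decide +kernel

theorem F4D_e3_0 : ecAll 264 F4D_E N4D_degs (chunk 9 3 N4D_rE) 210 N4D_cols (chunk 72 0 N4D_z)
    [[1]] [[1]] [[1]] = true := by decide +kernel

theorem F4D_e4_0 : ecAll 264 F4D_E N4D_degs (chunk 9 4 N4D_rE) 210 N4D_cols (chunk 72 0 N4D_z)
    [[1]] [[1]] [[1]] = true := by decide +kernel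

theorem F4D_e5_0 : ecAll 264 F4D_E N4D_degs (chunk 9 5 N4D_rE) 210 N4D_cols (chunk 72 0 N4D_z)
    [[1]] [[1]] [[1]] = true := by decide +kernel

theorem F4D_e6_0 : ecAll 264 F4D_E N4D_degs (chunk 9 6 N4D_rE) 210 N4D_cols (chunk 72 0 N4D_z)
    [[1]] [[1]] [[1]] = true := by decide +kernel

theorem F4D_e7_0 : ecAll 264 F4D_E N4D_degs (chunk 9 7 N4D_rE) 210 N4D_cols (chunk 72 0 N4D_z)
    [[1]] [[1]] [[1]] = true := by decide +kernel

theorem F4D_k0 : ecAll 264 (ferK F4D_k) N4D_degs (chunk 9 0 N4D_rE) 210 N4D_cols [[1]]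
    [[1]] [[1]] [[1]] = true := by decide +kernel

theorem F4D_k1 : ecAll 264 (ferK F4D_k) N4D_degs (chunk 9 1 N4D_rE) 210 N4D_cols [[1]]
    [[1]] [[1]] [[1]] = true := by decide +kernel

theorem F4D_k2 : ecAll 264 (ferK F4D_k) N4D_degs (chunk 9 2 N4D_rE) 210 N4D_cols [[1]]
    [[1]] [[1]] [[1]] = true := by decide +kernel

theorem F4D_k3 : ecAll 264 (ferK F4D_k) N4D_degs (chunk 9 3 N4D_rE) 210 N4D_cols [[1]]
    [[1]] [[1]] [[1]] = true := by decide +kernel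

theorem F4D_k4 : ecAll 264 (ferK F4D_k) N4D_degs (chunk 9 4 N4D_rE) 210 N4D_cols [[1]]
    [[1]] [[1]] [[1]] = true := by decide +kernel

theorem F4D_k5 : ecAll 264 (ferK F4D_k) N4D_degs (chunk 9 5 N4D_rE) 210 N4D_cols [[1]]
    [[1]] [[1]] [[1]] = true := by decide +kernel

theorem F4D_k6 : ecAll 264 (ferK F4D_k) N4D_degs (chunk 9 6 N4D_rE) 210 N4D_cols [[1]]
    [[1]] [[1]] [[1]] = true := by decide +kernel

theorem F4D_k7 : ecAll 264 (ferK F4D_k) N4D_degs (chunk 9 7 N4D_rE) 210 N4D_cols [[1]]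
    [[1]] [[1]] [[1]] = true := by decide +kernel


end Crest.Agent.R163.Ck
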