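import Crest.Agent.R163.N4DD
import Crest.Agent.R163.Cover4

/-! Row 163: control nets (generated). -/

set_option autoImplicit false
set_option Elab.async false
set_option maxRecDepth 100000

namespace Crest.Agent.R163.Ck

theorem N4D_sp_eq : N4D_sp = shapes4 4 2 fs4_8 [(0, 2, [0, 4]), (2, 4, [0, 2, 4]), (4, 6, [0, 2, 4]), (6, 8, [0, 2, 4]), (8, 10, [0, 2, 4]), (10, 12, [0, 2, 4]), (12, 14, [0, 2, 4]), (14, 16, [0, 4])] := by decide +kernel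

theorem N4D_cols_eq : N4D_cols = packCols 264 N4D_degs.length N4D_sp := by decide +kernel

theorem N4D_degs_eq : fs4_8.map fdeg = N4D_degs := by decide +kernel

theorem N4D_len : 210 = N4D_sp.length := by decide +kernel

theorem N4D_cover : Cover 4 fs4_8 N4D_sp := N4D_sp_eq ▸ cover4 4 2 (by decide) (by decide)

theorem N4D_rE_eq : N4D_rE = uniNets 8 8 [0, 1, 2, 3, 4, 5, 6, 7, 8] := by decide +kernel

theorem N4D_z_eq : N4D_z = uniNets 8 4 [0, 2, 4, 6, 8, 10, 12, 14, 16] := by decide +kernel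

theorem N4D_rE_dom (ρ : ℝ) (h0 : 0 ≤ ρ) (h1 : ρ ≤ 1) : DomN N4D_rE (8 + 1) fun k => ρ ^ k :=
  N4D_rE_eq ▸ domN_uniNets 8 (lo := 0) (hi := 8) (by norm_num) (by decide) (by push_cast; linarith)
    (by push_cast; linarith)

theorem N4D_z_dom (Z : ℝ) (h0 : 0 ≤ Z) (h1 : Z ≤ (4 : ℕ)) : DomN N4D_z (8 + 1) fun k => Z ^ k :=
  N4D_z_eq ▸ domN_uniNets 8 (lo := 0) (hi := 16) (by norm_num) (by decide) (by push_cast; linarith)
    (by push_cast at h1 ⊢; linarith)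

theorem N4D_c0 : uniNet 8 8 ([0, 2, 4, 6, 7, 8].getD 0 0) ([0, 2, 4, 6, 7, 8].getD (0 + 1) 0) = chunk 9 0 N4D_r := by
  decide +kernel

theorem N4D_d0 : uniNets 8 8 ([0, 2, 4, 6, 7, 8].drop 0) = N4D_r.drop 0 := by decide +kernel

theorem N4D_c1 : uniNet 8 8 ([0, 2, 4, 6, 7, 8].getD 1 0) ([0, 2, 4, 6, 7, 8].getD (1 + 1) 0) = chunk 9 1 N4D_r := by
  decide +kernel

theorem N4D_d1 : uniNets 8 8 ([0, 2, 4, 6, 7, 8].drop 1) = N4D_r.drop 9 := by decide +kernel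

theorem N4D_c2 : uniNet 8 8 ([0, 2, 4, 6, 7, 8].getD 2 0) ([0, 2, 4, 6, 7, 8].getD (2 + 1) 0) = chunk 9 2 N4D_r := by
  decide +kernel

theorem N4D_d2 : uniNets 8 8 ([0, 2, 4, 6, 7, 8].drop 2) = N4D_r.drop 18 := by decide +kernel

theorem N4D_c3 : uniNet 8 8 ([0, 2, 4, 6, 7, 8].getD 3 0) ([0, 2, 4, 6, 7, 8].getD (3 + 1) 0) = chunk 9 3 N4D_r := by
  decide +kernel

theorem N4D_d3 : uniNets 8 8 ([0, 2, 4, 6, 7, 8].drop 3) = N4D_r.drop 27 := by decide +kernel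

theorem N4D_c4 : uniNet 8 8 ([0, 2, 4, 6, 7, 8].getD 4 0) ([0, 2, 4, 6, 7, 8].getD (4 + 1) 0) = chunk 9 4 N4D_r := by
  decide +kernel

theorem N4D_d4 : uniNets 8 8 ([0, 2, 4, 6, 7, 8].drop 4) = N4D_r.drop 36 := by decide +kernel


end Crest.Agent.R163.Ck
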