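import Crest.Agent.R163.Tab4D

/-! Row 163: symmetrised monomials in terms of the moment features, `q = 4`. -/

set_option autoImplicit false
set_option linter.unusedSimpArgs false

namespace Crest.Agent.R163.Tab4H

open Finset Crest.Agent.R163.Ck

theorem sum_perm4 (f : Fin 4 → Fin 4 → ℝ) :
    ∑ τ : Equiv.Perm (Fin 4), ∏ i : Fin 4, f i (τ i) =
      f 0 0 * f 1 1 * f 2 2 * f 3 3 +
      f 0 0 * f 1 1 * f 2 3 * f 3 2 +
      f 0 0 * f 1 2 * f 2 1 * f 3 3 +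
      f 0 0 * f 1 2 * f 2 3 * f 3 1 +
      f 0 0 * f 1 3 * f 2 1 * f 3 2 +
      f 0 0 * f 1 3 * f 2 2 * f 3 1 +
      f 0 1 * f 1 0 * f 2 2 * f 3 3 +
      f 0 1 * f 1 0 * f 2 3 * f 3 2 +
      f 0 1 * f 1 2 * f 2 0 * f 3 3 +
      f 0 1 * f 1 2 * f 2 3 * f 3 0 +
      f 0 1 * f 1 3 * f 2 0 * f 3 2 +
      f 0 1 * f 1 3 * f 2 2 * f 3 0 +
      f 0 2 * f 1 0 * f 2 1 * f 3 3 +
      f 0 2 * f 1 0 * f 2 3 * f 3 1 +
      f 0 2 * f 1 1 * f 2 0 * f 3 3 +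
      f 0 2 * f 1 1 * f 2 3 * f 3 0 +
      f 0 2 * f 1 3 * f 2 0 * f 3 1 +
      f 0 2 * f 1 3 * f 2 1 * f 3 0 +
      f 0 3 * f 1 0 * f 2 1 * f 3 2 +
      f 0 3 * f 1 0 * f 2 2 * f 3 1 +
      f 0 3 * f 1 1 * f 2 0 * f 3 2 +
      f 0 3 * f 1 1 * f 2 2 * f 3 0 +
      f 0 3 * f 1 2 * f 2 0 * f 3 1 +
      f 0 3 * f 1 2 * f 2 1 * f 3 0 := by
  have h1 : ∀ (n : ℕ) (g : Equiv.Perm (Fin (n + 1)) → ℝ), ∑ τ, g τ =
      ∑ i : Fin (n + 1), ∑ σ : Equiv.Perm (Fin n), g (Equiv.Perm.decomposeFin.symm (i, σ)) := by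
    intro n g
    rw [Finset.univ_perm_fin_succ, Finset.sum_map, Fintype.sum_prod_type]
    rfl
  have h0 : ∀ (g : Equiv.Perm (Fin 0) → ℝ), ∑ τ, g τ = g 1 := fun g => by
    rw [Fintype.sum_subsingleton _ 1]
  simp only [h1, h0, Fin.prod_univ_succ, Equiv.Perm.decomposeFin_symm_apply_zero,
    Equiv.Perm.decomposeFin_symm_apply_succ, Fin.prod_univ_zero, Fin.sum_univ_succ,
    Fin.sum_univ_zero]
  simp [Equiv.swap_apply_def]
  ring

/-- power sums -/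
noncomputable def ps (p : Vec 4) (k : ℕ) : ℝ := p 0 ^ k + p 1 ^ k + p 2 ^ k + p 3 ^ k

theorem mbar_ps (p : Vec 4) (a b c d : ℕ) : mbar [a, b, c, d] p =
    (ps p a * ps p b * ps p c * ps p d
      - (ps p (a + b) * ps p c * ps p d + ps p (a + c) * ps p b * ps p d
        + ps p (a + d) * ps p b * ps p c + ps p (b + c) * ps p a * ps p d
        + ps p (b + d) * ps p a * ps p c + ps p (c + d) * ps p a * ps p b)
      + (ps p (a + b) * ps p (c + d) + ps p (a + c) * ps p (b + d) + ps p (a + d) * ps p (b + c))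
      + 2 * (ps p (a + b + c) * ps p d + ps p (a + b + d) * ps p c + ps p (a + c + d) * ps p b
        + ps p (b + c + d) * ps p a)
      - 6 * ps p (a + b + c + d)) / 24 := by
  unfold mbar
  rw [sum_perm4 fun i j => p j ^ [a, b, c, d].getD i 0]
  have e0 : [a, b, c, d].getD ((0 : Fin 4) : ℕ) 0 = a := rfl
  have e1 : [a, b, c, d].getD ((1 : Fin 4) : ℕ) 0 = b := rfl
  have e2 : [a, b, c, d].getD ((2 : Fin 4) : ℕ) 0 = c := rfl
  have e3 : [a, b, c, d].getD ((3 : Fin 4) : ℕ) 0 = d := rfl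
  have e4 : ((Nat.factorial 4 : ℕ) : ℝ) = 24 := by norm_num [Nat.factorial]
  simp only [e0, e1, e2, e3, e4, ps, pow_add]
  generalize p 0 ^ a = a0
  generalize p 1 ^ a = a1
  generalize p 2 ^ a = a2
  generalize p 3 ^ a = a3
  generalize p 0 ^ b = b0
  generalize p 1 ^ b = b1
  generalize p 2 ^ b = b2
  generalize p 3 ^ b = b3
  generalize p 0 ^ c = c0
  generalize p 1 ^ c = c1
  generalize p 2 ^ c = c2
  generalize p 3 ^ c = c3
  generalize p 0 ^ d = d0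
  generalize p 1 ^ d = d1
  generalize p 2 ^ d = d2
  generalize p 3 ^ d = d3
  ring

theorem p3_eq {p : Vec 4} (h : Simp p) : p 3 = 4 - p 0 - p 1 - p 2 := by
  have := h.2
  unfold av at this
  rw [Fin.sum_univ_four] at this
  push_cast at this
  linarith

theorem mom_eq (k : ℕ) (p : Vec 4) :
    mom k p = ((p 0 - 1) ^ k + (p 1 - 1) ^ k + (p 2 - 1) ^ k + (p 3 - 1) ^ k) / 4 := by
  unfold mom
  rw [Fin.sum_univ_four]
  push_cast
  rfl

theorem quartic {p : Vec 4} (h : Simp p) (i : Fin 4) :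
    p i ^ 4 = 4 * p i ^ 3 - (6 - 2 * fx p) * p i ^ 2 - (-4 + 4 * fx p - 4 / 3 * fm p) * p i
      - (1 - 2 * fx p + 4 / 3 * fm p + fe p) := by
  have h3 := p3_eq h
  unfold fx fm fe
  rw [mom_eq, mom_eq, mom_eq]
  fin_cases i
  · show p 0 ^ 4 = 4 * p 0 ^ 3 - _ * p 0 ^ 2 - _ * p 0 - _
    rw [h3]; ring
  · show p 1 ^ 4 = 4 * p 1 ^ 3 - _ * p 1 ^ 2 - _ * p 1 - _
    rw [h3]; ring
  · show p 2 ^ 4 = 4 * p 2 ^ 3 - _ * p 2 ^ 2 - _ * p 2 - _
    rw [h3]; ring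
  · show p 3 ^ 4 = 4 * p 3 ^ 3 - _ * p 3 ^ 2 - _ * p 3 - _
    rw [h3]; ring

theorem ps_rec {p : Vec 4} (h : Simp p) (k : ℕ) :
    ps p (k + 4) = 4 * ps p (k + 3) - (6 - 2 * fx p) * ps p (k + 2)
      - (-4 + 4 * fx p - 4 / 3 * fm p) * ps p (k + 1)
      - (1 - 2 * fx p + 4 / 3 * fm p + fe p) * ps p k := by
  unfold ps
  simp only [pow_add, quartic h]
  ring

theorem ps0 (p : Vec 4) : ps p 0 = 4 := by unfold ps; norm_num

theorem ps1 {p : Vec 4} (h : Simp p) : ps p 1 = 4 := by unfold ps; rw [p3_eq h]; ring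

theorem ps2 {p : Vec 4} (h : Simp p) : ps p 2 = 4 + 4 * fx p := by
  unfold ps fx; rw [mom_eq, p3_eq h]; ring

theorem ps3 {p : Vec 4} (h : Simp p) : ps p 3 = 4 + 12 * fx p + 4 * fm p := by
  unfold ps fx fm; rw [mom_eq, mom_eq, p3_eq h]; ring

theorem ps4 {p : Vec 4} (h : Simp p) : ps p 4 =
      4
      + 24 * fx p
      + 16 * fm p
      + 8 * fx p ^ 2
      - 4 * fe p := by
  have := ps_rec h 0
  norm_num only at this
  rw [this, ps3 h, ps2 h, ps1 h, ps0 p]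
  ring

theorem ps5 {p : Vec 4} (h : Simp p) : ps p 5 =
      4
      + 40 * fx p
      + 40 * fm p
      + 40 * fx p ^ 2
      - 20 * fe p
      + 40 / 3 * (fx p * fm p) := by
  have := ps_rec h 1
  norm_num only at this
  rw [this, ps4 h, ps3 h, ps2 h, ps1 h]
  ring

theorem ps6 {p : Vec 4} (h : Simp p) : ps p 6 =
      4
      + 60 * fx p
      + 80 * fm p
      + 120 * fx p ^ 2
      - 60 * fe p
      + 80 * fx p * fm p
      + 16 * fx p ^ 3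
      + 16 / 3 * (fm p ^ 2)
      - 12 * fx p * fe p := by
  have := ps_rec h 2
  norm_num only at this
  rw [this, ps5 h, ps4 h, ps3 h, ps2 h]
  ring

theorem ps7 {p : Vec 4} (h : Simp p) : ps p 7 =
      4
      + 84 * fx p
      + 140 * fm p
      + 280 * fx p ^ 2
      - 140 * fe p
      + 280 * fx p * fm p
      + 112 * fx p ^ 3
      + 112 / 3 * (fm p ^ 2)
      - 84 * fx p * fe p
      + 112 / 3 * (fx p ^ 2 * fm p)
      - 28 / 3 * (fm p * fe p) := by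
  have := ps_rec h 3
  norm_num only at this
  rw [this, ps6 h, ps5 h, ps4 h, ps3 h]
  ring

theorem ps8 {p : Vec 4} (h : Simp p) : ps p 8 =
      4
      + 112 * fx p
      + 224 * fm p
      + 560 * fx p ^ 2
      - 280 * fe p
      + 2240 / 3 * (fx p * fm p)
      + 448 * fx p ^ 3
      + 448 / 3 * (fm p ^ 2)
      - 336 * fx p * fe p
      + 896 / 3 * (fx p ^ 2 * fm p)
      - 224 / 3 * (fm p * fe p)
      + 32 * fx p ^ 4
      + 256 / 9 * (fx p * fm p ^ 2)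
      - 32 * fx p ^ 2 * fe p
      + 4 * fe p ^ 2 := by
  have := ps_rec h 4
  norm_num only at this
  rw [this, ps7 h, ps6 h, ps5 h, ps4 h]
  ring

theorem ps9 {p : Vec 4} (h : Simp p) : ps p 9 =
      4
      + 144 * fx p
      + 336 * fm p
      + 1008 * fx p ^ 2
      - 504 * fe p
      + 1680 * fx p * fm p
      + 1344 * fx p ^ 3
      + 448 * fm p ^ 2
      - 1008 * fx p * fe p
      + 1344 * fx p ^ 2 * fm p
      - 336 * fm p * fe p
      + 288 * fx p ^ 4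
      + 256 * fx p * fm p ^ 2
      - 288 * fx p ^ 2 * fe p
      + 36 * fe p ^ 2
      + 96 * fx p ^ 3 * fm p
      + 64 / 9 * (fm p ^ 3)
      - 48 * fx p * fm p * fe p := by
  have := ps_rec h 5
  norm_num only at this
  rw [this, ps8 h, ps7 h, ps6 h, ps5 h]
  ring

theorem rhs_eq (p : Vec 4) (T : ℕ → ℝ) :
    ∑ a ∈ range fs4.length, T a * feat (fs4.getD a (0, 0, 0)) p =
      T 0 +
      T 1 * (fx p) +
      T 2 * (fm p) +
      T 3 * (fx p ^ 2) +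
      T 4 * (fe p) +
      T 5 * (fx p * fm p) +
      T 6 * (fx p ^ 3) +
      T 7 * (fm p ^ 2) +
      T 8 * (fx p * fe p) +
      T 9 * (fx p ^ 2 * fm p) +
      T 10 * (fm p * fe p) +
      T 11 * (fx p ^ 4) +
      T 12 * (fx p * fm p ^ 2) +
      T 13 * (fx p ^ 2 * fe p) +
      T 14 * (fe p ^ 2) +
      T 15 * (fx p ^ 3 * fm p) +
      T 16 * (fm p ^ 3) +
      T 17 * (fx p * fm p * fe p) := by
  have : fs4.length = 18 := rfl
  rw [this]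
  simp only [sum_range_succ, sum_range_zero, fs4, List.getD_cons_succ, List.getD_cons_zero, feat]
  ring

/-- the identity with explicit data -/
theorem step (p : Vec 4) (t : ℕ) (l : List ℕ) (c : List ℤ) (hl : lams4.getD t [] = l)
    (hc : (List.range 18).map (fun a => (TT4.getD a []).getD t 0) = c)
    (H : 27 * mbar l p =
      (c.getD 0 0 : ℝ) +
      (c.getD 1 0 : ℝ) * (fx p) +
      (c.getD 2 0 : ℝ) * (fm p) +
      (c.getD 3 0 : ℝ) * (fx p ^ 2) +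
      (c.getD 4 0 : ℝ) * (fe p) +
      (c.getD 5 0 : ℝ) * (fx p * fm p) +
      (c.getD 6 0 : ℝ) * (fx p ^ 3) +
      (c.getD 7 0 : ℝ) * (fm p ^ 2) +
      (c.getD 8 0 : ℝ) * (fx p * fe p) +
      (c.getD 9 0 : ℝ) * (fx p ^ 2 * fm p) +
      (c.getD 10 0 : ℝ) * (fm p * fe p) +
      (c.getD 11 0 : ℝ) * (fx p ^ 4) +
      (c.getD 12 0 : ℝ) * (fx p * fm p ^ 2) +
      (c.getD 13 0 : ℝ) * (fx p ^ 2 * fe p) +
      (c.getD 14 0 : ℝ) * (fe p ^ 2) +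
      (c.getD 15 0 : ℝ) * (fx p ^ 3 * fm p) +
      (c.getD 16 0 : ℝ) * (fm p ^ 3) +
      (c.getD 17 0 : ℝ) * (fx p * fm p * fe p)) :
    ((27 : ℕ) : ℝ) * mbar (lams4.getD t []) p =
      ∑ a ∈ range fs4.length, ((TT4.getD a []).getD t 0 : ℝ) * feat (fs4.getD a (0, 0, 0)) p := by
  rw [rhs_eq p fun a => ((TT4.getD a []).getD t 0 : ℝ), hl, Nat.cast_ofNat, H, ← hc]
  rfl

theorem id0 {p : Vec 4} (h : Simp p) :
    ((27 : ℕ) : ℝ) * mbar (lams4.getD 0 []) p =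
      ∑ a ∈ range fs4.length, ((TT4.getD a []).getD 0 0 : ℝ) * feat (fs4.getD a (0, 0, 0)) p := by
  refine step p 0 [1, 0, 0, 0] [27, 0, 0, 0, 0, 0, 0, 0, 0, 0, 0, 0, 0, 0, 0, 0, 0, 0] rfl (by decide) ?_
  rw [mbar_ps]
  simp only [Nat.reduceAdd, ps0, ps1 h, ps2 h, ps3 h, ps4 h, ps5 h, ps6 h, ps7 h, ps8 h, ps9 h,
    List.getD_cons_succ, List.getD_cons_zero]
  push_cast
  ring

theorem id1 {p : Vec 4} (h : Simp p) :
    ((27 : ℕ) : ℝ) * mbar (lams4.getD 1 []) p =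
      ∑ a ∈ range fs4.length, ((TT4.getD a []).getD 1 0 : ℝ) * feat (fs4.getD a (0, 0, 0)) p := by
  refine step p 1 [2, 0, 0, 0] [27, 27, 0, 0, 0, 0, 0, 0, 0, 0, 0, 0, 0, 0, 0, 0, 0, 0] rfl (by decide) ?_
  rw [mbar_ps]
  simp only [Nat.reduceAdd, ps0, ps1 h, ps2 h, ps3 h, ps4 h, ps5 h, ps6 h, ps7 h, ps8 h, ps9 h,
    List.getD_cons_succ, List.getD_cons_zero]
  push_cast
  ring

theorem id2 {p : Vec 4} (h : Simp p) :
    ((27 : ℕ) : ℝ) * mbar (lams4.getD 2 []) p =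
      ∑ a ∈ range fs4.length, ((TT4.getD a []).getD 2 0 : ℝ) * feat (fs4.getD a (0, 0, 0)) p := by
  refine step p 2 [1, 1, 0, 0] [27, -9, 0, 0, 0, 0, 0, 0, 0, 0, 0, 0, 0, 0, 0, 0, 0, 0] rfl (by decide) ?_
  rw [mbar_ps]
  simp only [Nat.reduceAdd, ps0, ps1 h, ps2 h, ps3 h, ps4 h, ps5 h, ps6 h, ps7 h, ps8 h, ps9 h,
    List.getD_cons_succ, List.getD_cons_zero]
  push_cast
  ring

theorem id3 {p : Vec 4} (h : Simp p) :
    ((27 : ℕ) : ℝ) * mbar (lams4.getD 3 []) p =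
      ∑ a ∈ range fs4.length, ((TT4.getD a []).getD 3 0 : ℝ) * feat (fs4.getD a (0, 0, 0)) p := by
  refine step p 3 [3, 0, 0, 0] [27, 81, 27, 0, 0, 0, 0, 0, 0, 0, 0, 0, 0, 0, 0, 0, 0, 0] rfl (by decide) ?_
  rw [mbar_ps]
  simp only [Nat.reduceAdd, ps0, ps1 h, ps2 h, ps3 h, ps4 h, ps5 h, ps6 h, ps7 h, ps8 h, ps9 h,
    List.getD_cons_succ, List.getD_cons_zero]
  push_cast
  ring

theorem id4 {p : Vec 4} (h : Simp p) :
    ((27 : ℕ) : ℝ) * mbar (lams4.getD 4 []) p =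
      ∑ a ∈ range fs4.length, ((TT4.getD a []).getD 4 0 : ℝ) * feat (fs4.getD a (0, 0, 0)) p := by
  refine step p 4 [2, 1, 0, 0] [27, 9, -9, 0, 0, 0, 0, 0, 0, 0, 0, 0, 0, 0, 0, 0, 0, 0] rfl (by decide) ?_
  rw [mbar_ps]
  simp only [Nat.reduceAdd, ps0, ps1 h, ps2 h, ps3 h, ps4 h, ps5 h, ps6 h, ps7 h, ps8 h, ps9 h,
    List.getD_cons_succ, List.getD_cons_zero]
  push_cast
  ring

theorem id5 {p : Vec 4} (h : Simp p) :
    ((27 : ℕ) : ℝ) * mbar (lams4.getD 5 []) p =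
      ∑ a ∈ range fs4.length, ((TT4.getD a []).getD 5 0 : ℝ) * feat (fs4.getD a (0, 0, 0)) p := by
  refine step p 5 [1, 1, 1, 0] [27, -27, 9, 0, 0, 0, 0, 0, 0, 0, 0, 0, 0, 0, 0, 0, 0, 0] rfl (by decide) ?_
  rw [mbar_ps]
  simp only [Nat.reduceAdd, ps0, ps1 h, ps2 h, ps3 h, ps4 h, ps5 h, ps6 h, ps7 h, ps8 h, ps9 h,
    List.getD_cons_succ, List.getD_cons_zero]
  push_cast
  ring

theorem id6 {p : Vec 4} (h : Simp p) :
    ((27 : ℕ) : ℝ) * mbar (lams4.getD 6 []) p =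
      ∑ a ∈ range fs4.length, ((TT4.getD a []).getD 6 0 : ℝ) * feat (fs4.getD a (0, 0, 0)) p := by
  refine step p 6 [4, 0, 0, 0] [27, 162, 108, 54, -27, 0, 0, 0, 0, 0, 0, 0, 0, 0, 0, 0, 0, 0] rfl (by decide) ?_
  rw [mbar_ps]
  simp only [Nat.reduceAdd, ps0, ps1 h, ps2 h, ps3 h, ps4 h, ps5 h, ps6 h, ps7 h, ps8 h, ps9 h,
    List.getD_cons_succ, List.getD_cons_zero]
  push_cast
  ring

theorem id7 {p : Vec 4} (h : Simp p) :
    ((27 : ℕ) : ℝ) * mbar (lams4.getD 7 []) p =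
      ∑ a ∈ range fs4.length, ((TT4.getD a []).getD 7 0 : ℝ) * feat (fs4.getD a (0, 0, 0)) p := by
  refine step p 7 [3, 1, 0, 0] [27, 54, 0, -18, 9, 0, 0, 0, 0, 0, 0, 0, 0, 0, 0, 0, 0, 0] rfl (by decide) ?_
  rw [mbar_ps]
  simp only [Nat.reduceAdd, ps0, ps1 h, ps2 h, ps3 h, ps4 h, ps5 h, ps6 h, ps7 h, ps8 h, ps9 h,
    List.getD_cons_succ, List.getD_cons_zero]
  push_cast
  ring

theorem id8 {p : Vec 4} (h : Simp p) :
    ((27 : ℕ) : ℝ) * mbar (lams4.getD 8 []) p =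
      ∑ a ∈ range fs4.length, ((TT4.getD a []).getD 8 0 : ℝ) * feat (fs4.getD a (0, 0, 0)) p := by
  refine step p 8 [2, 2, 0, 0] [27, 18, -36, 18, 9, 0, 0, 0, 0, 0, 0, 0, 0, 0, 0, 0, 0, 0] rfl (by decide) ?_
  rw [mbar_ps]
  simp only [Nat.reduceAdd, ps0, ps1 h, ps2 h, ps3 h, ps4 h, ps5 h, ps6 h, ps7 h, ps8 h, ps9 h,
    List.getD_cons_succ, List.getD_cons_zero]
  push_cast
  ring

theorem id9 {p : Vec 4} (h : Simp p) :
    ((27 : ℕ) : ℝ) * mbar (lams4.getD 9 []) p =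
      ∑ a ∈ range fs4.length, ((TT4.getD a []).getD 9 0 : ℝ) * feat (fs4.getD a (0, 0, 0)) p := by
  refine step p 9 [2, 1, 1, 0] [27, -18, 0, 0, -9, 0, 0, 0, 0, 0, 0, 0, 0, 0, 0, 0, 0, 0] rfl (by decide) ?_
  rw [mbar_ps]
  simp only [Nat.reduceAdd, ps0, ps1 h, ps2 h, ps3 h, ps4 h, ps5 h, ps6 h, ps7 h, ps8 h, ps9 h,
    List.getD_cons_succ, List.getD_cons_zero]
  push_cast
  ring

theorem id10 {p : Vec 4} (h : Simp p) :
    ((27 : ℕ) : ℝ) * mbar (lams4.getD 10 []) p =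
      ∑ a ∈ range fs4.length, ((TT4.getD a []).getD 10 0 : ℝ) * feat (fs4.getD a (0, 0, 0)) p := by
  refine step p 10 [1, 1, 1, 1] [27, -54, 36, 0, 27, 0, 0, 0, 0, 0, 0, 0, 0, 0, 0, 0, 0, 0] rfl (by decide) ?_
  rw [mbar_ps]
  simp only [Nat.reduceAdd, ps0, ps1 h, ps2 h, ps3 h, ps4 h, ps5 h, ps6 h, ps7 h, ps8 h, ps9 h,
    List.getD_cons_succ, List.getD_cons_zero]
  push_cast
  ring

theorem id11 {p : Vec 4} (h : Simp p) :
    ((27 : ℕ) : ℝ) * mbar (lams4.getD 11 []) p =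
      ∑ a ∈ range fs4.length, ((TT4.getD a []).getD 11 0 : ℝ) * feat (fs4.getD a (0, 0, 0)) p := by
  refine step p 11 [5, 0, 0, 0] [27, 270, 270, 270, -135, 90, 0, 0, 0, 0, 0, 0, 0, 0, 0, 0, 0, 0] rfl (by decide) ?_
  rw [mbar_ps]
  simp only [Nat.reduceAdd, ps0, ps1 h, ps2 h, ps3 h, ps4 h, ps5 h, ps6 h, ps7 h, ps8 h, ps9 h,
    List.getD_cons_succ, List.getD_cons_zero]
  push_cast
  ring

theorem id12 {p : Vec 4} (h : Simp p) :
    ((27 : ℕ) : ℝ) * mbar (lams4.getD 12 []) p =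
      ∑ a ∈ range fs4.length, ((TT4.getD a []).getD 12 0 : ℝ) * feat (fs4.getD a (0, 0, 0)) p := by
  refine step p 12 [4, 1, 0, 0] [27, 126, 54, -18, 9, -30, 0, 0, 0, 0, 0, 0, 0, 0, 0, 0, 0, 0] rfl (by decide) ?_
  rw [mbar_ps]
  simp only [Nat.reduceAdd, ps0, ps1 h, ps2 h, ps3 h, ps4 h, ps5 h, ps6 h, ps7 h, ps8 h, ps9 h,
    List.getD_cons_succ, List.getD_cons_zero]
  push_cast
  ring

theorem id13 {p : Vec 4} (h : Simp p) :
    ((27 : ℕ) : ℝ) * mbar (lams4.getD 13 []) p =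
      ∑ a ∈ range fs4.length, ((TT4.getD a []).getD 13 0 : ℝ) * feat (fs4.getD a (0, 0, 0)) p := by
  refine step p 13 [3, 2, 0, 0] [27, 54, -54, 18, 45, 6, 0, 0, 0, 0, 0, 0, 0, 0, 0, 0, 0, 0] rfl (by decide) ?_
  rw [mbar_ps]
  simp only [Nat.reduceAdd, ps0, ps1 h, ps2 h, ps3 h, ps4 h, ps5 h, ps6 h, ps7 h, ps8 h, ps9 h,
    List.getD_cons_succ, List.getD_cons_zero]
  push_cast
  ring

theorem id14 {p : Vec 4} (h : Simp p) :
    ((27 : ℕ) : ℝ) * mbar (lams4.getD 14 []) p =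
      ∑ a ∈ range fs4.length, ((TT4.getD a []).getD 14 0 : ℝ) * feat (fs4.getD a (0, 0, 0)) p := by
  refine step p 14 [3, 1, 1, 0] [27, 18, 0, -36, -9, 12, 0, 0, 0, 0, 0, 0, 0, 0, 0, 0, 0, 0] rfl (by decide) ?_
  rw [mbar_ps]
  simp only [Nat.reduceAdd, ps0, ps1 h, ps2 h, ps3 h, ps4 h, ps5 h, ps6 h, ps7 h, ps8 h, ps9 h,
    List.getD_cons_succ, List.getD_cons_zero]
  push_cast
  ring

theorem id15 {p : Vec 4} (h : Simp p) :
    ((27 : ℕ) : ℝ) * mbar (lams4.getD 15 []) p =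
      ∑ a ∈ range fs4.length, ((TT4.getD a []).getD 15 0 : ℝ) * feat (fs4.getD a (0, 0, 0)) p := by
  refine step p 15 [2, 2, 1, 0] [27, -18, -18, 18, -27, -6, 0, 0, 0, 0, 0, 0, 0, 0, 0, 0, 0, 0] rfl (by decide) ?_
  rw [mbar_ps]
  simp only [Nat.reduceAdd, ps0, ps1 h, ps2 h, ps3 h, ps4 h, ps5 h, ps6 h, ps7 h, ps8 h, ps9 h,
    List.getD_cons_succ, List.getD_cons_zero]
  push_cast
  ring

theorem id16 {p : Vec 4} (h : Simp p) :
    ((27 : ℕ) : ℝ) * mbar (lams4.getD 16 []) p =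
      ∑ a ∈ range fs4.length, ((TT4.getD a []).getD 16 0 : ℝ) * feat (fs4.getD a (0, 0, 0)) p := by
  refine step p 16 [2, 1, 1, 1] [27, -54, 36, 0, 27, 0, 0, 0, 0, 0, 0, 0, 0, 0, 0, 0, 0, 0] rfl (by decide) ?_
  rw [mbar_ps]
  simp only [Nat.reduceAdd, ps0, ps1 h, ps2 h, ps3 h, ps4 h, ps5 h, ps6 h, ps7 h, ps8 h, ps9 h,
    List.getD_cons_succ, List.getD_cons_zero]
  push_cast
  ring

theorem id17 {p : Vec 4} (h : Simp p) :
    ((27 : ℕ) : ℝ) * mbar (lams4.getD 17 []) p =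
      ∑ a ∈ range fs4.length, ((TT4.getD a []).getD 17 0 : ℝ) * feat (fs4.getD a (0, 0, 0)) p := by
  refine step p 17 [6, 0, 0, 0] [27, 405, 540, 810, -405, 540, 108, 36, -81, 0, 0, 0, 0, 0, 0, 0, 0, 0] rfl (by decide) ?_
  rw [mbar_ps]
  simp only [Nat.reduceAdd, ps0, ps1 h, ps2 h, ps3 h, ps4 h, ps5 h, ps6 h, ps7 h, ps8 h, ps9 h,
    List.getD_cons_succ, List.getD_cons_zero]
  push_cast
  ring

theorem id18 {p : Vec 4} (h : Simp p) :
    ((27 : ℕ) : ℝ) * mbar (lams4.getD 18 []) p =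
      ∑ a ∈ range fs4.length, ((TT4.getD a []).getD 18 0 : ℝ) * feat (fs4.getD a (0, 0, 0)) p := by
  refine step p 18 [5, 1, 0, 0] [27, 225, 180, 90, -45, -60, -36, -12, 27, 0, 0, 0, 0, 0, 0, 0, 0, 0] rfl (by decide) ?_
  rw [mbar_ps]
  simp only [Nat.reduceAdd, ps0, ps1 h, ps2 h, ps3 h, ps4 h, ps5 h, ps6 h, ps7 h, ps8 h, ps9 h,
    List.getD_cons_succ, List.getD_cons_zero]
  push_cast
  ring

theorem id19 {p : Vec 4} (h : Simp p) :
    ((27 : ℕ) : ℝ) * mbar (lams4.getD 19 []) p =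
      ∑ a ∈ range fs4.length, ((TT4.getD a []).getD 19 0 : ℝ) * feat (fs4.getD a (0, 0, 0)) p := by
  refine step p 19 [4, 2, 0, 0] [27, 117, -36, 18, 99, -36, 36, -12, -9, 0, 0, 0, 0, 0, 0, 0, 0, 0] rfl (by decide) ?_
  rw [mbar_ps]
  simp only [Nat.reduceAdd, ps0, ps1 h, ps2 h, ps3 h, ps4 h, ps5 h, ps6 h, ps7 h, ps8 h, ps9 h,
    List.getD_cons_succ, List.getD_cons_zero]
  push_cast
  ring

theorem id20 {p : Vec 4} (h : Simp p) :
    ((27 : ℕ) : ℝ) * mbar (lams4.getD 20 []) p =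
      ∑ a ∈ range fs4.length, ((TT4.getD a []).getD 20 0 : ℝ) * feat (fs4.getD a (0, 0, 0)) p := by
  refine step p 20 [4, 1, 1, 0] [27, 81, 36, -90, -9, -12, 0, 12, -9, 0, 0, 0, 0, 0, 0, 0, 0, 0] rfl (by decide) ?_
  rw [mbar_ps]
  simp only [Nat.reduceAdd, ps0, ps1 h, ps2 h, ps3 h, ps4 h, ps5 h, ps6 h, ps7 h, ps8 h, ps9 h,
    List.getD_cons_succ, List.getD_cons_zero]
  push_cast
  ring

theorem id21 {p : Vec 4} (h : Simp p) :
    ((27 : ℕ) : ℝ) * mbar (lams4.getD 21 []) p =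
      ∑ a ∈ range fs4.length, ((TT4.getD a []).getD 21 0 : ℝ) * feat (fs4.getD a (0, 0, 0)) p := by
  refine step p 21 [3, 3, 0, 0] [27, 81, -108, 54, 135, 36, -36, 24, 27, 0, 0, 0, 0, 0, 0, 0, 0, 0] rfl (by decide) ?_
  rw [mbar_ps]
  simp only [Nat.reduceAdd, ps0, ps1 h, ps2 h, ps3 h, ps4 h, ps5 h, ps6 h, ps7 h, ps8 h, ps9 h,
    List.getD_cons_succ, List.getD_cons_zero]
  push_cast
  ring

theorem id22 {p : Vec 4} (h : Simp p) :
    ((27 : ℕ) : ℝ) * mbar (lams4.getD 22 []) p =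
      ∑ a ∈ range fs4.length, ((TT4.getD a []).getD 22 0 : ℝ) * feat (fs4.getD a (0, 0, 0)) p := by
  refine step p 22 [3, 2, 1, 0] [27, 9, -36, 0, -27, 12, 0, -6, -9, 0, 0, 0, 0, 0, 0, 0, 0, 0] rfl (by decide) ?_
  rw [mbar_ps]
  simp only [Nat.reduceAdd, ps0, ps1 h, ps2 h, ps3 h, ps4 h, ps5 h, ps6 h, ps7 h, ps8 h, ps9 h,
    List.getD_cons_succ, List.getD_cons_zero]
  push_cast
  ring

theorem id23 {p : Vec 4} (h : Simp p) :
    ((27 : ℕ) : ℝ) * mbar (lams4.getD 23 []) p =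
      ∑ a ∈ range fs4.length, ((TT4.getD a []).getD 23 0 : ℝ) * feat (fs4.getD a (0, 0, 0)) p := by
  refine step p 23 [3, 1, 1, 1] [27, -27, 36, -54, 27, 36, 0, 0, 27, 0, 0, 0, 0, 0, 0, 0, 0, 0] rfl (by decide) ?_
  rw [mbar_ps]
  simp only [Nat.reduceAdd, ps0, ps1 h, ps2 h, ps3 h, ps4 h, ps5 h, ps6 h, ps7 h, ps8 h, ps9 h,
    List.getD_cons_succ, List.getD_cons_zero]
  push_cast
  ring

theorem id24 {p : Vec 4} (h : Simp p) :
    ((27 : ℕ) : ℝ) * mbar (lams4.getD 24 []) p =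
      ∑ a ∈ range fs4.length, ((TT4.getD a []).getD 24 0 : ℝ) * feat (fs4.getD a (0, 0, 0)) p := by
  refine step p 24 [2, 2, 2, 0] [27, -27, -36, 54, -81, -36, 0, 12, 27, 0, 0, 0, 0, 0, 0, 0, 0, 0] rfl (by decide) ?_
  rw [mbar_ps]
  simp only [Nat.reduceAdd, ps0, ps1 h, ps2 h, ps3 h, ps4 h, ps5 h, ps6 h, ps7 h, ps8 h, ps9 h,
    List.getD_cons_succ, List.getD_cons_zero]
  push_cast
  ring

theorem id25 {p : Vec 4} (h : Simp p) :
    ((27 : ℕ) : ℝ) * mbar (lams4.getD 25 []) p =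
      ∑ a ∈ range fs4.length, ((TT4.getD a []).getD 25 0 : ℝ) * feat (fs4.getD a (0, 0, 0)) p := by
  refine step p 25 [2, 2, 1, 1] [27, -63, 36, 18, 27, -12, 0, 0, -9, 0, 0, 0, 0, 0, 0, 0, 0, 0] rfl (by decide) ?_
  rw [mbar_ps]
  simp only [Nat.reduceAdd, ps0, ps1 h, ps2 h, ps3 h, ps4 h, ps5 h, ps6 h, ps7 h, ps8 h, ps9 h,
    List.getD_cons_succ, List.getD_cons_zero]
  push_cast
  ring

theorem id26 {p : Vec 4} (h : Simp p) :
    ((27 : ℕ) : ℝ) * mbar (lams4.getD 26 []) p =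
      ∑ a ∈ range fs4.length, ((TT4.getD a []).getD 26 0 : ℝ) * feat (fs4.getD a (0, 0, 0)) p := by
  refine step p 26 [7, 0, 0, 0] [27, 567, 945, 1890, -945, 1890, 756, 252, -567, 252, -63, 0, 0, 0, 0, 0, 0, 0] rfl (by decide) ?_
  rw [mbar_ps]
  simp only [Nat.reduceAdd, ps0, ps1 h, ps2 h, ps3 h, ps4 h, ps5 h, ps6 h, ps7 h, ps8 h, ps9 h,
    List.getD_cons_succ, List.getD_cons_zero]
  push_cast
  ring

theorem id27 {p : Vec 4} (h : Simp p) :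
    ((27 : ℕ) : ℝ) * mbar (lams4.getD 27 []) p =
      ∑ a ∈ range fs4.length, ((TT4.getD a []).getD 27 0 : ℝ) * feat (fs4.getD a (0, 0, 0)) p := by
  refine step p 27 [6, 1, 0, 0] [27, 351, 405, 450, -225, 90, -108, -36, 81, -84, 21, 0, 0, 0, 0, 0, 0, 0] rfl (by decide) ?_
  rw [mbar_ps]
  simp only [Nat.reduceAdd, ps0, ps1 h, ps2 h, ps3 h, ps4 h, ps5 h, ps6 h, ps7 h, ps8 h, ps9 h,
    List.getD_cons_succ, List.getD_cons_zero]
  push_cast
  ring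

theorem id28 {p : Vec 4} (h : Simp p) :
    ((27 : ℕ) : ℝ) * mbar (lams4.getD 28 []) p =
      ∑ a ∈ range fs4.length, ((TT4.getD a []).getD 28 0 : ℝ) * feat (fs4.getD a (0, 0, 0)) p := by
  refine step p 28 [5, 2, 0, 0] [27, 207, 45, 90, 135, -150, 108, -84, 9, 36, 21, 0, 0, 0, 0, 0, 0, 0] rfl (by decide) ?_
  rw [mbar_ps]
  simp only [Nat.reduceAdd, ps0, ps1 h, ps2 h, ps3 h, ps4 h, ps5 h, ps6 h, ps7 h, ps8 h, ps9 h,
    List.getD_cons_succ, List.getD_cons_zero]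
  push_cast
  ring

theorem id29 {p : Vec 4} (h : Simp p) :
    ((27 : ℕ) : ℝ) * mbar (lams4.getD 29 []) p =
      ∑ a ∈ range fs4.length, ((TT4.getD a []).getD 29 0 : ℝ) * feat (fs4.getD a (0, 0, 0)) p := by
  refine step p 29 [5, 1, 1, 0] [27, 171, 135, -90, -45, -90, -72, 36, 9, 24, -21, 0, 0, 0, 0, 0, 0, 0] rfl (by decide) ?_
  rw [mbar_ps]
  simp only [Nat.reduceAdd, ps0, ps1 h, ps2 h, ps3 h, ps4 h, ps5 h, ps6 h, ps7 h, ps8 h, ps9 h,
    List.getD_cons_succ, List.getD_cons_zero]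
  push_cast
  ring

theorem id30 {p : Vec 4} (h : Simp p) :
    ((27 : ℕ) : ℝ) * mbar (lams4.getD 30 []) p =
      ∑ a ∈ range fs4.length, ((TT4.getD a []).getD 30 0 : ℝ) * feat (fs4.getD a (0, 0, 0)) p := by
  refine step p 30 [4, 3, 0, 0] [27, 135, -135, 90, 279, 18, -36, 60, 81, -12, -15, 0, 0, 0, 0, 0, 0, 0] rfl (by decide) ?_
  rw [mbar_ps]
  simp only [Nat.reduceAdd, ps0, ps1 h, ps2 h, ps3 h, ps4 h, ps5 h, ps6 h, ps7 h, ps8 h, ps9 h,
    List.getD_cons_succ, List.getD_cons_zero]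
  push_cast
  ring

theorem id31 {p : Vec 4} (h : Simp p) :
    ((27 : ℕ) : ℝ) * mbar (lams4.getD 31 []) p =
      ∑ a ∈ range fs4.length, ((TT4.getD a []).getD 31 0 : ℝ) * feat (fs4.getD a (0, 0, 0)) p := by
  refine step p 31 [4, 2, 1, 0] [27, 63, -27, -54, -9, -6, 36, -12, -63, -12, -3, 0, 0, 0, 0, 0, 0, 0] rfl (by decide) ?_
  rw [mbar_ps]
  simp only [Nat.reduceAdd, ps0, ps1 h, ps2 h, ps3 h, ps4 h, ps5 h, ps6 h, ps7 h, ps8 h, ps9 h,
    List.getD_cons_succ, List.getD_cons_zero]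
  push_cast
  ring

theorem id32 {p : Vec 4} (h : Simp p) :
    ((27 : ℕ) : ℝ) * mbar (lams4.getD 32 []) p =
      ∑ a ∈ range fs4.length, ((TT4.getD a []).getD 32 0 : ℝ) * feat (fs4.getD a (0, 0, 0)) p := by
  refine step p 32 [4, 1, 1, 1] [27, 27, 63, -162, 27, 54, 0, 36, 81, 0, 27, 0, 0, 0, 0, 0, 0, 0] rfl (by decide) ?_
  rw [mbar_ps]
  simp only [Nat.reduceAdd, ps0, ps1 h, ps2 h, ps3 h, ps4 h, ps5 h, ps6 h, ps7 h, ps8 h, ps9 h,
    List.getD_cons_succ, List.getD_cons_zero]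
  push_cast
  ring

theorem id33 {p : Vec 4} (h : Simp p) :
    ((27 : ℕ) : ℝ) * mbar (lams4.getD 33 []) p =
      ∑ a ∈ range fs4.length, ((TT4.getD a []).getD 33 0 : ℝ) * feat (fs4.getD a (0, 0, 0)) p := by
  refine step p 33 [3, 3, 1, 0] [27, 27, -81, 18, -9, 54, -36, -12, -27, 12, 15, 0, 0, 0, 0, 0, 0, 0] rfl (by decide) ?_
  rw [mbar_ps]
  simp only [Nat.reduceAdd, ps0, ps1 h, ps2 h, ps3 h, ps4 h, ps5 h, ps6 h, ps7 h, ps8 h, ps9 h,
    List.getD_cons_succ, List.getD_cons_zero]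
  push_cast
  ring

theorem id34 {p : Vec 4} (h : Simp p) :
    ((27 : ℕ) : ℝ) * mbar (lams4.getD 34 []) p =
      ∑ a ∈ range fs4.length, ((TT4.getD a []).getD 34 0 : ℝ) * feat (fs4.getD a (0, 0, 0)) p := by
  refine step p 34 [3, 2, 2, 0] [27, -9, -63, 54, -117, -30, 0, 12, 45, 0, -3, 0, 0, 0, 0, 0, 0, 0] rfl (by decide) ?_
  rw [mbar_ps]
  simp only [Nat.reduceAdd, ps0, ps1 h, ps2 h, ps3 h, ps4 h, ps5 h, ps6 h, ps7 h, ps8 h, ps9 h,
    List.getD_cons_succ, List.getD_cons_zero]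
  push_cast
  ring

theorem id35 {p : Vec 4} (h : Simp p) :
    ((27 : ℕ) : ℝ) * mbar (lams4.getD 35 []) p =
      ∑ a ∈ range fs4.length, ((TT4.getD a []).getD 35 0 : ℝ) * feat (fs4.getD a (0, 0, 0)) p := by
  refine step p 35 [3, 2, 1, 1] [27, -45, 27, -18, 27, 30, 0, -12, 9, 0, -9, 0, 0, 0, 0, 0, 0, 0] rfl (by decide) ?_
  rw [mbar_ps]
  simp only [Nat.reduceAdd, ps0, ps1 h, ps2 h, ps3 h, ps4 h, ps5 h, ps6 h, ps7 h, ps8 h, ps9 h,
    List.getD_cons_succ, List.getD_cons_zero]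
  push_cast
  ring

theorem id36 {p : Vec 4} (h : Simp p) :
    ((27 : ℕ) : ℝ) * mbar (lams4.getD 36 []) p =
      ∑ a ∈ range fs4.length, ((TT4.getD a []).getD 36 0 : ℝ) * feat (fs4.getD a (0, 0, 0)) p := by
  refine step p 36 [2, 2, 2, 1] [27, -81, 45, 54, 27, -54, 0, 12, -27, 0, 9, 0, 0, 0, 0, 0, 0, 0] rfl (by decide) ?_
  rw [mbar_ps]
  simp only [Nat.reduceAdd, ps0, ps1 h, ps2 h, ps3 h, ps4 h, ps5 h, ps6 h, ps7 h, ps8 h, ps9 h,
    List.getD_cons_succ, List.getD_cons_zero]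
  push_cast
  ring

theorem id37 {p : Vec 4} (h : Simp p) :
    ((27 : ℕ) : ℝ) * mbar (lams4.getD 37 []) p =
      ∑ a ∈ range fs4.length, ((TT4.getD a []).getD 37 0 : ℝ) * feat (fs4.getD a (0, 0, 0)) p := by
  refine step p 37 [8, 0, 0, 0] [27, 756, 1512, 3780, -1890, 5040, 3024, 1008, -2268, 2016, -504, 216, 192, -216, 27, 0, 0, 0] rfl (by decide) ?_
  rw [mbar_ps]
  simp only [Nat.reduceAdd, ps0, ps1 h, ps2 h, ps3 h, ps4 h, ps5 h, ps6 h, ps7 h, ps8 h, ps9 h,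
    List.getD_cons_succ, List.getD_cons_zero]
  push_cast
  ring

theorem id38 {p : Vec 4} (h : Simp p) :
    ((27 : ℕ) : ℝ) * mbar (lams4.getD 38 []) p =
      ∑ a ∈ range fs4.length, ((TT4.getD a []).getD 38 0 : ℝ) * feat (fs4.getD a (0, 0, 0)) p := by
  refine step p 38 [7, 1, 0, 0] [27, 504, 756, 1260, -630, 840, 0, 0, 0, -336, 84, -72, -64, 72, -9, 0, 0, 0] rfl (by decide) ?_
  rw [mbar_ps]
  simp only [Nat.reduceAdd, ps0, ps1 h, ps2 h, ps3 h, ps4 h, ps5 h, ps6 h, ps7 h, ps8 h, ps9 h,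
    List.getD_cons_succ, List.getD_cons_zero]
  push_cast
  ring

theorem id39 {p : Vec 4} (h : Simp p) :
    ((27 : ℕ) : ℝ) * mbar (lams4.getD 39 []) p =
      ∑ a ∈ range fs4.length, ((TT4.getD a []).getD 39 0 : ℝ) * feat (fs4.getD a (0, 0, 0)) p := by
  refine step p 39 [6, 2, 0, 0] [27, 324, 216, 360, 90, -240, 216, -288, 108, 48, 168, 72, -16, -36, -9, 0, 0, 0] rfl (by decide) ?_
  rw [mbar_ps]
  simp only [Nat.reduceAdd, ps0, ps1 h, ps2 h, ps3 h, ps4 h, ps5 h, ps6 h, ps7 h, ps8 h, ps9 h,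
    List.getD_cons_succ, List.getD_cons_zero]
  push_cast
  ring

theorem id40 {p : Vec 4} (h : Simp p) :
    ((27 : ℕ) : ℝ) * mbar (lams4.getD 40 []) p =
      ∑ a ∈ range fs4.length, ((TT4.getD a []).getD 40 0 : ℝ) * feat (fs4.getD a (0, 0, 0)) p := by
  refine step p 40 [6, 1, 1, 0] [27, 288, 324, 90, -180, -120, -324, 72, 108, -24, -84, 0, 40, -18, 9, 0, 0, 0] rfl (by decide) ?_
  rw [mbar_ps]
  simp only [Nat.reduceAdd, ps0, ps1 h, ps2 h, ps3 h, ps4 h, ps5 h, ps6 h, ps7 h, ps8 h, ps9 h,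
    List.getD_cons_succ, List.getD_cons_zero]
  push_cast
  ring

theorem id41 {p : Vec 4} (h : Simp p) :
    ((27 : ℕ) : ℝ) * mbar (lams4.getD 41 []) p =
      ∑ a ∈ range fs4.length, ((TT4.getD a []).getD 41 0 : ℝ) * feat (fs4.getD a (0, 0, 0)) p := by
  refine step p 41 [5, 3, 0, 0] [27, 216, -108, 180, 450, -120, 72, 24, 216, 48, -12, -72, 56, 72, -9, 0, 0, 0] rfl (by decide) ?_
  rw [mbar_ps]
  simp only [Nat.reduceAdd, ps0, ps1 h, ps2 h, ps3 h, ps4 h, ps5 h, ps6 h, ps7 h, ps8 h, ps9 h,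
    List.getD_cons_succ, List.getD_cons_zero]
  push_cast
  ring

theorem id42 {p : Vec 4} (h : Simp p) :
    ((27 : ℕ) : ℝ) * mbar (lams4.getD 42 []) p =
      ∑ a ∈ range fs4.length, ((TT4.getD a []).getD 42 0 : ℝ) * feat (fs4.getD a (0, 0, 0)) p := by
  refine step p 42 [5, 2, 1, 0] [27, 144, 36, -90, 0, -120, 72, -36, -144, 24, -36, 0, -20, -18, 9, 0, 0, 0] rfl (by decide) ?_
  rw [mbar_ps]
  simp only [Nat.reduceAdd, ps0, ps1 h, ps2 h, ps3 h, ps4 h, ps5 h, ps6 h, ps7 h, ps8 h, ps9 h,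
    List.getD_cons_succ, List.getD_cons_zero]
  push_cast
  ring

theorem id43 {p : Vec 4} (h : Simp p) :
    ((27 : ℕ) : ℝ) * mbar (lams4.getD 43 []) p =
      ∑ a ∈ range fs4.length, ((TT4.getD a []).getD 43 0 : ℝ) * feat (fs4.getD a (0, 0, 0)) p := by
  refine step p 43 [5, 1, 1, 1] [27, 108, 144, -270, 0, 0, -108, 144, 216, 72, 72, 0, 0, 54, -27, 0, 0, 0] rfl (by decide) ?_
  rw [mbar_ps]
  simp only [Nat.reduceAdd, ps0, ps1 h, ps2 h, ps3 h, ps4 h, ps5 h, ps6 h, ps7 h, ps8 h, ps9 h,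
    List.getD_cons_succ, List.getD_cons_zero]
  push_cast
  ring

theorem id44 {p : Vec 4} (h : Simp p) :
    ((27 : ℕ) : ℝ) * mbar (lams4.getD 44 []) p =
      ∑ a ∈ range fs4.length, ((TT4.getD a []).getD 44 0 : ℝ) * feat (fs4.getD a (0, 0, 0)) p := by
  refine step p 44 [4, 4, 0, 0] [27, 180, -216, 180, 558, 48, -144, 240, 324, -96, -120, 72, -64, -72, 27, 0, 0, 0] rfl (by decide) ?_
  rw [mbar_ps]
  simp only [Nat.reduceAdd, ps0, ps1 h, ps2 h, ps3 h, ps4 h, ps5 h, ps6 h, ps7 h, ps8 h, ps9 h,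
    List.getD_cons_succ, List.getD_cons_zero]
  push_cast
  ring

theorem id45 {p : Vec 4} (h : Simp p) :
    ((27 : ℕ) : ℝ) * mbar (lams4.getD 45 []) p =
      ∑ a ∈ range fs4.length, ((TT4.getD a []).getD 45 0 : ℝ) * feat (fs4.getD a (0, 0, 0)) p := by
  refine step p 45 [4, 3, 1, 0] [27, 72, -108, 0, 54, 72, -36, -12, -108, 0, 36, 0, 4, 0, -9, 0, 0, 0] rfl (by decide) ?_
  rw [mbar_ps]
  simp only [Nat.reduceAdd, ps0, ps1 h, ps2 h, ps3 h, ps4 h, ps5 h, ps6 h, ps7 h, ps8 h, ps9 h,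
    List.getD_cons_succ, List.getD_cons_zero]
  push_cast
  ring

theorem id46 {p : Vec 4} (h : Simp p) :
    ((27 : ℕ) : ℝ) * mbar (lams4.getD 46 []) p =
      ∑ a ∈ range fs4.length, ((TT4.getD a []).getD 46 0 : ℝ) * feat (fs4.getD a (0, 0, 0)) p := by
  refine step p 46 [4, 2, 2, 0] [27, 36, -72, 0, -126, -48, 72, 0, -36, -48, -24, 0, 16, 36, -9, 0, 0, 0] rfl (by decide) ?_
  rw [mbar_ps]
  simp only [Nat.reduceAdd, ps0, ps1 h, ps2 h, ps3 h, ps4 h, ps5 h, ps6 h, ps7 h, ps8 h, ps9 h,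
    List.getD_cons_succ, List.getD_cons_zero]
  push_cast
  ring

theorem id47 {p : Vec 4} (h : Simp p) :
    ((27 : ℕ) : ℝ) * mbar (lams4.getD 47 []) p =
      ∑ a ∈ range fs4.length, ((TT4.getD a []).getD 47 0 : ℝ) * feat (fs4.getD a (0, 0, 0)) p := by
  refine step p 47 [4, 2, 1, 1] [27, 0, 36, -126, 36, 72, 36, 0, 36, -24, 12, 0, 0, -18, 9, 0, 0, 0] rfl (by decide) ?_
  rw [mbar_ps]
  simp only [Nat.reduceAdd, ps0, ps1 h, ps2 h, ps3 h, ps4 h, ps5 h, ps6 h, ps7 h, ps8 h, ps9 h,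
    List.getD_cons_succ, List.getD_cons_zero]
  push_cast
  ring

theorem id48 {p : Vec 4} (h : Simp p) :
    ((27 : ℕ) : ℝ) * mbar (lams4.getD 48 []) p =
      ∑ a ∈ range fs4.length, ((TT4.getD a []).getD 48 0 : ℝ) * feat (fs4.getD a (0, 0, 0)) p := by
  refine step p 48 [3, 3, 2, 0] [27, 0, -108, 90, -180, -24, -36, 24, 108, 24, 12, 0, -8, -18, 9, 0, 0, 0] rfl (by decide) ?_
  rw [mbar_ps]
  simp only [Nat.reduceAdd, ps0, ps1 h, ps2 h, ps3 h, ps4 h, ps5 h, ps6 h, ps7 h, ps8 h, ps9 h,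
    List.getD_cons_succ, List.getD_cons_zero]
  push_cast
  ring

theorem id49 {p : Vec 4} (h : Simp p) :
    ((27 : ℕ) : ℝ) * mbar (lams4.getD 49 []) p =
      ∑ a ∈ range fs4.length, ((TT4.getD a []).getD 49 0 : ℝ) * feat (fs4.getD a (0, 0, 0)) p := by
  refine step p 49 [3, 3, 1, 1] [27, -36, 0, -18, 36, 96, -36, -48, 0, 24, -24, 0, 0, 18, 9, 0, 0, 0] rfl (by decide) ?_
  rw [mbar_ps]
  simp only [Nat.reduceAdd, ps0, ps1 h, ps2 h, ps3 h, ps4 h, ps5 h, ps6 h, ps7 h, ps8 h, ps9 h,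
    List.getD_cons_succ, List.getD_cons_zero]
  push_cast
  ring

theorem id50 {p : Vec 4} (h : Simp p) :
    ((27 : ℕ) : ℝ) * mbar (lams4.getD 50 []) p =
      ∑ a ∈ range fs4.length, ((TT4.getD a []).getD 50 0 : ℝ) * feat (fs4.getD a (0, 0, 0)) p := by
  refine step p 50 [3, 2, 2, 1] [27, -72, 36, 36, 18, -24, 0, 0, 0, 0, -12, 0, 0, 0, -9, 0, 0, 0] rfl (by decide) ?_
  rw [mbar_ps]
  simp only [Nat.reduceAdd, ps0, ps1 h, ps2 h, ps3 h, ps4 h, ps5 h, ps6 h, ps7 h, ps8 h, ps9 h,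
    List.getD_cons_succ, List.getD_cons_zero]
  push_cast
  ring

theorem id51 {p : Vec 4} (h : Simp p) :
    ((27 : ℕ) : ℝ) * mbar (lams4.getD 51 []) p =
      ∑ a ∈ range fs4.length, ((TT4.getD a []).getD 51 0 : ℝ) * feat (fs4.getD a (0, 0, 0)) p := by
  refine step p 51 [2, 2, 2, 2] [27, -108, 72, 108, 54, -144, 0, 48, -108, 0, 72, 0, 0, 0, 27, 0, 0, 0] rfl (by decide) ?_
  rw [mbar_ps]
  simp only [Nat.reduceAdd, ps0, ps1 h, ps2 h, ps3 h, ps4 h, ps5 h, ps6 h, ps7 h, ps8 h, ps9 h,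
    List.getD_cons_succ, List.getD_cons_zero]
  push_cast
  ring

theorem id52 {p : Vec 4} (h : Simp p) :
    ((27 : ℕ) : ℝ) * mbar (lams4.getD 52 []) p =
      ∑ a ∈ range fs4.length, ((TT4.getD a []).getD 52 0 : ℝ) * feat (fs4.getD a (0, 0, 0)) p := by
  refine step p 52 [9, 0, 0, 0] [27, 972, 2268, 6804, -3402, 11340, 9072, 3024, -6804, 9072, -2268, 1944, 1728, -1944, 243, 648, 48, -324] rfl (by decide) ?_
  rw [mbar_ps]
  simp only [Nat.reduceAdd, ps0, ps1 h, ps2 h, ps3 h, ps4 h, ps5 h, ps6 h, ps7 h, ps8 h, ps9 h,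
    List.getD_cons_succ, List.getD_cons_zero]
  push_cast
  ring

theorem id53 {p : Vec 4} (h : Simp p) :
    ((27 : ℕ) : ℝ) * mbar (lams4.getD 53 []) p =
      ∑ a ∈ range fs4.length, ((TT4.getD a []).getD 53 0 : ℝ) * feat (fs4.getD a (0, 0, 0)) p := by
  refine step p 53 [8, 1, 0, 0] [27, 684, 1260, 2772, -1386, 2940, 1008, 336, -756, -336, 84, -360, -320, 360, -45, -216, -16, 108] rfl (by decide) ?_
  rw [mbar_ps]
  simp only [Nat.reduceAdd, ps0, ps1 h, ps2 h, ps3 h, ps4 h, ps5 h, ps6 h, ps7 h, ps8 h, ps9 h,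
    List.getD_cons_succ, List.getD_cons_zero]
  push_cast
  ring

theorem id54 {p : Vec 4} (h : Simp p) :
    ((27 : ℕ) : ℝ) * mbar (lams4.getD 54 []) p =
      ∑ a ∈ range fs4.length, ((TT4.getD a []).getD 54 0 : ℝ) * feat (fs4.getD a (0, 0, 0)) p := by
  refine step p 54 [7, 2, 0, 0] [27, 468, 504, 1008, -126, 0, 504, -672, 252, -168, 672, 360, -240, -108, -81, 120, -16, 24] rfl (by decide) ?_
  rw [mbar_ps]
  simp only [Nat.reduceAdd, ps0, ps1 h, ps2 h, ps3 h, ps4 h, ps5 h, ps6 h, ps7 h, ps8 h, ps9 h,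
    List.getD_cons_succ, List.getD_cons_zero]
  push_cast
  ring

theorem id55 {p : Vec 4} (h : Simp p) :
    ((27 : ℕ) : ℝ) * mbar (lams4.getD 55 []) p =
      ∑ a ∈ range fs4.length, ((TT4.getD a []).getD 55 0 : ℝ) * feat (fs4.getD a (0, 0, 0)) p := by
  refine step p 55 [7, 1, 1, 0] [27, 432, 630, 630, -504, 210, -756, 168, 252, -420, -210, -144, 152, 18, 45, 48, 16, -66] rfl (by decide) ?_
  rw [mbar_ps]
  simp only [Nat.reduceAdd, ps0, ps1 h, ps2 h, ps3 h, ps4 h, ps5 h, ps6 h, ps7 h, ps8 h, ps9 h,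
    List.getD_cons_succ, List.getD_cons_zero]
  push_cast
  ring

theorem id56 {p : Vec 4} (h : Simp p) :
    ((27 : ℕ) : ℝ) * mbar (lams4.getD 56 []) p =
      ∑ a ∈ range fs4.length, ((TT4.getD a []).getD 56 0 : ℝ) * feat (fs4.getD a (0, 0, 0)) p := by
  refine step p 56 [6, 3, 0, 0] [27, 324, 0, 432, 594, -360, 360, -240, 540, 216, 216, -216, 288, 324, -81, -72, 32, 0] rfl (by decide) ?_
  rw [mbar_ps]
  simp only [Nat.reduceAdd, ps0, ps1 h, ps2 h, ps3 h, ps4 h, ps5 h, ps6 h, ps7 h, ps8 h, ps9 h,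
    List.getD_cons_succ, List.getD_cons_zero]
  push_cast
  ring

theorem id57 {p : Vec 4} (h : Simp p) :
    ((27 : ℕ) : ℝ) * mbar (lams4.getD 57 []) p =
      ∑ a ∈ range fs4.length, ((TT4.getD a []).getD 57 0 : ℝ) * feat (fs4.getD a (0, 0, 0)) p := by
  refine step p 57 [6, 2, 1, 0] [27, 252, 180, 0, -54, -300, 0, -120, -180, 72, -108, 72, -56, -180, 63, -24, -8, -12] rfl (by decide) ?_
  rw [mbar_ps]
  simp only [Nat.reduceAdd, ps0, ps1 h, ps2 h, ps3 h, ps4 h, ps5 h, ps6 h, ps7 h, ps8 h, ps9 h,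
    List.getD_cons_succ, List.getD_cons_zero]
  push_cast
  ring

theorem id58 {p : Vec 4} (h : Simp p) :
    ((27 : ℕ) : ℝ) * mbar (lams4.getD 58 []) p =
      ∑ a ∈ range fs4.length, ((TT4.getD a []).getD 58 0 : ℝ) * feat (fs4.getD a (0, 0, 0)) p := by
  refine step p 58 [6, 1, 1, 1] [27, 216, 306, -270, -108, -90, -540, 360, 540, 180, 90, 0, 120, 270, -135, 0, 0, 90] rfl (by decide) ?_
  rw [mbar_ps]
  simp only [Nat.reduceAdd, ps0, ps1 h, ps2 h, ps3 h, ps4 h, ps5 h, ps6 h, ps7 h, ps8 h, ps9 h,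
    List.getD_cons_succ, List.getD_cons_zero]
  push_cast
  ring

theorem id59 {p : Vec 4} (h : Simp p) :
    ((27 : ℕ) : ℝ) * mbar (lams4.getD 59 []) p =
      ∑ a ∈ range fs4.length, ((TT4.getD a []).getD 59 0 : ℝ) * feat (fs4.getD a (0, 0, 0)) p := by
  refine step p 59 [5, 4, 0, 0] [27, 252, -252, 324, 918, -60, -144, 432, 828, -144, -324, 72, -96, -72, 99, 24, -16, -12] rfl (by decide) ?_
  rw [mbar_ps]
  simp only [Nat.reduceAdd, ps0, ps1 h, ps2 h, ps3 h, ps4 h, ps5 h, ps6 h, ps7 h, ps8 h, ps9 h,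
    List.getD_cons_succ, List.getD_cons_zero]
  push_cast
  ring

theorem id60 {p : Vec 4} (h : Simp p) :
    ((27 : ℕ) : ℝ) * mbar (lams4.getD 60 []) p =
      ∑ a ∈ range fs4.length, ((TT4.getD a []).getD 60 0 : ℝ) * feat (fs4.getD a (0, 0, 0)) p := by
  refine step p 60 [5, 3, 1, 0] [27, 144, -90, -18, 144, -30, 36, -48, -252, 60, 30, -72, 16, 18, -27, 24, -8, 6] rfl (by decide) ?_
  rw [mbar_ps]
  simp only [Nat.reduceAdd, ps0, ps1 h, ps2 h, ps3 h, ps4 h, ps5 h, ps6 h, ps7 h, ps8 h, ps9 h,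
    List.getD_cons_succ, List.getD_cons_zero]
  push_cast
  ring

theorem id61 {p : Vec 4} (h : Simp p) :
    ((27 : ℕ) : ℝ) * mbar (lams4.getD 61 []) p =
      ∑ a ∈ range fs4.length, ((TT4.getD a []).getD 61 0 : ℝ) * feat (fs4.getD a (0, 0, 0)) p := by
  refine step p 61 [5, 2, 2, 0] [27, 108, -36, -72, -126, -180, 216, -48, -252, -72, -132, 0, 0, 108, -9, 0, 16, 36] rfl (by decide) ?_
  rw [mbar_ps]
  simp only [Nat.reduceAdd, ps0, ps1 h, ps2 h, ps3 h, ps4 h, ps5 h, ps6 h, ps7 h, ps8 h, ps9 h,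
    List.getD_cons_succ, List.getD_cons_zero]
  push_cast
  ring

theorem id62 {p : Vec 4} (h : Simp p) :
    ((27 : ℕ) : ℝ) * mbar (lams4.getD 62 []) p =
      ∑ a ∈ range fs4.length, ((TT4.getD a []).getD 62 0 : ℝ) * feat (fs4.getD a (0, 0, 0)) p := by
  refine step p 62 [5, 2, 1, 1] [27, 72, 90, -270, 36, 30, 36, 72, 108, 36, 66, 0, -40, -18, 9, 0, 0, -30] rfl (by decide) ?_
  rw [mbar_ps]
  simp only [Nat.reduceAdd, ps0, ps1 h, ps2 h, ps3 h, ps4 h, ps5 h, ps6 h, ps7 h, ps8 h, ps9 h,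
    List.getD_cons_succ, List.getD_cons_zero]
  push_cast
  ring

theorem id63 {p : Vec 4} (h : Simp p) :
    ((27 : ℕ) : ℝ) * mbar (lams4.getD 63 []) p =
      ∑ a ∈ range fs4.length, ((TT4.getD a []).getD 63 0 : ℝ) * feat (fs4.getD a (0, 0, 0)) p := by
  refine step p 63 [4, 4, 1, 0] [27, 108, -180, 36, 198, 156, -144, 48, -180, -48, 84, 72, -32, -72, -45, -24, 16, 12] rfl (by decide) ?_
  rw [mbar_ps]
  simp only [Nat.reduceAdd, ps0, ps1 h, ps2 h, ps3 h, ps4 h, ps5 h, ps6 h, ps7 h, ps8 h, ps9 h,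
    List.getD_cons_succ, List.getD_cons_zero]
  push_cast
  ring

theorem id64 {p : Vec 4} (h : Simp p) :
    ((27 : ℕ) : ℝ) * mbar (lams4.getD 64 []) p =
      ∑ a ∈ range fs4.length, ((TT4.getD a []).getD 64 0 : ℝ) * feat (fs4.getD a (0, 0, 0)) p := by
  refine step p 64 [4, 3, 2, 0] [27, 36, -144, 72, -198, -24, 0, 24, 36, -24, 24, 0, 24, 36, -9, 0, -8, -24] rfl (by decide) ?_
  rw [mbar_ps]
  simp only [Nat.reduceAdd, ps0, ps1 h, ps2 h, ps3 h, ps4 h, ps5 h, ps6 h, ps7 h, ps8 h, ps9 h,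
    List.getD_cons_succ, List.getD_cons_zero]
  push_cast
  ring

theorem id65 {p : Vec 4} (h : Simp p) :
    ((27 : ℕ) : ℝ) * mbar (lams4.getD 65 []) p =
      ∑ a ∈ range fs4.length, ((TT4.getD a []).getD 65 0 : ℝ) * feat (fs4.getD a (0, 0, 0)) p := by
  refine step p 65 [4, 3, 1, 1] [27, 0, -18, -90, 72, 186, -36, -72, -36, 12, 6, 0, 8, 18, 45, 0, 0, 6] rfl (by decide) ?_
  rw [mbar_ps]
  simp only [Nat.reduceAdd, ps0, ps1 h, ps2 h, ps3 h, ps4 h, ps5 h, ps6 h, ps7 h, ps8 h, ps9 h,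
    List.getD_cons_succ, List.getD_cons_zero]
  push_cast
  ring

theorem id66 {p : Vec 4} (h : Simp p) :
    ((27 : ℕ) : ℝ) * mbar (lams4.getD 66 []) p =
      ∑ a ∈ range fs4.length, ((TT4.getD a []).getD 66 0 : ℝ) * feat (fs4.getD a (0, 0, 0)) p := by
  refine step p 66 [4, 2, 2, 1] [27, -36, 36, -72, 18, 36, 72, 0, 36, -72, -12, 0, 16, -36, -9, 0, 0, 12] rfl (by decide) ?_
  rw [mbar_ps]
  simp only [Nat.reduceAdd, ps0, ps1 h, ps2 h, ps3 h, ps4 h, ps5 h, ps6 h, ps7 h, ps8 h, ps9 h,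
    List.getD_cons_succ, List.getD_cons_zero]
  push_cast
  ring

theorem id67 {p : Vec 4} (h : Simp p) :
    ((27 : ℕ) : ℝ) * mbar (lams4.getD 67 []) p =
      ∑ a ∈ range fs4.length, ((TT4.getD a []).getD 67 0 : ℝ) * feat (fs4.getD a (0, 0, 0)) p := by
  refine step p 67 [3, 3, 3, 0] [27, 0, -162, 162, -324, -54, -108, 72, 324, 108, 54, 0, -72, -162, 81, 0, 16, 54] rfl (by decide) ?_
  rw [mbar_ps]
  simp only [Nat.reduceAdd, ps0, ps1 h, ps2 h, ps3 h, ps4 h, ps5 h, ps6 h, ps7 h, ps8 h, ps9 h,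
    List.getD_cons_succ, List.getD_cons_zero]
  push_cast
  ring

theorem id68 {p : Vec 4} (h : Simp p) :
    ((27 : ℕ) : ℝ) * mbar (lams4.getD 68 []) p =
      ∑ a ∈ range fs4.length, ((TT4.getD a []).getD 68 0 : ℝ) * feat (fs4.getD a (0, 0, 0)) p := by
  refine step p 68 [3, 3, 2, 1] [27, -72, 18, 54, 0, 6, -36, -24, 36, 36, -54, 0, -8, 18, -27, 0, 0, -6] rfl (by decide) ?_
  rw [mbar_ps]
  simp only [Nat.reduceAdd, ps0, ps1 h, ps2 h, ps3 h, ps4 h, ps5 h, ps6 h, ps7 h, ps8 h, ps9 h,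
    List.getD_cons_succ, List.getD_cons_zero]
  push_cast
  ring

theorem id69 {p : Vec 4} (h : Simp p) :
    ((27 : ℕ) : ℝ) * mbar (lams4.getD 69 []) p =
      ∑ a ∈ range fs4.length, ((TT4.getD a []).getD 69 0 : ℝ) * feat (fs4.getD a (0, 0, 0)) p := by
  refine step p 69 [3, 2, 2, 2] [27, -108, 72, 108, 54, -144, 0, 48, -108, 0, 72, 0, 0, 0, 27, 0, 0, 0] rfl (by decide) ?_
  rw [mbar_ps]
  simp only [Nat.reduceAdd, ps0, ps1 h, ps2 h, ps3 h, ps4 h, ps5 h, ps6 h, ps7 h, ps8 h, ps9 h,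
    List.getD_cons_succ, List.getD_cons_zero]
  push_cast
  ring

end Crest.Agent.R163.Tab4H

namespace Crest.Agent.R163.Ck

open Finset

theorem tab4 : TabOK 4 fs4 lams4 TT4 27 := by
  refine ⟨by norm_num, rfl, by decide, by decide, fun p h => ?_⟩
  have : lams4.length = 70 := rfl
  rw [this]
  have H := AllLt.zero (P := fun t => ((27 : ℕ) : ℝ) * mbar (lams4.getD t []) p =
      ∑ a ∈ range fs4.length, ((TT4.getD a []).getD t 0 : ℝ) * feat (fs4.getD a (0, 0, 0)) p)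
  replace H := H.step (Tab4H.id0 h)
  replace H := H.step (Tab4H.id1 h)
  replace H := H.step (Tab4H.id2 h)
  replace H := H.step (Tab4H.id3 h)
  replace H := H.step (Tab4H.id4 h)
  replace H := H.step (Tab4H.id5 h)
  replace H := H.step (Tab4H.id6 h)
  replace H := H.step (Tab4H.id7 h)
  replace H := H.step (Tab4H.id8 h)
  replace H := H.step (Tab4H.id9 h)
  replace H := H.step (Tab4H.id10 h)
  replace H := H.step (Tab4H.id11 h)
  replace H := H.step (Tab4H.id12 h)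
  replace H := H.step (Tab4H.id13 h)
  replace H := H.step (Tab4H.id14 h)
  replace H := H.step (Tab4H.id15 h)
  replace H := H.step (Tab4H.id16 h)
  replace H := H.step (Tab4H.id17 h)
  replace H := H.step (Tab4H.id18 h)
  replace H := H.step (Tab4H.id19 h)
  replace H := H.step (Tab4H.id20 h)
  replace H := H.step (Tab4H.id21 h)
  replace H := H.step (Tab4H.id22 h)
  replace H := H.step (Tab4H.id23 h)
  replace H := H.step (Tab4H.id24 h)
  replace H := H.step (Tab4H.id25 h)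
  replace H := H.step (Tab4H.id26 h)
  replace H := H.step (Tab4H.id27 h)
  replace H := H.step (Tab4H.id28 h)
  replace H := H.step (Tab4H.id29 h)
  replace H := H.step (Tab4H.id30 h)
  replace H := H.step (Tab4H.id31 h)
  replace H := H.step (Tab4H.id32 h)
  replace H := H.step (Tab4H.id33 h)
  replace H := H.step (Tab4H.id34 h)
  replace H := H.step (Tab4H.id35 h)
  replace H := H.step (Tab4H.id36 h)
  replace H := H.step (Tab4H.id37 h)
  replace H := H.step (Tab4H.id38 h)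
  replace H := H.step (Tab4H.id39 h)
  replace H := H.step (Tab4H.id40 h)
  replace H := H.step (Tab4H.id41 h)
  replace H := H.step (Tab4H.id42 h)
  replace H := H.step (Tab4H.id43 h)
  replace H := H.step (Tab4H.id44 h)
  replace H := H.step (Tab4H.id45 h)
  replace H := H.step (Tab4H.id46 h)
  replace H := H.step (Tab4H.id47 h)
  replace H := H.step (Tab4H.id48 h)
  replace H := H.step (Tab4H.id49 h)
  replace H := H.step (Tab4H.id50 h)
  replace H := H.step (Tab4H.id51 h)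
  replace H := H.step (Tab4H.id52 h)
  replace H := H.step (Tab4H.id53 h)
  replace H := H.step (Tab4H.id54 h)
  replace H := H.step (Tab4H.id55 h)
  replace H := H.step (Tab4H.id56 h)
  replace H := H.step (Tab4H.id57 h)
  replace H := H.step (Tab4H.id58 h)
  replace H := H.step (Tab4H.id59 h)
  replace H := H.step (Tab4H.id60 h)
  replace H := H.step (Tab4H.id61 h)
  replace H := H.step (Tab4H.id62 h)
  replace H := H.step (Tab4H.id63 h)
  replace H := H.step (Tab4H.id64 h)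
  replace H := H.step (Tab4H.id65 h)
  replace H := H.step (Tab4H.id66 h)
  replace H := H.step (Tab4H.id67 h)
  replace H := H.step (Tab4H.id68 h)
  replace H := H.step (Tab4H.id69 h)
  exact H

end Crest.Agent.R163.Ck
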