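import Crest.Agent.R163.TabK4D
import Crest.Agent.R163.Tab4
import Crest.Agent.R163.SymAvg

/-! Row 163: restricted tables (generated). -/

set_option autoImplicit false
set_option Elab.async false
set_option maxRecDepth 100000

namespace Crest.Agent.R163.Ck

theorem tab4_6 : TabOK 4 fs4_6 lams4_6 TT4_6 27 := by
  have h := tab4.take 9 26 (by decide +kernel)
  have e1 : fs4.take 9 = fs4_6 := by decide +kernel
  have e2 : lams4.take 26 = lams4_6 := by decide +kernel
  have e3 : (TT4.take 9).map (List.take 26) = TT4_6 := by decide +kernel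
  rwa [e1, e2, e3] at h

theorem tab4_8 : TabOK 4 fs4_8 lams4_8 TT4_8 27 := by
  have h := tab4.take 15 52 (by decide +kernel)
  have e1 : fs4.take 15 = fs4_8 := by decide +kernel
  have e2 : lams4.take 52 = lams4_8 := by decide +kernel
  have e3 : (TT4.take 15).map (List.take 52) = TT4_8 := by decide +kernel
  rwa [e1, e2, e3] at h

theorem tab4_9 : TabOK 4 fs4_9 lams4_9 TT4_9 27 := by
  have h := tab4.take 18 70 (by decide +kernel)
  have e1 : fs4.take 18 = fs4_9 := by decide +kernel
  have e2 : lams4.take 70 = lams4_9 := by decide +kernel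
  have e3 : (TT4.take 18).map (List.take 70) = TT4_9 := by decide +kernel
  rwa [e1, e2, e3] at h


end Crest.Agent.R163.Ck
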