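import Crest.Agent.R163.F4DC0
import Crest.Agent.R163.F4DC1
import Crest.Agent.R163.F4DC2
import Crest.Agent.R163.F4DC3
import Crest.Agent.R163.N4D
import Crest.Agent.R163.TabK4
import Crest.Agent.R163.PVSound
import Crest.Agent.R163.FerroCert

/-! Row 163: gluing of the kernel checks (generated). -/

set_option autoImplicit false
set_option Elab.async false
set_option maxRecDepth 100000

namespace Crest.Agent.R163.Ck

theorem F4D_P0 : PairOK F4D_A N4D_degs (chunk 9 0 N4D_r) N4D_sp (N4D_r.drop 0) [[1]] N4D_sp [[1]] [[1]] :=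
  PairOK.of_sub (m := 5) (n := 42) (AllLt.step (AllLt.step (AllLt.step (AllLt.step (AllLt.step (AllLt.step (AllLt.step (AllLt.step (AllLt.step (AllLt.step (AllLt.step (AllLt.step (AllLt.step (AllLt.step (AllLt.step (AllLt.step (AllLt.step (AllLt.step (AllLt.step (AllLt.step (AllLt.step (AllLt.step (AllLt.step (AllLt.step (AllLt.step (AllLt.step (AllLt.step (AllLt.step (AllLt.step (AllLt.step (AllLt.step (AllLt.step (AllLt.step (AllLt.step (AllLt.step (AllLt.step (AllLt.step (AllLt.step (AllLt.step (AllLt.step (AllLt.step (AllLt.step AllLt.zero (pcAll_sound N4D_sp (by norm_num) N4D_len N4D_cols_eq F4D_p0_0)) (pcAll_sound N4D_sp (by norm_num) N4D_len N4D_cols_eq F4D_p0_1)) (pcAll_sound N4D_sp (by norm_num) N4D_len N4D_cols_eq F4D_p0_2)) (pcAll_sound N4D_sp (by norm_num) N4D_len N4D_cols_eq F4D_p0_3)) (pcAll_sound N4D_sp (by norm_num) N4D_len N4D_cols_eq F4D_p0_4)) (pcAll_sound N4D_sp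 (by norm_num) N4D_len N4D_cols_eq F4D_p0_5)) (pcAll_sound N4D_sp (by norm_num) N4D_len N4D_cols_eq F4D_p0_6)) (pcAll_sound N4D_sp (by norm_num) N4D_len N4D_cols_eq F4D_p0_7)) (pcAll_sound N4D_sp (by norm_num) N4D_len N4D_cols_eq F4D_p0_8)) (pcAll_sound N4D_sp (by norm_num) N4D_len N4D_cols_eq F4D_p0_9)) (pcAll_sound N4D_sp (by norm_num) N4D_len N4D_cols_eq F4D_p0_10)) (pcAll_sound N4D_sp (by norm_num) N4D_len N4D_cols_eq F4D_p0_11)) (pcAll_sound N4D_sp (by norm_num) N4D_len N4D_cols_eq F4D_p0_12)) (pcAll_sound N4D_sp (by norm_num) N4D_len N4D_cols_eq F4D_p0_13)) (pcAll_sound N4D_sp (by norm_num) N4D_len N4D_cols_eq F4D_p0_14)) (pcAll_sound N4D_sp (by norm_num) N4D_len N4D_cols_eq F4D_p0_15)) (pcAll_sound N4D_sp (by norm_num) N4D_len N4D_cols_eq F4D_p0_16)) (pcAll_sound N4D_sp (by norm_num) N4D_len N4D_cols_eq F4D_p0_17)) (pcAll_sound N4D_sp (by norm_num) N4D_len N4D_cols_eq F4D_p0_18))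 (pcAll_sound N4D_sp (by norm_num) N4D_len N4D_cols_eq F4D_p0_19)) (pcAll_sound N4D_sp (by norm_num) N4D_len N4D_cols_eq F4D_p0_20)) (pcAll_sound N4D_sp (by norm_num) N4D_len N4D_cols_eq F4D_p0_21)) (pcAll_sound N4D_sp (by norm_num) N4D_len N4D_cols_eq F4D_p0_22)) (pcAll_sound N4D_sp (by norm_num) N4D_len N4D_cols_eq F4D_p0_23)) (pcAll_sound N4D_sp (by norm_num) N4D_len N4D_cols_eq F4D_p0_24)) (pcAll_sound N4D_sp (by norm_num) N4D_len N4D_cols_eq F4D_p0_25)) (pcAll_sound N4D_sp (by norm_num) N4D_len N4D_cols_eq F4D_p0_26)) (pcAll_sound N4D_sp (by norm_num) N4D_len N4D_cols_eq F4D_p0_27)) (pcAll_sound N4D_sp (by norm_num) N4D_len N4D_cols_eq F4D_p0_28)) (pcAll_sound N4D_sp (by norm_num) N4D_len N4D_cols_eq F4D_p0_29)) (pcAll_sound N4D_sp (by norm_num) N4D_len N4D_cols_eq F4D_p0_30)) (pcAll_sound N4D_sp (by norm_num) N4D_len N4D_cols_eq F4D_p0_31)) (pcAll_sound N4D_sp (by norm_num) N4D_len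 N4D_cols_eq F4D_p0_32)) (pcAll_sound N4D_sp (by norm_num) N4D_len N4D_cols_eq F4D_p0_33)) (pcAll_sound N4D_sp (by norm_num) N4D_len N4D_cols_eq F4D_p0_34)) (pcAll_sound N4D_sp (by norm_num) N4D_len N4D_cols_eq F4D_p0_35)) (pcAll_sound N4D_sp (by norm_num) N4D_len N4D_cols_eq F4D_p0_36)) (pcAll_sound N4D_sp (by norm_num) N4D_len N4D_cols_eq F4D_p0_37)) (pcAll_sound N4D_sp (by norm_num) N4D_len N4D_cols_eq F4D_p0_38)) (pcAll_sound N4D_sp (by norm_num) N4D_len N4D_cols_eq F4D_p0_39)) (pcAll_sound N4D_sp (by norm_num) N4D_len N4D_cols_eq F4D_p0_40)) (pcAll_sound N4D_sp (by norm_num) N4D_len N4D_cols_eq F4D_p0_41)) (by decide +kernel)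

theorem F4D_P1 : PairOK F4D_A N4D_degs (chunk 9 1 N4D_r) N4D_sp (N4D_r.drop 9) [[1]] N4D_sp [[1]] [[1]] :=
  PairOK.of_sub (m := 6) (n := 35) (AllLt.step (AllLt.step (AllLt.step (AllLt.step (AllLt.step (AllLt.step (AllLt.step (AllLt.step (AllLt.step (AllLt.step (AllLt.step (AllLt.step (AllLt.step (AllLt.step (AllLt.step (AllLt.step (AllLt.step (AllLt.step (AllLt.step (AllLt.step (AllLt.step (AllLt.step (AllLt.step (AllLt.step (AllLt.step (AllLt.step (AllLt.step (AllLt.step (AllLt.step (AllLt.step (AllLt.step (AllLt.step (AllLt.step (AllLt.step (AllLt.step AllLt.zero (pcAll_sound N4D_sp (by norm_num) N4D_len N4D_cols_eq F4D_p1_0)) (pcAll_sound N4D_sp (by norm_num) N4D_len N4D_cols_eq F4D_p1_1)) (pcAll_sound N4D_sp (by norm_num) N4D_len N4D_cols_eq F4D_p1_2)) (pcAll_sound N4D_sp (by norm_num) N4D_len N4D_cols_eq F4D_p1_3)) (pcAll_sound N4D_sp (by norm_num) N4D_len N4D_cols_eq F4D_p1_4))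 (pcAll_sound N4D_sp (by norm_num) N4D_len N4D_cols_eq F4D_p1_5)) (pcAll_sound N4D_sp (by norm_num) N4D_len N4D_cols_eq F4D_p1_6)) (pcAll_sound N4D_sp (by norm_num) N4D_len N4D_cols_eq F4D_p1_7)) (pcAll_sound N4D_sp (by norm_num) N4D_len N4D_cols_eq F4D_p1_8)) (pcAll_sound N4D_sp (by norm_num) N4D_len N4D_cols_eq F4D_p1_9)) (pcAll_sound N4D_sp (by norm_num) N4D_len N4D_cols_eq F4D_p1_10)) (pcAll_sound N4D_sp (by norm_num) N4D_len N4D_cols_eq F4D_p1_11)) (pcAll_sound N4D_sp (by norm_num) N4D_len N4D_cols_eq F4D_p1_12)) (pcAll_sound N4D_sp (by norm_num) N4D_len N4D_cols_eq F4D_p1_13)) (pcAll_sound N4D_sp (by norm_num) N4D_len N4D_cols_eq F4D_p1_14)) (pcAll_sound N4D_sp (by norm_num) N4D_len N4D_cols_eq F4D_p1_15)) (pcAll_sound N4D_sp (by norm_num) N4D_len N4D_cols_eq F4D_p1_16)) (pcAll_sound N4D_sp (by norm_num) N4D_len N4D_cols_eq F4D_p1_17)) (pcAll_sound N4D_sp (by norm_num) N4D_len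 N4D_cols_eq F4D_p1_18)) (pcAll_sound N4D_sp (by norm_num) N4D_len N4D_cols_eq F4D_p1_19)) (pcAll_sound N4D_sp (by norm_num) N4D_len N4D_cols_eq F4D_p1_20)) (pcAll_sound N4D_sp (by norm_num) N4D_len N4D_cols_eq F4D_p1_21)) (pcAll_sound N4D_sp (by norm_num) N4D_len N4D_cols_eq F4D_p1_22)) (pcAll_sound N4D_sp (by norm_num) N4D_len N4D_cols_eq F4D_p1_23)) (pcAll_sound N4D_sp (by norm_num) N4D_len N4D_cols_eq F4D_p1_24)) (pcAll_sound N4D_sp (by norm_num) N4D_len N4D_cols_eq F4D_p1_25)) (pcAll_sound N4D_sp (by norm_num) N4D_len N4D_cols_eq F4D_p1_26)) (pcAll_sound N4D_sp (by norm_num) N4D_len N4D_cols_eq F4D_p1_27)) (pcAll_sound N4D_sp (by norm_num) N4D_len N4D_cols_eq F4D_p1_28)) (pcAll_sound N4D_sp (by norm_num) N4D_len N4D_cols_eq F4D_p1_29)) (pcAll_sound N4D_sp (by norm_num) N4D_len N4D_cols_eq F4D_p1_30)) (pcAll_sound N4D_sp (by norm_num) N4D_len N4D_cols_eq F4D_p1_31)) (pcAll_sound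 N4D_sp (by norm_num) N4D_len N4D_cols_eq F4D_p1_32)) (pcAll_sound N4D_sp (by norm_num) N4D_len N4D_cols_eq F4D_p1_33)) (pcAll_sound N4D_sp (by norm_num) N4D_len N4D_cols_eq F4D_p1_34)) (by decide +kernel)

theorem F4D_P2 : PairOK F4D_A N4D_degs (chunk 9 2 N4D_r) N4D_sp (N4D_r.drop 18) [[1]] N4D_sp [[1]] [[1]] :=
  PairOK.of_sub (m := 8) (n := 27) (AllLt.step (AllLt.step (AllLt.step (AllLt.step (AllLt.step (AllLt.step (AllLt.step (AllLt.step (AllLt.step (AllLt.step (AllLt.step (AllLt.step (AllLt.step (AllLt.step (AllLt.step (AllLt.step (AllLt.step (AllLt.step (AllLt.step (AllLt.step (AllLt.step (AllLt.step (AllLt.step (AllLt.step (AllLt.step (AllLt.step (AllLt.step AllLt.zero (pcAll_sound N4D_sp (by norm_num) N4D_len N4D_cols_eq F4D_p2_0)) (pcAll_sound N4D_sp (by norm_num) N4D_len N4D_cols_eq F4D_p2_1)) (pcAll_sound N4D_sp (by norm_num) N4D_len N4D_cols_eq F4D_p2_2)) (pcAll_sound N4D_sp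 (by norm_num) N4D_len N4D_cols_eq F4D_p2_3)) (pcAll_sound N4D_sp (by norm_num) N4D_len N4D_cols_eq F4D_p2_4)) (pcAll_sound N4D_sp (by norm_num) N4D_len N4D_cols_eq F4D_p2_5)) (pcAll_sound N4D_sp (by norm_num) N4D_len N4D_cols_eq F4D_p2_6)) (pcAll_sound N4D_sp (by norm_num) N4D_len N4D_cols_eq F4D_p2_7)) (pcAll_sound N4D_sp (by norm_num) N4D_len N4D_cols_eq F4D_p2_8)) (pcAll_sound N4D_sp (by norm_num) N4D_len N4D_cols_eq F4D_p2_9)) (pcAll_sound N4D_sp (by norm_num) N4D_len N4D_cols_eq F4D_p2_10)) (pcAll_sound N4D_sp (by norm_num) N4D_len N4D_cols_eq F4D_p2_11)) (pcAll_sound N4D_sp (by norm_num) N4D_len N4D_cols_eq F4D_p2_12)) (pcAll_sound N4D_sp (by norm_num) N4D_len N4D_cols_eq F4D_p2_13)) (pcAll_sound N4D_sp (by norm_num) N4D_len N4D_cols_eq F4D_p2_14)) (pcAll_sound N4D_sp (by norm_num) N4D_len N4D_cols_eq F4D_p2_15)) (pcAll_sound N4D_sp (by norm_num) N4D_len N4D_cols_eq F4D_p2_16))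 (pcAll_sound N4D_sp (by norm_num) N4D_len N4D_cols_eq F4D_p2_17)) (pcAll_sound N4D_sp (by norm_num) N4D_len N4D_cols_eq F4D_p2_18)) (pcAll_sound N4D_sp (by norm_num) N4D_len N4D_cols_eq F4D_p2_19)) (pcAll_sound N4D_sp (by norm_num) N4D_len N4D_cols_eq F4D_p2_20)) (pcAll_sound N4D_sp (by norm_num) N4D_len N4D_cols_eq F4D_p2_21)) (pcAll_sound N4D_sp (by norm_num) N4D_len N4D_cols_eq F4D_p2_22)) (pcAll_sound N4D_sp (by norm_num) N4D_len N4D_cols_eq F4D_p2_23)) (pcAll_sound N4D_sp (by norm_num) N4D_len N4D_cols_eq F4D_p2_24)) (pcAll_sound N4D_sp (by norm_num) N4D_len N4D_cols_eq F4D_p2_25)) (pcAll_sound N4D_sp (by norm_num) N4D_len N4D_cols_eq F4D_p2_26)) (by decide +kernel)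

theorem F4D_P3 : PairOK F4D_A N4D_degs (chunk 9 3 N4D_r) N4D_sp (N4D_r.drop 27) [[1]] N4D_sp [[1]] [[1]] :=
  PairOK.of_sub (m := 12) (n := 18) (AllLt.step (AllLt.step (AllLt.step (AllLt.step (AllLt.step (AllLt.step (AllLt.step (AllLt.step (AllLt.step (AllLt.step (AllLt.step (AllLt.step (AllLt.step (AllLt.step (AllLt.step (AllLt.step (AllLt.step (AllLt.step AllLt.zero (pcAll_sound N4D_sp (by norm_num) N4D_len N4D_cols_eq F4D_p3_0)) (pcAll_sound N4D_sp (by norm_num) N4D_len N4D_cols_eq F4D_p3_1)) (pcAll_sound N4D_sp (by norm_num) N4D_len N4D_cols_eq F4D_p3_2)) (pcAll_sound N4D_sp (by norm_num) N4D_len N4D_cols_eq F4D_p3_3)) (pcAll_sound N4D_sp (by norm_num) N4D_len N4D_cols_eq F4D_p3_4)) (pcAll_sound N4D_sp (by norm_num) N4D_len N4D_cols_eq F4D_p3_5)) (pcAll_sound N4D_sp (by norm_num) N4D_len N4D_cols_eq F4D_p3_6)) (pcAll_sound N4D_sp (by norm_num) N4D_len N4D_cols_eq F4D_p3_7)) (pcAll_sound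 N4D_sp (by norm_num) N4D_len N4D_cols_eq F4D_p3_8)) (pcAll_sound N4D_sp (by norm_num) N4D_len N4D_cols_eq F4D_p3_9)) (pcAll_sound N4D_sp (by norm_num) N4D_len N4D_cols_eq F4D_p3_10)) (pcAll_sound N4D_sp (by norm_num) N4D_len N4D_cols_eq F4D_p3_11)) (pcAll_sound N4D_sp (by norm_num) N4D_len N4D_cols_eq F4D_p3_12)) (pcAll_sound N4D_sp (by norm_num) N4D_len N4D_cols_eq F4D_p3_13)) (pcAll_sound N4D_sp (by norm_num) N4D_len N4D_cols_eq F4D_p3_14)) (pcAll_sound N4D_sp (by norm_num) N4D_len N4D_cols_eq F4D_p3_15)) (pcAll_sound N4D_sp (by norm_num) N4D_len N4D_cols_eq F4D_p3_16)) (pcAll_sound N4D_sp (by norm_num) N4D_len N4D_cols_eq F4D_p3_17)) (by decide +kernel)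

theorem F4D_P4 : PairOK F4D_A N4D_degs (chunk 9 4 N4D_r) N4D_sp (N4D_r.drop 36) [[1]] N4D_sp [[1]] [[1]] :=
  PairOK.of_sub (m := 21) (n := 10) (AllLt.step (AllLt.step (AllLt.step (AllLt.step (AllLt.step (AllLt.step (AllLt.step (AllLt.step (AllLt.step (AllLt.step AllLt.zero (pcAll_sound N4D_sp (by norm_num) N4D_len N4D_cols_eq F4D_p4_0)) (pcAll_sound N4D_sp (by norm_num) N4D_len N4D_cols_eq F4D_p4_1)) (pcAll_sound N4D_sp (by norm_num) N4D_len N4D_cols_eq F4D_p4_2)) (pcAll_sound N4D_sp (by norm_num) N4D_len N4D_cols_eq F4D_p4_3)) (pcAll_sound N4D_sp (by norm_num) N4D_len N4D_cols_eq F4D_p4_4)) (pcAll_sound N4D_sp (by norm_num) N4D_len N4D_cols_eq F4D_p4_5)) (pcAll_sound N4D_sp (by norm_num) N4D_len N4D_cols_eq F4D_p4_6)) (pcAll_sound N4D_sp (by norm_num) N4D_len N4D_cols_eq F4D_p4_7)) (pcAll_sound N4D_sp (by norm_num) N4D_len N4D_cols_eq F4D_p4_8)) (pcAll_sound N4D_sp (by norm_num)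 N4D_len N4D_cols_eq F4D_p4_9)) (by decide +kernel)

theorem F4D_E0 : OneOK F4D_E N4D_degs (chunk 9 0 N4D_rE) N4D_sp N4D_z [[1]] [[1]] [[1]] :=
  OneOK.of_znet (m := 72) (n := 1) (AllLt.step AllLt.zero (ecAll_sound N4D_sp (by norm_num) N4D_len N4D_cols_eq F4D_e0_0)) (by decide +kernel)

theorem F4D_E1 : OneOK F4D_E N4D_degs (chunk 9 1 N4D_rE) N4D_sp N4D_z [[1]] [[1]] [[1]] :=
  OneOK.of_znet (m := 72) (n := 1) (AllLt.step AllLt.zero (ecAll_sound N4D_sp (by norm_num) N4D_len N4D_cols_eq F4D_e1_0)) (by decide +kernel)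

theorem F4D_E2 : OneOK F4D_E N4D_degs (chunk 9 2 N4D_rE) N4D_sp N4D_z [[1]] [[1]] [[1]] :=
  OneOK.of_znet (m := 72) (n := 1) (AllLt.step AllLt.zero (ecAll_sound N4D_sp (by norm_num) N4D_len N4D_cols_eq F4D_e2_0)) (by decide +kernel)

theorem F4D_E3 : OneOK F4D_E N4D_degs (chunk 9 3 N4D_rE) N4D_sp N4D_z [[1]] [[1]] [[1]] :=
  OneOK.of_znet (m := 72) (n := 1) (AllLt.step AllLt.zero (ecAll_sound N4D_sp (by norm_num) N4D_len N4D_cols_eq F4D_e3_0)) (by decide +kernel)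

theorem F4D_E4 : OneOK F4D_E N4D_degs (chunk 9 4 N4D_rE) N4D_sp N4D_z [[1]] [[1]] [[1]] :=
  OneOK.of_znet (m := 72) (n := 1) (AllLt.step AllLt.zero (ecAll_sound N4D_sp (by norm_num) N4D_len N4D_cols_eq F4D_e4_0)) (by decide +kernel)

theorem F4D_E5 : OneOK F4D_E N4D_degs (chunk 9 5 N4D_rE) N4D_sp N4D_z [[1]] [[1]] [[1]] :=
  OneOK.of_znet (m := 72) (n := 1) (AllLt.step AllLt.zero (ecAll_sound N4D_sp (by norm_num) N4D_len N4D_cols_eq F4D_e5_0)) (by decide +kernel)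

theorem F4D_E6 : OneOK F4D_E N4D_degs (chunk 9 6 N4D_rE) N4D_sp N4D_z [[1]] [[1]] [[1]] :=
  OneOK.of_znet (m := 72) (n := 1) (AllLt.step AllLt.zero (ecAll_sound N4D_sp (by norm_num) N4D_len N4D_cols_eq F4D_e6_0)) (by decide +kernel)

theorem F4D_E7 : OneOK F4D_E N4D_degs (chunk 9 7 N4D_rE) N4D_sp N4D_z [[1]] [[1]] [[1]] :=
  OneOK.of_znet (m := 72) (n := 1) (AllLt.step AllLt.zero (ecAll_sound N4D_sp (by norm_num) N4D_len N4D_cols_eq F4D_e7_0)) (by decide +kernel)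

theorem F4D_EE : OneOK F4D_E N4D_degs N4D_rE N4D_sp N4D_z [[1]] [[1]] [[1]] :=
  OneOK.of_rp (m := 9) (n := 8) (AllLt.step (AllLt.step (AllLt.step (AllLt.step (AllLt.step (AllLt.step (AllLt.step (AllLt.step AllLt.zero F4D_E0) F4D_E1) F4D_E2) F4D_E3) F4D_E4) F4D_E5) F4D_E6) F4D_E7) (by decide +kernel)

theorem F4D_KK : OneOK (ferK F4D_k) N4D_degs N4D_rE N4D_sp [[1]] [[1]] [[1]] [[1]] :=
  OneOK.of_rp (m := 9) (n := 8) (AllLt.step (AllLt.step (AllLt.step (AllLt.step (AllLt.step (AllLt.step (AllLt.step (AllLt.step AllLt.zero (ecAll_sound N4D_sp (by norm_num) N4D_len N4D_cols_eq F4D_k0)) (ecAll_sound N4D_sp (by norm_num) N4D_len N4D_cols_eq F4D_k1)) (ecAll_sound N4D_sp (by norm_num) N4D_len N4D_cols_eq F4D_k2)) (ecAll_sound N4D_sp (by norm_num) N4D_len N4D_cols_eq F4D_k3)) (ecAll_sound N4D_sp (by norm_num) N4D_len N4D_cols_eq F4D_k4)) (ecAll_sound N4D_sp (by norm_num) N4D_len N4D_cols_eq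 F4D_k5)) (ecAll_sound N4D_sp (by norm_num) N4D_len N4D_cols_eq F4D_k6)) (ecAll_sound N4D_sp (by norm_num) N4D_len N4D_cols_eq F4D_k7)) (by decide +kernel)

theorem F4D_A_eq : ferP 8 fs4_8 TT4_8 F4D_pi F4D_psc F4D_k (1242250974084096) (xmat (-3077928870331023360000) (0) (0) (0) (6011579824865280000)) = F4D_A := by
  decide +kernel

theorem F4D_E_eq : ferE 8 fs4_8 lams4_8 TT4_8 F4D_pi F4D_psi = F4D_E := by decide +kernel

theorem F4D_form (p p' : Vec 4) (hp : Simp p) (hp' : Simp p') :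
    fz fs4_8 F4D_psc p * fz fs4_8 F4D_k p' + fz fs4_8 F4D_k p * fz fs4_8 F4D_psc p' + ((1242250974084096 : ℤ) : ℝ) * (fz fs4_8 F4D_psc p * fz fs4_8 F4D_psc p') +
      ((-3077928870331023360000 : ℤ) : ℝ) * (fx p + fx p') + ((0 : ℤ) : ℝ) * (fm p + fm p') + ((0 : ℤ) : ℝ) * (fx p * fx p') +
      ((0 : ℤ) : ℝ) * (fx p * fm p' + fm p * fx p') + ((6011579824865280000 : ℤ) : ℝ) * (fx p * fx p' ^ 2 + fx p ^ 2 * fx p') ≤
        ((27 : ℕ) : ℝ) * sAv (fz fs4_8 F4D_psi) p p' := by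
  refine ferro_form (K := 8) (den := 8) (brk := [0, 2, 4, 6, 7, 8]) (π := F4D_pi) (by decide) tab4_8 N4D_cover N4D_cover N4D_rE_dom N4D_z_dom ?_ (by norm_num) (by decide) ?_ hp hp'
  · rw [F4D_E_eq, N4D_degs_eq]; exact F4D_EE
  · rw [F4D_A_eq, N4D_degs_eq]
    exact (AllLt.step (AllLt.step (AllLt.step (AllLt.step (AllLt.step AllLt.zero (by rw [N4D_c0, N4D_d0]; exact F4D_P0)) (by rw [N4D_c1, N4D_d1]; exact F4D_P1)) (by rw [N4D_c2, N4D_d2]; exact F4D_P2)) (by rw [N4D_c3, N4D_d3]; exact F4D_P3)) (by rw [N4D_c4, N4D_d4]; exact F4D_P4))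

theorem F4D_k_nonneg (p : Vec 4) (hp : Simp p) : 0 ≤ fz fs4_8 F4D_k p :=
  fz_nonneg (K := 8) (by decide) N4D_cover N4D_rE_dom (by rw [N4D_degs_eq]; exact F4D_KK) hp

theorem F4D : ∃ (k : Vec 4 → ℝ) (c κ : ℝ), BddS k ∧ (∀ p, Simp p → 0 ≤ k p) ∧ 0 ≤ c ∧ 0 < κ ∧
    ∀ p p', Simp p → Simp p' → sAv fx p p' ≤ fx p + fx p' - κ * (fx p * fx p' * (fx p + fx p')) -
      psi (73 / 100) (9 / 100) p * k p' - k p * psi (73 / 100) (9 / 100) p' - c * (psi (73 / 100) (9 / 100) p * psi (73 / 100) (9 / 100) p') :=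
  ferroD_of (D := 100) (M := 3077928870331023360000) (by norm_num) (by norm_num) (by norm_num) (by norm_num)
    (fun p => by simp [fz, fsum, fs4_8, F4D_psc, Finset.sum_range_succ, feat, psi]; ring) (bddS_fz _ _) F4D_k_nonneg
    (fun p => by simp [fz, fsum, fs4_8, F4D_psi, Finset.sum_range_succ, feat]; ring) F4D_form

end Crest.Agent.R163.Ck
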