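import Crest.Agent.R163.F4DD

/-! Row 163: kernel checks (generated). -/

set_option autoImplicit false
set_option Elab.async false
set_option maxRecDepth 100000

namespace Crest.Agent.R163.Ck

theorem F4D_p0_0 : pcAll 264 F4D_A N4D_degs (chunk 9 0 N4D_r) 210 N4D_cols (N4D_r.drop 0) [[1]]
    (chunk 5 0 N4D_sp) [[1]] [[1]] = true := by decide +kernel

theorem F4D_p0_1 : pcAll 264 F4D_A N4D_degs (chunk 9 0 N4D_r) 210 N4D_cols (N4D_r.drop 0) [[1]]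
    (chunk 5 1 N4D_sp) [[1]] [[1]] = true := by decide +kernel

theorem F4D_p0_2 : pcAll 264 F4D_A N4D_degs (chunk 9 0 N4D_r) 210 N4D_cols (N4D_r.drop 0) [[1]]
    (chunk 5 2 N4D_sp) [[1]] [[1]] = true := by decide +kernel

theorem F4D_p0_3 : pcAll 264 F4D_A N4D_degs (chunk 9 0 N4D_r) 210 N4D_cols (N4D_r.drop 0) [[1]]
    (chunk 5 3 N4D_sp) [[1]] [[1]] = true := by decide +kernel

theorem F4D_p0_4 : pcAll 264 F4D_A N4D_degs (chunk 9 0 N4D_r) 210 N4D_cols (N4D_r.drop 0) [[1]]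
    (chunk 5 4 N4D_sp) [[1]] [[1]] = true := by decide +kernel

theorem F4D_p0_5 : pcAll 264 F4D_A N4D_degs (chunk 9 0 N4D_r) 210 N4D_cols (N4D_r.drop 0) [[1]]
    (chunk 5 5 N4D_sp) [[1]] [[1]] = true := by decide +kernel

theorem F4D_p0_6 : pcAll 264 F4D_A N4D_degs (chunk 9 0 N4D_r) 210 N4D_cols (N4D_r.drop 0) [[1]]
    (chunk 5 6 N4D_sp) [[1]] [[1]] = true := by decide +kernel

theorem F4D_p0_7 : pcAll 264 F4D_A N4D_degs (chunk 9 0 N4D_r) 210 N4D_cols (N4D_r.drop 0) [[1]]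
    (chunk 5 7 N4D_sp) [[1]] [[1]] = true := by decide +kernel

theorem F4D_p0_8 : pcAll 264 F4D_A N4D_degs (chunk 9 0 N4D_r) 210 N4D_cols (N4D_r.drop 0) [[1]]
    (chunk 5 8 N4D_sp) [[1]] [[1]] = true := by decide +kernel

theorem F4D_p0_9 : pcAll 264 F4D_A N4D_degs (chunk 9 0 N4D_r) 210 N4D_cols (N4D_r.drop 0) [[1]]
    (chunk 5 9 N4D_sp) [[1]] [[1]] = true := by decide +kernel

theorem F4D_p0_10 : pcAll 264 F4D_A N4D_degs (chunk 9 0 N4D_r) 210 N4D_cols (N4D_r.drop 0) [[1]]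
    (chunk 5 10 N4D_sp) [[1]] [[1]] = true := by decide +kernel

theorem F4D_p0_11 : pcAll 264 F4D_A N4D_degs (chunk 9 0 N4D_r) 210 N4D_cols (N4D_r.drop 0) [[1]]
    (chunk 5 11 N4D_sp) [[1]] [[1]] = true := by decide +kernel

theorem F4D_p0_12 : pcAll 264 F4D_A N4D_degs (chunk 9 0 N4D_r) 210 N4D_cols (N4D_r.drop 0) [[1]]
    (chunk 5 12 N4D_sp) [[1]] [[1]] = true := by decide +kernel

theorem F4D_p0_13 : pcAll 264 F4D_A N4D_degs (chunk 9 0 N4D_r) 210 N4D_cols (N4D_r.drop 0) [[1]]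
    (chunk 5 13 N4D_sp) [[1]] [[1]] = true := by decide +kernel

theorem F4D_p0_14 : pcAll 264 F4D_A N4D_degs (chunk 9 0 N4D_r) 210 N4D_cols (N4D_r.drop 0) [[1]]
    (chunk 5 14 N4D_sp) [[1]] [[1]] = true := by decide +kernel

theorem F4D_p0_15 : pcAll 264 F4D_A N4D_degs (chunk 9 0 N4D_r) 210 N4D_cols (N4D_r.drop 0) [[1]]
    (chunk 5 15 N4D_sp) [[1]] [[1]] = true := by decide +kernel

theorem F4D_p0_16 : pcAll 264 F4D_A N4D_degs (chunk 9 0 N4D_r) 210 N4D_cols (N4D_r.drop 0) [[1]]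
    (chunk 5 16 N4D_sp) [[1]] [[1]] = true := by decide +kernel

theorem F4D_p0_17 : pcAll 264 F4D_A N4D_degs (chunk 9 0 N4D_r) 210 N4D_cols (N4D_r.drop 0) [[1]]
    (chunk 5 17 N4D_sp) [[1]] [[1]] = true := by decide +kernel

theorem F4D_p0_18 : pcAll 264 F4D_A N4D_degs (chunk 9 0 N4D_r) 210 N4D_cols (N4D_r.drop 0) [[1]]
    (chunk 5 18 N4D_sp) [[1]] [[1]] = true := by decide +kernel

theorem F4D_p0_19 : pcAll 264 F4D_A N4D_degs (chunk 9 0 N4D_r) 210 N4D_cols (N4D_r.drop 0) [[1]]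
    (chunk 5 19 N4D_sp) [[1]] [[1]] = true := by decide +kernel

theorem F4D_p0_20 : pcAll 264 F4D_A N4D_degs (chunk 9 0 N4D_r) 210 N4D_cols (N4D_r.drop 0) [[1]]
    (chunk 5 20 N4D_sp) [[1]] [[1]] = true := by decide +kernel

theorem F4D_p0_21 : pcAll 264 F4D_A N4D_degs (chunk 9 0 N4D_r) 210 N4D_cols (N4D_r.drop 0) [[1]]
    (chunk 5 21 N4D_sp) [[1]] [[1]] = true := by decide +kernel

theorem F4D_p0_22 : pcAll 264 F4D_A N4D_degs (chunk 9 0 N4D_r) 210 N4D_cols (N4D_r.drop 0) [[1]]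
    (chunk 5 22 N4D_sp) [[1]] [[1]] = true := by decide +kernel

theorem F4D_p0_23 : pcAll 264 F4D_A N4D_degs (chunk 9 0 N4D_r) 210 N4D_cols (N4D_r.drop 0) [[1]]
    (chunk 5 23 N4D_sp) [[1]] [[1]] = true := by decide +kernel

theorem F4D_p0_24 : pcAll 264 F4D_A N4D_degs (chunk 9 0 N4D_r) 210 N4D_cols (N4D_r.drop 0) [[1]]
    (chunk 5 24 N4D_sp) [[1]] [[1]] = true := by decide +kernel

theorem F4D_p0_25 : pcAll 264 F4D_A N4D_degs (chunk 9 0 N4D_r) 210 N4D_cols (N4D_r.drop 0) [[1]]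
    (chunk 5 25 N4D_sp) [[1]] [[1]] = true := by decide +kernel

theorem F4D_p0_26 : pcAll 264 F4D_A N4D_degs (chunk 9 0 N4D_r) 210 N4D_cols (N4D_r.drop 0) [[1]]
    (chunk 5 26 N4D_sp) [[1]] [[1]] = true := by decide +kernel

theorem F4D_p0_27 : pcAll 264 F4D_A N4D_degs (chunk 9 0 N4D_r) 210 N4D_cols (N4D_r.drop 0) [[1]]
    (chunk 5 27 N4D_sp) [[1]] [[1]] = true := by decide +kernel

theorem F4D_p0_28 : pcAll 264 F4D_A N4D_degs (chunk 9 0 N4D_r) 210 N4D_cols (N4D_r.drop 0) [[1]]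
    (chunk 5 28 N4D_sp) [[1]] [[1]] = true := by decide +kernel

theorem F4D_p0_29 : pcAll 264 F4D_A N4D_degs (chunk 9 0 N4D_r) 210 N4D_cols (N4D_r.drop 0) [[1]]
    (chunk 5 29 N4D_sp) [[1]] [[1]] = true := by decide +kernel

theorem F4D_p0_30 : pcAll 264 F4D_A N4D_degs (chunk 9 0 N4D_r) 210 N4D_cols (N4D_r.drop 0) [[1]]
    (chunk 5 30 N4D_sp) [[1]] [[1]] = true := by decide +kernel

theorem F4D_p0_31 : pcAll 264 F4D_A N4D_degs (chunk 9 0 N4D_r) 210 N4D_cols (N4D_r.drop 0) [[1]]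
    (chunk 5 31 N4D_sp) [[1]] [[1]] = true := by decide +kernel

theorem F4D_p0_32 : pcAll 264 F4D_A N4D_degs (chunk 9 0 N4D_r) 210 N4D_cols (N4D_r.drop 0) [[1]]
    (chunk 5 32 N4D_sp) [[1]] [[1]] = true := by decide +kernel

theorem F4D_p0_33 : pcAll 264 F4D_A N4D_degs (chunk 9 0 N4D_r) 210 N4D_cols (N4D_r.drop 0) [[1]]
    (chunk 5 33 N4D_sp) [[1]] [[1]] = true := by decide +kernel

theorem F4D_p0_34 : pcAll 264 F4D_A N4D_degs (chunk 9 0 N4D_r) 210 N4D_cols (N4D_r.drop 0) [[1]]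
    (chunk 5 34 N4D_sp) [[1]] [[1]] = true := by decide +kernel

theorem F4D_p0_35 : pcAll 264 F4D_A N4D_degs (chunk 9 0 N4D_r) 210 N4D_cols (N4D_r.drop 0) [[1]]
    (chunk 5 35 N4D_sp) [[1]] [[1]] = true := by decide +kernel

theorem F4D_p0_36 : pcAll 264 F4D_A N4D_degs (chunk 9 0 N4D_r) 210 N4D_cols (N4D_r.drop 0) [[1]]
    (chunk 5 36 N4D_sp) [[1]] [[1]] = true := by decide +kernel

theorem F4D_p0_37 : pcAll 264 F4D_A N4D_degs (chunk 9 0 N4D_r) 210 N4D_cols (N4D_r.drop 0) [[1]]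
    (chunk 5 37 N4D_sp) [[1]] [[1]] = true := by decide +kernel

theorem F4D_p0_38 : pcAll 264 F4D_A N4D_degs (chunk 9 0 N4D_r) 210 N4D_cols (N4D_r.drop 0) [[1]]
    (chunk 5 38 N4D_sp) [[1]] [[1]] = true := by decide +kernel

theorem F4D_p0_39 : pcAll 264 F4D_A N4D_degs (chunk 9 0 N4D_r) 210 N4D_cols (N4D_r.drop 0) [[1]]
    (chunk 5 39 N4D_sp) [[1]] [[1]] = true := by decide +kernel


end Crest.Agent.R163.Ck
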