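import Crest.Agent.R163.N4DD

/-! Row 163: certificate data (generated). -/

set_option autoImplicit false
set_option Elab.async false
set_option maxRecDepth 100000

namespace Crest.Agent.R163.Ck

noncomputable def F4D_pi : List ℤ := [.negSucc (nat_lit 12666757233315839999), .negSucc (nat_lit 78866434222079999), .ofNat (nat_lit 74476305631733760000), .ofNat (nat_lit 89495848690560000), .negSucc (nat_lit 91041434396772479999), .negSucc (nat_lit 92044683588821759999), .negSucc (nat_lit 40947426229919999), .ofNat (nat_lit 29870324073095040000), .ofNat (nat_lit 29964904433474400000), .ofNat (nat_lit 151990289374101120000), .ofNat (nat_lit 29773642302192960000), .ofNat (nat_lit 9608358767160000), .negSucc (nat_lit 5649766778538359999), .negSucc (nat_lit 17059983974812079999), .negSucc (nat_lit 40516019110686239999), .negSucc (nat_lit 68998006199584079999), .negSucc (nat_lit 48664742736823199999), .negSucc (nat_lit 1207622645819999), .ofNat (nat_lit 611276154470280000), .ofNat (nat_lit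 2471569739680500000), .ofNat (nat_lit 5690776968406440000), .ofNat (nat_lit 1854241411191480000), .ofNat (nat_lit 27170054426386080000), .ofNat (nat_lit 8169997967048160000), .ofNat (nat_lit 7188770745561960000), .ofNat (nat_lit 20138510301123960000), .ofNat (nat_lit 76255433535000), .negSucc (nat_lit 34640426786264999), .negSucc (nat_lit 176072104215314999), .negSucc (nat_lit 400301963183609999), .negSucc (nat_lit 350983508529104999), .negSucc (nat_lit 2421146206270349999), .negSucc (nat_lit 416618217552869999), .negSucc (nat_lit 1687393827394379999), .negSucc (nat_lit 2476705004905589999), .negSucc (nat_lit 3178642653936179999), .negSucc (nat_lit 1775896093950749999), .negSucc (nat_lit 1887560604374), .ofNat (nat_lit 779089802310000), .ofNat (nat_lit 4786665084562500), .ofNat (nat_lit 10863988778250000), .ofNat (nat_lit 11740585948290000), .ofNat (nat_lit 78302206993500000), .negSucc (nat_lit 15282673073729999), .ofNat (nat_lit 7738673347850625), .ofNat (nat_lit 135959337389700000),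 .ofNat (nat_lit 86007662913937500), .negSucc (nat_lit 88714496672369999), .ofNat (nat_lit 102982785743340000), .negSucc (nat_lit 32306151933089999), .negSucc (nat_lit 93684859618859999), .ofNat (nat_lit 1800590675793750)]

noncomputable def F4D_psi : List ℤ := [.ofNat (nat_lit 0), .negSucc (nat_lit 113997365567815679999), .ofNat (nat_lit 0), .ofNat (nat_lit 0), .ofNat (nat_lit 0), .ofNat (nat_lit 0), .ofNat (nat_lit 0), .ofNat (nat_lit 0), .ofNat (nat_lit 0), .ofNat (nat_lit 0), .ofNat (nat_lit 0), .ofNat (nat_lit 0), .ofNat (nat_lit 0), .ofNat (nat_lit 0), .ofNat (nat_lit 0)]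

noncomputable def F4D_psc : List ℤ := [.ofNat (nat_lit 0), .ofNat (nat_lit 0), .ofNat (nat_lit 100), .negSucc (nat_lit 72), .ofNat (nat_lit 0), .ofNat (nat_lit 9), .ofNat (nat_lit 0), .ofNat (nat_lit 0), .ofNat (nat_lit 0), .ofNat (nat_lit 0), .ofNat (nat_lit 0), .ofNat (nat_lit 0), .ofNat (nat_lit 0), .ofNat (nat_lit 0), .ofNat (nat_lit 0)]

noncomputable def F4D_k : List ℤ := [.ofNat (nat_lit 0), .ofNat (nat_lit 20519525802206822400), .negSucc (nat_lit 3528539379107020799), .negSucc (nat_lit 12355002627110092799), .ofNat (nat_lit 6420373299394560000), .ofNat (nat_lit 9942937055358566400), .ofNat (nat_lit 5435458493191372800), .ofNat (nat_lit 3913754364813312000), .ofNat (nat_lit 10475557263811584000), .negSucc (nat_lit 11518865738719027199), .ofNat (nat_lit 953188512705331200), .ofNat (nat_lit 2904333429963571200), .negSucc (nat_lit 1198625109590015999), .negSucc (nat_lit 10063281161045606399), .negSucc (nat_lit 2267962773256396799)]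

noncomputable def F4D_A : L6 := [[[[[[.ofNat (nat_lit 0)]],
  [[.ofNat (nat_lit 0)]],
  [[.ofNat (nat_lit 0)]],
  [[.ofNat (nat_lit 0)]],
  [[.ofNat (nat_lit 0)]],
  [[.ofNat (nat_lit 0)]],
  [[.ofNat (nat_lit 0)]],
  [[.ofNat (nat_lit 0)]],
  [[.ofNat (nat_lit 0)]],
  [[.ofNat (nat_lit 0)]],
  [[.ofNat (nat_lit 0)]],
  [[.ofNat (nat_lit 0)]],
  [[.ofNat (nat_lit 0)]],
  [[.ofNat (nat_lit 0)]],
  [[.ofNat (nat_lit 0)]]],
  [],
  [],
  [],
  [],
  [],
  [],
  [],
  [],
  [],
  [],
  [],
  [],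
  [],
  []],
  [[],
  [],
  [],
  [],
  [],
  [],
  [],
  [],
  [],
  [],
  [],
  [],
  [],
  [],
  []],
  [[],
  [[[.ofNat (nat_lit 0)]],
  [[.ofNat (nat_lit 0)]],
  [[.ofNat (nat_lit 0)]],
  [[.ofNat (nat_lit 285640292600498995200)]],
  [[.ofNat (nat_lit 0)]],
  [[.negSucc (nat_lit 188612820271481241599)]],
  [[.ofNat (nat_lit 309666990445793280000)]],
  [[.ofNat (nat_lit 0)]],
  [[.ofNat (nat_lit 1841996616744960000)]],
  [[.negSucc (nat_lit 186823264230143999999)]],
  [[.ofNat (nat_lit 0)]],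
  [[.ofNat (nat_lit 787095170334720000)]],
  [[.negSucc (nat_lit 9014267404431359999)]],
  [[.negSucc (nat_lit 160961903754485759999)]],
  [[.ofNat (nat_lit 0)]]],
  [],
  [],
  [],
  [],
  [],
  [],
  [],
  [],
  [],
  [],
  [],
  [],
  []],
  [[],
  [],
  [[[.ofNat (nat_lit 0)]],
  [[.ofNat (nat_lit 0)]],
  [[.ofNat (nat_lit 0)]],
  [[.negSucc (nat_lit 225193823066152857599)]],
  [[.ofNat (nat_lit 570141813273707520000)]],
  [[.negSucc (nat_lit 160484436729572659199)]],
  [[.negSucc (nat_lit 204446764772766719999)]],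
  [[.negSucc (nat_lit 573721319648701439999)]],
  [[.negSucc (nat_lit 1386654810927528959999)]],
  [[.ofNat (nat_lit 930663895525079040000)]],
  [[.negSucc (nat_lit 23434336765163519999)]],
  [[.negSucc (nat_lit 288072057485352959999)]],
  [[.ofNat (nat_lit 116630276567362560000)]],
  [[.ofNat (nat_lit 843004926839070720000)]],
  [[.ofNat (nat_lit 387758181080125440000)]]],
  [],
  [],
  [],
  [],
  [],
  [],
  [],
  [],
  [],
  [],
  [],
  []],
  [[],
  [],
  [],
  [[[.ofNat (nat_lit 0)]],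
  [[.ofNat (nat_lit 285640292600498995200)]],
  [[.negSucc (nat_lit 225193823066152857599)]],
  [[.negSucc (nat_lit 1132232952750523536383)]],
  [[.ofNat (nat_lit 706573770907011840000)]],
  [[.ofNat (nat_lit 2415727461664959593472)]],
  [[.negSucc (nat_lit 187845373082272665599)]],
  [[.ofNat (nat_lit 88828702776458496000)]],
  [[.ofNat (nat_lit 467657570175754752000)]],
  [[.negSucc (nat_lit 976458123018573465599)]],
  [[.ofNat (nat_lit 52873077840444057600)]],
  [[.ofNat (nat_lit 212001729729683097600)]],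
  [[.negSucc (nat_lit 44164225683341567999)]],
  [[.negSucc (nat_lit 698067845809878067199)]],
  [[.negSucc (nat_lit 112686731123838566399)]]],
  [[[.ofNat (nat_lit 0)]],
  [[.ofNat (nat_lit 0)]],
  [[.ofNat (nat_lit 570141813273707520000)]],
  [[.ofNat (nat_lit 706573770907011840000)]],
  [[.ofNat (nat_lit 1292463438035800320000)]],
  [[.negSucc (nat_lit 1110543195731558399999)]],
  [[.negSucc (nat_lit 111523654844351999999)]],
  [[.ofNat (nat_lit 202112503025667840000)]],
  [[.negSucc (nat_lit 428201889866104319999)]],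
  [[.ofNat (nat_lit 202397224476222720000)]],
  [[.ofNat (nat_lit 20692086333408000000)]],
  [[.negSucc (nat_lit 2358363379472639999)]],
  [[.negSucc (nat_lit 29245414893361919999)]],
  [[.ofNat (nat_lit 33152556116839680000)]],
  [[.negSucc (nat_lit 104705762390184959999)]]],
  [],
  [],
  [],
  [],
  [],
  [],
  [],
  [],
  [],
  []],
  [[],
  [],
  [],
  [],
  [],
  [[[.ofNat (nat_lit 0)]],
  [[.negSucc (nat_lit 188612820271481241599)]],
  [[.negSucc (nat_lit 160484436729572659199)]],
  [[.ofNat (nat_lit 2415727461664959593472)]],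
  [[.negSucc (nat_lit 1110543195731558399999)]],
  [[.negSucc (nat_lit 507210556787196926975)]],
  [[.negSucc (nat_lit 1035417197716413235199)]],
  [[.negSucc (nat_lit 105556643595583487999)]],
  [[.ofNat (nat_lit 1263428906696745984000)]],
  [[.ofNat (nat_lit 651360355410473164800)]],
  [[.negSucc (nat_lit 48852452166624460799)]],
  [[.negSucc (nat_lit 29843281067570380799)]],
  [[.ofNat (nat_lit 11441304957947904000)]],
  [[.ofNat (nat_lit 200532286256519577600)]],
  [[.negSucc (nat_lit 234813011870378188799)]]],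
  [],
  [],
  [],
  [],
  [],
  [],
  [],
  [],
  []],
  [[],
  [],
  [],
  [],
  [],
  [],
  [[[.ofNat (nat_lit 0)]],
  [[.ofNat (nat_lit 309666990445793280000)]],
  [[.negSucc (nat_lit 204446764772766719999)]],
  [[.negSucc (nat_lit 187845373082272665599)]],
  [[.negSucc (nat_lit 111523654844351999999)]],
  [[.negSucc (nat_lit 1035417197716413235199)]],
  [[.negSucc (nat_lit 1490289070063403519999)]],
  [[.ofNat (nat_lit 323983805120858880000)]],
  [[.ofNat (nat_lit 947348597128619520000)]],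
  [[.ofNat (nat_lit 1573328114854594560000)]],
  [[.ofNat (nat_lit 129648371117276160000)]],
  [[.negSucc (nat_lit 67888471817142719999)]],
  [[.negSucc (nat_lit 43371738452275199999)]],
  [[.ofNat (nat_lit 524203338902820480000)]],
  [[.negSucc (nat_lit 135983956502473919999)]]],
  [[[.ofNat (nat_lit 0)]],
  [[.ofNat (nat_lit 0)]],
  [[.negSucc (nat_lit 573721319648701439999)]],
  [[.ofNat (nat_lit 88828702776458496000)]],
  [[.ofNat (nat_lit 202112503025667840000)]],
  [[.negSucc (nat_lit 105556643595583487999)]],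
  [[.ofNat (nat_lit 323983805120858880000)]],
  [[.negSucc (nat_lit 226103758772716799999)]],
  [[.negSucc (nat_lit 200364105659339519999)]],
  [[.negSucc (nat_lit 149403759082606079999)]],
  [[.negSucc (nat_lit 319869800323960319999)]],
  [[.ofNat (nat_lit 13769280943456320000)]],
  [[.negSucc (nat_lit 20027899668695039999)]],
  [[.negSucc (nat_lit 162151437857281919999)]],
  [[.ofNat (nat_lit 154272996661665600000)]]],
  [[[.ofNat (nat_lit 0)]],
  [[.ofNat (nat_lit 1841996616744960000)]],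
  [[.negSucc (nat_lit 1386654810927528959999)]],
  [[.ofNat (nat_lit 467657570175754752000)]],
  [[.negSucc (nat_lit 428201889866104319999)]],
  [[.ofNat (nat_lit 1263428906696745984000)]],
  [[.ofNat (nat_lit 947348597128619520000)]],
  [[.negSucc (nat_lit 200364105659339519999)]],
  [[.ofNat (nat_lit 34523019447528960000)]],
  [[.negSucc (nat_lit 991008593738311679999)]],
  [[.ofNat (nat_lit 200551937312885760000)]],
  [[.ofNat (nat_lit 36083980177767360000)]],
  [[.ofNat (nat_lit 49286402604195840000)]],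
  [[.negSucc (nat_lit 268068271496561279999)]],
  [[.ofNat (nat_lit 264670056894340800000)]]],
  [],
  [],
  [],
  [],
  [],
  []],
  [[],
  [],
  [],
  [],
  [],
  [],
  [],
  [],
  [],
  [[[.ofNat (nat_lit 0)]],
  [[.negSucc (nat_lit 186823264230143999999)]],
  [[.ofNat (nat_lit 930663895525079040000)]],
  [[.negSucc (nat_lit 976458123018573465599)]],
  [[.ofNat (nat_lit 202397224476222720000)]],
  [[.ofNat (nat_lit 651360355410473164800)]],
  [[.ofNat (nat_lit 1573328114854594560000)]],
  [[.negSucc (nat_lit 149403759082606079999)]],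
  [[.negSucc (nat_lit 991008593738311679999)]],
  [[.negSucc (nat_lit 990925903626577919999)]],
  [[.negSucc (nat_lit 176695659299174399999)]],
  [[.negSucc (nat_lit 59496669778440959999)]],
  [[.negSucc (nat_lit 42389198020753919999)]],
  [[.negSucc (nat_lit 266175041289050879999)]],
  [[.ofNat (nat_lit 90914776252439040000)]]],
  [[[.ofNat (nat_lit 0)]],
  [[.ofNat (nat_lit 0)]],
  [[.negSucc (nat_lit 23434336765163519999)]],
  [[.ofNat (nat_lit 52873077840444057600)]],
  [[.ofNat (nat_lit 20692086333408000000)]],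
  [[.negSucc (nat_lit 48852452166624460799)]],
  [[.ofNat (nat_lit 129648371117276160000)]],
  [[.negSucc (nat_lit 319869800323960319999)]],
  [[.ofNat (nat_lit 200551937312885760000)]],
  [[.negSucc (nat_lit 176695659299174399999)]],
  [[.negSucc (nat_lit 919714216440176639999)]],
  [[.negSucc (nat_lit 3325218329975039999)]],
  [[.ofNat (nat_lit 31210491828487680000)]],
  [[.negSucc (nat_lit 23414196546627839999)]],
  [[.negSucc (nat_lit 59051318717975039999)]]],
  [],
  [],
  [],
  []],
  [[],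
  [],
  [],
  [],
  [],
  [],
  [],
  [],
  [],
  [],
  [],
  [[[.ofNat (nat_lit 0)]],
  [[.ofNat (nat_lit 787095170334720000)]],
  [[.negSucc (nat_lit 288072057485352959999)]],
  [[.ofNat (nat_lit 212001729729683097600)]],
  [[.negSucc (nat_lit 2358363379472639999)]],
  [[.negSucc (nat_lit 29843281067570380799)]],
  [[.negSucc (nat_lit 67888471817142719999)]],
  [[.ofNat (nat_lit 13769280943456320000)]],
  [[.ofNat (nat_lit 36083980177767360000)]],
  [[.negSucc (nat_lit 59496669778440959999)]],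
  [[.negSucc (nat_lit 3325218329975039999)]],
  [[.ofNat (nat_lit 129745287497182320000)]],
  [[.negSucc (nat_lit 85000322612157119999)]],
  [[.negSucc (nat_lit 117338251597996319999)]],
  [[.ofNat (nat_lit 20043963646369200000)]]],
  [[[.ofNat (nat_lit 0)]],
  [[.negSucc (nat_lit 9014267404431359999)]],
  [[.ofNat (nat_lit 116630276567362560000)]],
  [[.negSucc (nat_lit 44164225683341567999)]],
  [[.negSucc (nat_lit 29245414893361919999)]],
  [[.ofNat (nat_lit 11441304957947904000)]],
  [[.negSucc (nat_lit 43371738452275199999)]],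
  [[.negSucc (nat_lit 20027899668695039999)]],
  [[.ofNat (nat_lit 49286402604195840000)]],
  [[.negSucc (nat_lit 42389198020753919999)]],
  [[.ofNat (nat_lit 31210491828487680000)]],
  [[.negSucc (nat_lit 85000322612157119999)]],
  [[.ofNat (nat_lit 152350512858800640000)]],
  [[.ofNat (nat_lit 166979861106238080000)]],
  [[.negSucc (nat_lit 53039193956706239999)]]],
  [[[.ofNat (nat_lit 0)]],
  [[.negSucc (nat_lit 160961903754485759999)]],
  [[.ofNat (nat_lit 843004926839070720000)]],
  [[.negSucc (nat_lit 698067845809878067199)]],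
  [[.ofNat (nat_lit 33152556116839680000)]],
  [[.ofNat (nat_lit 200532286256519577600)]],
  [[.ofNat (nat_lit 524203338902820480000)]],
  [[.negSucc (nat_lit 162151437857281919999)]],
  [[.negSucc (nat_lit 268068271496561279999)]],
  [[.negSucc (nat_lit 266175041289050879999)]],
  [[.negSucc (nat_lit 23414196546627839999)]],
  [[.negSucc (nat_lit 117338251597996319999)]],
  [[.ofNat (nat_lit 166979861106238080000)]],
  [[.ofNat (nat_lit 201081969964589760000)]],
  [[.negSucc (nat_lit 49169171734066079999)]]],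
  [[[.ofNat (nat_lit 0)]],
  [[.ofNat (nat_lit 0)]],
  [[.ofNat (nat_lit 387758181080125440000)]],
  [[.negSucc (nat_lit 112686731123838566399)]],
  [[.negSucc (nat_lit 104705762390184959999)]],
  [[.negSucc (nat_lit 234813011870378188799)]],
  [[.negSucc (nat_lit 135983956502473919999)]],
  [[.ofNat (nat_lit 154272996661665600000)]],
  [[.ofNat (nat_lit 264670056894340800000)]],
  [[.ofNat (nat_lit 90914776252439040000)]],
  [[.negSucc (nat_lit 59051318717975039999)]],
  [[.ofNat (nat_lit 20043963646369200000)]],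
  [[.negSucc (nat_lit 53039193956706239999)]],
  [[.negSucc (nat_lit 49169171734066079999)]],
  [[.ofNat (nat_lit 13365740739602160000)]]]]]]

noncomputable def F4D_E : L5 := [[[[[.ofNat (nat_lit 0)]]],
  [[[.ofNat (nat_lit 342002445299527680000)]]],
  [[[.negSucc (nat_lit 2008730858332815359999)]]],
  [[[.ofNat (nat_lit 4940908797696399360000)]]],
  [[[.negSucc (nat_lit 6522071744429107199999)]]],
  [[[.ofNat (nat_lit 4883730581925273600000)]]],
  [[[.negSucc (nat_lit 1978937732463022079999)]]],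
  [[[.ofNat (nat_lit 348794741284853760000)]]],
  [[[.negSucc (nat_lit 5696230981109759999)]]]],
  [[[[.ofNat (nat_lit 0)]]],
  [[[.negSucc (nat_lit 113997365567815679999)]]],
  [[[.ofNat (nat_lit 672416144409600000000)]]],
  [[[.negSucc (nat_lit 1673082711071170559999)]]],
  [[[.ofNat (nat_lit 2197869596351815680000)]]],
  [[[.negSucc (nat_lit 1510056383520061439999)]]],
  [[[.ofNat (nat_lit 401514218499502080000)]]],
  [[[.ofNat (nat_lit 64560576026880000000)]]],
  [[[.negSucc (nat_lit 39224075128750079999)]]]],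
  [[[[.ofNat (nat_lit 0)]]],
  [[[.ofNat (nat_lit 0)]]],
  [[[.ofNat (nat_lit 0)]]],
  [[[.ofNat (nat_lit 6612854813798400000)]]],
  [[[.ofNat (nat_lit 11307758758963200000)]]],
  [[[.negSucc (nat_lit 108779358532792319999)]]],
  [[[.ofNat (nat_lit 192800429134571520000)]]],
  [[[.negSucc (nat_lit 137558091775610879999)]]],
  [[[.ofNat (nat_lit 35616407601070080000)]]]],
  [[[[.ofNat (nat_lit 0)]]],
  [[[.ofNat (nat_lit 0)]]],
  [[[.ofNat (nat_lit 0)]]],
  [[[.ofNat (nat_lit 0)]]],
  [[[.ofNat (nat_lit 508714529587200000)]]],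
  [[[.negSucc (nat_lit 13822923726397439999)]]],
  [[[.ofNat (nat_lit 4009040618803200000)]]],
  [[[.ofNat (nat_lit 31415831823237120000)]]],
  [[[.negSucc (nat_lit 22110663245230079999)]]]],
  [[[[.ofNat (nat_lit 0)]]],
  [[[.ofNat (nat_lit 0)]]],
  [[[.ofNat (nat_lit 0)]]],
  [[[.ofNat (nat_lit 0)]]],
  [[[.ofNat (nat_lit 24401625140367360000)]]],
  [[[.negSucc (nat_lit 93797977183764479999)]]],
  [[[.ofNat (nat_lit 134779514418339840000)]]],
  [[[.negSucc (nat_lit 85771597846855679999)]]],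
  [[[.ofNat (nat_lit 20388435471912960000)]]]],
  [[[[.ofNat (nat_lit 0)]]],
  [[[.ofNat (nat_lit 0)]]],
  [[[.ofNat (nat_lit 0)]]],
  [[[.ofNat (nat_lit 0)]]],
  [[[.ofNat (nat_lit 0)]]],
  [[[.ofNat (nat_lit 4206340334407680000)]]],
  [[[.ofNat (nat_lit 8139119466792960000)]]],
  [[[.negSucc (nat_lit 28897259936808959999)]]],
  [[[.ofNat (nat_lit 16551800135608320000)]]]],
  [[[[.ofNat (nat_lit 0)]]],
  [[[.ofNat (nat_lit 0)]]],
  [[[.ofNat (nat_lit 0)]]],
  [[[.ofNat (nat_lit 0)]]],
  [[[.ofNat (nat_lit 0)]]],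
  [[[.ofNat (nat_lit 0)]]],
  [[[.negSucc (nat_lit 87455018926079999)]]],
  [[[.ofNat (nat_lit 174910037852160000)]]],
  [[[.negSucc (nat_lit 87455018926079999)]]]],
  [[[[.ofNat (nat_lit 0)]]],
  [[[.ofNat (nat_lit 0)]]],
  [[[.ofNat (nat_lit 0)]]],
  [[[.ofNat (nat_lit 0)]]],
  [[[.ofNat (nat_lit 0)]]],
  [[[.ofNat (nat_lit 0)]]],
  [[[.ofNat (nat_lit 1001585267159040000)]]],
  [[[.negSucc (nat_lit 2003170534318079999)]]],
  [[[.ofNat (nat_lit 1001585267159040000)]]]],
  [[[[.ofNat (nat_lit 0)]]],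
  [[[.ofNat (nat_lit 0)]]],
  [[[.ofNat (nat_lit 0)]]],
  [[[.ofNat (nat_lit 0)]]],
  [[[.ofNat (nat_lit 0)]]],
  [[[.ofNat (nat_lit 0)]]],
  [[[.ofNat (nat_lit 17884655972720640000)]]],
  [[[.negSucc (nat_lit 35769311945441279999)]]],
  [[[.ofNat (nat_lit 17884655972720640000)]]]],
  [[[[.ofNat (nat_lit 0)]]],
  [[[.ofNat (nat_lit 0)]]],
  [[[.ofNat (nat_lit 0)]]],
  [[[.ofNat (nat_lit 0)]]],
  [[[.ofNat (nat_lit 0)]]],
  [[[.ofNat (nat_lit 0)]]],
  [[[.ofNat (nat_lit 0)]]],
  [[[.ofNat (nat_lit 0)]]],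
  [[[.ofNat (nat_lit 0)]]]],
  [[[[.ofNat (nat_lit 0)]]],
  [[[.ofNat (nat_lit 0)]]],
  [[[.ofNat (nat_lit 0)]]],
  [[[.ofNat (nat_lit 0)]]],
  [[[.ofNat (nat_lit 0)]]],
  [[[.ofNat (nat_lit 0)]]],
  [[[.ofNat (nat_lit 0)]]],
  [[[.ofNat (nat_lit 0)]]],
  [[[.ofNat (nat_lit 0)]]]],
  [[[[.ofNat (nat_lit 0)]]],
  [[[.ofNat (nat_lit 0)]]],
  [[[.ofNat (nat_lit 0)]]],
  [[[.ofNat (nat_lit 0)]]],
  [[[.ofNat (nat_lit 0)]]],
  [[[.ofNat (nat_lit 0)]]],
  [[[.ofNat (nat_lit 0)]]],
  [[[.ofNat (nat_lit 0)]]],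
  [[[.ofNat (nat_lit 0)]]]],
  [[[[.ofNat (nat_lit 0)]]],
  [[[.ofNat (nat_lit 0)]]],
  [[[.ofNat (nat_lit 0)]]],
  [[[.ofNat (nat_lit 0)]]],
  [[[.ofNat (nat_lit 0)]]],
  [[[.ofNat (nat_lit 0)]]],
  [[[.ofNat (nat_lit 0)]]],
  [[[.ofNat (nat_lit 0)]]],
  [[[.ofNat (nat_lit 0)]]]],
  [[[[.ofNat (nat_lit 0)]]],
  [[[.ofNat (nat_lit 0)]]],
  [[[.ofNat (nat_lit 0)]]],
  [[[.ofNat (nat_lit 0)]]],
  [[[.ofNat (nat_lit 0)]]],
  [[[.ofNat (nat_lit 0)]]],
  [[[.ofNat (nat_lit 0)]]],
  [[[.ofNat (nat_lit 0)]]],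
  [[[.ofNat (nat_lit 0)]]]],
  [[[[.ofNat (nat_lit 0)]]],
  [[[.ofNat (nat_lit 0)]]],
  [[[.ofNat (nat_lit 0)]]],
  [[[.ofNat (nat_lit 0)]]],
  [[[.ofNat (nat_lit 0)]]],
  [[[.ofNat (nat_lit 0)]]],
  [[[.ofNat (nat_lit 0)]]],
  [[[.ofNat (nat_lit 0)]]],
  [[[.ofNat (nat_lit 0)]]]]]


end Crest.Agent.R163.Ck
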