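import Crest.Agent.R163.F4SD

/-! Row 163: kernel checks (generated). -/

set_option autoImplicit false
set_option Elab.async false
set_option maxRecDepth 100000

namespace Crest.Agent.R163.Ck

theorem F4S_p0_40 : pcAll 280 F4S_A N4S_degs (chunk 10 0 N4S_r) 280 N4S_cols (N4S_r.drop 0) [[1]]
    (chunk 2 40 N4S_sp) [[1]] [[1]] = true := by decide +kernel

theorem F4S_p0_41 : pcAll 280 F4S_A N4S_degs (chunk 10 0 N4S_r) 280 N4S_cols (N4S_r.drop 0) [[1]]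
    (chunk 2 41 N4S_sp) [[1]] [[1]] = true := by decide +kernel

theorem F4S_p0_42 : pcAll 280 F4S_A N4S_degs (chunk 10 0 N4S_r) 280 N4S_cols (N4S_r.drop 0) [[1]]
    (chunk 2 42 N4S_sp) [[1]] [[1]] = true := by decide +kernel

theorem F4S_p0_43 : pcAll 280 F4S_A N4S_degs (chunk 10 0 N4S_r) 280 N4S_cols (N4S_r.drop 0) [[1]]
    (chunk 2 43 N4S_sp) [[1]] [[1]] = true := by decide +kernel

theorem F4S_p0_44 : pcAll 280 F4S_A N4S_degs (chunk 10 0 N4S_r) 280 N4S_cols (N4S_r.drop 0) [[1]]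
    (chunk 2 44 N4S_sp) [[1]] [[1]] = true := by decide +kernel

theorem F4S_p0_45 : pcAll 280 F4S_A N4S_degs (chunk 10 0 N4S_r) 280 N4S_cols (N4S_r.drop 0) [[1]]
    (chunk 2 45 N4S_sp) [[1]] [[1]] = true := by decide +kernel

theorem F4S_p0_46 : pcAll 280 F4S_A N4S_degs (chunk 10 0 N4S_r) 280 N4S_cols (N4S_r.drop 0) [[1]]
    (chunk 2 46 N4S_sp) [[1]] [[1]] = true := by decide +kernel

theorem F4S_p0_47 : pcAll 280 F4S_A N4S_degs (chunk 10 0 N4S_r) 280 N4S_cols (N4S_r.drop 0) [[1]]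
    (chunk 2 47 N4S_sp) [[1]] [[1]] = true := by decide +kernel

theorem F4S_p0_48 : pcAll 280 F4S_A N4S_degs (chunk 10 0 N4S_r) 280 N4S_cols (N4S_r.drop 0) [[1]]
    (chunk 2 48 N4S_sp) [[1]] [[1]] = true := by decide +kernel

theorem F4S_p0_49 : pcAll 280 F4S_A N4S_degs (chunk 10 0 N4S_r) 280 N4S_cols (N4S_r.drop 0) [[1]]
    (chunk 2 49 N4S_sp) [[1]] [[1]] = true := by decide +kernel

theorem F4S_p0_50 : pcAll 280 F4S_A N4S_degs (chunk 10 0 N4S_r) 280 N4S_cols (N4S_r.drop 0) [[1]]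
    (chunk 2 50 N4S_sp) [[1]] [[1]] = true := by decide +kernel

theorem F4S_p0_51 : pcAll 280 F4S_A N4S_degs (chunk 10 0 N4S_r) 280 N4S_cols (N4S_r.drop 0) [[1]]
    (chunk 2 51 N4S_sp) [[1]] [[1]] = true := by decide +kernel

theorem F4S_p0_52 : pcAll 280 F4S_A N4S_degs (chunk 10 0 N4S_r) 280 N4S_cols (N4S_r.drop 0) [[1]]
    (chunk 2 52 N4S_sp) [[1]] [[1]] = true := by decide +kernel

theorem F4S_p0_53 : pcAll 280 F4S_A N4S_degs (chunk 10 0 N4S_r) 280 N4S_cols (N4S_r.drop 0) [[1]]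
    (chunk 2 53 N4S_sp) [[1]] [[1]] = true := by decide +kernel

theorem F4S_p0_54 : pcAll 280 F4S_A N4S_degs (chunk 10 0 N4S_r) 280 N4S_cols (N4S_r.drop 0) [[1]]
    (chunk 2 54 N4S_sp) [[1]] [[1]] = true := by decide +kernel

theorem F4S_p0_55 : pcAll 280 F4S_A N4S_degs (chunk 10 0 N4S_r) 280 N4S_cols (N4S_r.drop 0) [[1]]
    (chunk 2 55 N4S_sp) [[1]] [[1]] = true := by decide +kernel

theorem F4S_p0_56 : pcAll 280 F4S_A N4S_degs (chunk 10 0 N4S_r) 280 N4S_cols (N4S_r.drop 0) [[1]]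
    (chunk 2 56 N4S_sp) [[1]] [[1]] = true := by decide +kernel

theorem F4S_p0_57 : pcAll 280 F4S_A N4S_degs (chunk 10 0 N4S_r) 280 N4S_cols (N4S_r.drop 0) [[1]]
    (chunk 2 57 N4S_sp) [[1]] [[1]] = true := by decide +kernel

theorem F4S_p0_58 : pcAll 280 F4S_A N4S_degs (chunk 10 0 N4S_r) 280 N4S_cols (N4S_r.drop 0) [[1]]
    (chunk 2 58 N4S_sp) [[1]] [[1]] = true := by decide +kernel

theorem F4S_p0_59 : pcAll 280 F4S_A N4S_degs (chunk 10 0 N4S_r) 280 N4S_cols (N4S_r.drop 0) [[1]]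
    (chunk 2 59 N4S_sp) [[1]] [[1]] = true := by decide +kernel

theorem F4S_p0_60 : pcAll 280 F4S_A N4S_degs (chunk 10 0 N4S_r) 280 N4S_cols (N4S_r.drop 0) [[1]]
    (chunk 2 60 N4S_sp) [[1]] [[1]] = true := by decide +kernel

theorem F4S_p0_61 : pcAll 280 F4S_A N4S_degs (chunk 10 0 N4S_r) 280 N4S_cols (N4S_r.drop 0) [[1]]
    (chunk 2 61 N4S_sp) [[1]] [[1]] = true := by decide +kernel

theorem F4S_p0_62 : pcAll 280 F4S_A N4S_degs (chunk 10 0 N4S_r) 280 N4S_cols (N4S_r.drop 0) [[1]]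
    (chunk 2 62 N4S_sp) [[1]] [[1]] = true := by decide +kernel

theorem F4S_p0_63 : pcAll 280 F4S_A N4S_degs (chunk 10 0 N4S_r) 280 N4S_cols (N4S_r.drop 0) [[1]]
    (chunk 2 63 N4S_sp) [[1]] [[1]] = true := by decide +kernel

theorem F4S_p0_64 : pcAll 280 F4S_A N4S_degs (chunk 10 0 N4S_r) 280 N4S_cols (N4S_r.drop 0) [[1]]
    (chunk 2 64 N4S_sp) [[1]] [[1]] = true := by decide +kernel

theorem F4S_p0_65 : pcAll 280 F4S_A N4S_degs (chunk 10 0 N4S_r) 280 N4S_cols (N4S_r.drop 0) [[1]]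
    (chunk 2 65 N4S_sp) [[1]] [[1]] = true := by decide +kernel

theorem F4S_p0_66 : pcAll 280 F4S_A N4S_degs (chunk 10 0 N4S_r) 280 N4S_cols (N4S_r.drop 0) [[1]]
    (chunk 2 66 N4S_sp) [[1]] [[1]] = true := by decide +kernel

theorem F4S_p0_67 : pcAll 280 F4S_A N4S_degs (chunk 10 0 N4S_r) 280 N4S_cols (N4S_r.drop 0) [[1]]
    (chunk 2 67 N4S_sp) [[1]] [[1]] = true := by decide +kernel

theorem F4S_p0_68 : pcAll 280 F4S_A N4S_degs (chunk 10 0 N4S_r) 280 N4S_cols (N4S_r.drop 0) [[1]]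
    (chunk 2 68 N4S_sp) [[1]] [[1]] = true := by decide +kernel

theorem F4S_p0_69 : pcAll 280 F4S_A N4S_degs (chunk 10 0 N4S_r) 280 N4S_cols (N4S_r.drop 0) [[1]]
    (chunk 2 69 N4S_sp) [[1]] [[1]] = true := by decide +kernel

theorem F4S_p0_70 : pcAll 280 F4S_A N4S_degs (chunk 10 0 N4S_r) 280 N4S_cols (N4S_r.drop 0) [[1]]
    (chunk 2 70 N4S_sp) [[1]] [[1]] = true := by decide +kernel

theorem F4S_p0_71 : pcAll 280 F4S_A N4S_degs (chunk 10 0 N4S_r) 280 N4S_cols (N4S_r.drop 0) [[1]]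
    (chunk 2 71 N4S_sp) [[1]] [[1]] = true := by decide +kernel

theorem F4S_p0_72 : pcAll 280 F4S_A N4S_degs (chunk 10 0 N4S_r) 280 N4S_cols (N4S_r.drop 0) [[1]]
    (chunk 2 72 N4S_sp) [[1]] [[1]] = true := by decide +kernel

theorem F4S_p0_73 : pcAll 280 F4S_A N4S_degs (chunk 10 0 N4S_r) 280 N4S_cols (N4S_r.drop 0) [[1]]
    (chunk 2 73 N4S_sp) [[1]] [[1]] = true := by decide +kernel

theorem F4S_p0_74 : pcAll 280 F4S_A N4S_degs (chunk 10 0 N4S_r) 280 N4S_cols (N4S_r.drop 0) [[1]]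
    (chunk 2 74 N4S_sp) [[1]] [[1]] = true := by decide +kernel

theorem F4S_p0_75 : pcAll 280 F4S_A N4S_degs (chunk 10 0 N4S_r) 280 N4S_cols (N4S_r.drop 0) [[1]]
    (chunk 2 75 N4S_sp) [[1]] [[1]] = true := by decide +kernel

theorem F4S_p0_76 : pcAll 280 F4S_A N4S_degs (chunk 10 0 N4S_r) 280 N4S_cols (N4S_r.drop 0) [[1]]
    (chunk 2 76 N4S_sp) [[1]] [[1]] = true := by decide +kernel

theorem F4S_p0_77 : pcAll 280 F4S_A N4S_degs (chunk 10 0 N4S_r) 280 N4S_cols (N4S_r.drop 0) [[1]]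
    (chunk 2 77 N4S_sp) [[1]] [[1]] = true := by decide +kernel

theorem F4S_p0_78 : pcAll 280 F4S_A N4S_degs (chunk 10 0 N4S_r) 280 N4S_cols (N4S_r.drop 0) [[1]]
    (chunk 2 78 N4S_sp) [[1]] [[1]] = true := by decide +kernel

theorem F4S_p0_79 : pcAll 280 F4S_A N4S_degs (chunk 10 0 N4S_r) 280 N4S_cols (N4S_r.drop 0) [[1]]
    (chunk 2 79 N4S_sp) [[1]] [[1]] = true := by decide +kernel


end Crest.Agent.R163.Ck
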