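import Crest.Agent.R163.F4SD

/-! Row 163: kernel checks (generated). -/

set_option autoImplicit false
set_option Elab.async false
set_option maxRecDepth 100000

namespace Crest.Agent.R163.Ck

theorem F4S_p3_26 : pcAll 280 F4S_A N4S_degs (chunk 10 3 N4S_r) 280 N4S_cols (N4S_r.drop 30) [[1]]
    (chunk 5 26 N4S_sp) [[1]] [[1]] = true := by decide +kernel

theorem F4S_p3_27 : pcAll 280 F4S_A N4S_degs (chunk 10 3 N4S_r) 280 N4S_cols (N4S_r.drop 30) [[1]]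
    (chunk 5 27 N4S_sp) [[1]] [[1]] = true := by decide +kernel

theorem F4S_p3_28 : pcAll 280 F4S_A N4S_degs (chunk 10 3 N4S_r) 280 N4S_cols (N4S_r.drop 30) [[1]]
    (chunk 5 28 N4S_sp) [[1]] [[1]] = true := by decide +kernel

theorem F4S_p3_29 : pcAll 280 F4S_A N4S_degs (chunk 10 3 N4S_r) 280 N4S_cols (N4S_r.drop 30) [[1]]
    (chunk 5 29 N4S_sp) [[1]] [[1]] = true := by decide +kernel

theorem F4S_p3_30 : pcAll 280 F4S_A N4S_degs (chunk 10 3 N4S_r) 280 N4S_cols (N4S_r.drop 30) [[1]]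
    (chunk 5 30 N4S_sp) [[1]] [[1]] = true := by decide +kernel

theorem F4S_p3_31 : pcAll 280 F4S_A N4S_degs (chunk 10 3 N4S_r) 280 N4S_cols (N4S_r.drop 30) [[1]]
    (chunk 5 31 N4S_sp) [[1]] [[1]] = true := by decide +kernel

theorem F4S_p3_32 : pcAll 280 F4S_A N4S_degs (chunk 10 3 N4S_r) 280 N4S_cols (N4S_r.drop 30) [[1]]
    (chunk 5 32 N4S_sp) [[1]] [[1]] = true := by decide +kernel

theorem F4S_p3_33 : pcAll 280 F4S_A N4S_degs (chunk 10 3 N4S_r) 280 N4S_cols (N4S_r.drop 30) [[1]]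
    (chunk 5 33 N4S_sp) [[1]] [[1]] = true := by decide +kernel

theorem F4S_p3_34 : pcAll 280 F4S_A N4S_degs (chunk 10 3 N4S_r) 280 N4S_cols (N4S_r.drop 30) [[1]]
    (chunk 5 34 N4S_sp) [[1]] [[1]] = true := by decide +kernel

theorem F4S_p3_35 : pcAll 280 F4S_A N4S_degs (chunk 10 3 N4S_r) 280 N4S_cols (N4S_r.drop 30) [[1]]
    (chunk 5 35 N4S_sp) [[1]] [[1]] = true := by decide +kernel

theorem F4S_p3_36 : pcAll 280 F4S_A N4S_degs (chunk 10 3 N4S_r) 280 N4S_cols (N4S_r.drop 30) [[1]]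
    (chunk 5 36 N4S_sp) [[1]] [[1]] = true := by decide +kernel

theorem F4S_p3_37 : pcAll 280 F4S_A N4S_degs (chunk 10 3 N4S_r) 280 N4S_cols (N4S_r.drop 30) [[1]]
    (chunk 5 37 N4S_sp) [[1]] [[1]] = true := by decide +kernel

theorem F4S_p3_38 : pcAll 280 F4S_A N4S_degs (chunk 10 3 N4S_r) 280 N4S_cols (N4S_r.drop 30) [[1]]
    (chunk 5 38 N4S_sp) [[1]] [[1]] = true := by decide +kernel

theorem F4S_p3_39 : pcAll 280 F4S_A N4S_degs (chunk 10 3 N4S_r) 280 N4S_cols (N4S_r.drop 30) [[1]]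
    (chunk 5 39 N4S_sp) [[1]] [[1]] = true := by decide +kernel

theorem F4S_p3_40 : pcAll 280 F4S_A N4S_degs (chunk 10 3 N4S_r) 280 N4S_cols (N4S_r.drop 30) [[1]]
    (chunk 5 40 N4S_sp) [[1]] [[1]] = true := by decide +kernel

theorem F4S_p3_41 : pcAll 280 F4S_A N4S_degs (chunk 10 3 N4S_r) 280 N4S_cols (N4S_r.drop 30) [[1]]
    (chunk 5 41 N4S_sp) [[1]] [[1]] = true := by decide +kernel

theorem F4S_p3_42 : pcAll 280 F4S_A N4S_degs (chunk 10 3 N4S_r) 280 N4S_cols (N4S_r.drop 30) [[1]]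
    (chunk 5 42 N4S_sp) [[1]] [[1]] = true := by decide +kernel

theorem F4S_p3_43 : pcAll 280 F4S_A N4S_degs (chunk 10 3 N4S_r) 280 N4S_cols (N4S_r.drop 30) [[1]]
    (chunk 5 43 N4S_sp) [[1]] [[1]] = true := by decide +kernel

theorem F4S_p3_44 : pcAll 280 F4S_A N4S_degs (chunk 10 3 N4S_r) 280 N4S_cols (N4S_r.drop 30) [[1]]
    (chunk 5 44 N4S_sp) [[1]] [[1]] = true := by decide +kernel

theorem F4S_p3_45 : pcAll 280 F4S_A N4S_degs (chunk 10 3 N4S_r) 280 N4S_cols (N4S_r.drop 30) [[1]]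
    (chunk 5 45 N4S_sp) [[1]] [[1]] = true := by decide +kernel

theorem F4S_p3_46 : pcAll 280 F4S_A N4S_degs (chunk 10 3 N4S_r) 280 N4S_cols (N4S_r.drop 30) [[1]]
    (chunk 5 46 N4S_sp) [[1]] [[1]] = true := by decide +kernel

theorem F4S_p3_47 : pcAll 280 F4S_A N4S_degs (chunk 10 3 N4S_r) 280 N4S_cols (N4S_r.drop 30) [[1]]
    (chunk 5 47 N4S_sp) [[1]] [[1]] = true := by decide +kernel

theorem F4S_p3_48 : pcAll 280 F4S_A N4S_degs (chunk 10 3 N4S_r) 280 N4S_cols (N4S_r.drop 30) [[1]]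
    (chunk 5 48 N4S_sp) [[1]] [[1]] = true := by decide +kernel

theorem F4S_p3_49 : pcAll 280 F4S_A N4S_degs (chunk 10 3 N4S_r) 280 N4S_cols (N4S_r.drop 30) [[1]]
    (chunk 5 49 N4S_sp) [[1]] [[1]] = true := by decide +kernel

theorem F4S_p3_50 : pcAll 280 F4S_A N4S_degs (chunk 10 3 N4S_r) 280 N4S_cols (N4S_r.drop 30) [[1]]
    (chunk 5 50 N4S_sp) [[1]] [[1]] = true := by decide +kernel

theorem F4S_p3_51 : pcAll 280 F4S_A N4S_degs (chunk 10 3 N4S_r) 280 N4S_cols (N4S_r.drop 30) [[1]]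
    (chunk 5 51 N4S_sp) [[1]] [[1]] = true := by decide +kernel

theorem F4S_p3_52 : pcAll 280 F4S_A N4S_degs (chunk 10 3 N4S_r) 280 N4S_cols (N4S_r.drop 30) [[1]]
    (chunk 5 52 N4S_sp) [[1]] [[1]] = true := by decide +kernel

theorem F4S_p3_53 : pcAll 280 F4S_A N4S_degs (chunk 10 3 N4S_r) 280 N4S_cols (N4S_r.drop 30) [[1]]
    (chunk 5 53 N4S_sp) [[1]] [[1]] = true := by decide +kernel

theorem F4S_p3_54 : pcAll 280 F4S_A N4S_degs (chunk 10 3 N4S_r) 280 N4S_cols (N4S_r.drop 30) [[1]]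
    (chunk 5 54 N4S_sp) [[1]] [[1]] = true := by decide +kernel

theorem F4S_p3_55 : pcAll 280 F4S_A N4S_degs (chunk 10 3 N4S_r) 280 N4S_cols (N4S_r.drop 30) [[1]]
    (chunk 5 55 N4S_sp) [[1]] [[1]] = true := by decide +kernel

theorem F4S_p4_0 : pcAll 280 F4S_A N4S_degs (chunk 10 4 N4S_r) 280 N4S_cols (N4S_r.drop 40) [[1]]
    (chunk 9 0 N4S_sp) [[1]] [[1]] = true := by decide +kernel

theorem F4S_p4_1 : pcAll 280 F4S_A N4S_degs (chunk 10 4 N4S_r) 280 N4S_cols (N4S_r.drop 40) [[1]]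
    (chunk 9 1 N4S_sp) [[1]] [[1]] = true := by decide +kernel

theorem F4S_p4_2 : pcAll 280 F4S_A N4S_degs (chunk 10 4 N4S_r) 280 N4S_cols (N4S_r.drop 40) [[1]]
    (chunk 9 2 N4S_sp) [[1]] [[1]] = true := by decide +kernel

theorem F4S_p4_3 : pcAll 280 F4S_A N4S_degs (chunk 10 4 N4S_r) 280 N4S_cols (N4S_r.drop 40) [[1]]
    (chunk 9 3 N4S_sp) [[1]] [[1]] = true := by decide +kernel

theorem F4S_p4_4 : pcAll 280 F4S_A N4S_degs (chunk 10 4 N4S_r) 280 N4S_cols (N4S_r.drop 40) [[1]]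
    (chunk 9 4 N4S_sp) [[1]] [[1]] = true := by decide +kernel

theorem F4S_p4_5 : pcAll 280 F4S_A N4S_degs (chunk 10 4 N4S_r) 280 N4S_cols (N4S_r.drop 40) [[1]]
    (chunk 9 5 N4S_sp) [[1]] [[1]] = true := by decide +kernel

theorem F4S_p4_6 : pcAll 280 F4S_A N4S_degs (chunk 10 4 N4S_r) 280 N4S_cols (N4S_r.drop 40) [[1]]
    (chunk 9 6 N4S_sp) [[1]] [[1]] = true := by decide +kernel

theorem F4S_p4_7 : pcAll 280 F4S_A N4S_degs (chunk 10 4 N4S_r) 280 N4S_cols (N4S_r.drop 40) [[1]]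
    (chunk 9 7 N4S_sp) [[1]] [[1]] = true := by decide +kernel

theorem F4S_p4_8 : pcAll 280 F4S_A N4S_degs (chunk 10 4 N4S_r) 280 N4S_cols (N4S_r.drop 40) [[1]]
    (chunk 9 8 N4S_sp) [[1]] [[1]] = true := by decide +kernel

theorem F4S_p4_9 : pcAll 280 F4S_A N4S_degs (chunk 10 4 N4S_r) 280 N4S_cols (N4S_r.drop 40) [[1]]
    (chunk 9 9 N4S_sp) [[1]] [[1]] = true := by decide +kernel


end Crest.Agent.R163.Ck
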