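import Crest.Agent.R163.F4SD

/-! Row 163: kernel checks (generated). -/

set_option autoImplicit false
set_option Elab.async false
set_option maxRecDepth 100000

namespace Crest.Agent.R163.Ck

theorem F4S_p4_10 : pcAll 280 F4S_A N4S_degs (chunk 10 4 N4S_r) 280 N4S_cols (N4S_r.drop 40) [[1]]
    (chunk 9 10 N4S_sp) [[1]] [[1]] = true := by decide +kernel

theorem F4S_p4_11 : pcAll 280 F4S_A N4S_degs (chunk 10 4 N4S_r) 280 N4S_cols (N4S_r.drop 40) [[1]]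
    (chunk 9 11 N4S_sp) [[1]] [[1]] = true := by decide +kernel

theorem F4S_p4_12 : pcAll 280 F4S_A N4S_degs (chunk 10 4 N4S_r) 280 N4S_cols (N4S_r.drop 40) [[1]]
    (chunk 9 12 N4S_sp) [[1]] [[1]] = true := by decide +kernel

theorem F4S_p4_13 : pcAll 280 F4S_A N4S_degs (chunk 10 4 N4S_r) 280 N4S_cols (N4S_r.drop 40) [[1]]
    (chunk 9 13 N4S_sp) [[1]] [[1]] = true := by decide +kernel

theorem F4S_p4_14 : pcAll 280 F4S_A N4S_degs (chunk 10 4 N4S_r) 280 N4S_cols (N4S_r.drop 40) [[1]]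
    (chunk 9 14 N4S_sp) [[1]] [[1]] = true := by decide +kernel

theorem F4S_p4_15 : pcAll 280 F4S_A N4S_degs (chunk 10 4 N4S_r) 280 N4S_cols (N4S_r.drop 40) [[1]]
    (chunk 9 15 N4S_sp) [[1]] [[1]] = true := by decide +kernel

theorem F4S_p4_16 : pcAll 280 F4S_A N4S_degs (chunk 10 4 N4S_r) 280 N4S_cols (N4S_r.drop 40) [[1]]
    (chunk 9 16 N4S_sp) [[1]] [[1]] = true := by decide +kernel

theorem F4S_p4_17 : pcAll 280 F4S_A N4S_degs (chunk 10 4 N4S_r) 280 N4S_cols (N4S_r.drop 40) [[1]]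
    (chunk 9 17 N4S_sp) [[1]] [[1]] = true := by decide +kernel

theorem F4S_p4_18 : pcAll 280 F4S_A N4S_degs (chunk 10 4 N4S_r) 280 N4S_cols (N4S_r.drop 40) [[1]]
    (chunk 9 18 N4S_sp) [[1]] [[1]] = true := by decide +kernel

theorem F4S_p4_19 : pcAll 280 F4S_A N4S_degs (chunk 10 4 N4S_r) 280 N4S_cols (N4S_r.drop 40) [[1]]
    (chunk 9 19 N4S_sp) [[1]] [[1]] = true := by decide +kernel

theorem F4S_p4_20 : pcAll 280 F4S_A N4S_degs (chunk 10 4 N4S_r) 280 N4S_cols (N4S_r.drop 40) [[1]]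
    (chunk 9 20 N4S_sp) [[1]] [[1]] = true := by decide +kernel

theorem F4S_p4_21 : pcAll 280 F4S_A N4S_degs (chunk 10 4 N4S_r) 280 N4S_cols (N4S_r.drop 40) [[1]]
    (chunk 9 21 N4S_sp) [[1]] [[1]] = true := by decide +kernel

theorem F4S_p4_22 : pcAll 280 F4S_A N4S_degs (chunk 10 4 N4S_r) 280 N4S_cols (N4S_r.drop 40) [[1]]
    (chunk 9 22 N4S_sp) [[1]] [[1]] = true := by decide +kernel

theorem F4S_p4_23 : pcAll 280 F4S_A N4S_degs (chunk 10 4 N4S_r) 280 N4S_cols (N4S_r.drop 40) [[1]]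
    (chunk 9 23 N4S_sp) [[1]] [[1]] = true := by decide +kernel

theorem F4S_p4_24 : pcAll 280 F4S_A N4S_degs (chunk 10 4 N4S_r) 280 N4S_cols (N4S_r.drop 40) [[1]]
    (chunk 9 24 N4S_sp) [[1]] [[1]] = true := by decide +kernel

theorem F4S_p4_25 : pcAll 280 F4S_A N4S_degs (chunk 10 4 N4S_r) 280 N4S_cols (N4S_r.drop 40) [[1]]
    (chunk 9 25 N4S_sp) [[1]] [[1]] = true := by decide +kernel

theorem F4S_p4_26 : pcAll 280 F4S_A N4S_degs (chunk 10 4 N4S_r) 280 N4S_cols (N4S_r.drop 40) [[1]]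
    (chunk 9 26 N4S_sp) [[1]] [[1]] = true := by decide +kernel

theorem F4S_p4_27 : pcAll 280 F4S_A N4S_degs (chunk 10 4 N4S_r) 280 N4S_cols (N4S_r.drop 40) [[1]]
    (chunk 9 27 N4S_sp) [[1]] [[1]] = true := by decide +kernel

theorem F4S_p4_28 : pcAll 280 F4S_A N4S_degs (chunk 10 4 N4S_r) 280 N4S_cols (N4S_r.drop 40) [[1]]
    (chunk 9 28 N4S_sp) [[1]] [[1]] = true := by decide +kernel

theorem F4S_p4_29 : pcAll 280 F4S_A N4S_degs (chunk 10 4 N4S_r) 280 N4S_cols (N4S_r.drop 40) [[1]]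
    (chunk 9 29 N4S_sp) [[1]] [[1]] = true := by decide +kernel

theorem F4S_p4_30 : pcAll 280 F4S_A N4S_degs (chunk 10 4 N4S_r) 280 N4S_cols (N4S_r.drop 40) [[1]]
    (chunk 9 30 N4S_sp) [[1]] [[1]] = true := by decide +kernel

theorem F4S_p4_31 : pcAll 280 F4S_A N4S_degs (chunk 10 4 N4S_r) 280 N4S_cols (N4S_r.drop 40) [[1]]
    (chunk 9 31 N4S_sp) [[1]] [[1]] = true := by decide +kernel

theorem F4S_e0_0 : ecAll 280 F4S_E N4S_degs (chunk 10 0 N4S_rE) 280 N4S_cols (chunk 80 0 N4S_z)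
    [[1]] [[1]] [[1]] = true := by decide +kernel

theorem F4S_e1_0 : ecAll 280 F4S_E N4S_degs (chunk 10 1 N4S_rE) 280 N4S_cols (chunk 80 0 N4S_z)
    [[1]] [[1]] [[1]] = true := by decide +kernel

theorem F4S_e2_0 : ecAll 280 F4S_E N4S_degs (chunk 10 2 N4S_rE) 280 N4S_cols (chunk 80 0 N4S_z)
    [[1]] [[1]] [[1]] = true := by decide +kernel

theorem F4S_e3_0 : ecAll 280 F4S_E N4S_degs (chunk 10 3 N4S_rE) 280 N4S_cols (chunk 80 0 N4S_z)
    [[1]] [[1]] [[1]] = true := by decide +kernel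

theorem F4S_e4_0 : ecAll 280 F4S_E N4S_degs (chunk 10 4 N4S_rE) 280 N4S_cols (chunk 80 0 N4S_z)
    [[1]] [[1]] [[1]] = true := by decide +kernel

theorem F4S_e5_0 : ecAll 280 F4S_E N4S_degs (chunk 10 5 N4S_rE) 280 N4S_cols (chunk 80 0 N4S_z)
    [[1]] [[1]] [[1]] = true := by decide +kernel

theorem F4S_e6_0 : ecAll 280 F4S_E N4S_degs (chunk 10 6 N4S_rE) 280 N4S_cols (chunk 80 0 N4S_z)
    [[1]] [[1]] [[1]] = true := by decide +kernel

theorem F4S_e7_0 : ecAll 280 F4S_E N4S_degs (chunk 10 7 N4S_rE) 280 N4S_cols (chunk 80 0 N4S_z)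
    [[1]] [[1]] [[1]] = true := by decide +kernel

theorem F4S_k0 : ecAll 280 (ferK F4S_k) N4S_degs (chunk 10 0 N4S_rE) 280 N4S_cols [[1]]
    [[1]] [[1]] [[1]] = true := by decide +kernel

theorem F4S_k1 : ecAll 280 (ferK F4S_k) N4S_degs (chunk 10 1 N4S_rE) 280 N4S_cols [[1]]
    [[1]] [[1]] [[1]] = true := by decide +kernel

theorem F4S_k2 : ecAll 280 (ferK F4S_k) N4S_degs (chunk 10 2 N4S_rE) 280 N4S_cols [[1]]
    [[1]] [[1]] [[1]] = true := by decide +kernel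

theorem F4S_k3 : ecAll 280 (ferK F4S_k) N4S_degs (chunk 10 3 N4S_rE) 280 N4S_cols [[1]]
    [[1]] [[1]] [[1]] = true := by decide +kernel

theorem F4S_k4 : ecAll 280 (ferK F4S_k) N4S_degs (chunk 10 4 N4S_rE) 280 N4S_cols [[1]]
    [[1]] [[1]] [[1]] = true := by decide +kernel

theorem F4S_k5 : ecAll 280 (ferK F4S_k) N4S_degs (chunk 10 5 N4S_rE) 280 N4S_cols [[1]]
    [[1]] [[1]] [[1]] = true := by decide +kernel

theorem F4S_k6 : ecAll 280 (ferK F4S_k) N4S_degs (chunk 10 6 N4S_rE) 280 N4S_cols [[1]]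
    [[1]] [[1]] [[1]] = true := by decide +kernel

theorem F4S_k7 : ecAll 280 (ferK F4S_k) N4S_degs (chunk 10 7 N4S_rE) 280 N4S_cols [[1]]
    [[1]] [[1]] [[1]] = true := by decide +kernel


end Crest.Agent.R163.Ck
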