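import Crest.Agent.R163.F4SD

/-! Row 163: kernel checks (generated). -/

set_option autoImplicit false
set_option Elab.async false
set_option maxRecDepth 100000

namespace Crest.Agent.R163.Ck

theorem F4S_p0_80 : pcAll 280 F4S_A N4S_degs (chunk 10 0 N4S_r) 280 N4S_cols (N4S_r.drop 0) [[1]]
    (chunk 2 80 N4S_sp) [[1]] [[1]] = true := by decide +kernel

theorem F4S_p0_81 : pcAll 280 F4S_A N4S_degs (chunk 10 0 N4S_r) 280 N4S_cols (N4S_r.drop 0) [[1]]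
    (chunk 2 81 N4S_sp) [[1]] [[1]] = true := by decide +kernel

theorem F4S_p0_82 : pcAll 280 F4S_A N4S_degs (chunk 10 0 N4S_r) 280 N4S_cols (N4S_r.drop 0) [[1]]
    (chunk 2 82 N4S_sp) [[1]] [[1]] = true := by decide +kernel

theorem F4S_p0_83 : pcAll 280 F4S_A N4S_degs (chunk 10 0 N4S_r) 280 N4S_cols (N4S_r.drop 0) [[1]]
    (chunk 2 83 N4S_sp) [[1]] [[1]] = true := by decide +kernel

theorem F4S_p0_84 : pcAll 280 F4S_A N4S_degs (chunk 10 0 N4S_r) 280 N4S_cols (N4S_r.drop 0) [[1]]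
    (chunk 2 84 N4S_sp) [[1]] [[1]] = true := by decide +kernel

theorem F4S_p0_85 : pcAll 280 F4S_A N4S_degs (chunk 10 0 N4S_r) 280 N4S_cols (N4S_r.drop 0) [[1]]
    (chunk 2 85 N4S_sp) [[1]] [[1]] = true := by decide +kernel

theorem F4S_p0_86 : pcAll 280 F4S_A N4S_degs (chunk 10 0 N4S_r) 280 N4S_cols (N4S_r.drop 0) [[1]]
    (chunk 2 86 N4S_sp) [[1]] [[1]] = true := by decide +kernel

theorem F4S_p0_87 : pcAll 280 F4S_A N4S_degs (chunk 10 0 N4S_r) 280 N4S_cols (N4S_r.drop 0) [[1]]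
    (chunk 2 87 N4S_sp) [[1]] [[1]] = true := by decide +kernel

theorem F4S_p0_88 : pcAll 280 F4S_A N4S_degs (chunk 10 0 N4S_r) 280 N4S_cols (N4S_r.drop 0) [[1]]
    (chunk 2 88 N4S_sp) [[1]] [[1]] = true := by decide +kernel

theorem F4S_p0_89 : pcAll 280 F4S_A N4S_degs (chunk 10 0 N4S_r) 280 N4S_cols (N4S_r.drop 0) [[1]]
    (chunk 2 89 N4S_sp) [[1]] [[1]] = true := by decide +kernel

theorem F4S_p0_90 : pcAll 280 F4S_A N4S_degs (chunk 10 0 N4S_r) 280 N4S_cols (N4S_r.drop 0) [[1]]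
    (chunk 2 90 N4S_sp) [[1]] [[1]] = true := by decide +kernel

theorem F4S_p0_91 : pcAll 280 F4S_A N4S_degs (chunk 10 0 N4S_r) 280 N4S_cols (N4S_r.drop 0) [[1]]
    (chunk 2 91 N4S_sp) [[1]] [[1]] = true := by decide +kernel

theorem F4S_p0_92 : pcAll 280 F4S_A N4S_degs (chunk 10 0 N4S_r) 280 N4S_cols (N4S_r.drop 0) [[1]]
    (chunk 2 92 N4S_sp) [[1]] [[1]] = true := by decide +kernel

theorem F4S_p0_93 : pcAll 280 F4S_A N4S_degs (chunk 10 0 N4S_r) 280 N4S_cols (N4S_r.drop 0) [[1]]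
    (chunk 2 93 N4S_sp) [[1]] [[1]] = true := by decide +kernel

theorem F4S_p0_94 : pcAll 280 F4S_A N4S_degs (chunk 10 0 N4S_r) 280 N4S_cols (N4S_r.drop 0) [[1]]
    (chunk 2 94 N4S_sp) [[1]] [[1]] = true := by decide +kernel

theorem F4S_p0_95 : pcAll 280 F4S_A N4S_degs (chunk 10 0 N4S_r) 280 N4S_cols (N4S_r.drop 0) [[1]]
    (chunk 2 95 N4S_sp) [[1]] [[1]] = true := by decide +kernel

theorem F4S_p0_96 : pcAll 280 F4S_A N4S_degs (chunk 10 0 N4S_r) 280 N4S_cols (N4S_r.drop 0) [[1]]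
    (chunk 2 96 N4S_sp) [[1]] [[1]] = true := by decide +kernel

theorem F4S_p0_97 : pcAll 280 F4S_A N4S_degs (chunk 10 0 N4S_r) 280 N4S_cols (N4S_r.drop 0) [[1]]
    (chunk 2 97 N4S_sp) [[1]] [[1]] = true := by decide +kernel

theorem F4S_p0_98 : pcAll 280 F4S_A N4S_degs (chunk 10 0 N4S_r) 280 N4S_cols (N4S_r.drop 0) [[1]]
    (chunk 2 98 N4S_sp) [[1]] [[1]] = true := by decide +kernel

theorem F4S_p0_99 : pcAll 280 F4S_A N4S_degs (chunk 10 0 N4S_r) 280 N4S_cols (N4S_r.drop 0) [[1]]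
    (chunk 2 99 N4S_sp) [[1]] [[1]] = true := by decide +kernel

theorem F4S_p0_100 : pcAll 280 F4S_A N4S_degs (chunk 10 0 N4S_r) 280 N4S_cols (N4S_r.drop 0) [[1]]
    (chunk 2 100 N4S_sp) [[1]] [[1]] = true := by decide +kernel

theorem F4S_p0_101 : pcAll 280 F4S_A N4S_degs (chunk 10 0 N4S_r) 280 N4S_cols (N4S_r.drop 0) [[1]]
    (chunk 2 101 N4S_sp) [[1]] [[1]] = true := by decide +kernel

theorem F4S_p0_102 : pcAll 280 F4S_A N4S_degs (chunk 10 0 N4S_r) 280 N4S_cols (N4S_r.drop 0) [[1]]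
    (chunk 2 102 N4S_sp) [[1]] [[1]] = true := by decide +kernel

theorem F4S_p0_103 : pcAll 280 F4S_A N4S_degs (chunk 10 0 N4S_r) 280 N4S_cols (N4S_r.drop 0) [[1]]
    (chunk 2 103 N4S_sp) [[1]] [[1]] = true := by decide +kernel

theorem F4S_p0_104 : pcAll 280 F4S_A N4S_degs (chunk 10 0 N4S_r) 280 N4S_cols (N4S_r.drop 0) [[1]]
    (chunk 2 104 N4S_sp) [[1]] [[1]] = true := by decide +kernel

theorem F4S_p0_105 : pcAll 280 F4S_A N4S_degs (chunk 10 0 N4S_r) 280 N4S_cols (N4S_r.drop 0) [[1]]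
    (chunk 2 105 N4S_sp) [[1]] [[1]] = true := by decide +kernel

theorem F4S_p0_106 : pcAll 280 F4S_A N4S_degs (chunk 10 0 N4S_r) 280 N4S_cols (N4S_r.drop 0) [[1]]
    (chunk 2 106 N4S_sp) [[1]] [[1]] = true := by decide +kernel

theorem F4S_p0_107 : pcAll 280 F4S_A N4S_degs (chunk 10 0 N4S_r) 280 N4S_cols (N4S_r.drop 0) [[1]]
    (chunk 2 107 N4S_sp) [[1]] [[1]] = true := by decide +kernel

theorem F4S_p0_108 : pcAll 280 F4S_A N4S_degs (chunk 10 0 N4S_r) 280 N4S_cols (N4S_r.drop 0) [[1]]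
    (chunk 2 108 N4S_sp) [[1]] [[1]] = true := by decide +kernel

theorem F4S_p0_109 : pcAll 280 F4S_A N4S_degs (chunk 10 0 N4S_r) 280 N4S_cols (N4S_r.drop 0) [[1]]
    (chunk 2 109 N4S_sp) [[1]] [[1]] = true := by decide +kernel

theorem F4S_p0_110 : pcAll 280 F4S_A N4S_degs (chunk 10 0 N4S_r) 280 N4S_cols (N4S_r.drop 0) [[1]]
    (chunk 2 110 N4S_sp) [[1]] [[1]] = true := by decide +kernel

theorem F4S_p0_111 : pcAll 280 F4S_A N4S_degs (chunk 10 0 N4S_r) 280 N4S_cols (N4S_r.drop 0) [[1]]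
    (chunk 2 111 N4S_sp) [[1]] [[1]] = true := by decide +kernel

theorem F4S_p0_112 : pcAll 280 F4S_A N4S_degs (chunk 10 0 N4S_r) 280 N4S_cols (N4S_r.drop 0) [[1]]
    (chunk 2 112 N4S_sp) [[1]] [[1]] = true := by decide +kernel

theorem F4S_p0_113 : pcAll 280 F4S_A N4S_degs (chunk 10 0 N4S_r) 280 N4S_cols (N4S_r.drop 0) [[1]]
    (chunk 2 113 N4S_sp) [[1]] [[1]] = true := by decide +kernel

theorem F4S_p0_114 : pcAll 280 F4S_A N4S_degs (chunk 10 0 N4S_r) 280 N4S_cols (N4S_r.drop 0) [[1]]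
    (chunk 2 114 N4S_sp) [[1]] [[1]] = true := by decide +kernel

theorem F4S_p0_115 : pcAll 280 F4S_A N4S_degs (chunk 10 0 N4S_r) 280 N4S_cols (N4S_r.drop 0) [[1]]
    (chunk 2 115 N4S_sp) [[1]] [[1]] = true := by decide +kernel

theorem F4S_p0_116 : pcAll 280 F4S_A N4S_degs (chunk 10 0 N4S_r) 280 N4S_cols (N4S_r.drop 0) [[1]]
    (chunk 2 116 N4S_sp) [[1]] [[1]] = true := by decide +kernel

theorem F4S_p0_117 : pcAll 280 F4S_A N4S_degs (chunk 10 0 N4S_r) 280 N4S_cols (N4S_r.drop 0) [[1]]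
    (chunk 2 117 N4S_sp) [[1]] [[1]] = true := by decide +kernel

theorem F4S_p0_118 : pcAll 280 F4S_A N4S_degs (chunk 10 0 N4S_r) 280 N4S_cols (N4S_r.drop 0) [[1]]
    (chunk 2 118 N4S_sp) [[1]] [[1]] = true := by decide +kernel

theorem F4S_p0_119 : pcAll 280 F4S_A N4S_degs (chunk 10 0 N4S_r) 280 N4S_cols (N4S_r.drop 0) [[1]]
    (chunk 2 119 N4S_sp) [[1]] [[1]] = true := by decide +kernel


end Crest.Agent.R163.Ck
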