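import Crest.Agent.R163.F4SD

/-! Row 163: kernel checks (generated). -/

set_option autoImplicit false
set_option Elab.async false
set_option maxRecDepth 100000

namespace Crest.Agent.R163.Ck

theorem F4S_p0_120 : pcAll 280 F4S_A N4S_degs (chunk 10 0 N4S_r) 280 N4S_cols (N4S_r.drop 0) [[1]]
    (chunk 2 120 N4S_sp) [[1]] [[1]] = true := by decide +kernel

theorem F4S_p0_121 : pcAll 280 F4S_A N4S_degs (chunk 10 0 N4S_r) 280 N4S_cols (N4S_r.drop 0) [[1]]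
    (chunk 2 121 N4S_sp) [[1]] [[1]] = true := by decide +kernel

theorem F4S_p0_122 : pcAll 280 F4S_A N4S_degs (chunk 10 0 N4S_r) 280 N4S_cols (N4S_r.drop 0) [[1]]
    (chunk 2 122 N4S_sp) [[1]] [[1]] = true := by decide +kernel

theorem F4S_p0_123 : pcAll 280 F4S_A N4S_degs (chunk 10 0 N4S_r) 280 N4S_cols (N4S_r.drop 0) [[1]]
    (chunk 2 123 N4S_sp) [[1]] [[1]] = true := by decide +kernel

theorem F4S_p0_124 : pcAll 280 F4S_A N4S_degs (chunk 10 0 N4S_r) 280 N4S_cols (N4S_r.drop 0) [[1]]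
    (chunk 2 124 N4S_sp) [[1]] [[1]] = true := by decide +kernel

theorem F4S_p0_125 : pcAll 280 F4S_A N4S_degs (chunk 10 0 N4S_r) 280 N4S_cols (N4S_r.drop 0) [[1]]
    (chunk 2 125 N4S_sp) [[1]] [[1]] = true := by decide +kernel

theorem F4S_p0_126 : pcAll 280 F4S_A N4S_degs (chunk 10 0 N4S_r) 280 N4S_cols (N4S_r.drop 0) [[1]]
    (chunk 2 126 N4S_sp) [[1]] [[1]] = true := by decide +kernel

theorem F4S_p0_127 : pcAll 280 F4S_A N4S_degs (chunk 10 0 N4S_r) 280 N4S_cols (N4S_r.drop 0) [[1]]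
    (chunk 2 127 N4S_sp) [[1]] [[1]] = true := by decide +kernel

theorem F4S_p0_128 : pcAll 280 F4S_A N4S_degs (chunk 10 0 N4S_r) 280 N4S_cols (N4S_r.drop 0) [[1]]
    (chunk 2 128 N4S_sp) [[1]] [[1]] = true := by decide +kernel

theorem F4S_p0_129 : pcAll 280 F4S_A N4S_degs (chunk 10 0 N4S_r) 280 N4S_cols (N4S_r.drop 0) [[1]]
    (chunk 2 129 N4S_sp) [[1]] [[1]] = true := by decide +kernel

theorem F4S_p0_130 : pcAll 280 F4S_A N4S_degs (chunk 10 0 N4S_r) 280 N4S_cols (N4S_r.drop 0) [[1]]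
    (chunk 2 130 N4S_sp) [[1]] [[1]] = true := by decide +kernel

theorem F4S_p0_131 : pcAll 280 F4S_A N4S_degs (chunk 10 0 N4S_r) 280 N4S_cols (N4S_r.drop 0) [[1]]
    (chunk 2 131 N4S_sp) [[1]] [[1]] = true := by decide +kernel

theorem F4S_p0_132 : pcAll 280 F4S_A N4S_degs (chunk 10 0 N4S_r) 280 N4S_cols (N4S_r.drop 0) [[1]]
    (chunk 2 132 N4S_sp) [[1]] [[1]] = true := by decide +kernel

theorem F4S_p0_133 : pcAll 280 F4S_A N4S_degs (chunk 10 0 N4S_r) 280 N4S_cols (N4S_r.drop 0) [[1]]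
    (chunk 2 133 N4S_sp) [[1]] [[1]] = true := by decide +kernel

theorem F4S_p0_134 : pcAll 280 F4S_A N4S_degs (chunk 10 0 N4S_r) 280 N4S_cols (N4S_r.drop 0) [[1]]
    (chunk 2 134 N4S_sp) [[1]] [[1]] = true := by decide +kernel

theorem F4S_p0_135 : pcAll 280 F4S_A N4S_degs (chunk 10 0 N4S_r) 280 N4S_cols (N4S_r.drop 0) [[1]]
    (chunk 2 135 N4S_sp) [[1]] [[1]] = true := by decide +kernel

theorem F4S_p0_136 : pcAll 280 F4S_A N4S_degs (chunk 10 0 N4S_r) 280 N4S_cols (N4S_r.drop 0) [[1]]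
    (chunk 2 136 N4S_sp) [[1]] [[1]] = true := by decide +kernel

theorem F4S_p0_137 : pcAll 280 F4S_A N4S_degs (chunk 10 0 N4S_r) 280 N4S_cols (N4S_r.drop 0) [[1]]
    (chunk 2 137 N4S_sp) [[1]] [[1]] = true := by decide +kernel

theorem F4S_p0_138 : pcAll 280 F4S_A N4S_degs (chunk 10 0 N4S_r) 280 N4S_cols (N4S_r.drop 0) [[1]]
    (chunk 2 138 N4S_sp) [[1]] [[1]] = true := by decide +kernel

theorem F4S_p0_139 : pcAll 280 F4S_A N4S_degs (chunk 10 0 N4S_r) 280 N4S_cols (N4S_r.drop 0) [[1]]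
    (chunk 2 139 N4S_sp) [[1]] [[1]] = true := by decide +kernel

theorem F4S_p1_0 : pcAll 280 F4S_A N4S_degs (chunk 10 1 N4S_r) 280 N4S_cols (N4S_r.drop 10) [[1]]
    (chunk 2 0 N4S_sp) [[1]] [[1]] = true := by decide +kernel

theorem F4S_p1_1 : pcAll 280 F4S_A N4S_degs (chunk 10 1 N4S_r) 280 N4S_cols (N4S_r.drop 10) [[1]]
    (chunk 2 1 N4S_sp) [[1]] [[1]] = true := by decide +kernel

theorem F4S_p1_2 : pcAll 280 F4S_A N4S_degs (chunk 10 1 N4S_r) 280 N4S_cols (N4S_r.drop 10) [[1]]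
    (chunk 2 2 N4S_sp) [[1]] [[1]] = true := by decide +kernel

theorem F4S_p1_3 : pcAll 280 F4S_A N4S_degs (chunk 10 1 N4S_r) 280 N4S_cols (N4S_r.drop 10) [[1]]
    (chunk 2 3 N4S_sp) [[1]] [[1]] = true := by decide +kernel

theorem F4S_p1_4 : pcAll 280 F4S_A N4S_degs (chunk 10 1 N4S_r) 280 N4S_cols (N4S_r.drop 10) [[1]]
    (chunk 2 4 N4S_sp) [[1]] [[1]] = true := by decide +kernel

theorem F4S_p1_5 : pcAll 280 F4S_A N4S_degs (chunk 10 1 N4S_r) 280 N4S_cols (N4S_r.drop 10) [[1]]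
    (chunk 2 5 N4S_sp) [[1]] [[1]] = true := by decide +kernel

theorem F4S_p1_6 : pcAll 280 F4S_A N4S_degs (chunk 10 1 N4S_r) 280 N4S_cols (N4S_r.drop 10) [[1]]
    (chunk 2 6 N4S_sp) [[1]] [[1]] = true := by decide +kernel

theorem F4S_p1_7 : pcAll 280 F4S_A N4S_degs (chunk 10 1 N4S_r) 280 N4S_cols (N4S_r.drop 10) [[1]]
    (chunk 2 7 N4S_sp) [[1]] [[1]] = true := by decide +kernel

theorem F4S_p1_8 : pcAll 280 F4S_A N4S_degs (chunk 10 1 N4S_r) 280 N4S_cols (N4S_r.drop 10) [[1]]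
    (chunk 2 8 N4S_sp) [[1]] [[1]] = true := by decide +kernel

theorem F4S_p1_9 : pcAll 280 F4S_A N4S_degs (chunk 10 1 N4S_r) 280 N4S_cols (N4S_r.drop 10) [[1]]
    (chunk 2 9 N4S_sp) [[1]] [[1]] = true := by decide +kernel

theorem F4S_p1_10 : pcAll 280 F4S_A N4S_degs (chunk 10 1 N4S_r) 280 N4S_cols (N4S_r.drop 10) [[1]]
    (chunk 2 10 N4S_sp) [[1]] [[1]] = true := by decide +kernel

theorem F4S_p1_11 : pcAll 280 F4S_A N4S_degs (chunk 10 1 N4S_r) 280 N4S_cols (N4S_r.drop 10) [[1]]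
    (chunk 2 11 N4S_sp) [[1]] [[1]] = true := by decide +kernel

theorem F4S_p1_12 : pcAll 280 F4S_A N4S_degs (chunk 10 1 N4S_r) 280 N4S_cols (N4S_r.drop 10) [[1]]
    (chunk 2 12 N4S_sp) [[1]] [[1]] = true := by decide +kernel

theorem F4S_p1_13 : pcAll 280 F4S_A N4S_degs (chunk 10 1 N4S_r) 280 N4S_cols (N4S_r.drop 10) [[1]]
    (chunk 2 13 N4S_sp) [[1]] [[1]] = true := by decide +kernel

theorem F4S_p1_14 : pcAll 280 F4S_A N4S_degs (chunk 10 1 N4S_r) 280 N4S_cols (N4S_r.drop 10) [[1]]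
    (chunk 2 14 N4S_sp) [[1]] [[1]] = true := by decide +kernel

theorem F4S_p1_15 : pcAll 280 F4S_A N4S_degs (chunk 10 1 N4S_r) 280 N4S_cols (N4S_r.drop 10) [[1]]
    (chunk 2 15 N4S_sp) [[1]] [[1]] = true := by decide +kernel

theorem F4S_p1_16 : pcAll 280 F4S_A N4S_degs (chunk 10 1 N4S_r) 280 N4S_cols (N4S_r.drop 10) [[1]]
    (chunk 2 16 N4S_sp) [[1]] [[1]] = true := by decide +kernel

theorem F4S_p1_17 : pcAll 280 F4S_A N4S_degs (chunk 10 1 N4S_r) 280 N4S_cols (N4S_r.drop 10) [[1]]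
    (chunk 2 17 N4S_sp) [[1]] [[1]] = true := by decide +kernel

theorem F4S_p1_18 : pcAll 280 F4S_A N4S_degs (chunk 10 1 N4S_r) 280 N4S_cols (N4S_r.drop 10) [[1]]
    (chunk 2 18 N4S_sp) [[1]] [[1]] = true := by decide +kernel

theorem F4S_p1_19 : pcAll 280 F4S_A N4S_degs (chunk 10 1 N4S_r) 280 N4S_cols (N4S_r.drop 10) [[1]]
    (chunk 2 19 N4S_sp) [[1]] [[1]] = true := by decide +kernel


end Crest.Agent.R163.Ck
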