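import Crest.Agent.R163.F4SD

/-! Row 163: kernel checks (generated). -/

set_option autoImplicit false
set_option Elab.async false
set_option maxRecDepth 100000

namespace Crest.Agent.R163.Ck

theorem F4S_p1_20 : pcAll 280 F4S_A N4S_degs (chunk 10 1 N4S_r) 280 N4S_cols (N4S_r.drop 10) [[1]]
    (chunk 2 20 N4S_sp) [[1]] [[1]] = true := by decide +kernel

theorem F4S_p1_21 : pcAll 280 F4S_A N4S_degs (chunk 10 1 N4S_r) 280 N4S_cols (N4S_r.drop 10) [[1]]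
    (chunk 2 21 N4S_sp) [[1]] [[1]] = true := by decide +kernel

theorem F4S_p1_22 : pcAll 280 F4S_A N4S_degs (chunk 10 1 N4S_r) 280 N4S_cols (N4S_r.drop 10) [[1]]
    (chunk 2 22 N4S_sp) [[1]] [[1]] = true := by decide +kernel

theorem F4S_p1_23 : pcAll 280 F4S_A N4S_degs (chunk 10 1 N4S_r) 280 N4S_cols (N4S_r.drop 10) [[1]]
    (chunk 2 23 N4S_sp) [[1]] [[1]] = true := by decide +kernel

theorem F4S_p1_24 : pcAll 280 F4S_A N4S_degs (chunk 10 1 N4S_r) 280 N4S_cols (N4S_r.drop 10) [[1]]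
    (chunk 2 24 N4S_sp) [[1]] [[1]] = true := by decide +kernel

theorem F4S_p1_25 : pcAll 280 F4S_A N4S_degs (chunk 10 1 N4S_r) 280 N4S_cols (N4S_r.drop 10) [[1]]
    (chunk 2 25 N4S_sp) [[1]] [[1]] = true := by decide +kernel

theorem F4S_p1_26 : pcAll 280 F4S_A N4S_degs (chunk 10 1 N4S_r) 280 N4S_cols (N4S_r.drop 10) [[1]]
    (chunk 2 26 N4S_sp) [[1]] [[1]] = true := by decide +kernel

theorem F4S_p1_27 : pcAll 280 F4S_A N4S_degs (chunk 10 1 N4S_r) 280 N4S_cols (N4S_r.drop 10) [[1]]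
    (chunk 2 27 N4S_sp) [[1]] [[1]] = true := by decide +kernel

theorem F4S_p1_28 : pcAll 280 F4S_A N4S_degs (chunk 10 1 N4S_r) 280 N4S_cols (N4S_r.drop 10) [[1]]
    (chunk 2 28 N4S_sp) [[1]] [[1]] = true := by decide +kernel

theorem F4S_p1_29 : pcAll 280 F4S_A N4S_degs (chunk 10 1 N4S_r) 280 N4S_cols (N4S_r.drop 10) [[1]]
    (chunk 2 29 N4S_sp) [[1]] [[1]] = true := by decide +kernel

theorem F4S_p1_30 : pcAll 280 F4S_A N4S_degs (chunk 10 1 N4S_r) 280 N4S_cols (N4S_r.drop 10) [[1]]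
    (chunk 2 30 N4S_sp) [[1]] [[1]] = true := by decide +kernel

theorem F4S_p1_31 : pcAll 280 F4S_A N4S_degs (chunk 10 1 N4S_r) 280 N4S_cols (N4S_r.drop 10) [[1]]
    (chunk 2 31 N4S_sp) [[1]] [[1]] = true := by decide +kernel

theorem F4S_p1_32 : pcAll 280 F4S_A N4S_degs (chunk 10 1 N4S_r) 280 N4S_cols (N4S_r.drop 10) [[1]]
    (chunk 2 32 N4S_sp) [[1]] [[1]] = true := by decide +kernel

theorem F4S_p1_33 : pcAll 280 F4S_A N4S_degs (chunk 10 1 N4S_r) 280 N4S_cols (N4S_r.drop 10) [[1]]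
    (chunk 2 33 N4S_sp) [[1]] [[1]] = true := by decide +kernel

theorem F4S_p1_34 : pcAll 280 F4S_A N4S_degs (chunk 10 1 N4S_r) 280 N4S_cols (N4S_r.drop 10) [[1]]
    (chunk 2 34 N4S_sp) [[1]] [[1]] = true := by decide +kernel

theorem F4S_p1_35 : pcAll 280 F4S_A N4S_degs (chunk 10 1 N4S_r) 280 N4S_cols (N4S_r.drop 10) [[1]]
    (chunk 2 35 N4S_sp) [[1]] [[1]] = true := by decide +kernel

theorem F4S_p1_36 : pcAll 280 F4S_A N4S_degs (chunk 10 1 N4S_r) 280 N4S_cols (N4S_r.drop 10) [[1]]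
    (chunk 2 36 N4S_sp) [[1]] [[1]] = true := by decide +kernel

theorem F4S_p1_37 : pcAll 280 F4S_A N4S_degs (chunk 10 1 N4S_r) 280 N4S_cols (N4S_r.drop 10) [[1]]
    (chunk 2 37 N4S_sp) [[1]] [[1]] = true := by decide +kernel

theorem F4S_p1_38 : pcAll 280 F4S_A N4S_degs (chunk 10 1 N4S_r) 280 N4S_cols (N4S_r.drop 10) [[1]]
    (chunk 2 38 N4S_sp) [[1]] [[1]] = true := by decide +kernel

theorem F4S_p1_39 : pcAll 280 F4S_A N4S_degs (chunk 10 1 N4S_r) 280 N4S_cols (N4S_r.drop 10) [[1]]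
    (chunk 2 39 N4S_sp) [[1]] [[1]] = true := by decide +kernel

theorem F4S_p1_40 : pcAll 280 F4S_A N4S_degs (chunk 10 1 N4S_r) 280 N4S_cols (N4S_r.drop 10) [[1]]
    (chunk 2 40 N4S_sp) [[1]] [[1]] = true := by decide +kernel

theorem F4S_p1_41 : pcAll 280 F4S_A N4S_degs (chunk 10 1 N4S_r) 280 N4S_cols (N4S_r.drop 10) [[1]]
    (chunk 2 41 N4S_sp) [[1]] [[1]] = true := by decide +kernel

theorem F4S_p1_42 : pcAll 280 F4S_A N4S_degs (chunk 10 1 N4S_r) 280 N4S_cols (N4S_r.drop 10) [[1]]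
    (chunk 2 42 N4S_sp) [[1]] [[1]] = true := by decide +kernel

theorem F4S_p1_43 : pcAll 280 F4S_A N4S_degs (chunk 10 1 N4S_r) 280 N4S_cols (N4S_r.drop 10) [[1]]
    (chunk 2 43 N4S_sp) [[1]] [[1]] = true := by decide +kernel

theorem F4S_p1_44 : pcAll 280 F4S_A N4S_degs (chunk 10 1 N4S_r) 280 N4S_cols (N4S_r.drop 10) [[1]]
    (chunk 2 44 N4S_sp) [[1]] [[1]] = true := by decide +kernel

theorem F4S_p1_45 : pcAll 280 F4S_A N4S_degs (chunk 10 1 N4S_r) 280 N4S_cols (N4S_r.drop 10) [[1]]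
    (chunk 2 45 N4S_sp) [[1]] [[1]] = true := by decide +kernel

theorem F4S_p1_46 : pcAll 280 F4S_A N4S_degs (chunk 10 1 N4S_r) 280 N4S_cols (N4S_r.drop 10) [[1]]
    (chunk 2 46 N4S_sp) [[1]] [[1]] = true := by decide +kernel

theorem F4S_p1_47 : pcAll 280 F4S_A N4S_degs (chunk 10 1 N4S_r) 280 N4S_cols (N4S_r.drop 10) [[1]]
    (chunk 2 47 N4S_sp) [[1]] [[1]] = true := by decide +kernel

theorem F4S_p1_48 : pcAll 280 F4S_A N4S_degs (chunk 10 1 N4S_r) 280 N4S_cols (N4S_r.drop 10) [[1]]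
    (chunk 2 48 N4S_sp) [[1]] [[1]] = true := by decide +kernel

theorem F4S_p1_49 : pcAll 280 F4S_A N4S_degs (chunk 10 1 N4S_r) 280 N4S_cols (N4S_r.drop 10) [[1]]
    (chunk 2 49 N4S_sp) [[1]] [[1]] = true := by decide +kernel

theorem F4S_p1_50 : pcAll 280 F4S_A N4S_degs (chunk 10 1 N4S_r) 280 N4S_cols (N4S_r.drop 10) [[1]]
    (chunk 2 50 N4S_sp) [[1]] [[1]] = true := by decide +kernel

theorem F4S_p1_51 : pcAll 280 F4S_A N4S_degs (chunk 10 1 N4S_r) 280 N4S_cols (N4S_r.drop 10) [[1]]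
    (chunk 2 51 N4S_sp) [[1]] [[1]] = true := by decide +kernel

theorem F4S_p1_52 : pcAll 280 F4S_A N4S_degs (chunk 10 1 N4S_r) 280 N4S_cols (N4S_r.drop 10) [[1]]
    (chunk 2 52 N4S_sp) [[1]] [[1]] = true := by decide +kernel

theorem F4S_p1_53 : pcAll 280 F4S_A N4S_degs (chunk 10 1 N4S_r) 280 N4S_cols (N4S_r.drop 10) [[1]]
    (chunk 2 53 N4S_sp) [[1]] [[1]] = true := by decide +kernel

theorem F4S_p1_54 : pcAll 280 F4S_A N4S_degs (chunk 10 1 N4S_r) 280 N4S_cols (N4S_r.drop 10) [[1]]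
    (chunk 2 54 N4S_sp) [[1]] [[1]] = true := by decide +kernel

theorem F4S_p1_55 : pcAll 280 F4S_A N4S_degs (chunk 10 1 N4S_r) 280 N4S_cols (N4S_r.drop 10) [[1]]
    (chunk 2 55 N4S_sp) [[1]] [[1]] = true := by decide +kernel

theorem F4S_p1_56 : pcAll 280 F4S_A N4S_degs (chunk 10 1 N4S_r) 280 N4S_cols (N4S_r.drop 10) [[1]]
    (chunk 2 56 N4S_sp) [[1]] [[1]] = true := by decide +kernel

theorem F4S_p1_57 : pcAll 280 F4S_A N4S_degs (chunk 10 1 N4S_r) 280 N4S_cols (N4S_r.drop 10) [[1]]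
    (chunk 2 57 N4S_sp) [[1]] [[1]] = true := by decide +kernel

theorem F4S_p1_58 : pcAll 280 F4S_A N4S_degs (chunk 10 1 N4S_r) 280 N4S_cols (N4S_r.drop 10) [[1]]
    (chunk 2 58 N4S_sp) [[1]] [[1]] = true := by decide +kernel

theorem F4S_p1_59 : pcAll 280 F4S_A N4S_degs (chunk 10 1 N4S_r) 280 N4S_cols (N4S_r.drop 10) [[1]]
    (chunk 2 59 N4S_sp) [[1]] [[1]] = true := by decide +kernel


end Crest.Agent.R163.Ck
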