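import Crest.Agent.R163.F4SD

/-! Row 163: kernel checks (generated). -/

set_option autoImplicit false
set_option Elab.async false
set_option maxRecDepth 100000

namespace Crest.Agent.R163.Ck

theorem F4S_p1_60 : pcAll 280 F4S_A N4S_degs (chunk 10 1 N4S_r) 280 N4S_cols (N4S_r.drop 10) [[1]]
    (chunk 2 60 N4S_sp) [[1]] [[1]] = true := by decide +kernel

theorem F4S_p1_61 : pcAll 280 F4S_A N4S_degs (chunk 10 1 N4S_r) 280 N4S_cols (N4S_r.drop 10) [[1]]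
    (chunk 2 61 N4S_sp) [[1]] [[1]] = true := by decide +kernel

theorem F4S_p1_62 : pcAll 280 F4S_A N4S_degs (chunk 10 1 N4S_r) 280 N4S_cols (N4S_r.drop 10) [[1]]
    (chunk 2 62 N4S_sp) [[1]] [[1]] = true := by decide +kernel

theorem F4S_p1_63 : pcAll 280 F4S_A N4S_degs (chunk 10 1 N4S_r) 280 N4S_cols (N4S_r.drop 10) [[1]]
    (chunk 2 63 N4S_sp) [[1]] [[1]] = true := by decide +kernel

theorem F4S_p1_64 : pcAll 280 F4S_A N4S_degs (chunk 10 1 N4S_r) 280 N4S_cols (N4S_r.drop 10) [[1]]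
    (chunk 2 64 N4S_sp) [[1]] [[1]] = true := by decide +kernel

theorem F4S_p1_65 : pcAll 280 F4S_A N4S_degs (chunk 10 1 N4S_r) 280 N4S_cols (N4S_r.drop 10) [[1]]
    (chunk 2 65 N4S_sp) [[1]] [[1]] = true := by decide +kernel

theorem F4S_p1_66 : pcAll 280 F4S_A N4S_degs (chunk 10 1 N4S_r) 280 N4S_cols (N4S_r.drop 10) [[1]]
    (chunk 2 66 N4S_sp) [[1]] [[1]] = true := by decide +kernel

theorem F4S_p1_67 : pcAll 280 F4S_A N4S_degs (chunk 10 1 N4S_r) 280 N4S_cols (N4S_r.drop 10) [[1]]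
    (chunk 2 67 N4S_sp) [[1]] [[1]] = true := by decide +kernel

theorem F4S_p1_68 : pcAll 280 F4S_A N4S_degs (chunk 10 1 N4S_r) 280 N4S_cols (N4S_r.drop 10) [[1]]
    (chunk 2 68 N4S_sp) [[1]] [[1]] = true := by decide +kernel

theorem F4S_p1_69 : pcAll 280 F4S_A N4S_degs (chunk 10 1 N4S_r) 280 N4S_cols (N4S_r.drop 10) [[1]]
    (chunk 2 69 N4S_sp) [[1]] [[1]] = true := by decide +kernel

theorem F4S_p1_70 : pcAll 280 F4S_A N4S_degs (chunk 10 1 N4S_r) 280 N4S_cols (N4S_r.drop 10) [[1]]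
    (chunk 2 70 N4S_sp) [[1]] [[1]] = true := by decide +kernel

theorem F4S_p1_71 : pcAll 280 F4S_A N4S_degs (chunk 10 1 N4S_r) 280 N4S_cols (N4S_r.drop 10) [[1]]
    (chunk 2 71 N4S_sp) [[1]] [[1]] = true := by decide +kernel

theorem F4S_p1_72 : pcAll 280 F4S_A N4S_degs (chunk 10 1 N4S_r) 280 N4S_cols (N4S_r.drop 10) [[1]]
    (chunk 2 72 N4S_sp) [[1]] [[1]] = true := by decide +kernel

theorem F4S_p1_73 : pcAll 280 F4S_A N4S_degs (chunk 10 1 N4S_r) 280 N4S_cols (N4S_r.drop 10) [[1]]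
    (chunk 2 73 N4S_sp) [[1]] [[1]] = true := by decide +kernel

theorem F4S_p1_74 : pcAll 280 F4S_A N4S_degs (chunk 10 1 N4S_r) 280 N4S_cols (N4S_r.drop 10) [[1]]
    (chunk 2 74 N4S_sp) [[1]] [[1]] = true := by decide +kernel

theorem F4S_p1_75 : pcAll 280 F4S_A N4S_degs (chunk 10 1 N4S_r) 280 N4S_cols (N4S_r.drop 10) [[1]]
    (chunk 2 75 N4S_sp) [[1]] [[1]] = true := by decide +kernel

theorem F4S_p1_76 : pcAll 280 F4S_A N4S_degs (chunk 10 1 N4S_r) 280 N4S_cols (N4S_r.drop 10) [[1]]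
    (chunk 2 76 N4S_sp) [[1]] [[1]] = true := by decide +kernel

theorem F4S_p1_77 : pcAll 280 F4S_A N4S_degs (chunk 10 1 N4S_r) 280 N4S_cols (N4S_r.drop 10) [[1]]
    (chunk 2 77 N4S_sp) [[1]] [[1]] = true := by decide +kernel

theorem F4S_p1_78 : pcAll 280 F4S_A N4S_degs (chunk 10 1 N4S_r) 280 N4S_cols (N4S_r.drop 10) [[1]]
    (chunk 2 78 N4S_sp) [[1]] [[1]] = true := by decide +kernel

theorem F4S_p1_79 : pcAll 280 F4S_A N4S_degs (chunk 10 1 N4S_r) 280 N4S_cols (N4S_r.drop 10) [[1]]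
    (chunk 2 79 N4S_sp) [[1]] [[1]] = true := by decide +kernel

theorem F4S_p1_80 : pcAll 280 F4S_A N4S_degs (chunk 10 1 N4S_r) 280 N4S_cols (N4S_r.drop 10) [[1]]
    (chunk 2 80 N4S_sp) [[1]] [[1]] = true := by decide +kernel

theorem F4S_p1_81 : pcAll 280 F4S_A N4S_degs (chunk 10 1 N4S_r) 280 N4S_cols (N4S_r.drop 10) [[1]]
    (chunk 2 81 N4S_sp) [[1]] [[1]] = true := by decide +kernel

theorem F4S_p1_82 : pcAll 280 F4S_A N4S_degs (chunk 10 1 N4S_r) 280 N4S_cols (N4S_r.drop 10) [[1]]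
    (chunk 2 82 N4S_sp) [[1]] [[1]] = true := by decide +kernel

theorem F4S_p1_83 : pcAll 280 F4S_A N4S_degs (chunk 10 1 N4S_r) 280 N4S_cols (N4S_r.drop 10) [[1]]
    (chunk 2 83 N4S_sp) [[1]] [[1]] = true := by decide +kernel

theorem F4S_p1_84 : pcAll 280 F4S_A N4S_degs (chunk 10 1 N4S_r) 280 N4S_cols (N4S_r.drop 10) [[1]]
    (chunk 2 84 N4S_sp) [[1]] [[1]] = true := by decide +kernel

theorem F4S_p1_85 : pcAll 280 F4S_A N4S_degs (chunk 10 1 N4S_r) 280 N4S_cols (N4S_r.drop 10) [[1]]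
    (chunk 2 85 N4S_sp) [[1]] [[1]] = true := by decide +kernel

theorem F4S_p1_86 : pcAll 280 F4S_A N4S_degs (chunk 10 1 N4S_r) 280 N4S_cols (N4S_r.drop 10) [[1]]
    (chunk 2 86 N4S_sp) [[1]] [[1]] = true := by decide +kernel

theorem F4S_p1_87 : pcAll 280 F4S_A N4S_degs (chunk 10 1 N4S_r) 280 N4S_cols (N4S_r.drop 10) [[1]]
    (chunk 2 87 N4S_sp) [[1]] [[1]] = true := by decide +kernel

theorem F4S_p1_88 : pcAll 280 F4S_A N4S_degs (chunk 10 1 N4S_r) 280 N4S_cols (N4S_r.drop 10) [[1]]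
    (chunk 2 88 N4S_sp) [[1]] [[1]] = true := by decide +kernel

theorem F4S_p1_89 : pcAll 280 F4S_A N4S_degs (chunk 10 1 N4S_r) 280 N4S_cols (N4S_r.drop 10) [[1]]
    (chunk 2 89 N4S_sp) [[1]] [[1]] = true := by decide +kernel

theorem F4S_p1_90 : pcAll 280 F4S_A N4S_degs (chunk 10 1 N4S_r) 280 N4S_cols (N4S_r.drop 10) [[1]]
    (chunk 2 90 N4S_sp) [[1]] [[1]] = true := by decide +kernel

theorem F4S_p1_91 : pcAll 280 F4S_A N4S_degs (chunk 10 1 N4S_r) 280 N4S_cols (N4S_r.drop 10) [[1]]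
    (chunk 2 91 N4S_sp) [[1]] [[1]] = true := by decide +kernel

theorem F4S_p1_92 : pcAll 280 F4S_A N4S_degs (chunk 10 1 N4S_r) 280 N4S_cols (N4S_r.drop 10) [[1]]
    (chunk 2 92 N4S_sp) [[1]] [[1]] = true := by decide +kernel

theorem F4S_p1_93 : pcAll 280 F4S_A N4S_degs (chunk 10 1 N4S_r) 280 N4S_cols (N4S_r.drop 10) [[1]]
    (chunk 2 93 N4S_sp) [[1]] [[1]] = true := by decide +kernel

theorem F4S_p1_94 : pcAll 280 F4S_A N4S_degs (chunk 10 1 N4S_r) 280 N4S_cols (N4S_r.drop 10) [[1]]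
    (chunk 2 94 N4S_sp) [[1]] [[1]] = true := by decide +kernel

theorem F4S_p1_95 : pcAll 280 F4S_A N4S_degs (chunk 10 1 N4S_r) 280 N4S_cols (N4S_r.drop 10) [[1]]
    (chunk 2 95 N4S_sp) [[1]] [[1]] = true := by decide +kernel

theorem F4S_p1_96 : pcAll 280 F4S_A N4S_degs (chunk 10 1 N4S_r) 280 N4S_cols (N4S_r.drop 10) [[1]]
    (chunk 2 96 N4S_sp) [[1]] [[1]] = true := by decide +kernel

theorem F4S_p1_97 : pcAll 280 F4S_A N4S_degs (chunk 10 1 N4S_r) 280 N4S_cols (N4S_r.drop 10) [[1]]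
    (chunk 2 97 N4S_sp) [[1]] [[1]] = true := by decide +kernel

theorem F4S_p1_98 : pcAll 280 F4S_A N4S_degs (chunk 10 1 N4S_r) 280 N4S_cols (N4S_r.drop 10) [[1]]
    (chunk 2 98 N4S_sp) [[1]] [[1]] = true := by decide +kernel

theorem F4S_p1_99 : pcAll 280 F4S_A N4S_degs (chunk 10 1 N4S_r) 280 N4S_cols (N4S_r.drop 10) [[1]]
    (chunk 2 99 N4S_sp) [[1]] [[1]] = true := by decide +kernel


end Crest.Agent.R163.Ck
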