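import Crest.Agent.R163.F4SD

/-! Row 163: kernel checks (generated). -/

set_option autoImplicit false
set_option Elab.async false
set_option maxRecDepth 100000

namespace Crest.Agent.R163.Ck

theorem F4S_p1_100 : pcAll 280 F4S_A N4S_degs (chunk 10 1 N4S_r) 280 N4S_cols (N4S_r.drop 10) [[1]]
    (chunk 2 100 N4S_sp) [[1]] [[1]] = true := by decide +kernel

theorem F4S_p1_101 : pcAll 280 F4S_A N4S_degs (chunk 10 1 N4S_r) 280 N4S_cols (N4S_r.drop 10) [[1]]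
    (chunk 2 101 N4S_sp) [[1]] [[1]] = true := by decide +kernel

theorem F4S_p1_102 : pcAll 280 F4S_A N4S_degs (chunk 10 1 N4S_r) 280 N4S_cols (N4S_r.drop 10) [[1]]
    (chunk 2 102 N4S_sp) [[1]] [[1]] = true := by decide +kernel

theorem F4S_p1_103 : pcAll 280 F4S_A N4S_degs (chunk 10 1 N4S_r) 280 N4S_cols (N4S_r.drop 10) [[1]]
    (chunk 2 103 N4S_sp) [[1]] [[1]] = true := by decide +kernel

theorem F4S_p1_104 : pcAll 280 F4S_A N4S_degs (chunk 10 1 N4S_r) 280 N4S_cols (N4S_r.drop 10) [[1]]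
    (chunk 2 104 N4S_sp) [[1]] [[1]] = true := by decide +kernel

theorem F4S_p1_105 : pcAll 280 F4S_A N4S_degs (chunk 10 1 N4S_r) 280 N4S_cols (N4S_r.drop 10) [[1]]
    (chunk 2 105 N4S_sp) [[1]] [[1]] = true := by decide +kernel

theorem F4S_p1_106 : pcAll 280 F4S_A N4S_degs (chunk 10 1 N4S_r) 280 N4S_cols (N4S_r.drop 10) [[1]]
    (chunk 2 106 N4S_sp) [[1]] [[1]] = true := by decide +kernel

theorem F4S_p1_107 : pcAll 280 F4S_A N4S_degs (chunk 10 1 N4S_r) 280 N4S_cols (N4S_r.drop 10) [[1]]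
    (chunk 2 107 N4S_sp) [[1]] [[1]] = true := by decide +kernel

theorem F4S_p1_108 : pcAll 280 F4S_A N4S_degs (chunk 10 1 N4S_r) 280 N4S_cols (N4S_r.drop 10) [[1]]
    (chunk 2 108 N4S_sp) [[1]] [[1]] = true := by decide +kernel

theorem F4S_p1_109 : pcAll 280 F4S_A N4S_degs (chunk 10 1 N4S_r) 280 N4S_cols (N4S_r.drop 10) [[1]]
    (chunk 2 109 N4S_sp) [[1]] [[1]] = true := by decide +kernel

theorem F4S_p1_110 : pcAll 280 F4S_A N4S_degs (chunk 10 1 N4S_r) 280 N4S_cols (N4S_r.drop 10) [[1]]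
    (chunk 2 110 N4S_sp) [[1]] [[1]] = true := by decide +kernel

theorem F4S_p1_111 : pcAll 280 F4S_A N4S_degs (chunk 10 1 N4S_r) 280 N4S_cols (N4S_r.drop 10) [[1]]
    (chunk 2 111 N4S_sp) [[1]] [[1]] = true := by decide +kernel

theorem F4S_p1_112 : pcAll 280 F4S_A N4S_degs (chunk 10 1 N4S_r) 280 N4S_cols (N4S_r.drop 10) [[1]]
    (chunk 2 112 N4S_sp) [[1]] [[1]] = true := by decide +kernel

theorem F4S_p1_113 : pcAll 280 F4S_A N4S_degs (chunk 10 1 N4S_r) 280 N4S_cols (N4S_r.drop 10) [[1]]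
    (chunk 2 113 N4S_sp) [[1]] [[1]] = true := by decide +kernel

theorem F4S_p1_114 : pcAll 280 F4S_A N4S_degs (chunk 10 1 N4S_r) 280 N4S_cols (N4S_r.drop 10) [[1]]
    (chunk 2 114 N4S_sp) [[1]] [[1]] = true := by decide +kernel

theorem F4S_p1_115 : pcAll 280 F4S_A N4S_degs (chunk 10 1 N4S_r) 280 N4S_cols (N4S_r.drop 10) [[1]]
    (chunk 2 115 N4S_sp) [[1]] [[1]] = true := by decide +kernel

theorem F4S_p1_116 : pcAll 280 F4S_A N4S_degs (chunk 10 1 N4S_r) 280 N4S_cols (N4S_r.drop 10) [[1]]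
    (chunk 2 116 N4S_sp) [[1]] [[1]] = true := by decide +kernel

theorem F4S_p1_117 : pcAll 280 F4S_A N4S_degs (chunk 10 1 N4S_r) 280 N4S_cols (N4S_r.drop 10) [[1]]
    (chunk 2 117 N4S_sp) [[1]] [[1]] = true := by decide +kernel

theorem F4S_p1_118 : pcAll 280 F4S_A N4S_degs (chunk 10 1 N4S_r) 280 N4S_cols (N4S_r.drop 10) [[1]]
    (chunk 2 118 N4S_sp) [[1]] [[1]] = true := by decide +kernel

theorem F4S_p1_119 : pcAll 280 F4S_A N4S_degs (chunk 10 1 N4S_r) 280 N4S_cols (N4S_r.drop 10) [[1]]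
    (chunk 2 119 N4S_sp) [[1]] [[1]] = true := by decide +kernel

theorem F4S_p1_120 : pcAll 280 F4S_A N4S_degs (chunk 10 1 N4S_r) 280 N4S_cols (N4S_r.drop 10) [[1]]
    (chunk 2 120 N4S_sp) [[1]] [[1]] = true := by decide +kernel

theorem F4S_p1_121 : pcAll 280 F4S_A N4S_degs (chunk 10 1 N4S_r) 280 N4S_cols (N4S_r.drop 10) [[1]]
    (chunk 2 121 N4S_sp) [[1]] [[1]] = true := by decide +kernel

theorem F4S_p1_122 : pcAll 280 F4S_A N4S_degs (chunk 10 1 N4S_r) 280 N4S_cols (N4S_r.drop 10) [[1]]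
    (chunk 2 122 N4S_sp) [[1]] [[1]] = true := by decide +kernel

theorem F4S_p1_123 : pcAll 280 F4S_A N4S_degs (chunk 10 1 N4S_r) 280 N4S_cols (N4S_r.drop 10) [[1]]
    (chunk 2 123 N4S_sp) [[1]] [[1]] = true := by decide +kernel

theorem F4S_p1_124 : pcAll 280 F4S_A N4S_degs (chunk 10 1 N4S_r) 280 N4S_cols (N4S_r.drop 10) [[1]]
    (chunk 2 124 N4S_sp) [[1]] [[1]] = true := by decide +kernel

theorem F4S_p1_125 : pcAll 280 F4S_A N4S_degs (chunk 10 1 N4S_r) 280 N4S_cols (N4S_r.drop 10) [[1]]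
    (chunk 2 125 N4S_sp) [[1]] [[1]] = true := by decide +kernel

theorem F4S_p1_126 : pcAll 280 F4S_A N4S_degs (chunk 10 1 N4S_r) 280 N4S_cols (N4S_r.drop 10) [[1]]
    (chunk 2 126 N4S_sp) [[1]] [[1]] = true := by decide +kernel

theorem F4S_p1_127 : pcAll 280 F4S_A N4S_degs (chunk 10 1 N4S_r) 280 N4S_cols (N4S_r.drop 10) [[1]]
    (chunk 2 127 N4S_sp) [[1]] [[1]] = true := by decide +kernel

theorem F4S_p1_128 : pcAll 280 F4S_A N4S_degs (chunk 10 1 N4S_r) 280 N4S_cols (N4S_r.drop 10) [[1]]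
    (chunk 2 128 N4S_sp) [[1]] [[1]] = true := by decide +kernel

theorem F4S_p1_129 : pcAll 280 F4S_A N4S_degs (chunk 10 1 N4S_r) 280 N4S_cols (N4S_r.drop 10) [[1]]
    (chunk 2 129 N4S_sp) [[1]] [[1]] = true := by decide +kernel

theorem F4S_p1_130 : pcAll 280 F4S_A N4S_degs (chunk 10 1 N4S_r) 280 N4S_cols (N4S_r.drop 10) [[1]]
    (chunk 2 130 N4S_sp) [[1]] [[1]] = true := by decide +kernel

theorem F4S_p1_131 : pcAll 280 F4S_A N4S_degs (chunk 10 1 N4S_r) 280 N4S_cols (N4S_r.drop 10) [[1]]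
    (chunk 2 131 N4S_sp) [[1]] [[1]] = true := by decide +kernel

theorem F4S_p1_132 : pcAll 280 F4S_A N4S_degs (chunk 10 1 N4S_r) 280 N4S_cols (N4S_r.drop 10) [[1]]
    (chunk 2 132 N4S_sp) [[1]] [[1]] = true := by decide +kernel

theorem F4S_p1_133 : pcAll 280 F4S_A N4S_degs (chunk 10 1 N4S_r) 280 N4S_cols (N4S_r.drop 10) [[1]]
    (chunk 2 133 N4S_sp) [[1]] [[1]] = true := by decide +kernel

theorem F4S_p1_134 : pcAll 280 F4S_A N4S_degs (chunk 10 1 N4S_r) 280 N4S_cols (N4S_r.drop 10) [[1]]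
    (chunk 2 134 N4S_sp) [[1]] [[1]] = true := by decide +kernel

theorem F4S_p1_135 : pcAll 280 F4S_A N4S_degs (chunk 10 1 N4S_r) 280 N4S_cols (N4S_r.drop 10) [[1]]
    (chunk 2 135 N4S_sp) [[1]] [[1]] = true := by decide +kernel

theorem F4S_p1_136 : pcAll 280 F4S_A N4S_degs (chunk 10 1 N4S_r) 280 N4S_cols (N4S_r.drop 10) [[1]]
    (chunk 2 136 N4S_sp) [[1]] [[1]] = true := by decide +kernel

theorem F4S_p1_137 : pcAll 280 F4S_A N4S_degs (chunk 10 1 N4S_r) 280 N4S_cols (N4S_r.drop 10) [[1]]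
    (chunk 2 137 N4S_sp) [[1]] [[1]] = true := by decide +kernel

theorem F4S_p1_138 : pcAll 280 F4S_A N4S_degs (chunk 10 1 N4S_r) 280 N4S_cols (N4S_r.drop 10) [[1]]
    (chunk 2 138 N4S_sp) [[1]] [[1]] = true := by decide +kernel

theorem F4S_p1_139 : pcAll 280 F4S_A N4S_degs (chunk 10 1 N4S_r) 280 N4S_cols (N4S_r.drop 10) [[1]]
    (chunk 2 139 N4S_sp) [[1]] [[1]] = true := by decide +kernel


end Crest.Agent.R163.Ck
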