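import Crest.Agent.R163.F4SD

/-! Row 163: kernel checks (generated). -/

set_option autoImplicit false
set_option Elab.async false
set_option maxRecDepth 100000

namespace Crest.Agent.R163.Ck

theorem F4S_p2_0 : pcAll 280 F4S_A N4S_degs (chunk 10 2 N4S_r) 280 N4S_cols (N4S_r.drop 20) [[1]]
    (chunk 3 0 N4S_sp) [[1]] [[1]] = true := by decide +kernel

theorem F4S_p2_1 : pcAll 280 F4S_A N4S_degs (chunk 10 2 N4S_r) 280 N4S_cols (N4S_r.drop 20) [[1]]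
    (chunk 3 1 N4S_sp) [[1]] [[1]] = true := by decide +kernel

theorem F4S_p2_2 : pcAll 280 F4S_A N4S_degs (chunk 10 2 N4S_r) 280 N4S_cols (N4S_r.drop 20) [[1]]
    (chunk 3 2 N4S_sp) [[1]] [[1]] = true := by decide +kernel

theorem F4S_p2_3 : pcAll 280 F4S_A N4S_degs (chunk 10 2 N4S_r) 280 N4S_cols (N4S_r.drop 20) [[1]]
    (chunk 3 3 N4S_sp) [[1]] [[1]] = true := by decide +kernel

theorem F4S_p2_4 : pcAll 280 F4S_A N4S_degs (chunk 10 2 N4S_r) 280 N4S_cols (N4S_r.drop 20) [[1]]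
    (chunk 3 4 N4S_sp) [[1]] [[1]] = true := by decide +kernel

theorem F4S_p2_5 : pcAll 280 F4S_A N4S_degs (chunk 10 2 N4S_r) 280 N4S_cols (N4S_r.drop 20) [[1]]
    (chunk 3 5 N4S_sp) [[1]] [[1]] = true := by decide +kernel

theorem F4S_p2_6 : pcAll 280 F4S_A N4S_degs (chunk 10 2 N4S_r) 280 N4S_cols (N4S_r.drop 20) [[1]]
    (chunk 3 6 N4S_sp) [[1]] [[1]] = true := by decide +kernel

theorem F4S_p2_7 : pcAll 280 F4S_A N4S_degs (chunk 10 2 N4S_r) 280 N4S_cols (N4S_r.drop 20) [[1]]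
    (chunk 3 7 N4S_sp) [[1]] [[1]] = true := by decide +kernel

theorem F4S_p2_8 : pcAll 280 F4S_A N4S_degs (chunk 10 2 N4S_r) 280 N4S_cols (N4S_r.drop 20) [[1]]
    (chunk 3 8 N4S_sp) [[1]] [[1]] = true := by decide +kernel

theorem F4S_p2_9 : pcAll 280 F4S_A N4S_degs (chunk 10 2 N4S_r) 280 N4S_cols (N4S_r.drop 20) [[1]]
    (chunk 3 9 N4S_sp) [[1]] [[1]] = true := by decide +kernel

theorem F4S_p2_10 : pcAll 280 F4S_A N4S_degs (chunk 10 2 N4S_r) 280 N4S_cols (N4S_r.drop 20) [[1]]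
    (chunk 3 10 N4S_sp) [[1]] [[1]] = true := by decide +kernel

theorem F4S_p2_11 : pcAll 280 F4S_A N4S_degs (chunk 10 2 N4S_r) 280 N4S_cols (N4S_r.drop 20) [[1]]
    (chunk 3 11 N4S_sp) [[1]] [[1]] = true := by decide +kernel

theorem F4S_p2_12 : pcAll 280 F4S_A N4S_degs (chunk 10 2 N4S_r) 280 N4S_cols (N4S_r.drop 20) [[1]]
    (chunk 3 12 N4S_sp) [[1]] [[1]] = true := by decide +kernel

theorem F4S_p2_13 : pcAll 280 F4S_A N4S_degs (chunk 10 2 N4S_r) 280 N4S_cols (N4S_r.drop 20) [[1]]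
    (chunk 3 13 N4S_sp) [[1]] [[1]] = true := by decide +kernel

theorem F4S_p2_14 : pcAll 280 F4S_A N4S_degs (chunk 10 2 N4S_r) 280 N4S_cols (N4S_r.drop 20) [[1]]
    (chunk 3 14 N4S_sp) [[1]] [[1]] = true := by decide +kernel

theorem F4S_p2_15 : pcAll 280 F4S_A N4S_degs (chunk 10 2 N4S_r) 280 N4S_cols (N4S_r.drop 20) [[1]]
    (chunk 3 15 N4S_sp) [[1]] [[1]] = true := by decide +kernel

theorem F4S_p2_16 : pcAll 280 F4S_A N4S_degs (chunk 10 2 N4S_r) 280 N4S_cols (N4S_r.drop 20) [[1]]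
    (chunk 3 16 N4S_sp) [[1]] [[1]] = true := by decide +kernel

theorem F4S_p2_17 : pcAll 280 F4S_A N4S_degs (chunk 10 2 N4S_r) 280 N4S_cols (N4S_r.drop 20) [[1]]
    (chunk 3 17 N4S_sp) [[1]] [[1]] = true := by decide +kernel

theorem F4S_p2_18 : pcAll 280 F4S_A N4S_degs (chunk 10 2 N4S_r) 280 N4S_cols (N4S_r.drop 20) [[1]]
    (chunk 3 18 N4S_sp) [[1]] [[1]] = true := by decide +kernel

theorem F4S_p2_19 : pcAll 280 F4S_A N4S_degs (chunk 10 2 N4S_r) 280 N4S_cols (N4S_r.drop 20) [[1]]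
    (chunk 3 19 N4S_sp) [[1]] [[1]] = true := by decide +kernel

theorem F4S_p2_20 : pcAll 280 F4S_A N4S_degs (chunk 10 2 N4S_r) 280 N4S_cols (N4S_r.drop 20) [[1]]
    (chunk 3 20 N4S_sp) [[1]] [[1]] = true := by decide +kernel

theorem F4S_p2_21 : pcAll 280 F4S_A N4S_degs (chunk 10 2 N4S_r) 280 N4S_cols (N4S_r.drop 20) [[1]]
    (chunk 3 21 N4S_sp) [[1]] [[1]] = true := by decide +kernel

theorem F4S_p2_22 : pcAll 280 F4S_A N4S_degs (chunk 10 2 N4S_r) 280 N4S_cols (N4S_r.drop 20) [[1]]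
    (chunk 3 22 N4S_sp) [[1]] [[1]] = true := by decide +kernel

theorem F4S_p2_23 : pcAll 280 F4S_A N4S_degs (chunk 10 2 N4S_r) 280 N4S_cols (N4S_r.drop 20) [[1]]
    (chunk 3 23 N4S_sp) [[1]] [[1]] = true := by decide +kernel

theorem F4S_p2_24 : pcAll 280 F4S_A N4S_degs (chunk 10 2 N4S_r) 280 N4S_cols (N4S_r.drop 20) [[1]]
    (chunk 3 24 N4S_sp) [[1]] [[1]] = true := by decide +kernel

theorem F4S_p2_25 : pcAll 280 F4S_A N4S_degs (chunk 10 2 N4S_r) 280 N4S_cols (N4S_r.drop 20) [[1]]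
    (chunk 3 25 N4S_sp) [[1]] [[1]] = true := by decide +kernel

theorem F4S_p2_26 : pcAll 280 F4S_A N4S_degs (chunk 10 2 N4S_r) 280 N4S_cols (N4S_r.drop 20) [[1]]
    (chunk 3 26 N4S_sp) [[1]] [[1]] = true := by decide +kernel

theorem F4S_p2_27 : pcAll 280 F4S_A N4S_degs (chunk 10 2 N4S_r) 280 N4S_cols (N4S_r.drop 20) [[1]]
    (chunk 3 27 N4S_sp) [[1]] [[1]] = true := by decide +kernel

theorem F4S_p2_28 : pcAll 280 F4S_A N4S_degs (chunk 10 2 N4S_r) 280 N4S_cols (N4S_r.drop 20) [[1]]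
    (chunk 3 28 N4S_sp) [[1]] [[1]] = true := by decide +kernel

theorem F4S_p2_29 : pcAll 280 F4S_A N4S_degs (chunk 10 2 N4S_r) 280 N4S_cols (N4S_r.drop 20) [[1]]
    (chunk 3 29 N4S_sp) [[1]] [[1]] = true := by decide +kernel

theorem F4S_p2_30 : pcAll 280 F4S_A N4S_degs (chunk 10 2 N4S_r) 280 N4S_cols (N4S_r.drop 20) [[1]]
    (chunk 3 30 N4S_sp) [[1]] [[1]] = true := by decide +kernel

theorem F4S_p2_31 : pcAll 280 F4S_A N4S_degs (chunk 10 2 N4S_r) 280 N4S_cols (N4S_r.drop 20) [[1]]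
    (chunk 3 31 N4S_sp) [[1]] [[1]] = true := by decide +kernel

theorem F4S_p2_32 : pcAll 280 F4S_A N4S_degs (chunk 10 2 N4S_r) 280 N4S_cols (N4S_r.drop 20) [[1]]
    (chunk 3 32 N4S_sp) [[1]] [[1]] = true := by decide +kernel

theorem F4S_p2_33 : pcAll 280 F4S_A N4S_degs (chunk 10 2 N4S_r) 280 N4S_cols (N4S_r.drop 20) [[1]]
    (chunk 3 33 N4S_sp) [[1]] [[1]] = true := by decide +kernel

theorem F4S_p2_34 : pcAll 280 F4S_A N4S_degs (chunk 10 2 N4S_r) 280 N4S_cols (N4S_r.drop 20) [[1]]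
    (chunk 3 34 N4S_sp) [[1]] [[1]] = true := by decide +kernel

theorem F4S_p2_35 : pcAll 280 F4S_A N4S_degs (chunk 10 2 N4S_r) 280 N4S_cols (N4S_r.drop 20) [[1]]
    (chunk 3 35 N4S_sp) [[1]] [[1]] = true := by decide +kernel

theorem F4S_p2_36 : pcAll 280 F4S_A N4S_degs (chunk 10 2 N4S_r) 280 N4S_cols (N4S_r.drop 20) [[1]]
    (chunk 3 36 N4S_sp) [[1]] [[1]] = true := by decide +kernel

theorem F4S_p2_37 : pcAll 280 F4S_A N4S_degs (chunk 10 2 N4S_r) 280 N4S_cols (N4S_r.drop 20) [[1]]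
    (chunk 3 37 N4S_sp) [[1]] [[1]] = true := by decide +kernel

theorem F4S_p2_38 : pcAll 280 F4S_A N4S_degs (chunk 10 2 N4S_r) 280 N4S_cols (N4S_r.drop 20) [[1]]
    (chunk 3 38 N4S_sp) [[1]] [[1]] = true := by decide +kernel

theorem F4S_p2_39 : pcAll 280 F4S_A N4S_degs (chunk 10 2 N4S_r) 280 N4S_cols (N4S_r.drop 20) [[1]]
    (chunk 3 39 N4S_sp) [[1]] [[1]] = true := by decide +kernel


end Crest.Agent.R163.Ck
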