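import Crest.Agent.R163.F4SD

/-! Row 163: kernel checks (generated). -/

set_option autoImplicit false
set_option Elab.async false
set_option maxRecDepth 100000

namespace Crest.Agent.R163.Ck

theorem F4S_p2_40 : pcAll 280 F4S_A N4S_degs (chunk 10 2 N4S_r) 280 N4S_cols (N4S_r.drop 20) [[1]]
    (chunk 3 40 N4S_sp) [[1]] [[1]] = true := by decide +kernel

theorem F4S_p2_41 : pcAll 280 F4S_A N4S_degs (chunk 10 2 N4S_r) 280 N4S_cols (N4S_r.drop 20) [[1]]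
    (chunk 3 41 N4S_sp) [[1]] [[1]] = true := by decide +kernel

theorem F4S_p2_42 : pcAll 280 F4S_A N4S_degs (chunk 10 2 N4S_r) 280 N4S_cols (N4S_r.drop 20) [[1]]
    (chunk 3 42 N4S_sp) [[1]] [[1]] = true := by decide +kernel

theorem F4S_p2_43 : pcAll 280 F4S_A N4S_degs (chunk 10 2 N4S_r) 280 N4S_cols (N4S_r.drop 20) [[1]]
    (chunk 3 43 N4S_sp) [[1]] [[1]] = true := by decide +kernel

theorem F4S_p2_44 : pcAll 280 F4S_A N4S_degs (chunk 10 2 N4S_r) 280 N4S_cols (N4S_r.drop 20) [[1]]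
    (chunk 3 44 N4S_sp) [[1]] [[1]] = true := by decide +kernel

theorem F4S_p2_45 : pcAll 280 F4S_A N4S_degs (chunk 10 2 N4S_r) 280 N4S_cols (N4S_r.drop 20) [[1]]
    (chunk 3 45 N4S_sp) [[1]] [[1]] = true := by decide +kernel

theorem F4S_p2_46 : pcAll 280 F4S_A N4S_degs (chunk 10 2 N4S_r) 280 N4S_cols (N4S_r.drop 20) [[1]]
    (chunk 3 46 N4S_sp) [[1]] [[1]] = true := by decide +kernel

theorem F4S_p2_47 : pcAll 280 F4S_A N4S_degs (chunk 10 2 N4S_r) 280 N4S_cols (N4S_r.drop 20) [[1]]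
    (chunk 3 47 N4S_sp) [[1]] [[1]] = true := by decide +kernel

theorem F4S_p2_48 : pcAll 280 F4S_A N4S_degs (chunk 10 2 N4S_r) 280 N4S_cols (N4S_r.drop 20) [[1]]
    (chunk 3 48 N4S_sp) [[1]] [[1]] = true := by decide +kernel

theorem F4S_p2_49 : pcAll 280 F4S_A N4S_degs (chunk 10 2 N4S_r) 280 N4S_cols (N4S_r.drop 20) [[1]]
    (chunk 3 49 N4S_sp) [[1]] [[1]] = true := by decide +kernel

theorem F4S_p2_50 : pcAll 280 F4S_A N4S_degs (chunk 10 2 N4S_r) 280 N4S_cols (N4S_r.drop 20) [[1]]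
    (chunk 3 50 N4S_sp) [[1]] [[1]] = true := by decide +kernel

theorem F4S_p2_51 : pcAll 280 F4S_A N4S_degs (chunk 10 2 N4S_r) 280 N4S_cols (N4S_r.drop 20) [[1]]
    (chunk 3 51 N4S_sp) [[1]] [[1]] = true := by decide +kernel

theorem F4S_p2_52 : pcAll 280 F4S_A N4S_degs (chunk 10 2 N4S_r) 280 N4S_cols (N4S_r.drop 20) [[1]]
    (chunk 3 52 N4S_sp) [[1]] [[1]] = true := by decide +kernel

theorem F4S_p2_53 : pcAll 280 F4S_A N4S_degs (chunk 10 2 N4S_r) 280 N4S_cols (N4S_r.drop 20) [[1]]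
    (chunk 3 53 N4S_sp) [[1]] [[1]] = true := by decide +kernel

theorem F4S_p2_54 : pcAll 280 F4S_A N4S_degs (chunk 10 2 N4S_r) 280 N4S_cols (N4S_r.drop 20) [[1]]
    (chunk 3 54 N4S_sp) [[1]] [[1]] = true := by decide +kernel

theorem F4S_p2_55 : pcAll 280 F4S_A N4S_degs (chunk 10 2 N4S_r) 280 N4S_cols (N4S_r.drop 20) [[1]]
    (chunk 3 55 N4S_sp) [[1]] [[1]] = true := by decide +kernel

theorem F4S_p2_56 : pcAll 280 F4S_A N4S_degs (chunk 10 2 N4S_r) 280 N4S_cols (N4S_r.drop 20) [[1]]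
    (chunk 3 56 N4S_sp) [[1]] [[1]] = true := by decide +kernel

theorem F4S_p2_57 : pcAll 280 F4S_A N4S_degs (chunk 10 2 N4S_r) 280 N4S_cols (N4S_r.drop 20) [[1]]
    (chunk 3 57 N4S_sp) [[1]] [[1]] = true := by decide +kernel

theorem F4S_p2_58 : pcAll 280 F4S_A N4S_degs (chunk 10 2 N4S_r) 280 N4S_cols (N4S_r.drop 20) [[1]]
    (chunk 3 58 N4S_sp) [[1]] [[1]] = true := by decide +kernel

theorem F4S_p2_59 : pcAll 280 F4S_A N4S_degs (chunk 10 2 N4S_r) 280 N4S_cols (N4S_r.drop 20) [[1]]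
    (chunk 3 59 N4S_sp) [[1]] [[1]] = true := by decide +kernel

theorem F4S_p2_60 : pcAll 280 F4S_A N4S_degs (chunk 10 2 N4S_r) 280 N4S_cols (N4S_r.drop 20) [[1]]
    (chunk 3 60 N4S_sp) [[1]] [[1]] = true := by decide +kernel

theorem F4S_p2_61 : pcAll 280 F4S_A N4S_degs (chunk 10 2 N4S_r) 280 N4S_cols (N4S_r.drop 20) [[1]]
    (chunk 3 61 N4S_sp) [[1]] [[1]] = true := by decide +kernel

theorem F4S_p2_62 : pcAll 280 F4S_A N4S_degs (chunk 10 2 N4S_r) 280 N4S_cols (N4S_r.drop 20) [[1]]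
    (chunk 3 62 N4S_sp) [[1]] [[1]] = true := by decide +kernel

theorem F4S_p2_63 : pcAll 280 F4S_A N4S_degs (chunk 10 2 N4S_r) 280 N4S_cols (N4S_r.drop 20) [[1]]
    (chunk 3 63 N4S_sp) [[1]] [[1]] = true := by decide +kernel

theorem F4S_p2_64 : pcAll 280 F4S_A N4S_degs (chunk 10 2 N4S_r) 280 N4S_cols (N4S_r.drop 20) [[1]]
    (chunk 3 64 N4S_sp) [[1]] [[1]] = true := by decide +kernel

theorem F4S_p2_65 : pcAll 280 F4S_A N4S_degs (chunk 10 2 N4S_r) 280 N4S_cols (N4S_r.drop 20) [[1]]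
    (chunk 3 65 N4S_sp) [[1]] [[1]] = true := by decide +kernel

theorem F4S_p2_66 : pcAll 280 F4S_A N4S_degs (chunk 10 2 N4S_r) 280 N4S_cols (N4S_r.drop 20) [[1]]
    (chunk 3 66 N4S_sp) [[1]] [[1]] = true := by decide +kernel

theorem F4S_p2_67 : pcAll 280 F4S_A N4S_degs (chunk 10 2 N4S_r) 280 N4S_cols (N4S_r.drop 20) [[1]]
    (chunk 3 67 N4S_sp) [[1]] [[1]] = true := by decide +kernel

theorem F4S_p2_68 : pcAll 280 F4S_A N4S_degs (chunk 10 2 N4S_r) 280 N4S_cols (N4S_r.drop 20) [[1]]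
    (chunk 3 68 N4S_sp) [[1]] [[1]] = true := by decide +kernel

theorem F4S_p2_69 : pcAll 280 F4S_A N4S_degs (chunk 10 2 N4S_r) 280 N4S_cols (N4S_r.drop 20) [[1]]
    (chunk 3 69 N4S_sp) [[1]] [[1]] = true := by decide +kernel

theorem F4S_p2_70 : pcAll 280 F4S_A N4S_degs (chunk 10 2 N4S_r) 280 N4S_cols (N4S_r.drop 20) [[1]]
    (chunk 3 70 N4S_sp) [[1]] [[1]] = true := by decide +kernel

theorem F4S_p2_71 : pcAll 280 F4S_A N4S_degs (chunk 10 2 N4S_r) 280 N4S_cols (N4S_r.drop 20) [[1]]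
    (chunk 3 71 N4S_sp) [[1]] [[1]] = true := by decide +kernel

theorem F4S_p2_72 : pcAll 280 F4S_A N4S_degs (chunk 10 2 N4S_r) 280 N4S_cols (N4S_r.drop 20) [[1]]
    (chunk 3 72 N4S_sp) [[1]] [[1]] = true := by decide +kernel

theorem F4S_p2_73 : pcAll 280 F4S_A N4S_degs (chunk 10 2 N4S_r) 280 N4S_cols (N4S_r.drop 20) [[1]]
    (chunk 3 73 N4S_sp) [[1]] [[1]] = true := by decide +kernel

theorem F4S_p2_74 : pcAll 280 F4S_A N4S_degs (chunk 10 2 N4S_r) 280 N4S_cols (N4S_r.drop 20) [[1]]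
    (chunk 3 74 N4S_sp) [[1]] [[1]] = true := by decide +kernel

theorem F4S_p2_75 : pcAll 280 F4S_A N4S_degs (chunk 10 2 N4S_r) 280 N4S_cols (N4S_r.drop 20) [[1]]
    (chunk 3 75 N4S_sp) [[1]] [[1]] = true := by decide +kernel

theorem F4S_p2_76 : pcAll 280 F4S_A N4S_degs (chunk 10 2 N4S_r) 280 N4S_cols (N4S_r.drop 20) [[1]]
    (chunk 3 76 N4S_sp) [[1]] [[1]] = true := by decide +kernel

theorem F4S_p2_77 : pcAll 280 F4S_A N4S_degs (chunk 10 2 N4S_r) 280 N4S_cols (N4S_r.drop 20) [[1]]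
    (chunk 3 77 N4S_sp) [[1]] [[1]] = true := by decide +kernel

theorem F4S_p2_78 : pcAll 280 F4S_A N4S_degs (chunk 10 2 N4S_r) 280 N4S_cols (N4S_r.drop 20) [[1]]
    (chunk 3 78 N4S_sp) [[1]] [[1]] = true := by decide +kernel

theorem F4S_p2_79 : pcAll 280 F4S_A N4S_degs (chunk 10 2 N4S_r) 280 N4S_cols (N4S_r.drop 20) [[1]]
    (chunk 3 79 N4S_sp) [[1]] [[1]] = true := by decide +kernel


end Crest.Agent.R163.Ck
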