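import Crest.Agent.R163.F4SD

/-! Row 163: kernel checks (generated). -/

set_option autoImplicit false
set_option Elab.async false
set_option maxRecDepth 100000

namespace Crest.Agent.R163.Ck

theorem F4S_p2_80 : pcAll 280 F4S_A N4S_degs (chunk 10 2 N4S_r) 280 N4S_cols (N4S_r.drop 20) [[1]]
    (chunk 3 80 N4S_sp) [[1]] [[1]] = true := by decide +kernel

theorem F4S_p2_81 : pcAll 280 F4S_A N4S_degs (chunk 10 2 N4S_r) 280 N4S_cols (N4S_r.drop 20) [[1]]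
    (chunk 3 81 N4S_sp) [[1]] [[1]] = true := by decide +kernel

theorem F4S_p2_82 : pcAll 280 F4S_A N4S_degs (chunk 10 2 N4S_r) 280 N4S_cols (N4S_r.drop 20) [[1]]
    (chunk 3 82 N4S_sp) [[1]] [[1]] = true := by decide +kernel

theorem F4S_p2_83 : pcAll 280 F4S_A N4S_degs (chunk 10 2 N4S_r) 280 N4S_cols (N4S_r.drop 20) [[1]]
    (chunk 3 83 N4S_sp) [[1]] [[1]] = true := by decide +kernel

theorem F4S_p2_84 : pcAll 280 F4S_A N4S_degs (chunk 10 2 N4S_r) 280 N4S_cols (N4S_r.drop 20) [[1]]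
    (chunk 3 84 N4S_sp) [[1]] [[1]] = true := by decide +kernel

theorem F4S_p2_85 : pcAll 280 F4S_A N4S_degs (chunk 10 2 N4S_r) 280 N4S_cols (N4S_r.drop 20) [[1]]
    (chunk 3 85 N4S_sp) [[1]] [[1]] = true := by decide +kernel

theorem F4S_p2_86 : pcAll 280 F4S_A N4S_degs (chunk 10 2 N4S_r) 280 N4S_cols (N4S_r.drop 20) [[1]]
    (chunk 3 86 N4S_sp) [[1]] [[1]] = true := by decide +kernel

theorem F4S_p2_87 : pcAll 280 F4S_A N4S_degs (chunk 10 2 N4S_r) 280 N4S_cols (N4S_r.drop 20) [[1]]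
    (chunk 3 87 N4S_sp) [[1]] [[1]] = true := by decide +kernel

theorem F4S_p2_88 : pcAll 280 F4S_A N4S_degs (chunk 10 2 N4S_r) 280 N4S_cols (N4S_r.drop 20) [[1]]
    (chunk 3 88 N4S_sp) [[1]] [[1]] = true := by decide +kernel

theorem F4S_p2_89 : pcAll 280 F4S_A N4S_degs (chunk 10 2 N4S_r) 280 N4S_cols (N4S_r.drop 20) [[1]]
    (chunk 3 89 N4S_sp) [[1]] [[1]] = true := by decide +kernel

theorem F4S_p2_90 : pcAll 280 F4S_A N4S_degs (chunk 10 2 N4S_r) 280 N4S_cols (N4S_r.drop 20) [[1]]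
    (chunk 3 90 N4S_sp) [[1]] [[1]] = true := by decide +kernel

theorem F4S_p2_91 : pcAll 280 F4S_A N4S_degs (chunk 10 2 N4S_r) 280 N4S_cols (N4S_r.drop 20) [[1]]
    (chunk 3 91 N4S_sp) [[1]] [[1]] = true := by decide +kernel

theorem F4S_p2_92 : pcAll 280 F4S_A N4S_degs (chunk 10 2 N4S_r) 280 N4S_cols (N4S_r.drop 20) [[1]]
    (chunk 3 92 N4S_sp) [[1]] [[1]] = true := by decide +kernel

theorem F4S_p2_93 : pcAll 280 F4S_A N4S_degs (chunk 10 2 N4S_r) 280 N4S_cols (N4S_r.drop 20) [[1]]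
    (chunk 3 93 N4S_sp) [[1]] [[1]] = true := by decide +kernel

theorem F4S_p3_0 : pcAll 280 F4S_A N4S_degs (chunk 10 3 N4S_r) 280 N4S_cols (N4S_r.drop 30) [[1]]
    (chunk 5 0 N4S_sp) [[1]] [[1]] = true := by decide +kernel

theorem F4S_p3_1 : pcAll 280 F4S_A N4S_degs (chunk 10 3 N4S_r) 280 N4S_cols (N4S_r.drop 30) [[1]]
    (chunk 5 1 N4S_sp) [[1]] [[1]] = true := by decide +kernel

theorem F4S_p3_2 : pcAll 280 F4S_A N4S_degs (chunk 10 3 N4S_r) 280 N4S_cols (N4S_r.drop 30) [[1]]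
    (chunk 5 2 N4S_sp) [[1]] [[1]] = true := by decide +kernel

theorem F4S_p3_3 : pcAll 280 F4S_A N4S_degs (chunk 10 3 N4S_r) 280 N4S_cols (N4S_r.drop 30) [[1]]
    (chunk 5 3 N4S_sp) [[1]] [[1]] = true := by decide +kernel

theorem F4S_p3_4 : pcAll 280 F4S_A N4S_degs (chunk 10 3 N4S_r) 280 N4S_cols (N4S_r.drop 30) [[1]]
    (chunk 5 4 N4S_sp) [[1]] [[1]] = true := by decide +kernel

theorem F4S_p3_5 : pcAll 280 F4S_A N4S_degs (chunk 10 3 N4S_r) 280 N4S_cols (N4S_r.drop 30) [[1]]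
    (chunk 5 5 N4S_sp) [[1]] [[1]] = true := by decide +kernel

theorem F4S_p3_6 : pcAll 280 F4S_A N4S_degs (chunk 10 3 N4S_r) 280 N4S_cols (N4S_r.drop 30) [[1]]
    (chunk 5 6 N4S_sp) [[1]] [[1]] = true := by decide +kernel

theorem F4S_p3_7 : pcAll 280 F4S_A N4S_degs (chunk 10 3 N4S_r) 280 N4S_cols (N4S_r.drop 30) [[1]]
    (chunk 5 7 N4S_sp) [[1]] [[1]] = true := by decide +kernel

theorem F4S_p3_8 : pcAll 280 F4S_A N4S_degs (chunk 10 3 N4S_r) 280 N4S_cols (N4S_r.drop 30) [[1]]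
    (chunk 5 8 N4S_sp) [[1]] [[1]] = true := by decide +kernel

theorem F4S_p3_9 : pcAll 280 F4S_A N4S_degs (chunk 10 3 N4S_r) 280 N4S_cols (N4S_r.drop 30) [[1]]
    (chunk 5 9 N4S_sp) [[1]] [[1]] = true := by decide +kernel

theorem F4S_p3_10 : pcAll 280 F4S_A N4S_degs (chunk 10 3 N4S_r) 280 N4S_cols (N4S_r.drop 30) [[1]]
    (chunk 5 10 N4S_sp) [[1]] [[1]] = true := by decide +kernel

theorem F4S_p3_11 : pcAll 280 F4S_A N4S_degs (chunk 10 3 N4S_r) 280 N4S_cols (N4S_r.drop 30) [[1]]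
    (chunk 5 11 N4S_sp) [[1]] [[1]] = true := by decide +kernel

theorem F4S_p3_12 : pcAll 280 F4S_A N4S_degs (chunk 10 3 N4S_r) 280 N4S_cols (N4S_r.drop 30) [[1]]
    (chunk 5 12 N4S_sp) [[1]] [[1]] = true := by decide +kernel

theorem F4S_p3_13 : pcAll 280 F4S_A N4S_degs (chunk 10 3 N4S_r) 280 N4S_cols (N4S_r.drop 30) [[1]]
    (chunk 5 13 N4S_sp) [[1]] [[1]] = true := by decide +kernel

theorem F4S_p3_14 : pcAll 280 F4S_A N4S_degs (chunk 10 3 N4S_r) 280 N4S_cols (N4S_r.drop 30) [[1]]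
    (chunk 5 14 N4S_sp) [[1]] [[1]] = true := by decide +kernel

theorem F4S_p3_15 : pcAll 280 F4S_A N4S_degs (chunk 10 3 N4S_r) 280 N4S_cols (N4S_r.drop 30) [[1]]
    (chunk 5 15 N4S_sp) [[1]] [[1]] = true := by decide +kernel

theorem F4S_p3_16 : pcAll 280 F4S_A N4S_degs (chunk 10 3 N4S_r) 280 N4S_cols (N4S_r.drop 30) [[1]]
    (chunk 5 16 N4S_sp) [[1]] [[1]] = true := by decide +kernel

theorem F4S_p3_17 : pcAll 280 F4S_A N4S_degs (chunk 10 3 N4S_r) 280 N4S_cols (N4S_r.drop 30) [[1]]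
    (chunk 5 17 N4S_sp) [[1]] [[1]] = true := by decide +kernel

theorem F4S_p3_18 : pcAll 280 F4S_A N4S_degs (chunk 10 3 N4S_r) 280 N4S_cols (N4S_r.drop 30) [[1]]
    (chunk 5 18 N4S_sp) [[1]] [[1]] = true := by decide +kernel

theorem F4S_p3_19 : pcAll 280 F4S_A N4S_degs (chunk 10 3 N4S_r) 280 N4S_cols (N4S_r.drop 30) [[1]]
    (chunk 5 19 N4S_sp) [[1]] [[1]] = true := by decide +kernel

theorem F4S_p3_20 : pcAll 280 F4S_A N4S_degs (chunk 10 3 N4S_r) 280 N4S_cols (N4S_r.drop 30) [[1]]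
    (chunk 5 20 N4S_sp) [[1]] [[1]] = true := by decide +kernel

theorem F4S_p3_21 : pcAll 280 F4S_A N4S_degs (chunk 10 3 N4S_r) 280 N4S_cols (N4S_r.drop 30) [[1]]
    (chunk 5 21 N4S_sp) [[1]] [[1]] = true := by decide +kernel

theorem F4S_p3_22 : pcAll 280 F4S_A N4S_degs (chunk 10 3 N4S_r) 280 N4S_cols (N4S_r.drop 30) [[1]]
    (chunk 5 22 N4S_sp) [[1]] [[1]] = true := by decide +kernel

theorem F4S_p3_23 : pcAll 280 F4S_A N4S_degs (chunk 10 3 N4S_r) 280 N4S_cols (N4S_r.drop 30) [[1]]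
    (chunk 5 23 N4S_sp) [[1]] [[1]] = true := by decide +kernel

theorem F4S_p3_24 : pcAll 280 F4S_A N4S_degs (chunk 10 3 N4S_r) 280 N4S_cols (N4S_r.drop 30) [[1]]
    (chunk 5 24 N4S_sp) [[1]] [[1]] = true := by decide +kernel

theorem F4S_p3_25 : pcAll 280 F4S_A N4S_degs (chunk 10 3 N4S_r) 280 N4S_cols (N4S_r.drop 30) [[1]]
    (chunk 5 25 N4S_sp) [[1]] [[1]] = true := by decide +kernel


end Crest.Agent.R163.Ck
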