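import Crest.Agent.R163.N4SD
import Crest.Agent.R163.Cover4

/-! Row 163: control nets (generated). -/

set_option autoImplicit false
set_option Elab.async false
set_option maxRecDepth 100000

namespace Crest.Agent.R163.Ck

theorem N4S_sp_eq : N4S_sp = shapes4 4 3 fs4_9 [(0, 2, [0, 4]), (2, 4, [0, 2, 4]), (4, 6, [0, 2, 4]), (6, 8, [0, 2, 4]), (8, 10, [0, 2, 4]), (10, 12, [0, 2, 4]), (12, 14, [0, 2, 4]), (14, 16, [0, 4])] := by decide +kernel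

theorem N4S_cols_eq : N4S_cols = packCols 280 N4S_degs.length N4S_sp := by decide +kernel

theorem N4S_degs_eq : fs4_9.map fdeg = N4S_degs := by decide +kernel

theorem N4S_len : 280 = N4S_sp.length := by decide +kernel

theorem N4S_cover : Cover 4 fs4_9 N4S_sp := N4S_sp_eq ▸ cover4 4 3 (by decide) (by decide)

theorem N4S_rE_eq : N4S_rE = uniNets 9 8 [0, 1, 2, 3, 4, 5, 6, 7, 8] := by decide +kernel

theorem N4S_z_eq : N4S_z = uniNets 9 4 [0, 2, 4, 6, 8, 10, 12, 14, 16] := by decide +kernel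

theorem N4S_rE_dom (ρ : ℝ) (h0 : 0 ≤ ρ) (h1 : ρ ≤ 1) : DomN N4S_rE (9 + 1) fun k => ρ ^ k :=
  N4S_rE_eq ▸ domN_uniNets 9 (lo := 0) (hi := 8) (by norm_num) (by decide) (by push_cast; linarith)
    (by push_cast; linarith)

theorem N4S_z_dom (Z : ℝ) (h0 : 0 ≤ Z) (h1 : Z ≤ (4 : ℕ)) : DomN N4S_z (9 + 1) fun k => Z ^ k :=
  N4S_z_eq ▸ domN_uniNets 9 (lo := 0) (hi := 16) (by norm_num) (by decide) (by push_cast; linarith)
    (by push_cast at h1 ⊢; linarith)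

theorem N4S_c0 : uniNet 9 8 ([0, 2, 4, 6, 7, 8].getD 0 0) ([0, 2, 4, 6, 7, 8].getD (0 + 1) 0) = chunk 10 0 N4S_r := by
  decide +kernel

theorem N4S_d0 : uniNets 9 8 ([0, 2, 4, 6, 7, 8].drop 0) = N4S_r.drop 0 := by decide +kernel

theorem N4S_c1 : uniNet 9 8 ([0, 2, 4, 6, 7, 8].getD 1 0) ([0, 2, 4, 6, 7, 8].getD (1 + 1) 0) = chunk 10 1 N4S_r := by
  decide +kernel

theorem N4S_d1 : uniNets 9 8 ([0, 2, 4, 6, 7, 8].drop 1) = N4S_r.drop 10 := by decide +kernel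

theorem N4S_c2 : uniNet 9 8 ([0, 2, 4, 6, 7, 8].getD 2 0) ([0, 2, 4, 6, 7, 8].getD (2 + 1) 0) = chunk 10 2 N4S_r := by
  decide +kernel

theorem N4S_d2 : uniNets 9 8 ([0, 2, 4, 6, 7, 8].drop 2) = N4S_r.drop 20 := by decide +kernel

theorem N4S_c3 : uniNet 9 8 ([0, 2, 4, 6, 7, 8].getD 3 0) ([0, 2, 4, 6, 7, 8].getD (3 + 1) 0) = chunk 10 3 N4S_r := by
  decide +kernel

theorem N4S_d3 : uniNets 9 8 ([0, 2, 4, 6, 7, 8].drop 3) = N4S_r.drop 30 := by decide +kernel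

theorem N4S_c4 : uniNet 9 8 ([0, 2, 4, 6, 7, 8].getD 4 0) ([0, 2, 4, 6, 7, 8].getD (4 + 1) 0) = chunk 10 4 N4S_r := by
  decide +kernel

theorem N4S_d4 : uniNets 9 8 ([0, 2, 4, 6, 7, 8].drop 4) = N4S_r.drop 40 := by decide +kernel


end Crest.Agent.R163.Ck
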