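import Crest.Agent.R163.F4SC0
import Crest.Agent.R163.F4SC1
import Crest.Agent.R163.F4SC2
import Crest.Agent.R163.F4SC3
import Crest.Agent.R163.F4SC4
import Crest.Agent.R163.F4SC5
import Crest.Agent.R163.F4SC6
import Crest.Agent.R163.F4SC7
import Crest.Agent.R163.F4SC8
import Crest.Agent.R163.F4SC9
import Crest.Agent.R163.F4SC10
import Crest.Agent.R163.F4SC11
import Crest.Agent.R163.N4S
import Crest.Agent.R163.TabK4
import Crest.Agent.R163.PVSound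
import Crest.Agent.R163.FerroCert

/-! Row 163: gluing of the kernel checks (generated). -/

set_option autoImplicit false
set_option Elab.async false
set_option maxRecDepth 100000

namespace Crest.Agent.R163.Ck

theorem F4S_P0 : PairOK F4S_A N4S_degs (chunk 10 0 N4S_r) N4S_sp (N4S_r.drop 0) [[1]] N4S_sp [[1]] [[1]] :=
  PairOK.of_sub (m := 2) (n := 140) (AllLt.step (AllLt.step (AllLt.step (AllLt.step (AllLt.step (AllLt.step (AllLt.step (AllLt.step (AllLt.step (AllLt.step (AllLt.step (AllLt.step (AllLt.step (AllLt.step (AllLt.step (AllLt.step (AllLt.step (AllLt.step (AllLt.step (AllLt.step (AllLt.step (AllLt.step (AllLt.step (AllLt.step (AllLt.step (AllLt.step (AllLt.step (AllLt.step (AllLt.step (AllLt.step (AllLt.step (AllLt.step (AllLt.step (AllLt.step (AllLt.step (AllLt.step (AllLt.step (AllLt.step (AllLt.step (AllLt.step (AllLt.step (AllLt.step (AllLt.step (AllLt.step (AllLt.step (AllLt.step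 (AllLt.step (AllLt.step (AllLt.step (AllLt.step (AllLt.step (AllLt.step (AllLt.step (AllLt.step (AllLt.step (AllLt.step (AllLt.step (AllLt.step (AllLt.step (AllLt.step (AllLt.step (AllLt.step (AllLt.step (AllLt.step (AllLt.step (AllLt.step (AllLt.step (AllLt.step (AllLt.step (AllLt.step (AllLt.step (AllLt.step (AllLt.step (AllLt.step (AllLt.step (AllLt.step (AllLt.step (AllLt.step (AllLt.step (AllLt.step (AllLt.step (AllLt.step (AllLt.step (AllLt.step (AllLt.step (AllLt.step (AllLt.step (AllLt.step (AllLt.step (AllLt.step (AllLt.step (AllLt.step (AllLt.step (AllLt.step (AllLt.step (AllLt.step (AllLt.step (AllLt.step (AllLt.step (AllLt.step (AllLt.step (AllLt.step (AllLt.step (AllLt.step (AllLt.step (AllLt.step (AllLt.step (AllLt.step (AllLt.step (AllLt.step (AllLt.step (AllLt.step (AllLt.step (AllLt.step (AllLt.step (AllLt.step (AllLt.step (AllLt.step (AllLt.step (AllLt.step (AllLt.step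 (AllLt.step (AllLt.step (AllLt.step (AllLt.step (AllLt.step (AllLt.step (AllLt.step (AllLt.step (AllLt.step (AllLt.step (AllLt.step (AllLt.step (AllLt.step (AllLt.step (AllLt.step (AllLt.step (AllLt.step (AllLt.step (AllLt.step AllLt.zero (pcAll_sound N4S_sp (by norm_num) N4S_len N4S_cols_eq F4S_p0_0)) (pcAll_sound N4S_sp (by norm_num) N4S_len N4S_cols_eq F4S_p0_1)) (pcAll_sound N4S_sp (by norm_num) N4S_len N4S_cols_eq F4S_p0_2)) (pcAll_sound N4S_sp (by norm_num) N4S_len N4S_cols_eq F4S_p0_3)) (pcAll_sound N4S_sp (by norm_num) N4S_len N4S_cols_eq F4S_p0_4)) (pcAll_sound N4S_sp (by norm_num) N4S_len N4S_cols_eq F4S_p0_5)) (pcAll_sound N4S_sp (by norm_num) N4S_len N4S_cols_eq F4S_p0_6)) (pcAll_sound N4S_sp (by norm_num) N4S_len N4S_cols_eq F4S_p0_7)) (pcAll_sound N4S_sp (by norm_num) N4S_len N4S_cols_eq F4S_p0_8)) (pcAll_sound N4S_sp (by norm_num) N4S_len N4S_cols_eq F4S_p0_9)) (pcAll_sound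 N4S_sp (by norm_num) N4S_len N4S_cols_eq F4S_p0_10)) (pcAll_sound N4S_sp (by norm_num) N4S_len N4S_cols_eq F4S_p0_11)) (pcAll_sound N4S_sp (by norm_num) N4S_len N4S_cols_eq F4S_p0_12)) (pcAll_sound N4S_sp (by norm_num) N4S_len N4S_cols_eq F4S_p0_13)) (pcAll_sound N4S_sp (by norm_num) N4S_len N4S_cols_eq F4S_p0_14)) (pcAll_sound N4S_sp (by norm_num) N4S_len N4S_cols_eq F4S_p0_15)) (pcAll_sound N4S_sp (by norm_num) N4S_len N4S_cols_eq F4S_p0_16)) (pcAll_sound N4S_sp (by norm_num) N4S_len N4S_cols_eq F4S_p0_17)) (pcAll_sound N4S_sp (by norm_num) N4S_len N4S_cols_eq F4S_p0_18)) (pcAll_sound N4S_sp (by norm_num) N4S_len N4S_cols_eq F4S_p0_19)) (pcAll_sound N4S_sp (by norm_num) N4S_len N4S_cols_eq F4S_p0_20)) (pcAll_sound N4S_sp (by norm_num) N4S_len N4S_cols_eq F4S_p0_21)) (pcAll_sound N4S_sp (by norm_num) N4S_len N4S_cols_eq F4S_p0_22)) (pcAll_sound N4S_sp (by norm_num) N4S_len N4S_cols_eq F4S_p0_23))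 (pcAll_sound N4S_sp (by norm_num) N4S_len N4S_cols_eq F4S_p0_24)) (pcAll_sound N4S_sp (by norm_num) N4S_len N4S_cols_eq F4S_p0_25)) (pcAll_sound N4S_sp (by norm_num) N4S_len N4S_cols_eq F4S_p0_26)) (pcAll_sound N4S_sp (by norm_num) N4S_len N4S_cols_eq F4S_p0_27)) (pcAll_sound N4S_sp (by norm_num) N4S_len N4S_cols_eq F4S_p0_28)) (pcAll_sound N4S_sp (by norm_num) N4S_len N4S_cols_eq F4S_p0_29)) (pcAll_sound N4S_sp (by norm_num) N4S_len N4S_cols_eq F4S_p0_30)) (pcAll_sound N4S_sp (by norm_num) N4S_len N4S_cols_eq F4S_p0_31)) (pcAll_sound N4S_sp (by norm_num) N4S_len N4S_cols_eq F4S_p0_32)) (pcAll_sound N4S_sp (by norm_num) N4S_len N4S_cols_eq F4S_p0_33)) (pcAll_sound N4S_sp (by norm_num) N4S_len N4S_cols_eq F4S_p0_34)) (pcAll_sound N4S_sp (by norm_num) N4S_len N4S_cols_eq F4S_p0_35)) (pcAll_sound N4S_sp (by norm_num) N4S_len N4S_cols_eq F4S_p0_36)) (pcAll_sound N4S_sp (by norm_num) N4S_len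 N4S_cols_eq F4S_p0_37)) (pcAll_sound N4S_sp (by norm_num) N4S_len N4S_cols_eq F4S_p0_38)) (pcAll_sound N4S_sp (by norm_num) N4S_len N4S_cols_eq F4S_p0_39)) (pcAll_sound N4S_sp (by norm_num) N4S_len N4S_cols_eq F4S_p0_40)) (pcAll_sound N4S_sp (by norm_num) N4S_len N4S_cols_eq F4S_p0_41)) (pcAll_sound N4S_sp (by norm_num) N4S_len N4S_cols_eq F4S_p0_42)) (pcAll_sound N4S_sp (by norm_num) N4S_len N4S_cols_eq F4S_p0_43)) (pcAll_sound N4S_sp (by norm_num) N4S_len N4S_cols_eq F4S_p0_44)) (pcAll_sound N4S_sp (by norm_num) N4S_len N4S_cols_eq F4S_p0_45)) (pcAll_sound N4S_sp (by norm_num) N4S_len N4S_cols_eq F4S_p0_46)) (pcAll_sound N4S_sp (by norm_num) N4S_len N4S_cols_eq F4S_p0_47)) (pcAll_sound N4S_sp (by norm_num) N4S_len N4S_cols_eq F4S_p0_48)) (pcAll_sound N4S_sp (by norm_num) N4S_len N4S_cols_eq F4S_p0_49)) (pcAll_sound N4S_sp (by norm_num) N4S_len N4S_cols_eq F4S_p0_50)) (pcAll_sound N4S_sp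 (by norm_num) N4S_len N4S_cols_eq F4S_p0_51)) (pcAll_sound N4S_sp (by norm_num) N4S_len N4S_cols_eq F4S_p0_52)) (pcAll_sound N4S_sp (by norm_num) N4S_len N4S_cols_eq F4S_p0_53)) (pcAll_sound N4S_sp (by norm_num) N4S_len N4S_cols_eq F4S_p0_54)) (pcAll_sound N4S_sp (by norm_num) N4S_len N4S_cols_eq F4S_p0_55)) (pcAll_sound N4S_sp (by norm_num) N4S_len N4S_cols_eq F4S_p0_56)) (pcAll_sound N4S_sp (by norm_num) N4S_len N4S_cols_eq F4S_p0_57)) (pcAll_sound N4S_sp (by norm_num) N4S_len N4S_cols_eq F4S_p0_58)) (pcAll_sound N4S_sp (by norm_num) N4S_len N4S_cols_eq F4S_p0_59)) (pcAll_sound N4S_sp (by norm_num) N4S_len N4S_cols_eq F4S_p0_60)) (pcAll_sound N4S_sp (by norm_num) N4S_len N4S_cols_eq F4S_p0_61)) (pcAll_sound N4S_sp (by norm_num) N4S_len N4S_cols_eq F4S_p0_62)) (pcAll_sound N4S_sp (by norm_num) N4S_len N4S_cols_eq F4S_p0_63)) (pcAll_sound N4S_sp (by norm_num) N4S_len N4S_cols_eq F4S_p0_64))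 (pcAll_sound N4S_sp (by norm_num) N4S_len N4S_cols_eq F4S_p0_65)) (pcAll_sound N4S_sp (by norm_num) N4S_len N4S_cols_eq F4S_p0_66)) (pcAll_sound N4S_sp (by norm_num) N4S_len N4S_cols_eq F4S_p0_67)) (pcAll_sound N4S_sp (by norm_num) N4S_len N4S_cols_eq F4S_p0_68)) (pcAll_sound N4S_sp (by norm_num) N4S_len N4S_cols_eq F4S_p0_69)) (pcAll_sound N4S_sp (by norm_num) N4S_len N4S_cols_eq F4S_p0_70)) (pcAll_sound N4S_sp (by norm_num) N4S_len N4S_cols_eq F4S_p0_71)) (pcAll_sound N4S_sp (by norm_num) N4S_len N4S_cols_eq F4S_p0_72)) (pcAll_sound N4S_sp (by norm_num) N4S_len N4S_cols_eq F4S_p0_73)) (pcAll_sound N4S_sp (by norm_num) N4S_len N4S_cols_eq F4S_p0_74)) (pcAll_sound N4S_sp (by norm_num) N4S_len N4S_cols_eq F4S_p0_75)) (pcAll_sound N4S_sp (by norm_num) N4S_len N4S_cols_eq F4S_p0_76)) (pcAll_sound N4S_sp (by norm_num) N4S_len N4S_cols_eq F4S_p0_77)) (pcAll_sound N4S_sp (by norm_num) N4S_len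 N4S_cols_eq F4S_p0_78)) (pcAll_sound N4S_sp (by norm_num) N4S_len N4S_cols_eq F4S_p0_79)) (pcAll_sound N4S_sp (by norm_num) N4S_len N4S_cols_eq F4S_p0_80)) (pcAll_sound N4S_sp (by norm_num) N4S_len N4S_cols_eq F4S_p0_81)) (pcAll_sound N4S_sp (by norm_num) N4S_len N4S_cols_eq F4S_p0_82)) (pcAll_sound N4S_sp (by norm_num) N4S_len N4S_cols_eq F4S_p0_83)) (pcAll_sound N4S_sp (by norm_num) N4S_len N4S_cols_eq F4S_p0_84)) (pcAll_sound N4S_sp (by norm_num) N4S_len N4S_cols_eq F4S_p0_85)) (pcAll_sound N4S_sp (by norm_num) N4S_len N4S_cols_eq F4S_p0_86)) (pcAll_sound N4S_sp (by norm_num) N4S_len N4S_cols_eq F4S_p0_87)) (pcAll_sound N4S_sp (by norm_num) N4S_len N4S_cols_eq F4S_p0_88)) (pcAll_sound N4S_sp (by norm_num) N4S_len N4S_cols_eq F4S_p0_89)) (pcAll_sound N4S_sp (by norm_num) N4S_len N4S_cols_eq F4S_p0_90)) (pcAll_sound N4S_sp (by norm_num) N4S_len N4S_cols_eq F4S_p0_91)) (pcAll_sound N4S_sp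 (by norm_num) N4S_len N4S_cols_eq F4S_p0_92)) (pcAll_sound N4S_sp (by norm_num) N4S_len N4S_cols_eq F4S_p0_93)) (pcAll_sound N4S_sp (by norm_num) N4S_len N4S_cols_eq F4S_p0_94)) (pcAll_sound N4S_sp (by norm_num) N4S_len N4S_cols_eq F4S_p0_95)) (pcAll_sound N4S_sp (by norm_num) N4S_len N4S_cols_eq F4S_p0_96)) (pcAll_sound N4S_sp (by norm_num) N4S_len N4S_cols_eq F4S_p0_97)) (pcAll_sound N4S_sp (by norm_num) N4S_len N4S_cols_eq F4S_p0_98)) (pcAll_sound N4S_sp (by norm_num) N4S_len N4S_cols_eq F4S_p0_99)) (pcAll_sound N4S_sp (by norm_num) N4S_len N4S_cols_eq F4S_p0_100)) (pcAll_sound N4S_sp (by norm_num) N4S_len N4S_cols_eq F4S_p0_101)) (pcAll_sound N4S_sp (by norm_num) N4S_len N4S_cols_eq F4S_p0_102)) (pcAll_sound N4S_sp (by norm_num) N4S_len N4S_cols_eq F4S_p0_103)) (pcAll_sound N4S_sp (by norm_num) N4S_len N4S_cols_eq F4S_p0_104)) (pcAll_sound N4S_sp (by norm_num) N4S_len N4S_cols_eq F4S_p0_105))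 (pcAll_sound N4S_sp (by norm_num) N4S_len N4S_cols_eq F4S_p0_106)) (pcAll_sound N4S_sp (by norm_num) N4S_len N4S_cols_eq F4S_p0_107)) (pcAll_sound N4S_sp (by norm_num) N4S_len N4S_cols_eq F4S_p0_108)) (pcAll_sound N4S_sp (by norm_num) N4S_len N4S_cols_eq F4S_p0_109)) (pcAll_sound N4S_sp (by norm_num) N4S_len N4S_cols_eq F4S_p0_110)) (pcAll_sound N4S_sp (by norm_num) N4S_len N4S_cols_eq F4S_p0_111)) (pcAll_sound N4S_sp (by norm_num) N4S_len N4S_cols_eq F4S_p0_112)) (pcAll_sound N4S_sp (by norm_num) N4S_len N4S_cols_eq F4S_p0_113)) (pcAll_sound N4S_sp (by norm_num) N4S_len N4S_cols_eq F4S_p0_114)) (pcAll_sound N4S_sp (by norm_num) N4S_len N4S_cols_eq F4S_p0_115)) (pcAll_sound N4S_sp (by norm_num) N4S_len N4S_cols_eq F4S_p0_116)) (pcAll_sound N4S_sp (by norm_num) N4S_len N4S_cols_eq F4S_p0_117)) (pcAll_sound N4S_sp (by norm_num) N4S_len N4S_cols_eq F4S_p0_118)) (pcAll_sound N4S_sp (by norm_num)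 N4S_len N4S_cols_eq F4S_p0_119)) (pcAll_sound N4S_sp (by norm_num) N4S_len N4S_cols_eq F4S_p0_120)) (pcAll_sound N4S_sp (by norm_num) N4S_len N4S_cols_eq F4S_p0_121)) (pcAll_sound N4S_sp (by norm_num) N4S_len N4S_cols_eq F4S_p0_122)) (pcAll_sound N4S_sp (by norm_num) N4S_len N4S_cols_eq F4S_p0_123)) (pcAll_sound N4S_sp (by norm_num) N4S_len N4S_cols_eq F4S_p0_124)) (pcAll_sound N4S_sp (by norm_num) N4S_len N4S_cols_eq F4S_p0_125)) (pcAll_sound N4S_sp (by norm_num) N4S_len N4S_cols_eq F4S_p0_126)) (pcAll_sound N4S_sp (by norm_num) N4S_len N4S_cols_eq F4S_p0_127)) (pcAll_sound N4S_sp (by norm_num) N4S_len N4S_cols_eq F4S_p0_128)) (pcAll_sound N4S_sp (by norm_num) N4S_len N4S_cols_eq F4S_p0_129)) (pcAll_sound N4S_sp (by norm_num) N4S_len N4S_cols_eq F4S_p0_130)) (pcAll_sound N4S_sp (by norm_num) N4S_len N4S_cols_eq F4S_p0_131)) (pcAll_sound N4S_sp (by norm_num) N4S_len N4S_cols_eq F4S_p0_132))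 (pcAll_sound N4S_sp (by norm_num) N4S_len N4S_cols_eq F4S_p0_133)) (pcAll_sound N4S_sp (by norm_num) N4S_len N4S_cols_eq F4S_p0_134)) (pcAll_sound N4S_sp (by norm_num) N4S_len N4S_cols_eq F4S_p0_135)) (pcAll_sound N4S_sp (by norm_num) N4S_len N4S_cols_eq F4S_p0_136)) (pcAll_sound N4S_sp (by norm_num) N4S_len N4S_cols_eq F4S_p0_137)) (pcAll_sound N4S_sp (by norm_num) N4S_len N4S_cols_eq F4S_p0_138)) (pcAll_sound N4S_sp (by norm_num) N4S_len N4S_cols_eq F4S_p0_139)) (by decide +kernel)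

theorem F4S_P1 : PairOK F4S_A N4S_degs (chunk 10 1 N4S_r) N4S_sp (N4S_r.drop 10) [[1]] N4S_sp [[1]] [[1]] :=
  PairOK.of_sub (m := 2) (n := 140) (AllLt.step (AllLt.step (AllLt.step (AllLt.step (AllLt.step (AllLt.step (AllLt.step (AllLt.step (AllLt.step (AllLt.step (AllLt.step (AllLt.step (AllLt.step (AllLt.step (AllLt.step (AllLt.step (AllLt.step (AllLt.step (AllLt.step (AllLt.step (AllLt.step (AllLt.step (AllLt.step (AllLt.step (AllLt.step (AllLt.step (AllLt.step (AllLt.step (AllLt.step (AllLt.step (AllLt.step (AllLt.step (AllLt.step (AllLt.step (AllLt.step (AllLt.step (AllLt.step (AllLt.step (AllLt.step (AllLt.step (AllLt.step (AllLt.step (AllLt.step (AllLt.step (AllLt.step (AllLt.step (AllLt.step (AllLt.step (AllLt.step (AllLt.step (AllLt.step (AllLt.step (AllLt.step (AllLt.step (AllLt.step (AllLt.step (AllLt.step (AllLt.step (AllLt.step (AllLt.step (AllLt.step (AllLt.step (AllLt.step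 (AllLt.step (AllLt.step (AllLt.step (AllLt.step (AllLt.step (AllLt.step (AllLt.step (AllLt.step (AllLt.step (AllLt.step (AllLt.step (AllLt.step (AllLt.step (AllLt.step (AllLt.step (AllLt.step (AllLt.step (AllLt.step (AllLt.step (AllLt.step (AllLt.step (AllLt.step (AllLt.step (AllLt.step (AllLt.step (AllLt.step (AllLt.step (AllLt.step (AllLt.step (AllLt.step (AllLt.step (AllLt.step (AllLt.step (AllLt.step (AllLt.step (AllLt.step (AllLt.step (AllLt.step (AllLt.step (AllLt.step (AllLt.step (AllLt.step (AllLt.step (AllLt.step (AllLt.step (AllLt.step (AllLt.step (AllLt.step (AllLt.step (AllLt.step (AllLt.step (AllLt.step (AllLt.step (AllLt.step (AllLt.step (AllLt.step (AllLt.step (AllLt.step (AllLt.step (AllLt.step (AllLt.step (AllLt.step (AllLt.step (AllLt.step (AllLt.step (AllLt.step (AllLt.step (AllLt.step (AllLt.step (AllLt.step (AllLt.step (AllLt.step (AllLt.step (AllLt.step (AllLt.step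 (AllLt.step (AllLt.step AllLt.zero (pcAll_sound N4S_sp (by norm_num) N4S_len N4S_cols_eq F4S_p1_0)) (pcAll_sound N4S_sp (by norm_num) N4S_len N4S_cols_eq F4S_p1_1)) (pcAll_sound N4S_sp (by norm_num) N4S_len N4S_cols_eq F4S_p1_2)) (pcAll_sound N4S_sp (by norm_num) N4S_len N4S_cols_eq F4S_p1_3)) (pcAll_sound N4S_sp (by norm_num) N4S_len N4S_cols_eq F4S_p1_4)) (pcAll_sound N4S_sp (by norm_num) N4S_len N4S_cols_eq F4S_p1_5)) (pcAll_sound N4S_sp (by norm_num) N4S_len N4S_cols_eq F4S_p1_6)) (pcAll_sound N4S_sp (by norm_num) N4S_len N4S_cols_eq F4S_p1_7)) (pcAll_sound N4S_sp (by norm_num) N4S_len N4S_cols_eq F4S_p1_8)) (pcAll_sound N4S_sp (by norm_num) N4S_len N4S_cols_eq F4S_p1_9)) (pcAll_sound N4S_sp (by norm_num) N4S_len N4S_cols_eq F4S_p1_10)) (pcAll_sound N4S_sp (by norm_num) N4S_len N4S_cols_eq F4S_p1_11)) (pcAll_sound N4S_sp (by norm_num) N4S_len N4S_cols_eq F4S_p1_12)) (pcAll_sound N4S_sp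 (by norm_num) N4S_len N4S_cols_eq F4S_p1_13)) (pcAll_sound N4S_sp (by norm_num) N4S_len N4S_cols_eq F4S_p1_14)) (pcAll_sound N4S_sp (by norm_num) N4S_len N4S_cols_eq F4S_p1_15)) (pcAll_sound N4S_sp (by norm_num) N4S_len N4S_cols_eq F4S_p1_16)) (pcAll_sound N4S_sp (by norm_num) N4S_len N4S_cols_eq F4S_p1_17)) (pcAll_sound N4S_sp (by norm_num) N4S_len N4S_cols_eq F4S_p1_18)) (pcAll_sound N4S_sp (by norm_num) N4S_len N4S_cols_eq F4S_p1_19)) (pcAll_sound N4S_sp (by norm_num) N4S_len N4S_cols_eq F4S_p1_20)) (pcAll_sound N4S_sp (by norm_num) N4S_len N4S_cols_eq F4S_p1_21)) (pcAll_sound N4S_sp (by norm_num) N4S_len N4S_cols_eq F4S_p1_22)) (pcAll_sound N4S_sp (by norm_num) N4S_len N4S_cols_eq F4S_p1_23)) (pcAll_sound N4S_sp (by norm_num) N4S_len N4S_cols_eq F4S_p1_24)) (pcAll_sound N4S_sp (by norm_num) N4S_len N4S_cols_eq F4S_p1_25)) (pcAll_sound N4S_sp (by norm_num) N4S_len N4S_cols_eq F4S_p1_26))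 (pcAll_sound N4S_sp (by norm_num) N4S_len N4S_cols_eq F4S_p1_27)) (pcAll_sound N4S_sp (by norm_num) N4S_len N4S_cols_eq F4S_p1_28)) (pcAll_sound N4S_sp (by norm_num) N4S_len N4S_cols_eq F4S_p1_29)) (pcAll_sound N4S_sp (by norm_num) N4S_len N4S_cols_eq F4S_p1_30)) (pcAll_sound N4S_sp (by norm_num) N4S_len N4S_cols_eq F4S_p1_31)) (pcAll_sound N4S_sp (by norm_num) N4S_len N4S_cols_eq F4S_p1_32)) (pcAll_sound N4S_sp (by norm_num) N4S_len N4S_cols_eq F4S_p1_33)) (pcAll_sound N4S_sp (by norm_num) N4S_len N4S_cols_eq F4S_p1_34)) (pcAll_sound N4S_sp (by norm_num) N4S_len N4S_cols_eq F4S_p1_35)) (pcAll_sound N4S_sp (by norm_num) N4S_len N4S_cols_eq F4S_p1_36)) (pcAll_sound N4S_sp (by norm_num) N4S_len N4S_cols_eq F4S_p1_37)) (pcAll_sound N4S_sp (by norm_num) N4S_len N4S_cols_eq F4S_p1_38)) (pcAll_sound N4S_sp (by norm_num) N4S_len N4S_cols_eq F4S_p1_39)) (pcAll_sound N4S_sp (by norm_num) N4S_len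 N4S_cols_eq F4S_p1_40)) (pcAll_sound N4S_sp (by norm_num) N4S_len N4S_cols_eq F4S_p1_41)) (pcAll_sound N4S_sp (by norm_num) N4S_len N4S_cols_eq F4S_p1_42)) (pcAll_sound N4S_sp (by norm_num) N4S_len N4S_cols_eq F4S_p1_43)) (pcAll_sound N4S_sp (by norm_num) N4S_len N4S_cols_eq F4S_p1_44)) (pcAll_sound N4S_sp (by norm_num) N4S_len N4S_cols_eq F4S_p1_45)) (pcAll_sound N4S_sp (by norm_num) N4S_len N4S_cols_eq F4S_p1_46)) (pcAll_sound N4S_sp (by norm_num) N4S_len N4S_cols_eq F4S_p1_47)) (pcAll_sound N4S_sp (by norm_num) N4S_len N4S_cols_eq F4S_p1_48)) (pcAll_sound N4S_sp (by norm_num) N4S_len N4S_cols_eq F4S_p1_49)) (pcAll_sound N4S_sp (by norm_num) N4S_len N4S_cols_eq F4S_p1_50)) (pcAll_sound N4S_sp (by norm_num) N4S_len N4S_cols_eq F4S_p1_51)) (pcAll_sound N4S_sp (by norm_num) N4S_len N4S_cols_eq F4S_p1_52)) (pcAll_sound N4S_sp (by norm_num) N4S_len N4S_cols_eq F4S_p1_53)) (pcAll_sound N4S_sp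 (by norm_num) N4S_len N4S_cols_eq F4S_p1_54)) (pcAll_sound N4S_sp (by norm_num) N4S_len N4S_cols_eq F4S_p1_55)) (pcAll_sound N4S_sp (by norm_num) N4S_len N4S_cols_eq F4S_p1_56)) (pcAll_sound N4S_sp (by norm_num) N4S_len N4S_cols_eq F4S_p1_57)) (pcAll_sound N4S_sp (by norm_num) N4S_len N4S_cols_eq F4S_p1_58)) (pcAll_sound N4S_sp (by norm_num) N4S_len N4S_cols_eq F4S_p1_59)) (pcAll_sound N4S_sp (by norm_num) N4S_len N4S_cols_eq F4S_p1_60)) (pcAll_sound N4S_sp (by norm_num) N4S_len N4S_cols_eq F4S_p1_61)) (pcAll_sound N4S_sp (by norm_num) N4S_len N4S_cols_eq F4S_p1_62)) (pcAll_sound N4S_sp (by norm_num) N4S_len N4S_cols_eq F4S_p1_63)) (pcAll_sound N4S_sp (by norm_num) N4S_len N4S_cols_eq F4S_p1_64)) (pcAll_sound N4S_sp (by norm_num) N4S_len N4S_cols_eq F4S_p1_65)) (pcAll_sound N4S_sp (by norm_num) N4S_len N4S_cols_eq F4S_p1_66)) (pcAll_sound N4S_sp (by norm_num) N4S_len N4S_cols_eq F4S_p1_67))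 (pcAll_sound N4S_sp (by norm_num) N4S_len N4S_cols_eq F4S_p1_68)) (pcAll_sound N4S_sp (by norm_num) N4S_len N4S_cols_eq F4S_p1_69)) (pcAll_sound N4S_sp (by norm_num) N4S_len N4S_cols_eq F4S_p1_70)) (pcAll_sound N4S_sp (by norm_num) N4S_len N4S_cols_eq F4S_p1_71)) (pcAll_sound N4S_sp (by norm_num) N4S_len N4S_cols_eq F4S_p1_72)) (pcAll_sound N4S_sp (by norm_num) N4S_len N4S_cols_eq F4S_p1_73)) (pcAll_sound N4S_sp (by norm_num) N4S_len N4S_cols_eq F4S_p1_74)) (pcAll_sound N4S_sp (by norm_num) N4S_len N4S_cols_eq F4S_p1_75)) (pcAll_sound N4S_sp (by norm_num) N4S_len N4S_cols_eq F4S_p1_76)) (pcAll_sound N4S_sp (by norm_num) N4S_len N4S_cols_eq F4S_p1_77)) (pcAll_sound N4S_sp (by norm_num) N4S_len N4S_cols_eq F4S_p1_78)) (pcAll_sound N4S_sp (by norm_num) N4S_len N4S_cols_eq F4S_p1_79)) (pcAll_sound N4S_sp (by norm_num) N4S_len N4S_cols_eq F4S_p1_80)) (pcAll_sound N4S_sp (by norm_num) N4S_len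 N4S_cols_eq F4S_p1_81)) (pcAll_sound N4S_sp (by norm_num) N4S_len N4S_cols_eq F4S_p1_82)) (pcAll_sound N4S_sp (by norm_num) N4S_len N4S_cols_eq F4S_p1_83)) (pcAll_sound N4S_sp (by norm_num) N4S_len N4S_cols_eq F4S_p1_84)) (pcAll_sound N4S_sp (by norm_num) N4S_len N4S_cols_eq F4S_p1_85)) (pcAll_sound N4S_sp (by norm_num) N4S_len N4S_cols_eq F4S_p1_86)) (pcAll_sound N4S_sp (by norm_num) N4S_len N4S_cols_eq F4S_p1_87)) (pcAll_sound N4S_sp (by norm_num) N4S_len N4S_cols_eq F4S_p1_88)) (pcAll_sound N4S_sp (by norm_num) N4S_len N4S_cols_eq F4S_p1_89)) (pcAll_sound N4S_sp (by norm_num) N4S_len N4S_cols_eq F4S_p1_90)) (pcAll_sound N4S_sp (by norm_num) N4S_len N4S_cols_eq F4S_p1_91)) (pcAll_sound N4S_sp (by norm_num) N4S_len N4S_cols_eq F4S_p1_92)) (pcAll_sound N4S_sp (by norm_num) N4S_len N4S_cols_eq F4S_p1_93)) (pcAll_sound N4S_sp (by norm_num) N4S_len N4S_cols_eq F4S_p1_94)) (pcAll_sound N4S_sp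 (by norm_num) N4S_len N4S_cols_eq F4S_p1_95)) (pcAll_sound N4S_sp (by norm_num) N4S_len N4S_cols_eq F4S_p1_96)) (pcAll_sound N4S_sp (by norm_num) N4S_len N4S_cols_eq F4S_p1_97)) (pcAll_sound N4S_sp (by norm_num) N4S_len N4S_cols_eq F4S_p1_98)) (pcAll_sound N4S_sp (by norm_num) N4S_len N4S_cols_eq F4S_p1_99)) (pcAll_sound N4S_sp (by norm_num) N4S_len N4S_cols_eq F4S_p1_100)) (pcAll_sound N4S_sp (by norm_num) N4S_len N4S_cols_eq F4S_p1_101)) (pcAll_sound N4S_sp (by norm_num) N4S_len N4S_cols_eq F4S_p1_102)) (pcAll_sound N4S_sp (by norm_num) N4S_len N4S_cols_eq F4S_p1_103)) (pcAll_sound N4S_sp (by norm_num) N4S_len N4S_cols_eq F4S_p1_104)) (pcAll_sound N4S_sp (by norm_num) N4S_len N4S_cols_eq F4S_p1_105)) (pcAll_sound N4S_sp (by norm_num) N4S_len N4S_cols_eq F4S_p1_106)) (pcAll_sound N4S_sp (by norm_num) N4S_len N4S_cols_eq F4S_p1_107)) (pcAll_sound N4S_sp (by norm_num) N4S_len N4S_cols_eq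 F4S_p1_108)) (pcAll_sound N4S_sp (by norm_num) N4S_len N4S_cols_eq F4S_p1_109)) (pcAll_sound N4S_sp (by norm_num) N4S_len N4S_cols_eq F4S_p1_110)) (pcAll_sound N4S_sp (by norm_num) N4S_len N4S_cols_eq F4S_p1_111)) (pcAll_sound N4S_sp (by norm_num) N4S_len N4S_cols_eq F4S_p1_112)) (pcAll_sound N4S_sp (by norm_num) N4S_len N4S_cols_eq F4S_p1_113)) (pcAll_sound N4S_sp (by norm_num) N4S_len N4S_cols_eq F4S_p1_114)) (pcAll_sound N4S_sp (by norm_num) N4S_len N4S_cols_eq F4S_p1_115)) (pcAll_sound N4S_sp (by norm_num) N4S_len N4S_cols_eq F4S_p1_116)) (pcAll_sound N4S_sp (by norm_num) N4S_len N4S_cols_eq F4S_p1_117)) (pcAll_sound N4S_sp (by norm_num) N4S_len N4S_cols_eq F4S_p1_118)) (pcAll_sound N4S_sp (by norm_num) N4S_len N4S_cols_eq F4S_p1_119)) (pcAll_sound N4S_sp (by norm_num) N4S_len N4S_cols_eq F4S_p1_120)) (pcAll_sound N4S_sp (by norm_num) N4S_len N4S_cols_eq F4S_p1_121)) (pcAll_sound N4S_sp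 (by norm_num) N4S_len N4S_cols_eq F4S_p1_122)) (pcAll_sound N4S_sp (by norm_num) N4S_len N4S_cols_eq F4S_p1_123)) (pcAll_sound N4S_sp (by norm_num) N4S_len N4S_cols_eq F4S_p1_124)) (pcAll_sound N4S_sp (by norm_num) N4S_len N4S_cols_eq F4S_p1_125)) (pcAll_sound N4S_sp (by norm_num) N4S_len N4S_cols_eq F4S_p1_126)) (pcAll_sound N4S_sp (by norm_num) N4S_len N4S_cols_eq F4S_p1_127)) (pcAll_sound N4S_sp (by norm_num) N4S_len N4S_cols_eq F4S_p1_128)) (pcAll_sound N4S_sp (by norm_num) N4S_len N4S_cols_eq F4S_p1_129)) (pcAll_sound N4S_sp (by norm_num) N4S_len N4S_cols_eq F4S_p1_130)) (pcAll_sound N4S_sp (by norm_num) N4S_len N4S_cols_eq F4S_p1_131)) (pcAll_sound N4S_sp (by norm_num) N4S_len N4S_cols_eq F4S_p1_132)) (pcAll_sound N4S_sp (by norm_num) N4S_len N4S_cols_eq F4S_p1_133)) (pcAll_sound N4S_sp (by norm_num) N4S_len N4S_cols_eq F4S_p1_134)) (pcAll_sound N4S_sp (by norm_num) N4S_len N4S_cols_eq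 F4S_p1_135)) (pcAll_sound N4S_sp (by norm_num) N4S_len N4S_cols_eq F4S_p1_136)) (pcAll_sound N4S_sp (by norm_num) N4S_len N4S_cols_eq F4S_p1_137)) (pcAll_sound N4S_sp (by norm_num) N4S_len N4S_cols_eq F4S_p1_138)) (pcAll_sound N4S_sp (by norm_num) N4S_len N4S_cols_eq F4S_p1_139)) (by decide +kernel)

theorem F4S_P2 : PairOK F4S_A N4S_degs (chunk 10 2 N4S_r) N4S_sp (N4S_r.drop 20) [[1]] N4S_sp [[1]] [[1]] :=
  PairOK.of_sub (m := 3) (n := 94) (AllLt.step (AllLt.step (AllLt.step (AllLt.step (AllLt.step (AllLt.step (AllLt.step (AllLt.step (AllLt.step (AllLt.step (AllLt.step (AllLt.step (AllLt.step (AllLt.step (AllLt.step (AllLt.step (AllLt.step (AllLt.step (AllLt.step (AllLt.step (AllLt.step (AllLt.step (AllLt.step (AllLt.step (AllLt.step (AllLt.step (AllLt.step (AllLt.step (AllLt.step (AllLt.step (AllLt.step (AllLt.step (AllLt.step (AllLt.step (AllLt.step (AllLt.step (AllLt.step (AllLt.step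 (AllLt.step (AllLt.step (AllLt.step (AllLt.step (AllLt.step (AllLt.step (AllLt.step (AllLt.step (AllLt.step (AllLt.step (AllLt.step (AllLt.step (AllLt.step (AllLt.step (AllLt.step (AllLt.step (AllLt.step (AllLt.step (AllLt.step (AllLt.step (AllLt.step (AllLt.step (AllLt.step (AllLt.step (AllLt.step (AllLt.step (AllLt.step (AllLt.step (AllLt.step (AllLt.step (AllLt.step (AllLt.step (AllLt.step (AllLt.step (AllLt.step (AllLt.step (AllLt.step (AllLt.step (AllLt.step (AllLt.step (AllLt.step (AllLt.step (AllLt.step (AllLt.step (AllLt.step (AllLt.step (AllLt.step (AllLt.step (AllLt.step (AllLt.step (AllLt.step (AllLt.step (AllLt.step (AllLt.step (AllLt.step (AllLt.step AllLt.zero (pcAll_sound N4S_sp (by norm_num) N4S_len N4S_cols_eq F4S_p2_0)) (pcAll_sound N4S_sp (by norm_num) N4S_len N4S_cols_eq F4S_p2_1)) (pcAll_sound N4S_sp (by norm_num) N4S_len N4S_cols_eq F4S_p2_2)) (pcAll_sound N4S_sp (by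 norm_num) N4S_len N4S_cols_eq F4S_p2_3)) (pcAll_sound N4S_sp (by norm_num) N4S_len N4S_cols_eq F4S_p2_4)) (pcAll_sound N4S_sp (by norm_num) N4S_len N4S_cols_eq F4S_p2_5)) (pcAll_sound N4S_sp (by norm_num) N4S_len N4S_cols_eq F4S_p2_6)) (pcAll_sound N4S_sp (by norm_num) N4S_len N4S_cols_eq F4S_p2_7)) (pcAll_sound N4S_sp (by norm_num) N4S_len N4S_cols_eq F4S_p2_8)) (pcAll_sound N4S_sp (by norm_num) N4S_len N4S_cols_eq F4S_p2_9)) (pcAll_sound N4S_sp (by norm_num) N4S_len N4S_cols_eq F4S_p2_10)) (pcAll_sound N4S_sp (by norm_num) N4S_len N4S_cols_eq F4S_p2_11)) (pcAll_sound N4S_sp (by norm_num) N4S_len N4S_cols_eq F4S_p2_12)) (pcAll_sound N4S_sp (by norm_num) N4S_len N4S_cols_eq F4S_p2_13)) (pcAll_sound N4S_sp (by norm_num) N4S_len N4S_cols_eq F4S_p2_14)) (pcAll_sound N4S_sp (by norm_num) N4S_len N4S_cols_eq F4S_p2_15)) (pcAll_sound N4S_sp (by norm_num) N4S_len N4S_cols_eq F4S_p2_16)) (pcAll_sound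 N4S_sp (by norm_num) N4S_len N4S_cols_eq F4S_p2_17)) (pcAll_sound N4S_sp (by norm_num) N4S_len N4S_cols_eq F4S_p2_18)) (pcAll_sound N4S_sp (by norm_num) N4S_len N4S_cols_eq F4S_p2_19)) (pcAll_sound N4S_sp (by norm_num) N4S_len N4S_cols_eq F4S_p2_20)) (pcAll_sound N4S_sp (by norm_num) N4S_len N4S_cols_eq F4S_p2_21)) (pcAll_sound N4S_sp (by norm_num) N4S_len N4S_cols_eq F4S_p2_22)) (pcAll_sound N4S_sp (by norm_num) N4S_len N4S_cols_eq F4S_p2_23)) (pcAll_sound N4S_sp (by norm_num) N4S_len N4S_cols_eq F4S_p2_24)) (pcAll_sound N4S_sp (by norm_num) N4S_len N4S_cols_eq F4S_p2_25)) (pcAll_sound N4S_sp (by norm_num) N4S_len N4S_cols_eq F4S_p2_26)) (pcAll_sound N4S_sp (by norm_num) N4S_len N4S_cols_eq F4S_p2_27)) (pcAll_sound N4S_sp (by norm_num) N4S_len N4S_cols_eq F4S_p2_28)) (pcAll_sound N4S_sp (by norm_num) N4S_len N4S_cols_eq F4S_p2_29)) (pcAll_sound N4S_sp (by norm_num) N4S_len N4S_cols_eq F4S_p2_30))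 (pcAll_sound N4S_sp (by norm_num) N4S_len N4S_cols_eq F4S_p2_31)) (pcAll_sound N4S_sp (by norm_num) N4S_len N4S_cols_eq F4S_p2_32)) (pcAll_sound N4S_sp (by norm_num) N4S_len N4S_cols_eq F4S_p2_33)) (pcAll_sound N4S_sp (by norm_num) N4S_len N4S_cols_eq F4S_p2_34)) (pcAll_sound N4S_sp (by norm_num) N4S_len N4S_cols_eq F4S_p2_35)) (pcAll_sound N4S_sp (by norm_num) N4S_len N4S_cols_eq F4S_p2_36)) (pcAll_sound N4S_sp (by norm_num) N4S_len N4S_cols_eq F4S_p2_37)) (pcAll_sound N4S_sp (by norm_num) N4S_len N4S_cols_eq F4S_p2_38)) (pcAll_sound N4S_sp (by norm_num) N4S_len N4S_cols_eq F4S_p2_39)) (pcAll_sound N4S_sp (by norm_num) N4S_len N4S_cols_eq F4S_p2_40)) (pcAll_sound N4S_sp (by norm_num) N4S_len N4S_cols_eq F4S_p2_41)) (pcAll_sound N4S_sp (by norm_num) N4S_len N4S_cols_eq F4S_p2_42)) (pcAll_sound N4S_sp (by norm_num) N4S_len N4S_cols_eq F4S_p2_43)) (pcAll_sound N4S_sp (by norm_num) N4S_len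 N4S_cols_eq F4S_p2_44)) (pcAll_sound N4S_sp (by norm_num) N4S_len N4S_cols_eq F4S_p2_45)) (pcAll_sound N4S_sp (by norm_num) N4S_len N4S_cols_eq F4S_p2_46)) (pcAll_sound N4S_sp (by norm_num) N4S_len N4S_cols_eq F4S_p2_47)) (pcAll_sound N4S_sp (by norm_num) N4S_len N4S_cols_eq F4S_p2_48)) (pcAll_sound N4S_sp (by norm_num) N4S_len N4S_cols_eq F4S_p2_49)) (pcAll_sound N4S_sp (by norm_num) N4S_len N4S_cols_eq F4S_p2_50)) (pcAll_sound N4S_sp (by norm_num) N4S_len N4S_cols_eq F4S_p2_51)) (pcAll_sound N4S_sp (by norm_num) N4S_len N4S_cols_eq F4S_p2_52)) (pcAll_sound N4S_sp (by norm_num) N4S_len N4S_cols_eq F4S_p2_53)) (pcAll_sound N4S_sp (by norm_num) N4S_len N4S_cols_eq F4S_p2_54)) (pcAll_sound N4S_sp (by norm_num) N4S_len N4S_cols_eq F4S_p2_55)) (pcAll_sound N4S_sp (by norm_num) N4S_len N4S_cols_eq F4S_p2_56)) (pcAll_sound N4S_sp (by norm_num) N4S_len N4S_cols_eq F4S_p2_57)) (pcAll_sound N4S_sp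 (by norm_num) N4S_len N4S_cols_eq F4S_p2_58)) (pcAll_sound N4S_sp (by norm_num) N4S_len N4S_cols_eq F4S_p2_59)) (pcAll_sound N4S_sp (by norm_num) N4S_len N4S_cols_eq F4S_p2_60)) (pcAll_sound N4S_sp (by norm_num) N4S_len N4S_cols_eq F4S_p2_61)) (pcAll_sound N4S_sp (by norm_num) N4S_len N4S_cols_eq F4S_p2_62)) (pcAll_sound N4S_sp (by norm_num) N4S_len N4S_cols_eq F4S_p2_63)) (pcAll_sound N4S_sp (by norm_num) N4S_len N4S_cols_eq F4S_p2_64)) (pcAll_sound N4S_sp (by norm_num) N4S_len N4S_cols_eq F4S_p2_65)) (pcAll_sound N4S_sp (by norm_num) N4S_len N4S_cols_eq F4S_p2_66)) (pcAll_sound N4S_sp (by norm_num) N4S_len N4S_cols_eq F4S_p2_67)) (pcAll_sound N4S_sp (by norm_num) N4S_len N4S_cols_eq F4S_p2_68)) (pcAll_sound N4S_sp (by norm_num) N4S_len N4S_cols_eq F4S_p2_69)) (pcAll_sound N4S_sp (by norm_num) N4S_len N4S_cols_eq F4S_p2_70)) (pcAll_sound N4S_sp (by norm_num) N4S_len N4S_cols_eq F4S_p2_71))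 (pcAll_sound N4S_sp (by norm_num) N4S_len N4S_cols_eq F4S_p2_72)) (pcAll_sound N4S_sp (by norm_num) N4S_len N4S_cols_eq F4S_p2_73)) (pcAll_sound N4S_sp (by norm_num) N4S_len N4S_cols_eq F4S_p2_74)) (pcAll_sound N4S_sp (by norm_num) N4S_len N4S_cols_eq F4S_p2_75)) (pcAll_sound N4S_sp (by norm_num) N4S_len N4S_cols_eq F4S_p2_76)) (pcAll_sound N4S_sp (by norm_num) N4S_len N4S_cols_eq F4S_p2_77)) (pcAll_sound N4S_sp (by norm_num) N4S_len N4S_cols_eq F4S_p2_78)) (pcAll_sound N4S_sp (by norm_num) N4S_len N4S_cols_eq F4S_p2_79)) (pcAll_sound N4S_sp (by norm_num) N4S_len N4S_cols_eq F4S_p2_80)) (pcAll_sound N4S_sp (by norm_num) N4S_len N4S_cols_eq F4S_p2_81)) (pcAll_sound N4S_sp (by norm_num) N4S_len N4S_cols_eq F4S_p2_82)) (pcAll_sound N4S_sp (by norm_num) N4S_len N4S_cols_eq F4S_p2_83)) (pcAll_sound N4S_sp (by norm_num) N4S_len N4S_cols_eq F4S_p2_84)) (pcAll_sound N4S_sp (by norm_num) N4S_len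 N4S_cols_eq F4S_p2_85)) (pcAll_sound N4S_sp (by norm_num) N4S_len N4S_cols_eq F4S_p2_86)) (pcAll_sound N4S_sp (by norm_num) N4S_len N4S_cols_eq F4S_p2_87)) (pcAll_sound N4S_sp (by norm_num) N4S_len N4S_cols_eq F4S_p2_88)) (pcAll_sound N4S_sp (by norm_num) N4S_len N4S_cols_eq F4S_p2_89)) (pcAll_sound N4S_sp (by norm_num) N4S_len N4S_cols_eq F4S_p2_90)) (pcAll_sound N4S_sp (by norm_num) N4S_len N4S_cols_eq F4S_p2_91)) (pcAll_sound N4S_sp (by norm_num) N4S_len N4S_cols_eq F4S_p2_92)) (pcAll_sound N4S_sp (by norm_num) N4S_len N4S_cols_eq F4S_p2_93)) (by decide +kernel)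

theorem F4S_P3 : PairOK F4S_A N4S_degs (chunk 10 3 N4S_r) N4S_sp (N4S_r.drop 30) [[1]] N4S_sp [[1]] [[1]] :=
  PairOK.of_sub (m := 5) (n := 56) (AllLt.step (AllLt.step (AllLt.step (AllLt.step (AllLt.step (AllLt.step (AllLt.step (AllLt.step (AllLt.step (AllLt.step (AllLt.step (AllLt.step (AllLt.step (AllLt.step (AllLt.step (AllLt.step (AllLt.step (AllLt.step (AllLt.step (AllLt.step (AllLt.step (AllLt.step (AllLt.step (AllLt.step (AllLt.step (AllLt.step (AllLt.step (AllLt.step (AllLt.step (AllLt.step (AllLt.step (AllLt.step (AllLt.step (AllLt.step (AllLt.step (AllLt.step (AllLt.step (AllLt.step (AllLt.step (AllLt.step (AllLt.step (AllLt.step (AllLt.step (AllLt.step (AllLt.step (AllLt.step (AllLt.step (AllLt.step (AllLt.step (AllLt.step (AllLt.step (AllLt.step (AllLt.step (AllLt.step (AllLt.step (AllLt.step AllLt.zero (pcAll_sound N4S_sp (by norm_num) N4S_len N4S_cols_eq F4S_p3_0)) (pcAll_sound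 N4S_sp (by norm_num) N4S_len N4S_cols_eq F4S_p3_1)) (pcAll_sound N4S_sp (by norm_num) N4S_len N4S_cols_eq F4S_p3_2)) (pcAll_sound N4S_sp (by norm_num) N4S_len N4S_cols_eq F4S_p3_3)) (pcAll_sound N4S_sp (by norm_num) N4S_len N4S_cols_eq F4S_p3_4)) (pcAll_sound N4S_sp (by norm_num) N4S_len N4S_cols_eq F4S_p3_5)) (pcAll_sound N4S_sp (by norm_num) N4S_len N4S_cols_eq F4S_p3_6)) (pcAll_sound N4S_sp (by norm_num) N4S_len N4S_cols_eq F4S_p3_7)) (pcAll_sound N4S_sp (by norm_num) N4S_len N4S_cols_eq F4S_p3_8)) (pcAll_sound N4S_sp (by norm_num) N4S_len N4S_cols_eq F4S_p3_9)) (pcAll_sound N4S_sp (by norm_num) N4S_len N4S_cols_eq F4S_p3_10)) (pcAll_sound N4S_sp (by norm_num) N4S_len N4S_cols_eq F4S_p3_11)) (pcAll_sound N4S_sp (by norm_num) N4S_len N4S_cols_eq F4S_p3_12)) (pcAll_sound N4S_sp (by norm_num) N4S_len N4S_cols_eq F4S_p3_13)) (pcAll_sound N4S_sp (by norm_num) N4S_len N4S_cols_eq F4S_p3_14))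 (pcAll_sound N4S_sp (by norm_num) N4S_len N4S_cols_eq F4S_p3_15)) (pcAll_sound N4S_sp (by norm_num) N4S_len N4S_cols_eq F4S_p3_16)) (pcAll_sound N4S_sp (by norm_num) N4S_len N4S_cols_eq F4S_p3_17)) (pcAll_sound N4S_sp (by norm_num) N4S_len N4S_cols_eq F4S_p3_18)) (pcAll_sound N4S_sp (by norm_num) N4S_len N4S_cols_eq F4S_p3_19)) (pcAll_sound N4S_sp (by norm_num) N4S_len N4S_cols_eq F4S_p3_20)) (pcAll_sound N4S_sp (by norm_num) N4S_len N4S_cols_eq F4S_p3_21)) (pcAll_sound N4S_sp (by norm_num) N4S_len N4S_cols_eq F4S_p3_22)) (pcAll_sound N4S_sp (by norm_num) N4S_len N4S_cols_eq F4S_p3_23)) (pcAll_sound N4S_sp (by norm_num) N4S_len N4S_cols_eq F4S_p3_24)) (pcAll_sound N4S_sp (by norm_num) N4S_len N4S_cols_eq F4S_p3_25)) (pcAll_sound N4S_sp (by norm_num) N4S_len N4S_cols_eq F4S_p3_26)) (pcAll_sound N4S_sp (by norm_num) N4S_len N4S_cols_eq F4S_p3_27)) (pcAll_sound N4S_sp (by norm_num) N4S_len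 N4S_cols_eq F4S_p3_28)) (pcAll_sound N4S_sp (by norm_num) N4S_len N4S_cols_eq F4S_p3_29)) (pcAll_sound N4S_sp (by norm_num) N4S_len N4S_cols_eq F4S_p3_30)) (pcAll_sound N4S_sp (by norm_num) N4S_len N4S_cols_eq F4S_p3_31)) (pcAll_sound N4S_sp (by norm_num) N4S_len N4S_cols_eq F4S_p3_32)) (pcAll_sound N4S_sp (by norm_num) N4S_len N4S_cols_eq F4S_p3_33)) (pcAll_sound N4S_sp (by norm_num) N4S_len N4S_cols_eq F4S_p3_34)) (pcAll_sound N4S_sp (by norm_num) N4S_len N4S_cols_eq F4S_p3_35)) (pcAll_sound N4S_sp (by norm_num) N4S_len N4S_cols_eq F4S_p3_36)) (pcAll_sound N4S_sp (by norm_num) N4S_len N4S_cols_eq F4S_p3_37)) (pcAll_sound N4S_sp (by norm_num) N4S_len N4S_cols_eq F4S_p3_38)) (pcAll_sound N4S_sp (by norm_num) N4S_len N4S_cols_eq F4S_p3_39)) (pcAll_sound N4S_sp (by norm_num) N4S_len N4S_cols_eq F4S_p3_40)) (pcAll_sound N4S_sp (by norm_num) N4S_len N4S_cols_eq F4S_p3_41)) (pcAll_sound N4S_sp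 (by norm_num) N4S_len N4S_cols_eq F4S_p3_42)) (pcAll_sound N4S_sp (by norm_num) N4S_len N4S_cols_eq F4S_p3_43)) (pcAll_sound N4S_sp (by norm_num) N4S_len N4S_cols_eq F4S_p3_44)) (pcAll_sound N4S_sp (by norm_num) N4S_len N4S_cols_eq F4S_p3_45)) (pcAll_sound N4S_sp (by norm_num) N4S_len N4S_cols_eq F4S_p3_46)) (pcAll_sound N4S_sp (by norm_num) N4S_len N4S_cols_eq F4S_p3_47)) (pcAll_sound N4S_sp (by norm_num) N4S_len N4S_cols_eq F4S_p3_48)) (pcAll_sound N4S_sp (by norm_num) N4S_len N4S_cols_eq F4S_p3_49)) (pcAll_sound N4S_sp (by norm_num) N4S_len N4S_cols_eq F4S_p3_50)) (pcAll_sound N4S_sp (by norm_num) N4S_len N4S_cols_eq F4S_p3_51)) (pcAll_sound N4S_sp (by norm_num) N4S_len N4S_cols_eq F4S_p3_52)) (pcAll_sound N4S_sp (by norm_num) N4S_len N4S_cols_eq F4S_p3_53)) (pcAll_sound N4S_sp (by norm_num) N4S_len N4S_cols_eq F4S_p3_54)) (pcAll_sound N4S_sp (by norm_num) N4S_len N4S_cols_eq F4S_p3_55))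 (by decide +kernel)

theorem F4S_P4 : PairOK F4S_A N4S_degs (chunk 10 4 N4S_r) N4S_sp (N4S_r.drop 40) [[1]] N4S_sp [[1]] [[1]] :=
  PairOK.of_sub (m := 9) (n := 32) (AllLt.step (AllLt.step (AllLt.step (AllLt.step (AllLt.step (AllLt.step (AllLt.step (AllLt.step (AllLt.step (AllLt.step (AllLt.step (AllLt.step (AllLt.step (AllLt.step (AllLt.step (AllLt.step (AllLt.step (AllLt.step (AllLt.step (AllLt.step (AllLt.step (AllLt.step (AllLt.step (AllLt.step (AllLt.step (AllLt.step (AllLt.step (AllLt.step (AllLt.step (AllLt.step (AllLt.step (AllLt.step AllLt.zero (pcAll_sound N4S_sp (by norm_num) N4S_len N4S_cols_eq F4S_p4_0)) (pcAll_sound N4S_sp (by norm_num) N4S_len N4S_cols_eq F4S_p4_1)) (pcAll_sound N4S_sp (by norm_num) N4S_len N4S_cols_eq F4S_p4_2)) (pcAll_sound N4S_sp (by norm_num) N4S_len N4S_cols_eq F4S_p4_3)) (pcAll_sound N4S_sp (by norm_num) N4S_len N4S_cols_eq F4S_p4_4)) (pcAll_sound N4S_sp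 (by norm_num) N4S_len N4S_cols_eq F4S_p4_5)) (pcAll_sound N4S_sp (by norm_num) N4S_len N4S_cols_eq F4S_p4_6)) (pcAll_sound N4S_sp (by norm_num) N4S_len N4S_cols_eq F4S_p4_7)) (pcAll_sound N4S_sp (by norm_num) N4S_len N4S_cols_eq F4S_p4_8)) (pcAll_sound N4S_sp (by norm_num) N4S_len N4S_cols_eq F4S_p4_9)) (pcAll_sound N4S_sp (by norm_num) N4S_len N4S_cols_eq F4S_p4_10)) (pcAll_sound N4S_sp (by norm_num) N4S_len N4S_cols_eq F4S_p4_11)) (pcAll_sound N4S_sp (by norm_num) N4S_len N4S_cols_eq F4S_p4_12)) (pcAll_sound N4S_sp (by norm_num) N4S_len N4S_cols_eq F4S_p4_13)) (pcAll_sound N4S_sp (by norm_num) N4S_len N4S_cols_eq F4S_p4_14)) (pcAll_sound N4S_sp (by norm_num) N4S_len N4S_cols_eq F4S_p4_15)) (pcAll_sound N4S_sp (by norm_num) N4S_len N4S_cols_eq F4S_p4_16)) (pcAll_sound N4S_sp (by norm_num) N4S_len N4S_cols_eq F4S_p4_17)) (pcAll_sound N4S_sp (by norm_num) N4S_len N4S_cols_eq F4S_p4_18)) (pcAll_sound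 N4S_sp (by norm_num) N4S_len N4S_cols_eq F4S_p4_19)) (pcAll_sound N4S_sp (by norm_num) N4S_len N4S_cols_eq F4S_p4_20)) (pcAll_sound N4S_sp (by norm_num) N4S_len N4S_cols_eq F4S_p4_21)) (pcAll_sound N4S_sp (by norm_num) N4S_len N4S_cols_eq F4S_p4_22)) (pcAll_sound N4S_sp (by norm_num) N4S_len N4S_cols_eq F4S_p4_23)) (pcAll_sound N4S_sp (by norm_num) N4S_len N4S_cols_eq F4S_p4_24)) (pcAll_sound N4S_sp (by norm_num) N4S_len N4S_cols_eq F4S_p4_25)) (pcAll_sound N4S_sp (by norm_num) N4S_len N4S_cols_eq F4S_p4_26)) (pcAll_sound N4S_sp (by norm_num) N4S_len N4S_cols_eq F4S_p4_27)) (pcAll_sound N4S_sp (by norm_num) N4S_len N4S_cols_eq F4S_p4_28)) (pcAll_sound N4S_sp (by norm_num) N4S_len N4S_cols_eq F4S_p4_29)) (pcAll_sound N4S_sp (by norm_num) N4S_len N4S_cols_eq F4S_p4_30)) (pcAll_sound N4S_sp (by norm_num) N4S_len N4S_cols_eq F4S_p4_31)) (by decide +kernel)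

theorem F4S_E0 : OneOK F4S_E N4S_degs (chunk 10 0 N4S_rE) N4S_sp N4S_z [[1]] [[1]] [[1]] :=
  OneOK.of_znet (m := 80) (n := 1) (AllLt.step AllLt.zero (ecAll_sound N4S_sp (by norm_num) N4S_len N4S_cols_eq F4S_e0_0)) (by decide +kernel)

theorem F4S_E1 : OneOK F4S_E N4S_degs (chunk 10 1 N4S_rE) N4S_sp N4S_z [[1]] [[1]] [[1]] :=
  OneOK.of_znet (m := 80) (n := 1) (AllLt.step AllLt.zero (ecAll_sound N4S_sp (by norm_num) N4S_len N4S_cols_eq F4S_e1_0)) (by decide +kernel)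

theorem F4S_E2 : OneOK F4S_E N4S_degs (chunk 10 2 N4S_rE) N4S_sp N4S_z [[1]] [[1]] [[1]] :=
  OneOK.of_znet (m := 80) (n := 1) (AllLt.step AllLt.zero (ecAll_sound N4S_sp (by norm_num) N4S_len N4S_cols_eq F4S_e2_0)) (by decide +kernel)

theorem F4S_E3 : OneOK F4S_E N4S_degs (chunk 10 3 N4S_rE) N4S_sp N4S_z [[1]] [[1]] [[1]] :=
  OneOK.of_znet (m := 80) (n := 1) (AllLt.step AllLt.zero (ecAll_sound N4S_sp (by norm_num) N4S_len N4S_cols_eq F4S_e3_0)) (by decide +kernel)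

theorem F4S_E4 : OneOK F4S_E N4S_degs (chunk 10 4 N4S_rE) N4S_sp N4S_z [[1]] [[1]] [[1]] :=
  OneOK.of_znet (m := 80) (n := 1) (AllLt.step AllLt.zero (ecAll_sound N4S_sp (by norm_num) N4S_len N4S_cols_eq F4S_e4_0)) (by decide +kernel)

theorem F4S_E5 : OneOK F4S_E N4S_degs (chunk 10 5 N4S_rE) N4S_sp N4S_z [[1]] [[1]] [[1]] :=
  OneOK.of_znet (m := 80) (n := 1) (AllLt.step AllLt.zero (ecAll_sound N4S_sp (by norm_num) N4S_len N4S_cols_eq F4S_e5_0)) (by decide +kernel)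

theorem F4S_E6 : OneOK F4S_E N4S_degs (chunk 10 6 N4S_rE) N4S_sp N4S_z [[1]] [[1]] [[1]] :=
  OneOK.of_znet (m := 80) (n := 1) (AllLt.step AllLt.zero (ecAll_sound N4S_sp (by norm_num) N4S_len N4S_cols_eq F4S_e6_0)) (by decide +kernel)

theorem F4S_E7 : OneOK F4S_E N4S_degs (chunk 10 7 N4S_rE) N4S_sp N4S_z [[1]] [[1]] [[1]] :=
  OneOK.of_znet (m := 80) (n := 1) (AllLt.step AllLt.zero (ecAll_sound N4S_sp (by norm_num) N4S_len N4S_cols_eq F4S_e7_0)) (by decide +kernel)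

theorem F4S_EE : OneOK F4S_E N4S_degs N4S_rE N4S_sp N4S_z [[1]] [[1]] [[1]] :=
  OneOK.of_rp (m := 10) (n := 8) (AllLt.step (AllLt.step (AllLt.step (AllLt.step (AllLt.step (AllLt.step (AllLt.step (AllLt.step AllLt.zero F4S_E0) F4S_E1) F4S_E2) F4S_E3) F4S_E4) F4S_E5) F4S_E6) F4S_E7) (by decide +kernel)

theorem F4S_KK : OneOK (ferK F4S_k) N4S_degs N4S_rE N4S_sp [[1]] [[1]] [[1]] [[1]] :=
  OneOK.of_rp (m := 10) (n := 8) (AllLt.step (AllLt.step (AllLt.step (AllLt.step (AllLt.step (AllLt.step (AllLt.step (AllLt.step AllLt.zero (ecAll_sound N4S_sp (by norm_num) N4S_len N4S_cols_eq F4S_k0)) (ecAll_sound N4S_sp (by norm_num) N4S_len N4S_cols_eq F4S_k1)) (ecAll_sound N4S_sp (by norm_num) N4S_len N4S_cols_eq F4S_k2)) (ecAll_sound N4S_sp (by norm_num) N4S_len N4S_cols_eq F4S_k3)) (ecAll_sound N4S_sp (by norm_num) N4S_len N4S_cols_eq F4S_k4)) (ecAll_sound N4S_sp (by norm_num) N4S_len N4S_cols_eq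 F4S_k5)) (ecAll_sound N4S_sp (by norm_num) N4S_len N4S_cols_eq F4S_k6)) (ecAll_sound N4S_sp (by norm_num) N4S_len N4S_cols_eq F4S_k7)) (by decide +kernel)

theorem F4S_A_eq : ferP 9 fs4_9 TT4_9 F4S_pi F4S_psc F4S_k (1846476013768704) (xmat (0) (0) (0) (0) (0)) = F4S_A := by
  decide +kernel

theorem F4S_E_eq : ferE 9 fs4_9 lams4_9 TT4_9 F4S_pi F4S_psi = F4S_E := by decide +kernel

theorem F4S_form (p p' : Vec 4) (hp : Simp p) (hp' : Simp p') :
    fz fs4_9 F4S_psc p * fz fs4_9 F4S_k p' + fz fs4_9 F4S_k p * fz fs4_9 F4S_psc p' + ((1846476013768704 : ℤ) : ℝ) * (fz fs4_9 F4S_psc p * fz fs4_9 F4S_psc p') +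
      ((0 : ℤ) : ℝ) * (fx p + fx p') + ((0 : ℤ) : ℝ) * (fm p + fm p') + ((0 : ℤ) : ℝ) * (fx p * fx p') +
      ((0 : ℤ) : ℝ) * (fx p * fm p' + fm p * fx p') + ((0 : ℤ) : ℝ) * (fx p * fx p' ^ 2 + fx p ^ 2 * fx p') ≤
        ((27 : ℕ) : ℝ) * sAv (fz fs4_9 F4S_psi) p p' := by
  refine ferro_form (K := 9) (den := 8) (brk := [0, 2, 4, 6, 7, 8]) (π := F4S_pi) (by decide) tab4_9 N4S_cover N4S_cover N4S_rE_dom N4S_z_dom ?_ (by norm_num) (by decide) ?_ hp hp'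
  · rw [F4S_E_eq, N4S_degs_eq]; exact F4S_EE
  · rw [F4S_A_eq, N4S_degs_eq]
    exact (AllLt.step (AllLt.step (AllLt.step (AllLt.step (AllLt.step AllLt.zero (by rw [N4S_c0, N4S_d0]; exact F4S_P0)) (by rw [N4S_c1, N4S_d1]; exact F4S_P1)) (by rw [N4S_c2, N4S_d2]; exact F4S_P2)) (by rw [N4S_c3, N4S_d3]; exact F4S_P3)) (by rw [N4S_c4, N4S_d4]; exact F4S_P4))

theorem F4S_k_nonneg (p : Vec 4) (hp : Simp p) : 0 ≤ fz fs4_9 F4S_k p :=
  fz_nonneg (K := 9) (by decide) N4S_cover N4S_rE_dom (by rw [N4S_degs_eq]; exact F4S_KK) hp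

theorem F4S : ∃ (k : Vec 4 → ℝ) (c : ℝ), BddS k ∧ (∀ p, Simp p → 0 ≤ k p) ∧ 0 ≤ c ∧
    ∀ p p', Simp p → Simp p' → psi (73 / 100) (9 / 100) p * k p' + k p * psi (73 / 100) (9 / 100) p' +
      c * (psi (73 / 100) (9 / 100) p * psi (73 / 100) (9 / 100) p') ≤ sAv (psi (73 / 100) (9 / 100)) p p' :=
  ferroS_of (D := 100) (M := 6155857740662046720000) (by norm_num) (by norm_num) (by norm_num)
    (fun p => by simp [fz, fsum, fs4_9, F4S_psc, Finset.sum_range_succ, feat, psi]; ring) (bddS_fz _ _) F4S_k_nonneg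
    (fun p => by simp [fz, fsum, fs4_9, F4S_psi, Finset.sum_range_succ, feat, psi]; ring) F4S_form

end Crest.Agent.R163.Ck
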