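import Crest.Agent.R163.F4SD

/-! Row 163: kernel checks (generated). -/

set_option autoImplicit false
set_option Elab.async false
set_option maxRecDepth 100000

namespace Crest.Agent.R163.Ck

theorem F4S_p0_0 : pcAll 280 F4S_A N4S_degs (chunk 10 0 N4S_r) 280 N4S_cols (N4S_r.drop 0) [[1]]
    (chunk 2 0 N4S_sp) [[1]] [[1]] = true := by decide +kernel

theorem F4S_p0_1 : pcAll 280 F4S_A N4S_degs (chunk 10 0 N4S_r) 280 N4S_cols (N4S_r.drop 0) [[1]]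
    (chunk 2 1 N4S_sp) [[1]] [[1]] = true := by decide +kernel

theorem F4S_p0_2 : pcAll 280 F4S_A N4S_degs (chunk 10 0 N4S_r) 280 N4S_cols (N4S_r.drop 0) [[1]]
    (chunk 2 2 N4S_sp) [[1]] [[1]] = true := by decide +kernel

theorem F4S_p0_3 : pcAll 280 F4S_A N4S_degs (chunk 10 0 N4S_r) 280 N4S_cols (N4S_r.drop 0) [[1]]
    (chunk 2 3 N4S_sp) [[1]] [[1]] = true := by decide +kernel

theorem F4S_p0_4 : pcAll 280 F4S_A N4S_degs (chunk 10 0 N4S_r) 280 N4S_cols (N4S_r.drop 0) [[1]]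
    (chunk 2 4 N4S_sp) [[1]] [[1]] = true := by decide +kernel

theorem F4S_p0_5 : pcAll 280 F4S_A N4S_degs (chunk 10 0 N4S_r) 280 N4S_cols (N4S_r.drop 0) [[1]]
    (chunk 2 5 N4S_sp) [[1]] [[1]] = true := by decide +kernel

theorem F4S_p0_6 : pcAll 280 F4S_A N4S_degs (chunk 10 0 N4S_r) 280 N4S_cols (N4S_r.drop 0) [[1]]
    (chunk 2 6 N4S_sp) [[1]] [[1]] = true := by decide +kernel

theorem F4S_p0_7 : pcAll 280 F4S_A N4S_degs (chunk 10 0 N4S_r) 280 N4S_cols (N4S_r.drop 0) [[1]]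
    (chunk 2 7 N4S_sp) [[1]] [[1]] = true := by decide +kernel

theorem F4S_p0_8 : pcAll 280 F4S_A N4S_degs (chunk 10 0 N4S_r) 280 N4S_cols (N4S_r.drop 0) [[1]]
    (chunk 2 8 N4S_sp) [[1]] [[1]] = true := by decide +kernel

theorem F4S_p0_9 : pcAll 280 F4S_A N4S_degs (chunk 10 0 N4S_r) 280 N4S_cols (N4S_r.drop 0) [[1]]
    (chunk 2 9 N4S_sp) [[1]] [[1]] = true := by decide +kernel

theorem F4S_p0_10 : pcAll 280 F4S_A N4S_degs (chunk 10 0 N4S_r) 280 N4S_cols (N4S_r.drop 0) [[1]]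
    (chunk 2 10 N4S_sp) [[1]] [[1]] = true := by decide +kernel

theorem F4S_p0_11 : pcAll 280 F4S_A N4S_degs (chunk 10 0 N4S_r) 280 N4S_cols (N4S_r.drop 0) [[1]]
    (chunk 2 11 N4S_sp) [[1]] [[1]] = true := by decide +kernel

theorem F4S_p0_12 : pcAll 280 F4S_A N4S_degs (chunk 10 0 N4S_r) 280 N4S_cols (N4S_r.drop 0) [[1]]
    (chunk 2 12 N4S_sp) [[1]] [[1]] = true := by decide +kernel

theorem F4S_p0_13 : pcAll 280 F4S_A N4S_degs (chunk 10 0 N4S_r) 280 N4S_cols (N4S_r.drop 0) [[1]]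
    (chunk 2 13 N4S_sp) [[1]] [[1]] = true := by decide +kernel

theorem F4S_p0_14 : pcAll 280 F4S_A N4S_degs (chunk 10 0 N4S_r) 280 N4S_cols (N4S_r.drop 0) [[1]]
    (chunk 2 14 N4S_sp) [[1]] [[1]] = true := by decide +kernel

theorem F4S_p0_15 : pcAll 280 F4S_A N4S_degs (chunk 10 0 N4S_r) 280 N4S_cols (N4S_r.drop 0) [[1]]
    (chunk 2 15 N4S_sp) [[1]] [[1]] = true := by decide +kernel

theorem F4S_p0_16 : pcAll 280 F4S_A N4S_degs (chunk 10 0 N4S_r) 280 N4S_cols (N4S_r.drop 0) [[1]]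
    (chunk 2 16 N4S_sp) [[1]] [[1]] = true := by decide +kernel

theorem F4S_p0_17 : pcAll 280 F4S_A N4S_degs (chunk 10 0 N4S_r) 280 N4S_cols (N4S_r.drop 0) [[1]]
    (chunk 2 17 N4S_sp) [[1]] [[1]] = true := by decide +kernel

theorem F4S_p0_18 : pcAll 280 F4S_A N4S_degs (chunk 10 0 N4S_r) 280 N4S_cols (N4S_r.drop 0) [[1]]
    (chunk 2 18 N4S_sp) [[1]] [[1]] = true := by decide +kernel

theorem F4S_p0_19 : pcAll 280 F4S_A N4S_degs (chunk 10 0 N4S_r) 280 N4S_cols (N4S_r.drop 0) [[1]]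
    (chunk 2 19 N4S_sp) [[1]] [[1]] = true := by decide +kernel

theorem F4S_p0_20 : pcAll 280 F4S_A N4S_degs (chunk 10 0 N4S_r) 280 N4S_cols (N4S_r.drop 0) [[1]]
    (chunk 2 20 N4S_sp) [[1]] [[1]] = true := by decide +kernel

theorem F4S_p0_21 : pcAll 280 F4S_A N4S_degs (chunk 10 0 N4S_r) 280 N4S_cols (N4S_r.drop 0) [[1]]
    (chunk 2 21 N4S_sp) [[1]] [[1]] = true := by decide +kernel

theorem F4S_p0_22 : pcAll 280 F4S_A N4S_degs (chunk 10 0 N4S_r) 280 N4S_cols (N4S_r.drop 0) [[1]]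
    (chunk 2 22 N4S_sp) [[1]] [[1]] = true := by decide +kernel

theorem F4S_p0_23 : pcAll 280 F4S_A N4S_degs (chunk 10 0 N4S_r) 280 N4S_cols (N4S_r.drop 0) [[1]]
    (chunk 2 23 N4S_sp) [[1]] [[1]] = true := by decide +kernel

theorem F4S_p0_24 : pcAll 280 F4S_A N4S_degs (chunk 10 0 N4S_r) 280 N4S_cols (N4S_r.drop 0) [[1]]
    (chunk 2 24 N4S_sp) [[1]] [[1]] = true := by decide +kernel

theorem F4S_p0_25 : pcAll 280 F4S_A N4S_degs (chunk 10 0 N4S_r) 280 N4S_cols (N4S_r.drop 0) [[1]]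
    (chunk 2 25 N4S_sp) [[1]] [[1]] = true := by decide +kernel

theorem F4S_p0_26 : pcAll 280 F4S_A N4S_degs (chunk 10 0 N4S_r) 280 N4S_cols (N4S_r.drop 0) [[1]]
    (chunk 2 26 N4S_sp) [[1]] [[1]] = true := by decide +kernel

theorem F4S_p0_27 : pcAll 280 F4S_A N4S_degs (chunk 10 0 N4S_r) 280 N4S_cols (N4S_r.drop 0) [[1]]
    (chunk 2 27 N4S_sp) [[1]] [[1]] = true := by decide +kernel

theorem F4S_p0_28 : pcAll 280 F4S_A N4S_degs (chunk 10 0 N4S_r) 280 N4S_cols (N4S_r.drop 0) [[1]]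
    (chunk 2 28 N4S_sp) [[1]] [[1]] = true := by decide +kernel

theorem F4S_p0_29 : pcAll 280 F4S_A N4S_degs (chunk 10 0 N4S_r) 280 N4S_cols (N4S_r.drop 0) [[1]]
    (chunk 2 29 N4S_sp) [[1]] [[1]] = true := by decide +kernel

theorem F4S_p0_30 : pcAll 280 F4S_A N4S_degs (chunk 10 0 N4S_r) 280 N4S_cols (N4S_r.drop 0) [[1]]
    (chunk 2 30 N4S_sp) [[1]] [[1]] = true := by decide +kernel

theorem F4S_p0_31 : pcAll 280 F4S_A N4S_degs (chunk 10 0 N4S_r) 280 N4S_cols (N4S_r.drop 0) [[1]]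
    (chunk 2 31 N4S_sp) [[1]] [[1]] = true := by decide +kernel

theorem F4S_p0_32 : pcAll 280 F4S_A N4S_degs (chunk 10 0 N4S_r) 280 N4S_cols (N4S_r.drop 0) [[1]]
    (chunk 2 32 N4S_sp) [[1]] [[1]] = true := by decide +kernel

theorem F4S_p0_33 : pcAll 280 F4S_A N4S_degs (chunk 10 0 N4S_r) 280 N4S_cols (N4S_r.drop 0) [[1]]
    (chunk 2 33 N4S_sp) [[1]] [[1]] = true := by decide +kernel

theorem F4S_p0_34 : pcAll 280 F4S_A N4S_degs (chunk 10 0 N4S_r) 280 N4S_cols (N4S_r.drop 0) [[1]]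
    (chunk 2 34 N4S_sp) [[1]] [[1]] = true := by decide +kernel

theorem F4S_p0_35 : pcAll 280 F4S_A N4S_degs (chunk 10 0 N4S_r) 280 N4S_cols (N4S_r.drop 0) [[1]]
    (chunk 2 35 N4S_sp) [[1]] [[1]] = true := by decide +kernel

theorem F4S_p0_36 : pcAll 280 F4S_A N4S_degs (chunk 10 0 N4S_r) 280 N4S_cols (N4S_r.drop 0) [[1]]
    (chunk 2 36 N4S_sp) [[1]] [[1]] = true := by decide +kernel

theorem F4S_p0_37 : pcAll 280 F4S_A N4S_degs (chunk 10 0 N4S_r) 280 N4S_cols (N4S_r.drop 0) [[1]]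
    (chunk 2 37 N4S_sp) [[1]] [[1]] = true := by decide +kernel

theorem F4S_p0_38 : pcAll 280 F4S_A N4S_degs (chunk 10 0 N4S_r) 280 N4S_cols (N4S_r.drop 0) [[1]]
    (chunk 2 38 N4S_sp) [[1]] [[1]] = true := by decide +kernel

theorem F4S_p0_39 : pcAll 280 F4S_A N4S_degs (chunk 10 0 N4S_r) 280 N4S_cols (N4S_r.drop 0) [[1]]
    (chunk 2 39 N4S_sp) [[1]] [[1]] = true := by decide +kernel


end Crest.Agent.R163.Ck
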