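import Crest.Agent.R163.N4SD

/-! Row 163: certificate data (generated). -/

set_option autoImplicit false
set_option Elab.async false
set_option maxRecDepth 100000

namespace Crest.Agent.R163.Ck

noncomputable def F4S_pi : List ℤ := [.negSucc (nat_lit 6165175351910399999), .ofNat (nat_lit 19375496087946240000), .negSucc (nat_lit 70505724207559679999), .negSucc (nat_lit 10579500636794879999), .ofNat (nat_lit 80833752464947200000), .ofNat (nat_lit 344709400320092160000), .ofNat (nat_lit 3184719194309606400), .ofNat (nat_lit 8829817300647014400), .negSucc (nat_lit 97916070715921843199), .negSucc (nat_lit 762794675954009395199), .negSucc (nat_lit 205825553785959782399), .negSucc (nat_lit 576232932142003199), .negSucc (nat_lit 13954288530930508799), .ofNat (nat_lit 83667124866189312000), .ofNat (nat_lit 246561039023832115200), .ofNat (nat_lit 562903114743421286400), .ofNat (nat_lit 430430273414011238400), .ofNat (nat_lit 64039182210326400), .ofNat (nat_lit 3656802802430707200), .negSucc (nat_lit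 16633001849031619199), .negSucc (nat_lit 44661875891174092799), .negSucc (nat_lit 20172258784472947199), .negSucc (nat_lit 338427112585892428799), .negSucc (nat_lit 101828422299645388799), .negSucc (nat_lit 98414699444715398399), .negSucc (nat_lit 245250930388261478399), .negSucc (nat_lit 4267967992949999), .negSucc (nat_lit 438158541773789999), .ofNat (nat_lit 1815304804964550000), .ofNat (nat_lit 4817741022961020000), .ofNat (nat_lit 7599284232677370000), .ofNat (nat_lit 51217297798353660000), .ofNat (nat_lit 13247587790910180000), .ofNat (nat_lit 41126719888078920000), .ofNat (nat_lit 63136386592068060000), .ofNat (nat_lit 78496733333750040000), .ofNat (nat_lit 29633882713694460000), .ofNat (nat_lit 156156860268750), .ofNat (nat_lit 25471879047360000), .negSucc (nat_lit 105880288678604999), .negSucc (nat_lit 287033840944019999), .negSucc (nat_lit 643410375365519999), .negSucc (nat_lit 3764641603488839999), .negSucc (nat_lit 977280014961899999), .negSucc (nat_lit 512526678220361249), .negSucc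 (nat_lit 8428548230862479999), .negSucc (nat_lit 5890763766482234999), .negSucc (nat_lit 6185265946773659999), .negSucc (nat_lit 8411292736564679999), .negSucc (nat_lit 3723105972563819999), .negSucc (nat_lit 4074425142150239999), .ofNat (nat_lit 619685231679292500), .negSucc (nat_lit 2406837999374), .negSucc (nat_lit 581815599755624), .ofNat (nat_lit 2564179224300000), .ofNat (nat_lit 7119597504217500), .ofNat (nat_lit 19351746418455000), .ofNat (nat_lit 98628477917715000), .ofNat (nat_lit 31950696291052500), .ofNat (nat_lit 41226618561558750), .ofNat (nat_lit 285482439128205000), .ofNat (nat_lit 172586060583367500), .ofNat (nat_lit 193329739006582500), .ofNat (nat_lit 202256787418436250), .ofNat (nat_lit 662138962580790000), .ofNat (nat_lit 234432434712442500), .negSucc (nat_lit 54340444148107499), .ofNat (nat_lit 145675204170525000), .negSucc (nat_lit 331715099725424999), .negSucc (nat_lit 509809557043799999)]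

noncomputable def F4S_psi : List ℤ := [.ofNat (nat_lit 0), .ofNat (nat_lit 0), .ofNat (nat_lit 227994731135631360000), .negSucc (nat_lit 166436153729010892799), .ofNat (nat_lit 0), .ofNat (nat_lit 20519525802206822400), .ofNat (nat_lit 0), .ofNat (nat_lit 0), .ofNat (nat_lit 0), .ofNat (nat_lit 0), .ofNat (nat_lit 0), .ofNat (nat_lit 0), .ofNat (nat_lit 0), .ofNat (nat_lit 0), .ofNat (nat_lit 0), .ofNat (nat_lit 0), .ofNat (nat_lit 0), .ofNat (nat_lit 0)]

noncomputable def F4S_psc : List ℤ := [.ofNat (nat_lit 0), .ofNat (nat_lit 0), .ofNat (nat_lit 100), .negSucc (nat_lit 72), .ofNat (nat_lit 0), .ofNat (nat_lit 9), .ofNat (nat_lit 0), .ofNat (nat_lit 0), .ofNat (nat_lit 0), .ofNat (nat_lit 0), .ofNat (nat_lit 0), .ofNat (nat_lit 0), .ofNat (nat_lit 0), .ofNat (nat_lit 0), .ofNat (nat_lit 0), .ofNat (nat_lit 0), .ofNat (nat_lit 0), .ofNat (nat_lit 0)]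

noncomputable def F4S_k : List ℤ := [.ofNat (nat_lit 61558577406620467200), .negSucc (nat_lit 114064070405706547199), .negSucc (nat_lit 38286651068474572799), .ofNat (nat_lit 261324230771401113600), .negSucc (nat_lit 66656596533291417599), .negSucc (nat_lit 122669702128738713599), .negSucc (nat_lit 218050627196211609599), .ofNat (nat_lit 18029658158736998400), .negSucc (nat_lit 26974294772229734399), .ofNat (nat_lit 264924535981219430400), .ofNat (nat_lit 146096940720232857600), .negSucc (nat_lit 56958120229566873599), .negSucc (nat_lit 21173399484785049599), .ofNat (nat_lit 108872386195684147200), .ofNat (nat_lit 105902016588914688000), .ofNat (nat_lit 22403514298506854400), .negSucc (nat_lit 21115916715283660799), .negSucc (nat_lit 61194222929147903999)]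

noncomputable def F4S_A : L6 := [[[[[[.ofNat (nat_lit 0)]],
  [[.ofNat (nat_lit 0)]],
  [[.ofNat (nat_lit 0)]],
  [[.ofNat (nat_lit 0)]],
  [[.ofNat (nat_lit 0)]],
  [[.ofNat (nat_lit 0)]],
  [[.ofNat (nat_lit 0)]],
  [[.ofNat (nat_lit 0)]],
  [[.ofNat (nat_lit 0)]],
  [[.ofNat (nat_lit 0)]],
  [[.ofNat (nat_lit 0)]],
  [[.ofNat (nat_lit 0)]],
  [[.ofNat (nat_lit 0)]],
  [[.ofNat (nat_lit 0)]],
  [[.ofNat (nat_lit 0)]],
  [[.ofNat (nat_lit 0)]],
  [[.ofNat (nat_lit 0)]],
  [[.ofNat (nat_lit 0)]]],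
  [],
  [],
  [],
  [],
  [],
  [],
  [],
  [],
  [],
  [],
  [],
  [],
  [],
  [],
  [],
  [],
  []],
  [[],
  [],
  [],
  [],
  [],
  [],
  [],
  [],
  [],
  [],
  [],
  [],
  [],
  [],
  [],
  [],
  [],
  []],
  [[],
  [[[.ofNat (nat_lit 0)]],
  [[.ofNat (nat_lit 7872648721324535808000)]],
  [[.negSucc (nat_lit 5070772178601423667199)]],
  [[.negSucc (nat_lit 8722134496059774566399)]],
  [[.ofNat (nat_lit 16087308228930148761600)]],
  [[.ofNat (nat_lit 19952259252826300416000)]],
  [[.negSucc (nat_lit 8591132985941156659199)]],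
  [[.negSucc (nat_lit 1477405857758891212799)]],
  [[.ofNat (nat_lit 220292835239220019200)]],
  [[.ofNat (nat_lit 1369075742588252160000)]],
  [[.ofNat (nat_lit 0)]],
  [[.negSucc (nat_lit 80906239919923199999)]],
  [[.negSucc (nat_lit 51626106288783359999)]],
  [[.negSucc (nat_lit 298191153556316159999)]],
  [[.ofNat (nat_lit 0)]],
  [[.ofNat (nat_lit 39853812502241280000)]],
  [[.ofNat (nat_lit 0)]],
  [[.ofNat (nat_lit 52074796159918080000)]]],
  [],
  [],
  [],
  [],
  [],
  [],
  [],
  [],
  [],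
  [],
  [],
  [],
  [],
  [],
  [],
  []],
  [[],
  [],
  [[[.ofNat (nat_lit 0)]],
  [[.negSucc (nat_lit 5070772178601423667199)]],
  [[.negSucc (nat_lit 9231514103207135231999)]],
  [[.negSucc (nat_lit 3690938741216949043199)]],
  [[.negSucc (nat_lit 13447909010942654054399)]],
  [[.ofNat (nat_lit 23935691888028518400000)]],
  [[.ofNat (nat_lit 6676410361621225881600)]],
  [[.negSucc (nat_lit 5153079730653532569599)]],
  [[.ofNat (nat_lit 15609973048584571699200)]],
  [[.negSucc (nat_lit 20347686052022476799999)]],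
  [[.negSucc (nat_lit 16713422486729072639999)]],
  [[.ofNat (nat_lit 5512874021950279680000)]],
  [[.ofNat (nat_lit 1477463151707504640000)]],
  [[.negSucc (nat_lit 10924379577878446079999)]],
  [[.negSucc (nat_lit 10370122699575029759999)]],
  [[.negSucc (nat_lit 2133469911903621119999)]],
  [[.ofNat (nat_lit 2107179968618188800000)]],
  [[.ofNat (nat_lit 6232874870194053120000)]]],
  [],
  [],
  [],
  [],
  [],
  [],
  [],
  [],
  [],
  [],
  [],
  [],
  [],
  [],
  []],
  [[],
  [],
  [],
  [[[.ofNat (nat_lit 0)]],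
  [[.negSucc (nat_lit 8722134496059774566399)]],
  [[.negSucc (nat_lit 3690938741216949043199)]],
  [[.ofNat (nat_lit 51233368778242876329984)]],
  [[.negSucc (nat_lit 26844837753814760447999)]],
  [[.negSucc (nat_lit 31689812196370432438271)]],
  [[.negSucc (nat_lit 29620933694074230681599)]],
  [[.negSucc (nat_lit 6884010411099858431999)]],
  [[.ofNat (nat_lit 15212652547557732249600)]],
  [[.ofNat (nat_lit 42556296882069584179200)]],
  [[.ofNat (nat_lit 5620163894346104524800)]],
  [[.negSucc (nat_lit 6505828121921041612799)]],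
  [[.negSucc (nat_lit 3317056327464918220799)]],
  [[.ofNat (nat_lit 13927782996961612185600)]],
  [[.ofNat (nat_lit 6795022534535337984000)]],
  [[.ofNat (nat_lit 1919251003092348211200)]],
  [[.negSucc (nat_lit 1477244750833727078399)]],
  [[.negSucc (nat_lit 4473551763634401791999)]]],
  [[[.ofNat (nat_lit 0)]],
  [[.ofNat (nat_lit 16087308228930148761600)]],
  [[.negSucc (nat_lit 13447909010942654054399)]],
  [[.negSucc (nat_lit 26844837753814760447999)]],
  [[.ofNat (nat_lit 391409903558930227200)]],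
  [[.ofNat (nat_lit 20009052622382900428800)]],
  [[.ofNat (nat_lit 9212226322922963251200)]],
  [[.ofNat (nat_lit 1492677235210924339200)]],
  [[.negSucc (nat_lit 5245198559261897011199)]],
  [[.negSucc (nat_lit 10428858515771020799999)]],
  [[.ofNat (nat_lit 5378388239836177920000)]],
  [[.ofNat (nat_lit 568822063784232960000)]],
  [[.ofNat (nat_lit 1540620645995243520000)]],
  [[.negSucc (nat_lit 951020480929812479999)]],
  [[.ofNat (nat_lit 2471543114434652160000)]],
  [[.negSucc (nat_lit 145888522423810559999)]],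
  [[.negSucc (nat_lit 2255346891970559999)]],
  [[.ofNat (nat_lit 35568869454512640000)]]],
  [],
  [],
  [],
  [],
  [],
  [],
  [],
  [],
  [],
  [],
  [],
  [],
  []],
  [[],
  [],
  [],
  [],
  [],
  [[[.ofNat (nat_lit 0)]],
  [[.ofNat (nat_lit 19952259252826300416000)]],
  [[.ofNat (nat_lit 23935691888028518400000)]],
  [[.negSucc (nat_lit 31689812196370432438271)]],
  [[.ofNat (nat_lit 20009052622382900428800)]],
  [[.negSucc (nat_lit 39236159240616087834623)]],
  [[.ofNat (nat_lit 19595785019841504460800)]],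
  [[.ofNat (nat_lit 6543732644613944524800)]],
  [[.negSucc (nat_lit 17850355173037242777599)]],
  [[.ofNat (nat_lit 8909961348740939366400)]],
  [[.negSucc (nat_lit 5113081478166242918399)]],
  [[.negSucc (nat_lit 3926517667154229657599)]],
  [[.negSucc (nat_lit 3301548024796688793599)]],
  [[.ofNat (nat_lit 3753764067591633715200)]],
  [[.negSucc (nat_lit 2471080778090606591999)]],
  [[.ofNat (nat_lit 411483085995519590400)]],
  [[.ofNat (nat_lit 370945572604685107200)]],
  [[.negSucc (nat_lit 356299705205581823999)]]],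
  [],
  [],
  [],
  [],
  [],
  [],
  [],
  [],
  [],
  [],
  [],
  []],
  [[],
  [],
  [],
  [],
  [],
  [],
  [[[.ofNat (nat_lit 0)]],
  [[.negSucc (nat_lit 8591132985941156659199)]],
  [[.ofNat (nat_lit 6676410361621225881600)]],
  [[.negSucc (nat_lit 29620933694074230681599)]],
  [[.ofNat (nat_lit 9212226322922963251200)]],
  [[.ofNat (nat_lit 19595785019841504460800)]],
  [[.ofNat (nat_lit 12955832921103843686400)]],
  [[.ofNat (nat_lit 10230762352622174668800)]],
  [[.negSucc (nat_lit 5137368043563225446399)]],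
  [[.negSucc (nat_lit 17281956780067645439999)]],
  [[.ofNat (nat_lit 751180441046446080000)]],
  [[.ofNat (nat_lit 3744461529909008640000)]],
  [[.negSucc (nat_lit 4462234728163591679999)]],
  [[.negSucc (nat_lit 6765752726594380799999)]],
  [[.ofNat (nat_lit 860137107881368320000)]],
  [[.ofNat (nat_lit 310834003319942400000)]],
  [[.ofNat (nat_lit 15969597064116480000)]],
  [[.negSucc (nat_lit 1324991015775233279999)]]],
  [[[.ofNat (nat_lit 0)]],
  [[.negSucc (nat_lit 1477405857758891212799)]],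
  [[.negSucc (nat_lit 5153079730653532569599)]],
  [[.negSucc (nat_lit 6884010411099858431999)]],
  [[.ofNat (nat_lit 1492677235210924339200)]],
  [[.ofNat (nat_lit 6543732644613944524800)]],
  [[.ofNat (nat_lit 10230762352622174668800)]],
  [[.negSucc (nat_lit 4696965176978356070399)]],
  [[.negSucc (nat_lit 10766447370305077708799)]],
  [[.negSucc (nat_lit 2950646985265029119999)]],
  [[.ofNat (nat_lit 4425716492286566400000)]],
  [[.negSucc (nat_lit 3132466586760810239999)]],
  [[.ofNat (nat_lit 3014160986169469440000)]],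
  [[.ofNat (nat_lit 3018291596661473280000)]],
  [[.ofNat (nat_lit 311038448497954560000)]],
  [[.ofNat (nat_lit 372156733157402880000)]],
  [[.negSucc (nat_lit 116310915540714239999)]],
  [[.ofNat (nat_lit 178868218730008320000)]]],
  [[[.ofNat (nat_lit 0)]],
  [[.ofNat (nat_lit 220292835239220019200)]],
  [[.ofNat (nat_lit 15609973048584571699200)]],
  [[.ofNat (nat_lit 15212652547557732249600)]],
  [[.negSucc (nat_lit 5245198559261897011199)]],
  [[.negSucc (nat_lit 17850355173037242777599)]],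
  [[.negSucc (nat_lit 5137368043563225446399)]],
  [[.negSucc (nat_lit 10766447370305077708799)]],
  [[.negSucc (nat_lit 9305650805625638553599)]],
  [[.ofNat (nat_lit 6911968262670858240000)]],
  [[.negSucc (nat_lit 9424379590734827519999)]],
  [[.negSucc (nat_lit 1521075322045681919999)]],
  [[.ofNat (nat_lit 4330997258433615360000)]],
  [[.ofNat (nat_lit 7873017215531258880000)]],
  [[.negSucc (nat_lit 6614544647932588799999)]],
  [[.negSucc (nat_lit 280650981828752639999)]],
  [[.negSucc (nat_lit 195980906903281919999)]],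
  [[.ofNat (nat_lit 209076983113985280000)]]],
  [],
  [],
  [],
  [],
  [],
  [],
  [],
  [],
  []],
  [[],
  [],
  [],
  [],
  [],
  [],
  [],
  [],
  [],
  [[[.ofNat (nat_lit 0)]],
  [[.ofNat (nat_lit 1369075742588252160000)]],
  [[.negSucc (nat_lit 20347686052022476799999)]],
  [[.ofNat (nat_lit 42556296882069584179200)]],
  [[.negSucc (nat_lit 10428858515771020799999)]],
  [[.ofNat (nat_lit 8909961348740939366400)]],
  [[.negSucc (nat_lit 17281956780067645439999)]],
  [[.negSucc (nat_lit 2950646985265029119999)]],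
  [[.ofNat (nat_lit 6911968262670858240000)]],
  [[.negSucc (nat_lit 9896677316320769279999)]],
  [[.ofNat (nat_lit 1321684273133441280000)]],
  [[.ofNat (nat_lit 3495885656820641280000)]],
  [[.ofNat (nat_lit 4620323926715258880000)]],
  [[.negSucc (nat_lit 756420841237685759999)]],
  [[.negSucc (nat_lit 332497476282470399999)]],
  [[.negSucc (nat_lit 221372792900547839999)]],
  [[.ofNat (nat_lit 14481811255265280000)]],
  [[.ofNat (nat_lit 1415413909986935040000)]]],
  [[[.ofNat (nat_lit 0)]],
  [[.ofNat (nat_lit 0)]],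
  [[.negSucc (nat_lit 16713422486729072639999)]],
  [[.ofNat (nat_lit 5620163894346104524800)]],
  [[.ofNat (nat_lit 5378388239836177920000)]],
  [[.negSucc (nat_lit 5113081478166242918399)]],
  [[.ofNat (nat_lit 751180441046446080000)]],
  [[.ofNat (nat_lit 4425716492286566400000)]],
  [[.negSucc (nat_lit 9424379590734827519999)]],
  [[.ofNat (nat_lit 1321684273133441280000)]],
  [[.ofNat (nat_lit 5799257974871919360000)]],
  [[.ofNat (nat_lit 1259433177226467840000)]],
  [[.negSucc (nat_lit 1673207438110341119999)]],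
  [[.ofNat (nat_lit 748216429962739200000)]],
  [[.ofNat (nat_lit 1994636011414855680000)]],
  [[.negSucc (nat_lit 418990283526516479999)]],
  [[.ofNat (nat_lit 219793414867937280000)]],
  [[.negSucc (nat_lit 315576318611231999999)]]],
  [],
  [],
  [],
  [],
  [],
  [],
  []],
  [[],
  [],
  [],
  [],
  [],
  [],
  [],
  [],
  [],
  [],
  [],
  [[[.ofNat (nat_lit 0)]],
  [[.negSucc (nat_lit 80906239919923199999)]],
  [[.ofNat (nat_lit 5512874021950279680000)]],
  [[.negSucc (nat_lit 6505828121921041612799)]],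
  [[.ofNat (nat_lit 568822063784232960000)]],
  [[.negSucc (nat_lit 3926517667154229657599)]],
  [[.ofNat (nat_lit 3744461529909008640000)]],
  [[.negSucc (nat_lit 3132466586760810239999)]],
  [[.negSucc (nat_lit 1521075322045681919999)]],
  [[.ofNat (nat_lit 3495885656820641280000)]],
  [[.ofNat (nat_lit 1259433177226467840000)]],
  [[.negSucc (nat_lit 1850154643920304799999)]],
  [[.ofNat (nat_lit 2067951836011518720000)]],
  [[.ofNat (nat_lit 1829096390602969920000)]],
  [[.negSucc (nat_lit 479237577233554079999)]],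
  [[.negSucc (nat_lit 627757455346479359999)]],
  [[.ofNat (nat_lit 124626295232328960000)]],
  [[.ofNat (nat_lit 44542762319520000000)]]],
  [[[.ofNat (nat_lit 0)]],
  [[.negSucc (nat_lit 51626106288783359999)]],
  [[.ofNat (nat_lit 1477463151707504640000)]],
  [[.negSucc (nat_lit 3317056327464918220799)]],
  [[.ofNat (nat_lit 1540620645995243520000)]],
  [[.negSucc (nat_lit 3301548024796688793599)]],
  [[.negSucc (nat_lit 4462234728163591679999)]],
  [[.ofNat (nat_lit 3014160986169469440000)]],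
  [[.ofNat (nat_lit 4330997258433615360000)]],
  [[.ofNat (nat_lit 4620323926715258880000)]],
  [[.negSucc (nat_lit 1673207438110341119999)]],
  [[.ofNat (nat_lit 2067951836011518720000)]],
  [[.negSucc (nat_lit 3474560994353210879999)]],
  [[.negSucc (nat_lit 3541079690497244159999)]],
  [[.ofNat (nat_lit 1048405707331395840000)]],
  [[.negSucc (nat_lit 163562714147865599999)]],
  [[.negSucc (nat_lit 125207623466634239999)]],
  [[.negSucc (nat_lit 387044259338419199999)]]],
  [[[.ofNat (nat_lit 0)]],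
  [[.negSucc (nat_lit 298191153556316159999)]],
  [[.negSucc (nat_lit 10924379577878446079999)]],
  [[.ofNat (nat_lit 13927782996961612185600)]],
  [[.negSucc (nat_lit 951020480929812479999)]],
  [[.ofNat (nat_lit 3753764067591633715200)]],
  [[.negSucc (nat_lit 6765752726594380799999)]],
  [[.ofNat (nat_lit 3018291596661473280000)]],
  [[.ofNat (nat_lit 7873017215531258880000)]],
  [[.negSucc (nat_lit 756420841237685759999)]],
  [[.ofNat (nat_lit 748216429962739200000)]],
  [[.ofNat (nat_lit 1829096390602969920000)]],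
  [[.negSucc (nat_lit 3541079690497244159999)]],
  [[.negSucc (nat_lit 8209121291943626879999)]],
  [[.ofNat (nat_lit 2591801789979412800000)]],
  [[.ofNat (nat_lit 397419502886461440000)]],
  [[.negSucc (nat_lit 143952557931947519999)]],
  [[.negSucc (nat_lit 144522998100080639999)]]],
  [[[.ofNat (nat_lit 0)]],
  [[.ofNat (nat_lit 0)]],
  [[.negSucc (nat_lit 10370122699575029759999)]],
  [[.ofNat (nat_lit 6795022534535337984000)]],
  [[.ofNat (nat_lit 2471543114434652160000)]],
  [[.negSucc (nat_lit 2471080778090606591999)]],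
  [[.ofNat (nat_lit 860137107881368320000)]],
  [[.ofNat (nat_lit 311038448497954560000)]],
  [[.negSucc (nat_lit 6614544647932588799999)]],
  [[.negSucc (nat_lit 332497476282470399999)]],
  [[.ofNat (nat_lit 1994636011414855680000)]],
  [[.negSucc (nat_lit 479237577233554079999)]],
  [[.ofNat (nat_lit 1048405707331395840000)]],
  [[.ofNat (nat_lit 2591801789979412800000)]],
  [[.negSucc (nat_lit 946511280214814879999)]],
  [[.ofNat (nat_lit 79552552640497920000)]],
  [[.negSucc (nat_lit 29513140403961599999)]],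
  [[.negSucc (nat_lit 2804857469948159999)]]],
  [],
  [],
  []],
  [[],
  [],
  [],
  [],
  [],
  [],
  [],
  [],
  [],
  [],
  [],
  [],
  [],
  [],
  [],
  [[[.ofNat (nat_lit 0)]],
  [[.ofNat (nat_lit 39853812502241280000)]],
  [[.negSucc (nat_lit 2133469911903621119999)]],
  [[.ofNat (nat_lit 1919251003092348211200)]],
  [[.negSucc (nat_lit 145888522423810559999)]],
  [[.ofNat (nat_lit 411483085995519590400)]],
  [[.ofNat (nat_lit 310834003319942400000)]],
  [[.ofNat (nat_lit 372156733157402880000)]],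
  [[.negSucc (nat_lit 280650981828752639999)]],
  [[.negSucc (nat_lit 221372792900547839999)]],
  [[.negSucc (nat_lit 418990283526516479999)]],
  [[.negSucc (nat_lit 627757455346479359999)]],
  [[.negSucc (nat_lit 163562714147865599999)]],
  [[.ofNat (nat_lit 397419502886461440000)]],
  [[.ofNat (nat_lit 79552552640497920000)]],
  [[.ofNat (nat_lit 486985687450346880000)]],
  [[.negSucc (nat_lit 175501002426157439999)]],
  [[.negSucc (nat_lit 1700882012108159999)]]],
  [[[.ofNat (nat_lit 0)]],
  [[.ofNat (nat_lit 0)]],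
  [[.ofNat (nat_lit 2107179968618188800000)]],
  [[.negSucc (nat_lit 1477244750833727078399)]],
  [[.negSucc (nat_lit 2255346891970559999)]],
  [[.ofNat (nat_lit 370945572604685107200)]],
  [[.ofNat (nat_lit 15969597064116480000)]],
  [[.negSucc (nat_lit 116310915540714239999)]],
  [[.negSucc (nat_lit 195980906903281919999)]],
  [[.ofNat (nat_lit 14481811255265280000)]],
  [[.ofNat (nat_lit 219793414867937280000)]],
  [[.ofNat (nat_lit 124626295232328960000)]],
  [[.negSucc (nat_lit 125207623466634239999)]],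
  [[.negSucc (nat_lit 143952557931947519999)]],
  [[.negSucc (nat_lit 29513140403961599999)]],
  [[.negSucc (nat_lit 175501002426157439999)]],
  [[.ofNat (nat_lit 232907373030695040000)]],
  [[.ofNat (nat_lit 387457487579329920000)]]],
  [[[.ofNat (nat_lit 0)]],
  [[.ofNat (nat_lit 52074796159918080000)]],
  [[.ofNat (nat_lit 6232874870194053120000)]],
  [[.negSucc (nat_lit 4473551763634401791999)]],
  [[.ofNat (nat_lit 35568869454512640000)]],
  [[.negSucc (nat_lit 356299705205581823999)]],
  [[.negSucc (nat_lit 1324991015775233279999)]],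
  [[.ofNat (nat_lit 178868218730008320000)]],
  [[.ofNat (nat_lit 209076983113985280000)]],
  [[.ofNat (nat_lit 1415413909986935040000)]],
  [[.negSucc (nat_lit 315576318611231999999)]],
  [[.ofNat (nat_lit 44542762319520000000)]],
  [[.negSucc (nat_lit 387044259338419199999)]],
  [[.negSucc (nat_lit 144522998100080639999)]],
  [[.negSucc (nat_lit 2804857469948159999)]],
  [[.negSucc (nat_lit 1700882012108159999)]],
  [[.ofNat (nat_lit 387457487579329920000)]],
  [[.ofNat (nat_lit 1536315133159566720000)]]]]]]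

noncomputable def F4S_E : L5 := [[[[[.ofNat (nat_lit 0)]]],
  [[[.ofNat (nat_lit 166459734501580800000)]]],
  [[[.ofNat (nat_lit 1380516159229562880000)]]],
  [[[.negSucc (nat_lit 11204018608002600959999)]]],
  [[[.ofNat (nat_lit 28472087626945228800000)]]],
  [[[.negSucc (nat_lit 35343837825778298879999)]]],
  [[[.ofNat (nat_lit 23265021399980912640000)]]],
  [[[.negSucc (nat_lit 7847509815027671039999)]]],
  [[[.ofNat (nat_lit 1143689255895674880000)]]],
  [[[.negSucc (nat_lit 32407927744389119999)]]]],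
  [[[[.ofNat (nat_lit 0)]]],
  [[[.ofNat (nat_lit 0)]]],
  [[[.negSucc (nat_lit 1157689912242585599999)]]],
  [[[.ofNat (nat_lit 9436589588038348800000)]]],
  [[[.negSucc (nat_lit 24075129442440499199999)]]],
  [[[.ofNat (nat_lit 26333190631110574080000)]]],
  [[[.negSucc (nat_lit 11462619262563164159999)]]],
  [[[.negSucc (nat_lit 263162684423208959999)]]],
  [[[.ofNat (nat_lit 1441359701764116480000)]]],
  [[[.negSucc (nat_lit 252538619243581439999)]]]],
  [[[[.ofNat (nat_lit 0)]]],
  [[[.ofNat (nat_lit 227994731135631360000)]]],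
  [[[.ofNat (nat_lit 0)]]],
  [[[.negSucc (nat_lit 2089234313502842879999)]]],
  [[[.ofNat (nat_lit 3540791717535928320000)]]],
  [[[.ofNat (nat_lit 63905437599989760000)]]],
  [[[.negSucc (nat_lit 5093818682374287359999)]]],
  [[[.ofNat (nat_lit 4879496210095411200000)]]],
  [[[.negSucc (nat_lit 1725668679215554559999)]]],
  [[[.ofNat (nat_lit 196533578725724160000)]]]],
  [[[[.ofNat (nat_lit 0)]]],
  [[[.negSucc (nat_lit 166436153729010892799)]]],
  [[[.ofNat (nat_lit 0)]]],
  [[[.ofNat (nat_lit 0)]]],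
  [[[.ofNat (nat_lit 1749451147805520691200)]]],
  [[[.negSucc (nat_lit 2857661209993442918399)]]],
  [[[.ofNat (nat_lit 1218318900451799040000)]]],
  [[[.ofNat (nat_lit 366430484733050880000)]]],
  [[[.negSucc (nat_lit 372939340043243519999)]]],
  [[[.ofNat (nat_lit 62836170775326720000)]]]],
  [[[[.ofNat (nat_lit 0)]]],
  [[[.ofNat (nat_lit 0)]]],
  [[[.ofNat (nat_lit 0)]]],
  [[[.ofNat (nat_lit 0)]]],
  [[[.negSucc (nat_lit 420098432381337599999)]]],
  [[[.ofNat (nat_lit 2078592599069245440000)]]],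
  [[[.negSucc (nat_lit 3579522941425582079999)]]],
  [[[.ofNat (nat_lit 2689754881607884800000)]]],
  [[[.negSucc (nat_lit 854819173309317119999)]]],
  [[[.ofNat (nat_lit 86093066439106560000)]]]],
  [[[[.ofNat (nat_lit 0)]]],
  [[[.ofNat (nat_lit 20519525802206822400)]]],
  [[[.ofNat (nat_lit 0)]]],
  [[[.ofNat (nat_lit 0)]]],
  [[[.ofNat (nat_lit 0)]]],
  [[[.negSucc (nat_lit 450084221057728511999)]]],
  [[[.ofNat (nat_lit 1017305957883115929600)]]],
  [[[.negSucc (nat_lit 872883538696949759999)]]],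
  [[[.ofNat (nat_lit 330029881557811200000)]]],
  [[[.negSucc (nat_lit 44887605488455679999)]]]],
  [[[[.ofNat (nat_lit 0)]]],
  [[[.ofNat (nat_lit 0)]]],
  [[[.ofNat (nat_lit 0)]]],
  [[[.ofNat (nat_lit 0)]]],
  [[[.ofNat (nat_lit 0)]]],
  [[[.ofNat (nat_lit 0)]]],
  [[[.negSucc (nat_lit 2684580467097599999)]]],
  [[[.ofNat (nat_lit 17043323614617600000)]]],
  [[[.negSucc (nat_lit 26032905827942399999)]]],
  [[[.ofNat (nat_lit 11674162680422400000)]]]],
  [[[[.ofNat (nat_lit 0)]]],
  [[[.ofNat (nat_lit 0)]]],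
  [[[.ofNat (nat_lit 0)]]],
  [[[.ofNat (nat_lit 0)]]],
  [[[.ofNat (nat_lit 0)]]],
  [[[.ofNat (nat_lit 0)]]],
  [[[.ofNat (nat_lit 12470640223887360000)]]],
  [[[.negSucc (nat_lit 31675686639575039999)]]],
  [[[.ofNat (nat_lit 25939452607488000000)]]],
  [[[.negSucc (nat_lit 6734406191800319999)]]]],
  [[[[.ofNat (nat_lit 0)]]],
  [[[.ofNat (nat_lit 0)]]],
  [[[.ofNat (nat_lit 0)]]],
  [[[.ofNat (nat_lit 0)]]],
  [[[.ofNat (nat_lit 0)]]],
  [[[.ofNat (nat_lit 0)]]],
  [[[.ofNat (nat_lit 52912485942681600000)]]],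
  [[[.negSucc (nat_lit 125605107432898559999)]]],
  [[[.ofNat (nat_lit 92472757037752320000)]]],
  [[[.negSucc (nat_lit 19780135547535359999)]]]],
  [[[[.ofNat (nat_lit 0)]]],
  [[[.ofNat (nat_lit 0)]]],
  [[[.ofNat (nat_lit 0)]]],
  [[[.ofNat (nat_lit 0)]]],
  [[[.ofNat (nat_lit 0)]]],
  [[[.ofNat (nat_lit 0)]]],
  [[[.ofNat (nat_lit 0)]]],
  [[[.negSucc (nat_lit 4428201389137919999)]]],
  [[[.ofNat (nat_lit 8856402778275840000)]]],
  [[[.negSucc (nat_lit 4428201389137919999)]]]],
  [[[[.ofNat (nat_lit 0)]]],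
  [[[.ofNat (nat_lit 0)]]],
  [[[.ofNat (nat_lit 0)]]],
  [[[.ofNat (nat_lit 0)]]],
  [[[.ofNat (nat_lit 0)]]],
  [[[.ofNat (nat_lit 0)]]],
  [[[.ofNat (nat_lit 0)]]],
  [[[.negSucc (nat_lit 5786088462213119999)]]],
  [[[.ofNat (nat_lit 11572176924426240000)]]],
  [[[.negSucc (nat_lit 5786088462213119999)]]]],
  [[[[.ofNat (nat_lit 0)]]],
  [[[.ofNat (nat_lit 0)]]],
  [[[.ofNat (nat_lit 0)]]],
  [[[.ofNat (nat_lit 0)]]],
  [[[.ofNat (nat_lit 0)]]],
  [[[.ofNat (nat_lit 0)]]],
  [[[.ofNat (nat_lit 0)]]],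
  [[[.ofNat (nat_lit 0)]]],
  [[[.ofNat (nat_lit 0)]]],
  [[[.ofNat (nat_lit 0)]]]],
  [[[[.ofNat (nat_lit 0)]]],
  [[[.ofNat (nat_lit 0)]]],
  [[[.ofNat (nat_lit 0)]]],
  [[[.ofNat (nat_lit 0)]]],
  [[[.ofNat (nat_lit 0)]]],
  [[[.ofNat (nat_lit 0)]]],
  [[[.ofNat (nat_lit 0)]]],
  [[[.ofNat (nat_lit 0)]]],
  [[[.ofNat (nat_lit 0)]]],
  [[[.ofNat (nat_lit 0)]]]],
  [[[[.ofNat (nat_lit 0)]]],
  [[[.ofNat (nat_lit 0)]]],
  [[[.ofNat (nat_lit 0)]]],
  [[[.ofNat (nat_lit 0)]]],
  [[[.ofNat (nat_lit 0)]]],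
  [[[.ofNat (nat_lit 0)]]],
  [[[.ofNat (nat_lit 0)]]],
  [[[.ofNat (nat_lit 0)]]],
  [[[.ofNat (nat_lit 0)]]],
  [[[.ofNat (nat_lit 0)]]]],
  [[[[.ofNat (nat_lit 0)]]],
  [[[.ofNat (nat_lit 0)]]],
  [[[.ofNat (nat_lit 0)]]],
  [[[.ofNat (nat_lit 0)]]],
  [[[.ofNat (nat_lit 0)]]],
  [[[.ofNat (nat_lit 0)]]],
  [[[.ofNat (nat_lit 0)]]],
  [[[.ofNat (nat_lit 0)]]],
  [[[.ofNat (nat_lit 0)]]],
  [[[.ofNat (nat_lit 0)]]]],
  [[[[.ofNat (nat_lit 0)]]],
  [[[.ofNat (nat_lit 0)]]],
  [[[.ofNat (nat_lit 0)]]],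
  [[[.ofNat (nat_lit 0)]]],
  [[[.ofNat (nat_lit 0)]]],
  [[[.ofNat (nat_lit 0)]]],
  [[[.ofNat (nat_lit 0)]]],
  [[[.ofNat (nat_lit 0)]]],
  [[[.ofNat (nat_lit 0)]]],
  [[[.ofNat (nat_lit 0)]]]],
  [[[[.ofNat (nat_lit 0)]]],
  [[[.ofNat (nat_lit 0)]]],
  [[[.ofNat (nat_lit 0)]]],
  [[[.ofNat (nat_lit 0)]]],
  [[[.ofNat (nat_lit 0)]]],
  [[[.ofNat (nat_lit 0)]]],
  [[[.ofNat (nat_lit 0)]]],
  [[[.ofNat (nat_lit 0)]]],
  [[[.ofNat (nat_lit 0)]]],
  [[[.ofNat (nat_lit 0)]]]],
  [[[[.ofNat (nat_lit 0)]]],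
  [[[.ofNat (nat_lit 0)]]],
  [[[.ofNat (nat_lit 0)]]],
  [[[.ofNat (nat_lit 0)]]],
  [[[.ofNat (nat_lit 0)]]],
  [[[.ofNat (nat_lit 0)]]],
  [[[.ofNat (nat_lit 0)]]],
  [[[.ofNat (nat_lit 0)]]],
  [[[.ofNat (nat_lit 0)]]],
  [[[.ofNat (nat_lit 0)]]]]]


end Crest.Agent.R163.Ck
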