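import Crest.Agent.R163.N4UD
import Crest.Agent.R163.Cover4

/-! Row 163: control nets (generated). -/

set_option autoImplicit false
set_option Elab.async false
set_option maxRecDepth 100000

namespace Crest.Agent.R163.Ck

theorem N4U_sp_eq : N4U_sp = shapes4 3 2 fs4_6 [(0, 4, [0, 4]), (4, 8, [0, 4]), (8, 12, [0, 4]), (12, 16, [0, 4])] := by decide +kernel

theorem N4U_cols_eq : N4U_cols = packCols 200 N4U_degs.length N4U_sp := by decide +kernel

theorem N4U_degs_eq : fs4_6.map fdeg = N4U_degs := by decide +kernel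

theorem N4U_len : 48 = N4U_sp.length := by decide +kernel

theorem N4U_cover : Cover 4 fs4_6 N4U_sp := N4U_sp_eq ▸ cover4 3 2 (by decide) (by decide)

theorem N4U_rE_eq : N4U_rE = uniNets 6 8 [0, 2, 4, 6, 8] := by decide +kernel

theorem N4U_z_eq : N4U_z = uniNets 6 4 [0, 4, 8, 12, 16] := by decide +kernel

theorem N4U_rE_dom (ρ : ℝ) (h0 : 0 ≤ ρ) (h1 : ρ ≤ 1) : DomN N4U_rE (6 + 1) fun k => ρ ^ k :=
  N4U_rE_eq ▸ domN_uniNets 6 (lo := 0) (hi := 8) (by norm_num) (by decide) (by push_cast; linarith)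
    (by push_cast; linarith)

theorem N4U_z_dom (Z : ℝ) (h0 : 0 ≤ Z) (h1 : Z ≤ (4 : ℕ)) : DomN N4U_z (6 + 1) fun k => Z ^ k :=
  N4U_z_eq ▸ domN_uniNets 6 (lo := 0) (hi := 16) (by norm_num) (by decide) (by push_cast; linarith)
    (by push_cast at h1 ⊢; linarith)

theorem N4U_c0 : uniNet 6 8 ([0, 5, 8].getD 0 0) ([0, 5, 8].getD (0 + 1) 0) = chunk 7 0 N4U_r := by
  decide +kernel

theorem N4U_d0 : uniNets 6 8 ([0, 5, 8].drop 0) = N4U_r.drop 0 := by decide +kernel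

theorem N4U_c1 : uniNet 6 8 ([0, 5, 8].getD 1 0) ([0, 5, 8].getD (1 + 1) 0) = chunk 7 1 N4U_r := by
  decide +kernel

theorem N4U_d1 : uniNets 6 8 ([0, 5, 8].drop 1) = N4U_r.drop 7 := by decide +kernel


end Crest.Agent.R163.Ck
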