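import Crest.Agent.R163.F4U1C0
import Crest.Agent.R163.N4U
import Crest.Agent.R163.TabK4
import Crest.Agent.R163.PVSound
import Crest.Agent.R163.FerroCert

/-! Row 163: gluing of the kernel checks (generated). -/

set_option autoImplicit false
set_option Elab.async false
set_option maxRecDepth 100000

namespace Crest.Agent.R163.Ck

theorem F4U1_P0 : PairOK F4U1_A N4U_degs (chunk 7 0 N4U_r) N4U_sp (N4U_r.drop 0) [[1]] N4U_sp [[1]] [[1]] :=
  PairOK.of_sub (m := 48) (n := 1) (AllLt.step AllLt.zero (pcAll_sound N4U_sp (by norm_num) N4U_len N4U_cols_eq F4U1_p0_0)) (by decide +kernel)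

theorem F4U1_P1 : PairOK F4U1_A N4U_degs (chunk 7 1 N4U_r) N4U_sp (N4U_r.drop 7) [[1]] N4U_sp [[1]] [[1]] :=
  PairOK.of_sub (m := 48) (n := 1) (AllLt.step AllLt.zero (pcAll_sound N4U_sp (by norm_num) N4U_len N4U_cols_eq F4U1_p1_0)) (by decide +kernel)

theorem F4U1_E0 : OneOK F4U1_E N4U_degs (chunk 7 0 N4U_rE) N4U_sp N4U_z [[1]] [[1]] [[1]] :=
  OneOK.of_znet (m := 28) (n := 1) (AllLt.step AllLt.zero (ecAll_sound N4U_sp (by norm_num) N4U_len N4U_cols_eq F4U1_e0_0)) (by decide +kernel)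

theorem F4U1_E1 : OneOK F4U1_E N4U_degs (chunk 7 1 N4U_rE) N4U_sp N4U_z [[1]] [[1]] [[1]] :=
  OneOK.of_znet (m := 28) (n := 1) (AllLt.step AllLt.zero (ecAll_sound N4U_sp (by norm_num) N4U_len N4U_cols_eq F4U1_e1_0)) (by decide +kernel)

theorem F4U1_E2 : OneOK F4U1_E N4U_degs (chunk 7 2 N4U_rE) N4U_sp N4U_z [[1]] [[1]] [[1]] :=
  OneOK.of_znet (m := 28) (n := 1) (AllLt.step AllLt.zero (ecAll_sound N4U_sp (by norm_num) N4U_len N4U_cols_eq F4U1_e2_0)) (by decide +kernel)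

theorem F4U1_E3 : OneOK F4U1_E N4U_degs (chunk 7 3 N4U_rE) N4U_sp N4U_z [[1]] [[1]] [[1]] :=
  OneOK.of_znet (m := 28) (n := 1) (AllLt.step AllLt.zero (ecAll_sound N4U_sp (by norm_num) N4U_len N4U_cols_eq F4U1_e3_0)) (by decide +kernel)

theorem F4U1_EE : OneOK F4U1_E N4U_degs N4U_rE N4U_sp N4U_z [[1]] [[1]] [[1]] :=
  OneOK.of_rp (m := 7) (n := 4) (AllLt.step (AllLt.step (AllLt.step (AllLt.step AllLt.zero F4U1_E0) F4U1_E1) F4U1_E2) F4U1_E3) (by decide +kernel)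

theorem F4U1_A_eq : ferP 6 fs4_6 TT4_6 F4U1_pi F4U1_psc F4U1_k (0) (xmat (76948221758275584) (0) (0) (-51298814505517056) (-384741108791377920)) = F4U1_A := by
  decide +kernel

theorem F4U1_E_eq : ferE 6 fs4_6 lams4_6 TT4_6 F4U1_pi F4U1_psi = F4U1_E := by decide +kernel

theorem F4U1_form (p p' : Vec 4) (hp : Simp p) (hp' : Simp p') :
    fz fs4_6 F4U1_psc p * fz fs4_6 F4U1_k p' + fz fs4_6 F4U1_k p * fz fs4_6 F4U1_psc p' + ((0 : ℤ) : ℝ) * (fz fs4_6 F4U1_psc p * fz fs4_6 F4U1_psc p') +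
      ((76948221758275584 : ℤ) : ℝ) * (fx p + fx p') + ((0 : ℤ) : ℝ) * (fm p + fm p') + ((0 : ℤ) : ℝ) * (fx p * fx p') +
      ((-51298814505517056 : ℤ) : ℝ) * (fx p * fm p' + fm p * fx p') + ((-384741108791377920 : ℤ) : ℝ) * (fx p * fx p' ^ 2 + fx p ^ 2 * fx p') ≤
        ((27 : ℕ) : ℝ) * sAv (fz fs4_6 F4U1_psi) p p' := by
  refine ferro_form (K := 6) (den := 8) (brk := [0, 5, 8]) (π := F4U1_pi) (by decide) tab4_6 N4U_cover N4U_cover N4U_rE_dom N4U_z_dom ?_ (by norm_num) (by decide) ?_ hp hp'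
  · rw [F4U1_E_eq, N4U_degs_eq]; exact F4U1_EE
  · rw [F4U1_A_eq, N4U_degs_eq]
    exact (AllLt.step (AllLt.step AllLt.zero (by rw [N4U_c0, N4U_d0]; exact F4U1_P0)) (by rw [N4U_c1, N4U_d1]; exact F4U1_P1))

theorem F4U1 : ∃ c : ℝ, 0 ≤ c ∧ ∀ p p' : Vec 4, Simp p → Simp p' →
    fx p + fx p' - fx p * (2 / 3 * fm p' + c * fx p' ^ 2) -
      fx p' * (2 / 3 * fm p + c * fx p ^ 2) ≤ sAv fx p p' :=
  convU1_of (N := 25649407252758528) (v := 384741108791377920) (by norm_num) (by norm_num) (fun p => by simp [fz, fsum, fs4_6, F4U1_psc, Finset.sum_range_succ, feat])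
    (fun p => by simp [fz, fsum, fs4_6, F4U1_psi, Finset.sum_range_succ, feat]; ring) F4U1_form

end Crest.Agent.R163.Ck
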