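import Crest.Agent.R163.F4U1D

/-! Row 163: kernel checks (generated). -/

set_option autoImplicit false
set_option Elab.async false
set_option maxRecDepth 100000

namespace Crest.Agent.R163.Ck

theorem F4U1_p0_0 : pcAll 200 F4U1_A N4U_degs (chunk 7 0 N4U_r) 48 N4U_cols (N4U_r.drop 0) [[1]]
    (chunk 48 0 N4U_sp) [[1]] [[1]] = true := by decide +kernel

theorem F4U1_p1_0 : pcAll 200 F4U1_A N4U_degs (chunk 7 1 N4U_r) 48 N4U_cols (N4U_r.drop 7) [[1]]
    (chunk 48 0 N4U_sp) [[1]] [[1]] = true := by decide +kernel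

theorem F4U1_e0_0 : ecAll 200 F4U1_E N4U_degs (chunk 7 0 N4U_rE) 48 N4U_cols (chunk 28 0 N4U_z)
    [[1]] [[1]] [[1]] = true := by decide +kernel

theorem F4U1_e1_0 : ecAll 200 F4U1_E N4U_degs (chunk 7 1 N4U_rE) 48 N4U_cols (chunk 28 0 N4U_z)
    [[1]] [[1]] [[1]] = true := by decide +kernel

theorem F4U1_e2_0 : ecAll 200 F4U1_E N4U_degs (chunk 7 2 N4U_rE) 48 N4U_cols (chunk 28 0 N4U_z)
    [[1]] [[1]] [[1]] = true := by decide +kernel

theorem F4U1_e3_0 : ecAll 200 F4U1_E N4U_degs (chunk 7 3 N4U_rE) 48 N4U_cols (chunk 28 0 N4U_z)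
    [[1]] [[1]] [[1]] = true := by decide +kernel


end Crest.Agent.R163.Ck
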