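import Crest.Agent.R163.N4UD

/-! Row 163: certificate data (generated). -/

set_option autoImplicit false
set_option Elab.async false
set_option maxRecDepth 100000

namespace Crest.Agent.R163.Ck

noncomputable def F4U1_pi : List ℤ := [.negSucc (nat_lit 27679365743615), .ofNat (nat_lit 249838547158656), .negSucc (nat_lit 142942727597183), .negSucc (nat_lit 64878207408287), .negSucc (nat_lit 147967748051615), .ofNat (nat_lit 62056334650176), .ofNat (nat_lit 7116861503016), .ofNat (nat_lit 31094478159840), .ofNat (nat_lit 37003841328744), .ofNat (nat_lit 23597981386272), .negSucc (nat_lit 11025559881359), .negSucc (nat_lit 283310541449), .ofNat (nat_lit 3245522458842), .negSucc (nat_lit 13273722179675), .ofNat (nat_lit 7345926729144), .negSucc (nat_lit 19059139137347), .ofNat (nat_lit 9631930578840), .ofNat (nat_lit 82233261), .negSucc (nat_lit 791145711773), .ofNat (nat_lit 240690314601), .negSucc (nat_lit 3250328614829), .ofNat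 (nat_lit 1032082726158), .ofNat (nat_lit 2039459267736), .negSucc (nat_lit 2851374100535), .ofNat (nat_lit 1655190699426), .negSucc (nat_lit 1896300227033)]

noncomputable def F4U1_psi : List ℤ := [.ofNat (nat_lit 0), .ofNat (nat_lit 2849934139195392), .ofNat (nat_lit 0), .ofNat (nat_lit 0), .ofNat (nat_lit 0), .ofNat (nat_lit 0), .ofNat (nat_lit 0), .ofNat (nat_lit 0), .ofNat (nat_lit 0)]

noncomputable def F4U1_psc : List ℤ := []

noncomputable def F4U1_k : List ℤ := []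

noncomputable def F4U1_A : L6 := [[[[[[.ofNat (nat_lit 0)]],
  [[.ofNat (nat_lit 0)]],
  [[.ofNat (nat_lit 0)]],
  [[.ofNat (nat_lit 0)]],
  [[.ofNat (nat_lit 0)]],
  [[.ofNat (nat_lit 0)]],
  [[.ofNat (nat_lit 0)]],
  [[.ofNat (nat_lit 0)]],
  [[.ofNat (nat_lit 0)]]],
  [],
  [],
  [],
  [],
  [],
  [],
  [],
  []],
  [[],
  [],
  [],
  [],
  [],
  [],
  [],
  [],
  []],
  [[],
  [[[.ofNat (nat_lit 0)]],
  [[.ofNat (nat_lit 0)]],
  [[.ofNat (nat_lit 0)]],
  [[.ofNat (nat_lit 397565812417757184)]],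
  [[.ofNat (nat_lit 0)]],
  [[.negSucc (nat_lit 4904297715248639)]],
  [[.ofNat (nat_lit 4416111523828224)]],
  [[.ofNat (nat_lit 0)]],
  [[.negSucc (nat_lit 804081010116095)]]],
  [],
  [],
  [],
  [],
  [],
  [],
  []],
  [[],
  [],
  [[[.ofNat (nat_lit 0)]],
  [[.ofNat (nat_lit 0)]],
  [[.ofNat (nat_lit 0)]],
  [[.ofNat (nat_lit 5468257053506304)]],
  [[.negSucc (nat_lit 5468257053506303)]],
  [[.negSucc (nat_lit 5240300098505471)]],
  [[.ofNat (nat_lit 8832223047656448)]],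
  [[.negSucc (nat_lit 2539368000195839)]],
  [[.negSucc (nat_lit 8832223047656447)]]],
  [],
  [],
  [],
  [],
  [],
  []],
  [[],
  [],
  [],
  [[[.ofNat (nat_lit 0)]],
  [[.ofNat (nat_lit 397565812417757184)]],
  [[.ofNat (nat_lit 5468257053506304)]],
  [[.negSucc (nat_lit 11437615546428095)]],
  [[.ofNat (nat_lit 5766022231607232)]],
  [[.negSucc (nat_lit 2297295700510463)]],
  [[.ofNat (nat_lit 720104376030336)]],
  [[.ofNat (nat_lit 6725343872998080)]],
  [[.ofNat (nat_lit 3782911317019776)]]],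
  [[[.ofNat (nat_lit 0)]],
  [[.ofNat (nat_lit 0)]],
  [[.negSucc (nat_lit 5468257053506303)]],
  [[.ofNat (nat_lit 5766022231607232)]],
  [[.negSucc (nat_lit 5276917949204159)]],
  [[.negSucc (nat_lit 1237308234644735)]],
  [[.negSucc (nat_lit 5443354703799935)]],
  [[.ofNat (nat_lit 1702172825635392)]],
  [[.negSucc (nat_lit 494014671038591)]]],
  [],
  [],
  [],
  []],
  [[],
  [],
  [],
  [],
  [],
  [[[.ofNat (nat_lit 0)]],
  [[.negSucc (nat_lit 4904297715248639)]],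
  [[.negSucc (nat_lit 5240300098505471)]],
  [[.negSucc (nat_lit 2297295700510463)]],
  [[.negSucc (nat_lit 1237308234644735)]],
  [[.negSucc (nat_lit 2652332320371455)]],
  [[.negSucc (nat_lit 3353592754473983)]],
  [[.ofNat (nat_lit 33835264531200)]],
  [[.negSucc (nat_lit 2797251259405823)]]],
  [],
  [],
  []],
  [[],
  [],
  [],
  [],
  [],
  [],
  [[[.ofNat (nat_lit 0)]],
  [[.ofNat (nat_lit 4416111523828224)]],
  [[.ofNat (nat_lit 8832223047656448)]],
  [[.ofNat (nat_lit 720104376030336)]],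
  [[.negSucc (nat_lit 5443354703799935)]],
  [[.negSucc (nat_lit 3353592754473983)]],
  [[.ofNat (nat_lit 625148187120864)]],
  [[.negSucc (nat_lit 1337152915875743)]],
  [[.negSucc (nat_lit 312893816479199)]]],
  [[[.ofNat (nat_lit 0)]],
  [[.ofNat (nat_lit 0)]],
  [[.negSucc (nat_lit 2539368000195839)]],
  [[.ofNat (nat_lit 6725343872998080)]],
  [[.ofNat (nat_lit 1702172825635392)]],
  [[.ofNat (nat_lit 33835264531200)]],
  [[.negSucc (nat_lit 1337152915875743)]],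
  [[.ofNat (nat_lit 359041321200672)]],
  [[.ofNat (nat_lit 1948323656426400)]]],
  [[[.ofNat (nat_lit 0)]],
  [[.negSucc (nat_lit 804081010116095)]],
  [[.negSucc (nat_lit 8832223047656447)]],
  [[.ofNat (nat_lit 3782911317019776)]],
  [[.negSucc (nat_lit 494014671038591)]],
  [[.negSucc (nat_lit 2797251259405823)]],
  [[.negSucc (nat_lit 312893816479199)]],
  [[.ofNat (nat_lit 1948323656426400)]],
  [[.negSucc (nat_lit 928019903519519)]]]]]]

noncomputable def F4U1_E : L5 := [[[[[.ofNat (nat_lit 0)]]],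
  [[[.ofNat (nat_lit 747342875077632)]]],
  [[[.negSucc (nat_lit 2886187128159743)]]],
  [[[.ofNat (nat_lit 4071319761862656)]]],
  [[[.negSucc (nat_lit 2370265267405823)]]],
  [[[.ofNat (nat_lit 334605386474496)]]],
  [[[.ofNat (nat_lit 103184372150784)]]]],
  [[[[.ofNat (nat_lit 0)]]],
  [[[.ofNat (nat_lit 2849934139195392)]]],
  [[[.negSucc (nat_lit 8032125321658367)]]],
  [[[.ofNat (nat_lit 8262365568090624)]]],
  [[[.negSucc (nat_lit 3668719096677887)]]],
  [[[.ofNat (nat_lit 429172079740416)]]],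
  [[[.ofNat (nat_lit 159372631309824)]]]],
  [[[[.ofNat (nat_lit 0)]]],
  [[[.ofNat (nat_lit 0)]]],
  [[[.ofNat (nat_lit 0)]]],
  [[[.negSucc (nat_lit 138505144292351)]]],
  [[[.ofNat (nat_lit 960437401238016)]]],
  [[[.negSucc (nat_lit 1505359369598975)]]],
  [[[.ofNat (nat_lit 683427112653312)]]]],
  [[[[.ofNat (nat_lit 0)]]],
  [[[.ofNat (nat_lit 0)]]],
  [[[.ofNat (nat_lit 0)]]],
  [[[.ofNat (nat_lit 0)]]],
  [[[.negSucc (nat_lit 490679058203135)]]],
  [[[.ofNat (nat_lit 981358116406272)]]],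
  [[[.negSucc (nat_lit 490679058203135)]]]],
  [[[[.ofNat (nat_lit 0)]]],
  [[[.ofNat (nat_lit 0)]]],
  [[[.ofNat (nat_lit 0)]]],
  [[[.ofNat (nat_lit 0)]]],
  [[[.ofNat (nat_lit 89342334457344)]]],
  [[[.negSucc (nat_lit 178684668914687)]]],
  [[[.ofNat (nat_lit 89342334457344)]]]],
  [[[[.ofNat (nat_lit 0)]]],
  [[[.ofNat (nat_lit 0)]]],
  [[[.ofNat (nat_lit 0)]]],
  [[[.ofNat (nat_lit 0)]]],
  [[[.ofNat (nat_lit 0)]]],
  [[[.ofNat (nat_lit 0)]]],
  [[[.ofNat (nat_lit 0)]]]],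
  [[[[.ofNat (nat_lit 0)]]],
  [[[.ofNat (nat_lit 0)]]],
  [[[.ofNat (nat_lit 0)]]],
  [[[.ofNat (nat_lit 0)]]],
  [[[.ofNat (nat_lit 0)]]],
  [[[.ofNat (nat_lit 0)]]],
  [[[.ofNat (nat_lit 0)]]]],
  [[[[.ofNat (nat_lit 0)]]],
  [[[.ofNat (nat_lit 0)]]],
  [[[.ofNat (nat_lit 0)]]],
  [[[.ofNat (nat_lit 0)]]],
  [[[.ofNat (nat_lit 0)]]],
  [[[.ofNat (nat_lit 0)]]],
  [[[.ofNat (nat_lit 0)]]]],
  [[[[.ofNat (nat_lit 0)]]],
  [[[.ofNat (nat_lit 0)]]],
  [[[.ofNat (nat_lit 0)]]],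
  [[[.ofNat (nat_lit 0)]]],
  [[[.ofNat (nat_lit 0)]]],
  [[[.ofNat (nat_lit 0)]]],
  [[[.ofNat (nat_lit 0)]]]]]


end Crest.Agent.R163.Ck
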