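import Crest.Agent.R163.N4UD

/-! Row 163: certificate data (generated). -/

set_option autoImplicit false
set_option Elab.async false
set_option maxRecDepth 100000

namespace Crest.Agent.R163.Ck

noncomputable def F4U2_pi : List ℤ := [.negSucc (nat_lit 637830252681215), .ofNat (nat_lit 2256268658688), .ofNat (nat_lit 2951862967729152), .negSucc (nat_lit 282318421247), .negSucc (nat_lit 1425094681076351), .negSucc (nat_lit 4026349756112255), .negSucc (nat_lit 3452679887), .ofNat (nat_lit 33844740162624), .ofNat (nat_lit 33781092485040), .ofNat (nat_lit 3719343858877440), .ofNat (nat_lit 997437408751584), .ofNat (nat_lit 1760562960), .ofNat (nat_lit 30109462180344), .ofNat (nat_lit 90375983813880), .negSucc (nat_lit 397517384400263), .negSucc (nat_lit 855179687443967), .negSucc (nat_lit 708742845222263), .negSucc (nat_lit 220856852), .negSucc (nat_lit 3002065914797), .negSucc (nat_lit 12011551238816), .ofNat (nat_lit 10301201878734), .negSucc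 (nat_lit 9010147894577), .ofNat (nat_lit 91790867561760), .ofNat (nat_lit 21406907691360), .ofNat (nat_lit 38601573108246), .ofNat (nat_lit 53910270480690)]

noncomputable def F4U2_psi : List ℤ := [.ofNat (nat_lit 0), .ofNat (nat_lit 0), .negSucc (nat_lit 2849934139195391), .ofNat (nat_lit 0), .ofNat (nat_lit 0), .ofNat (nat_lit 0), .ofNat (nat_lit 0), .ofNat (nat_lit 0), .ofNat (nat_lit 0)]

noncomputable def F4U2_psc : List ℤ := []

noncomputable def F4U2_k : List ℤ := []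

noncomputable def F4U2_A : L6 := [[[[[[.ofNat (nat_lit 0)]],
  [[.ofNat (nat_lit 0)]],
  [[.ofNat (nat_lit 0)]],
  [[.ofNat (nat_lit 0)]],
  [[.ofNat (nat_lit 0)]],
  [[.ofNat (nat_lit 0)]],
  [[.ofNat (nat_lit 0)]],
  [[.ofNat (nat_lit 0)]],
  [[.ofNat (nat_lit 0)]]],
  [],
  [],
  [],
  [],
  [],
  [],
  [],
  []],
  [[],
  [],
  [],
  [],
  [],
  [],
  [],
  [],
  []],
  [[],
  [[[.ofNat (nat_lit 0)]],
  [[.ofNat (nat_lit 1176651162296962560)]],
  [[.ofNat (nat_lit 76948221758275584)]],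
  [[.ofNat (nat_lit 245501976124482048)]],
  [[.negSucc (nat_lit 153896443516551167)]],
  [[.negSucc (nat_lit 140543652127995647)]],
  [[.negSucc (nat_lit 11988926194175)]],
  [[.ofNat (nat_lit 0)]],
  [[.negSucc (nat_lit 53411030796764159)]]],
  [],
  [],
  [],
  [],
  [],
  [],
  []],
  [[],
  [],
  [[[.ofNat (nat_lit 0)]],
  [[.ofNat (nat_lit 76948221758275584)]],
  [[.ofNat (nat_lit 112458406130614656)]],
  [[.ofNat (nat_lit 34686497932488576)]],
  [[.ofNat (nat_lit 119209945584062592)]],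
  [[.negSucc (nat_lit 108175397151441023)]],
  [[.negSucc (nat_lit 23977852388351)]],
  [[.ofNat (nat_lit 32246549148509568)]],
  [[.ofNat (nat_lit 23977852388352)]]],
  [],
  [],
  [],
  [],
  [],
  []],
  [[],
  [],
  [],
  [[[.ofNat (nat_lit 0)]],
  [[.ofNat (nat_lit 245501976124482048)]],
  [[.ofNat (nat_lit 34686497932488576)]],
  [[.negSucc (nat_lit 509929996697328671)]],
  [[.ofNat (nat_lit 114711129504158112)]],
  [[.ofNat (nat_lit 179355917592945792)]],
  [[.ofNat (nat_lit 19439615310751296)]],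
  [[.ofNat (nat_lit 8041655743470432)]],
  [[.ofNat (nat_lit 6208877797282368)]]],
  [[[.ofNat (nat_lit 0)]],
  [[.negSucc (nat_lit 153896443516551167)]],
  [[.ofNat (nat_lit 119209945584062592)]],
  [[.ofNat (nat_lit 114711129504158112)]],
  [[.ofNat (nat_lit 134928299721574368)]],
  [[.negSucc (nat_lit 1119026041515647)]],
  [[.negSucc (nat_lit 3873536350717247)]],
  [[.negSucc (nat_lit 40304190126905567)]],
  [[.negSucc (nat_lit 77276054282389055)]]],
  [],
  [],
  [],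
  []],
  [[],
  [],
  [],
  [],
  [],
  [[[.ofNat (nat_lit 0)]],
  [[.negSucc (nat_lit 140543652127995647)]],
  [[.negSucc (nat_lit 108175397151441023)]],
  [[.ofNat (nat_lit 179355917592945792)]],
  [[.negSucc (nat_lit 1119026041515647)]],
  [[.ofNat (nat_lit 4456706674416768)]],
  [[.ofNat (nat_lit 20746779329249280)]],
  [[.negSucc (nat_lit 39907733949707903)]],
  [[.negSucc (nat_lit 27468388761249023)]]],
  [],
  [],
  []],
  [[],
  [],
  [],
  [],
  [],
  [],
  [[[.ofNat (nat_lit 0)]],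
  [[.negSucc (nat_lit 11988926194175)]],
  [[.negSucc (nat_lit 23977852388351)]],
  [[.ofNat (nat_lit 19439615310751296)]],
  [[.negSucc (nat_lit 3873536350717247)]],
  [[.ofNat (nat_lit 20746779329249280)]],
  [[.negSucc (nat_lit 31137375576791519)]],
  [[.ofNat (nat_lit 11676006749447136)]],
  [[.ofNat (nat_lit 15569546479840224)]]],
  [[[.ofNat (nat_lit 0)]],
  [[.ofNat (nat_lit 0)]],
  [[.ofNat (nat_lit 32246549148509568)]],
  [[.ofNat (nat_lit 8041655743470432)]],
  [[.negSucc (nat_lit 40304190126905567)]],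
  [[.negSucc (nat_lit 39907733949707903)]],
  [[.ofNat (nat_lit 11676006749447136)]],
  [[.ofNat (nat_lit 2994378542469504)]],
  [[.ofNat (nat_lit 10188576738002592)]]],
  [[[.ofNat (nat_lit 0)]],
  [[.negSucc (nat_lit 53411030796764159)]],
  [[.ofNat (nat_lit 23977852388352)]],
  [[.ofNat (nat_lit 6208877797282368)]],
  [[.negSucc (nat_lit 77276054282389055)]],
  [[.negSucc (nat_lit 27468388761249023)]],
  [[.ofNat (nat_lit 15569546479840224)]],
  [[.ofNat (nat_lit 10188576738002592)]],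
  [[.ofNat (nat_lit 46651083477336864)]]]]]]

noncomputable def F4U2_E : L5 := [[[[[.ofNat (nat_lit 0)]]],
  [[[.ofNat (nat_lit 17221416822392832)]]],
  [[[.negSucc (nat_lit 79761219382471679)]]],
  [[[.ofNat (nat_lit 147196622401466112)]]],
  [[[.negSucc (nat_lit 129178898485113599)]]],
  [[[.ofNat (nat_lit 49705723183751424)]]],
  [[[.negSucc (nat_lit 5183644540025087)]]]],
  [[[[.ofNat (nat_lit 0)]]],
  [[[.ofNat (nat_lit 0)]]],
  [[[.ofNat (nat_lit 26505847455777792)]]],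
  [[[.negSucc (nat_lit 95862723493222655)]]],
  [[[.ofNat (nat_lit 118374693233008896)]]],
  [[[.negSucc (nat_lit 55184605809460991)]]],
  [[[.ofNat (nat_lit 6166788613896960)]]]],
  [[[[.ofNat (nat_lit 0)]]],
  [[[.negSucc (nat_lit 2849934139195391)]]],
  [[[.ofNat (nat_lit 0)]]],
  [[[.ofNat (nat_lit 23418918272696832)]]],
  [[[.negSucc (nat_lit 34691254496167679)]]],
  [[[.ofNat (nat_lit 13375424870221824)]]],
  [[[.ofNat (nat_lit 746845492444416)]]]],
  [[[[.ofNat (nat_lit 0)]]],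
  [[[.ofNat (nat_lit 0)]]],
  [[[.ofNat (nat_lit 0)]]],
  [[[.ofNat (nat_lit 0)]]],
  [[[.ofNat (nat_lit 1332102910464)]]],
  [[[.negSucc (nat_lit 2664205820927)]]],
  [[[.ofNat (nat_lit 1332102910464)]]]],
  [[[[.ofNat (nat_lit 0)]]],
  [[[.ofNat (nat_lit 0)]]],
  [[[.ofNat (nat_lit 0)]]],
  [[[.ofNat (nat_lit 0)]]],
  [[[.ofNat (nat_lit 5934558977418240)]]],
  [[[.negSucc (nat_lit 11869117954836479)]]],
  [[[.ofNat (nat_lit 5934558977418240)]]]],
  [[[[.ofNat (nat_lit 0)]]],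
  [[[.ofNat (nat_lit 0)]]],
  [[[.ofNat (nat_lit 0)]]],
  [[[.ofNat (nat_lit 0)]]],
  [[[.ofNat (nat_lit 0)]]],
  [[[.ofNat (nat_lit 0)]]],
  [[[.ofNat (nat_lit 0)]]]],
  [[[[.ofNat (nat_lit 0)]]],
  [[[.ofNat (nat_lit 0)]]],
  [[[.ofNat (nat_lit 0)]]],
  [[[.ofNat (nat_lit 0)]]],
  [[[.ofNat (nat_lit 0)]]],
  [[[.ofNat (nat_lit 0)]]],
  [[[.ofNat (nat_lit 0)]]]],
  [[[[.ofNat (nat_lit 0)]]],
  [[[.ofNat (nat_lit 0)]]],
  [[[.ofNat (nat_lit 0)]]],
  [[[.ofNat (nat_lit 0)]]],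
  [[[.ofNat (nat_lit 0)]]],
  [[[.ofNat (nat_lit 0)]]],
  [[[.ofNat (nat_lit 0)]]]],
  [[[[.ofNat (nat_lit 0)]]],
  [[[.ofNat (nat_lit 0)]]],
  [[[.ofNat (nat_lit 0)]]],
  [[[.ofNat (nat_lit 0)]]],
  [[[.ofNat (nat_lit 0)]]],
  [[[.ofNat (nat_lit 0)]]],
  [[[.ofNat (nat_lit 0)]]]]]


end Crest.Agent.R163.Ck
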