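import Crest.Agent.R163.Law

/-! Row 163: normalised test functions, moment features, star formula. -/

set_option autoImplicit false

namespace Crest.Agent.R163

open Finset

variable {q : ℕ}

/-- normalised posteriors -/
def Simp (p : Vec q) : Prop := Pos p ∧ av p = 1

/-- homogeneous extension of a function on the simplex -/
noncomputable def hat (f : Vec q → ℝ) (P : Vec q) : ℝ := av P * f (fun i => P i / av P)

def BddS (f : Vec q → ℝ) : Prop := ∃ C : ℝ, ∀ p, Simp p → |f p| ≤ C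

noncomputable def mom (k : ℕ) (p : Vec q) : ℝ := (∑ i, (p i - 1) ^ k) / q

/-- chi-square -/
noncomputable def fx (p : Vec q) : ℝ := mom 2 p
noncomputable def fm (p : Vec q) : ℝ := mom 3 p
noncomputable def fe (p : Vec q) : ℝ := 2 * mom 2 p ^ 2 - mom 4 p

/-- the monomial `x^i m^j e^k` -/
noncomputable def feat (a : ℕ × ℕ × ℕ) (p : Vec q) : ℝ := fx p ^ a.1 * fm p ^ a.2.1 * fe p ^ a.2.2

def fdeg (a : ℕ × ℕ × ℕ) : ℕ := 2 * a.1 + 3 * a.2.1 + 4 * a.2.2

noncomputable def Law.Ex (L : Law q) (f : Vec q → ℝ) : ℝ := L.E (hat f)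

noncomputable def Law.X (L : Law q) : ℝ := L.Ex fx

noncomputable def Law.M (L : Law q) : ℝ := L.Ex fm

/-- the permutation average of `Z f(r)` for the product of two posteriors -/
noncomputable def sAv (f : Vec q → ℝ) (p p' : Vec q) : ℝ :=
  (∑ σ : Equiv.Perm (Fin q), hat f (p * perm σ p')) / q.factorial

theorem simp_div {P : Vec q} (h : Pos P) (h0 : av P ≠ 0) : Simp (fun i => P i / av P) := by
  refine ⟨fun i => div_nonneg (h i) (av_nonneg h), ?_⟩
  have : (fun i => P i / av P) = (av P)⁻¹ • P := by funext i; simp [div_eq_inv_mul]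
  rw [this, av_smul, inv_mul_cancel₀ h0]

theorem hat_simp (f : Vec q → ℝ) {p : Vec q} (h : Simp p) : hat f p = f p := by
  simp [hat, h.2]

theorem adm_hat {f : Vec q → ℝ} (h : BddS f) : Adm (hat f) := by
  obtain ⟨C, hC⟩ := h
  refine ⟨fun c hc P hP => ?_, C, fun P hP => ?_⟩
  · rcases hc.eq_or_lt with rfl | hc
    · simp [hat, av]
    · unfold hat
      rw [av_smul, mul_assoc]
      congr 3
      funext i
      simp [mul_div_mul_left _ _ hc.ne']
  · by_cases h0 : av P = 0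
    · simp [hat, h0]
    · unfold hat
      rw [abs_mul, abs_of_nonneg (av_nonneg hP), mul_comm]
      exact mul_le_mul_of_nonneg_right (hC _ (simp_div hP h0)) (av_nonneg hP)

theorem Adm.eq_hat {F : Vec q → ℝ} (h : Adm F) {P : Vec q} (hP : Pos P) : F P = hat F P := by
  by_cases h0 : av P = 0
  · obtain ⟨C, hC⟩ := h.bdd
    have := hC P hP
    rw [h0, mul_zero] at this
    simp [hat, h0, abs_nonpos_iff.1 this]
  · unfold hat
    rw [← h.hom _ (av_nonneg hP) _ (simp_div hP h0).1]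
    congr 1
    funext i
    simp [mul_div_cancel₀ _ h0]

theorem Adm.bddS {F : Vec q → ℝ} (h : Adm F) : BddS F := by
  obtain ⟨C, hC⟩ := h.bdd
  exact ⟨C, fun p hp => by simpa [hp.2] using hC p hp.1⟩

theorem hat_mono {f g : Vec q → ℝ} (h : ∀ p, Simp p → f p ≤ g p) {P : Vec q} (hP : Pos P) :
    hat f P ≤ hat g P := by
  by_cases h0 : av P = 0
  · simp [hat, h0]
  · exact mul_le_mul_of_nonneg_left (h _ (simp_div hP h0)) (av_nonneg hP)

theorem bddS_const (c : ℝ) : BddS (fun _ : Vec q => c) := ⟨|c|, fun _ _ => le_rfl⟩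

theorem BddS.add {f g : Vec q → ℝ} (h : BddS f) (h' : BddS g) : BddS (fun p => f p + g p) := by
  obtain ⟨C, hC⟩ := h
  obtain ⟨D, hD⟩ := h'
  exact ⟨C + D, fun p hp => (abs_add_le _ _).trans (add_le_add (hC p hp) (hD p hp))⟩

theorem BddS.mul {f g : Vec q → ℝ} (h : BddS f) (h' : BddS g) : BddS (fun p => f p * g p) := by
  obtain ⟨C, hC⟩ := h
  obtain ⟨D, hD⟩ := h'
  exact ⟨C * D, fun p hp => by
    rw [abs_mul]
    exact mul_le_mul (hC p hp) (hD p hp) (abs_nonneg _) ((abs_nonneg _).trans (hC p hp))⟩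

theorem BddS.smul {f : Vec q → ℝ} (h : BddS f) (c : ℝ) : BddS (fun p => c * f p) :=
  (bddS_const c).mul h

theorem BddS.neg {f : Vec q → ℝ} (h : BddS f) : BddS (fun p => -f p) := by
  simpa using h.smul (-1)

theorem BddS.sub {f g : Vec q → ℝ} (h : BddS f) (h' : BddS g) : BddS (fun p => f p - g p) := by
  simpa [sub_eq_add_neg] using h.add h'.neg

theorem BddS.pow {f : Vec q → ℝ} (h : BddS f) (n : ℕ) : BddS (fun p => f p ^ n) := by
  induction n with
  | zero => simpa using bddS_const 1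
  | succ n ih => simpa [pow_succ] using ih.mul h

theorem BddS.sum {ι : Type*} (s : Finset ι) {f : ι → Vec q → ℝ} (h : ∀ i ∈ s, BddS (f i)) :
    BddS (fun p => ∑ i ∈ s, f i p) := by
  classical
  induction s using Finset.induction_on with
  | empty => simpa using bddS_const 0
  | insert a s ha ih =>
    simp only [sum_insert ha]
    exact (h a (mem_insert_self _ _)).add (ih fun i hi => h i (mem_insert_of_mem hi))

theorem bddS_coord (i : Fin q) : BddS (fun p : Vec q => p i) := (adm_coord i).bddS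

theorem bddS_mom (k : ℕ) : BddS (mom k : Vec q → ℝ) := by
  have := (BddS.sum univ fun (i : Fin q) _ =>
    ((bddS_coord i).sub (bddS_const 1)).pow k).mul (bddS_const (q : ℝ)⁻¹)
  unfold mom
  simpa [div_eq_mul_inv] using this

theorem bddS_fx : BddS (fx : Vec q → ℝ) := bddS_mom 2
theorem bddS_fm : BddS (fm : Vec q → ℝ) := bddS_mom 3
theorem bddS_fe : BddS (fe : Vec q → ℝ) := (((bddS_mom 2).pow 2).smul 2).sub (bddS_mom 4)

theorem bddS_feat (a : ℕ × ℕ × ℕ) : BddS (feat a : Vec q → ℝ) :=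
  ((bddS_fx.pow _).mul (bddS_fm.pow _)).mul (bddS_fe.pow _)

theorem Simp.Tv [NeZero q] {p : Vec q} (h : Simp p) {t : ℝ} (ht : Tok q t) : Simp (Tv t p) :=
  ⟨h.1.Tv ht, by rw [av_Tv, h.2]⟩

theorem Simp.perm {p : Vec q} (h : Simp p) (σ : Equiv.Perm (Fin q)) : Simp (perm σ p) :=
  ⟨h.1.perm σ, by rw [av_perm, h.2]⟩

theorem simp_one [NeZero q] : Simp (1 : Vec q) := ⟨pos_one, av_one⟩

theorem BddS.comp_Tv [NeZero q] {f : Vec q → ℝ} (h : BddS f) {t : ℝ} (ht : Tok q t) :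
    BddS (fun p => f (Tv t p)) := by
  obtain ⟨C, hC⟩ := h
  exact ⟨C, fun p hp => hC _ (hp.Tv ht)⟩

theorem mom_Tv (k : ℕ) (t : ℝ) {p : Vec q} (h : Simp p) : mom k (Tv t p) = t ^ k * mom k p := by
  unfold mom Tv
  rw [h.2, ← mul_div_assoc, mul_sum]
  congr 1
  exact sum_congr rfl fun i _ => by rw [← mul_pow]; congr 1; ring

theorem fx_Tv (t : ℝ) {p : Vec q} (h : Simp p) : fx (Tv t p) = t ^ 2 * fx p := mom_Tv 2 t h
theorem fm_Tv (t : ℝ) {p : Vec q} (h : Simp p) : fm (Tv t p) = t ^ 3 * fm p := mom_Tv 3 t h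
theorem fe_Tv (t : ℝ) {p : Vec q} (h : Simp p) : fe (Tv t p) = t ^ 4 * fe p := by
  unfold fe; rw [mom_Tv 2 t h, mom_Tv 4 t h]; ring

theorem feat_Tv (a : ℕ × ℕ × ℕ) (t : ℝ) {p : Vec q} (h : Simp p) :
    feat a (Tv t p) = t ^ fdeg a * feat a p := by
  unfold feat fdeg
  rw [fx_Tv t h, fm_Tv t h, fe_Tv t h]
  ring

theorem mom_perm (k : ℕ) (σ : Equiv.Perm (Fin q)) (p : Vec q) : mom k (perm σ p) = mom k p := by
  unfold mom perm
  rw [Equiv.sum_comp σ (fun i => (p i - 1) ^ k)]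

theorem mom_one (k : ℕ) : mom (k + 1) (1 : Vec q) = 0 := by simp [mom]

theorem fx_one : fx (1 : Vec q) = 0 := mom_one 1
theorem fm_one : fm (1 : Vec q) = 0 := mom_one 2

theorem fx_nonneg (p : Vec q) : 0 ≤ fx p :=
  div_nonneg (sum_nonneg fun _ _ => sq_nonneg _) (Nat.cast_nonneg _)

theorem fx_le [NeZero q] {p : Vec q} (h : Simp p) : fx p ≤ q - 1 := by
  have hq : (0 : ℝ) < q := Nat.cast_pos.2 (NeZero.pos q)
  have hs : ∑ i, p i = q := by
    have := h.2; unfold av at this; field_simp at this; exact this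
  have h1 : ∑ i, (p i - 1) ^ 2 ≤ ∑ i, (q * p i - 2 * p i + 1) := sum_le_sum fun i _ => by
    have := le_av h.1 i
    rw [h.2, mul_one] at this
    nlinarith [h.1 i]
  rw [sum_add_distrib, sum_sub_distrib, ← mul_sum, ← mul_sum, hs] at h1
  unfold fx mom
  rw [div_le_iff₀ hq]
  simp at h1
  nlinarith

namespace Law

variable (L : Law q)

theorem Ex_mono {f g : Vec q → ℝ} (hf : BddS f) (hg : BddS g) (h : ∀ p, Simp p → f p ≤ g p) :
    L.Ex f ≤ L.Ex g :=
  L.mono (adm_hat hf) (adm_hat hg) fun _ hP => hat_mono h hP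

theorem Ex_congr {f g : Vec q → ℝ} (hf : BddS f) (hg : BddS g) (h : ∀ p, Simp p → f p = g p) :
    L.Ex f = L.Ex g :=
  le_antisymm (L.Ex_mono hf hg fun p hp => (h p hp).le) (L.Ex_mono hg hf fun p hp => (h p hp).ge)

theorem Ex_add {f g : Vec q → ℝ} (hf : BddS f) (hg : BddS g) :
    L.Ex (fun p => f p + g p) = L.Ex f + L.Ex g := by
  unfold Ex
  rw [← L.add (adm_hat hf) (adm_hat hg)]
  congr 1; funext P; simp [hat, mul_add]

theorem Ex_smul (c : ℝ) {f : Vec q → ℝ} (hf : BddS f) : L.Ex (fun p => c * f p) = c * L.Ex f := by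
  unfold Ex
  rw [← L.smul c (adm_hat hf)]
  congr 1; funext P; simp only [hat]; ring

theorem Ex_mul_const (c : ℝ) {f : Vec q → ℝ} (hf : BddS f) :
    L.Ex (fun p => f p * c) = L.Ex f * c := by
  simp only [mul_comm _ c]; exact L.Ex_smul c hf

theorem Ex_const (c : ℝ) : L.Ex (fun _ => c) = c := by
  unfold Ex
  rw [← L.smul_av c]
  congr 1; funext P
  simp only [hat, L.smul_av]; ring

theorem Ex_sub {f g : Vec q → ℝ} (hf : BddS f) (hg : BddS g) :
    L.Ex (fun p => f p - g p) = L.Ex f - L.Ex g := by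
  have := L.Ex_add hf (hg.smul (-1))
  rw [L.Ex_smul _ hg] at this
  simpa [sub_eq_add_neg] using this

theorem Ex_sum {ι : Type*} (s : Finset ι) {f : ι → Vec q → ℝ} (h : ∀ i ∈ s, BddS (f i)) :
    L.Ex (fun p => ∑ i ∈ s, f i p) = ∑ i ∈ s, L.Ex (f i) := by
  unfold Ex
  rw [← L.sum s fun i hi => adm_hat (h i hi)]
  congr 1; funext P; simp [hat, mul_sum]

theorem Ex_nonneg {f : Vec q → ℝ} (hf : BddS f) (h : ∀ p, Simp p → 0 ≤ f p) : 0 ≤ L.Ex f := by
  rw [← L.Ex_const 0]; exact L.Ex_mono (bddS_const 0) hf h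

theorem abs_Ex_le {f : Vec q → ℝ} {C : ℝ} (h : ∀ p, Simp p → |f p| ≤ C) : |L.Ex f| ≤ C := by
  rw [_root_.abs_le]
  constructor
  · rw [← L.Ex_const (-C)]
    exact L.Ex_mono (bddS_const _) ⟨C, h⟩ fun p hp => (_root_.abs_le.1 (h p hp)).1
  · rw [← L.Ex_const C]
    exact L.Ex_mono ⟨C, h⟩ (bddS_const _) fun p hp => (_root_.abs_le.1 (h p hp)).2

theorem E_eq_Ex {F : Vec q → ℝ} (h : Adm F) : L.E F = L.Ex F :=
  L.congr h (adm_hat h.bddS) fun _ hP => h.eq_hat hP

theorem X_nonneg : 0 ≤ L.X := L.Ex_nonneg bddS_fx fun p _ => fx_nonneg p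

theorem X_le [NeZero q] : L.X ≤ q - 1 := by
  rw [← L.Ex_const ((q : ℝ) - 1)]
  exact L.Ex_mono bddS_fx (bddS_const _) fun p hp => fx_le hp

theorem X_sq_le : L.X ^ 2 ≤ L.Ex (fun p => fx p ^ 2) := by
  have h := L.Ex_mono ((bddS_fx.smul (2 * L.X)).sub (bddS_const (L.X ^ 2))) (bddS_fx.pow 2)
    fun p _ => by nlinarith [sq_nonneg (fx p - L.X)]
  rw [L.Ex_sub (bddS_fx.smul _) (bddS_const _), L.Ex_smul _ bddS_fx, L.Ex_const] at h
  unfold X at *
  nlinarith

variable [NeZero q]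

theorem Ex_T {f : Vec q → ℝ} (hf : BddS f) (t : ℝ) (ht : Tok q t) :
    (L.T t ht).Ex f = L.Ex (fun p => f (Tv t p)) := by
  have h := (adm_hat hf).comp_Tv ht
  change L.E (fun P => hat f (Tv t P)) = _
  rw [L.E_eq_Ex h]
  exact L.Ex_congr h.bddS (hf.comp_Tv ht) fun p hp => hat_simp f (hp.Tv ht)

theorem X_T (t : ℝ) (ht : Tok q t) : (L.T t ht).X = t ^ 2 * L.X := by
  unfold X
  rw [L.Ex_T bddS_fx, ← L.Ex_smul _ bddS_fx]
  exact L.Ex_congr (bddS_fx.comp_Tv ht) (bddS_fx.smul _) fun p hp => fx_Tv t hp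

theorem M_T (t : ℝ) (ht : Tok q t) : (L.T t ht).M = t ^ 3 * L.M := by
  unfold M
  rw [L.Ex_T bddS_fm, ← L.Ex_smul _ bddS_fm]
  exact L.Ex_congr (bddS_fm.comp_Tv ht) (bddS_fm.smul _) fun p hp => fm_Tv t hp

theorem one_Ex (f : Vec q → ℝ) : (one : Law q).Ex f = f 1 := hat_simp f simp_one

theorem perfect_Ex (f : Vec q → ℝ) :
    (perfect : Law q).Ex f = (∑ i, f ((q : ℝ) • vtx i)) / q := by
  change ∑ i, hat f (vtx i) = _
  rw [sum_div]
  refine sum_congr rfl fun i _ => ?_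
  unfold hat
  rw [av_vtx, one_div, inv_mul_eq_div]
  congr 2
  funext j
  simp [mul_comm]

theorem pois_Ex (d : ℝ) (hd : 0 ≤ d) (f : Vec q → ℝ) :
    (L.pois d hd).Ex f = ∑' k, poisW d k * (L.pow k).Ex f := rfl

omit [NeZero q] in
theorem E_mul_avg {F : Vec q → ℝ} (hF : Adm F) {P : Vec q} (hP : Pos P) :
    L.E (fun Q => F (P * Q)) =
      L.E (fun Q => (∑ σ : Equiv.Perm (Fin q), F (P * perm σ Q)) / q.factorial) := by
  have h1 : ∀ σ : Equiv.Perm (Fin q), Adm (fun Q => F (P * perm σ Q)) := fun σ =>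
    (hF.mul_left hP).comp_perm σ
  have h2 : (fun Q => (∑ σ : Equiv.Perm (Fin q), F (P * perm σ Q)) / q.factorial) =
      fun Q => ((q.factorial : ℝ))⁻¹ * ∑ σ : Equiv.Perm (Fin q), F (P * perm σ Q) := by
    funext Q; rw [div_eq_inv_mul]
  rw [h2, L.smul _ (Adm.sum univ fun σ _ => h1 σ), L.sum univ fun σ _ => h1 σ]
  simp only [L.sym _ (hF.mul_left hP)]
  have : (q.factorial : ℝ) ≠ 0 := by positivity
  simp [Fintype.card_perm]
  field_simp

end Law

theorem adm_sAv {f : Vec q → ℝ} (hf : BddS f) {p : Vec q} (hp : Pos p) : Adm (sAv f p) := by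
  have h1 : ∀ σ : Equiv.Perm (Fin q), Adm (fun Q => hat f (p * perm σ Q)) := fun σ =>
    ((adm_hat hf).mul_left hp).comp_perm σ
  have := (Adm.sum univ fun σ _ => h1 σ).smul ((q.factorial : ℝ))⁻¹
  unfold sAv
  simpa only [div_eq_inv_mul] using this

namespace Law

variable [NeZero q] (L L' : Law q)

omit [NeZero q] in
theorem star_Ex {f : Vec q → ℝ} (hf : BddS f) :
    (L.star L').Ex f = L.Ex (fun p => L'.Ex (sAv f p)) ∧ BddS (fun p => L'.Ex (sAv f p)) := by
  have h := L'.adm_inner (adm_hat hf)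
  have e : ∀ p, Simp p → L'.E (fun Q => hat f (p * Q)) = L'.Ex (sAv f p) := fun p hp => by
    rw [L'.E_mul_avg (adm_hat hf) hp.1, ← L'.E_eq_Ex (adm_sAv hf hp.1)]
    rfl
  have hb : BddS (fun p => L'.Ex (sAv f p)) := by
    obtain ⟨C, hC⟩ := h.bddS
    exact ⟨C, fun p hp => by have := hC p hp; simp only [e p hp] at this; exact this⟩
  refine ⟨?_, hb⟩
  change L.E (fun P => L'.E (fun Q => hat f (P * Q))) = _
  rw [L.E_eq_Ex h]
  exact L.Ex_congr h.bddS hb e

/-- a pointwise separable lower bound gives a lower bound for the product experiment -/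
theorem star_ge {ι : Type*} (s : Finset ι) {f : Vec q → ℝ} (hf : BddS f) {g h : ι → Vec q → ℝ}
    (hg : ∀ i ∈ s, BddS (g i)) (hh : ∀ i ∈ s, BddS (h i))
    (H : ∀ p p', Simp p → Simp p' → ∑ i ∈ s, g i p * h i p' ≤ sAv f p p') :
    ∑ i ∈ s, L.Ex (g i) * L'.Ex (h i) ≤ (L.star L').Ex f := by
  obtain ⟨e, hb⟩ := L.star_Ex L' hf
  rw [e]
  have : ∑ i ∈ s, L.Ex (g i) * L'.Ex (h i) = L.Ex (fun p => ∑ i ∈ s, g i p * L'.Ex (h i)) := by
    rw [L.Ex_sum s fun i hi => (hg i hi).mul (bddS_const _)]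
    exact sum_congr rfl fun i hi => (L.Ex_mul_const _ (hg i hi)).symm
  rw [this]
  refine L.Ex_mono (BddS.sum s fun i hi => (hg i hi).mul (bddS_const _)) hb fun p hp => ?_
  have : ∑ i ∈ s, g i p * L'.Ex (h i) = L'.Ex (fun p' => ∑ i ∈ s, g i p * h i p') := by
    rw [L'.Ex_sum s fun i hi => (hh i hi).smul _]
    exact sum_congr rfl fun i hi => (L'.Ex_smul _ (hh i hi)).symm
  rw [this]
  exact L'.Ex_mono (BddS.sum s fun i hi => (hh i hi).smul _) (adm_sAv hf hp.1).bddS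
    fun p' hp' => H p p' hp hp'

theorem star_le {ι : Type*} (s : Finset ι) {f : Vec q → ℝ} (hf : BddS f) {g h : ι → Vec q → ℝ}
    (hg : ∀ i ∈ s, BddS (g i)) (hh : ∀ i ∈ s, BddS (h i))
    (H : ∀ p p', Simp p → Simp p' → sAv f p p' ≤ ∑ i ∈ s, g i p * h i p') :
    (L.star L').Ex f ≤ ∑ i ∈ s, L.Ex (g i) * L'.Ex (h i) := by
  have := L.star_ge L' s hf.neg (g := fun i p => -g i p) (fun i hi => (hg i hi).neg) hh
    fun p p' hp hp' => by
      have e : sAv (fun p => -f p) p p' = -sAv f p p' := by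
        simp [sAv, hat, neg_div]
      rw [e]
      simp only [neg_mul, sum_neg_distrib]
      linarith [H p p' hp hp']
  have e1 : (L.star L').Ex (fun p => -f p) = -(L.star L').Ex f := by
    simpa using (L.star L').Ex_smul (-1) hf
  have e2 : ∀ i ∈ s, L.Ex (fun p => -g i p) * L'.Ex (h i) = -(L.Ex (g i) * L'.Ex (h i)) :=
    fun i hi => by
      have : L.Ex (fun p => -g i p) = -L.Ex (g i) := by simpa using L.Ex_smul (-1) (hg i hi)
      rw [this]; ring
  rw [e1, sum_congr rfl e2, sum_neg_distrib] at this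
  linarith

end Law

end Crest.Agent.R163
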