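import Crest.Agent.R163.F3S
import Crest.Agent.R163.F3D
import Crest.Agent.R163.F4S
import Crest.Agent.R163.F4D
import Crest.Agent.R163.F4U1
import Crest.Agent.R163.F4U2

/-! Row 163: the certified ferromagnetic inequalities. -/

set_option autoImplicit false

namespace Crest.Agent.R163

theorem ferroPt3 : FerroPt 3 (3 / 10) 0 := ⟨Ck.F3S, Ck.F3D⟩

theorem ferroPt4 : FerroPt 4 (73 / 100) (9 / 100) := ⟨Ck.F4S, Ck.F4D⟩

theorem convPt : ConvPt := ⟨Ck.F4U1, Ck.F4U2⟩

end Crest.Agent.R163
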