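import Crest.Agent.R163.Order

/-! Row 163: the invariant class and non-reconstruction in the ferromagnetic case. -/

set_option autoImplicit false

namespace Crest.Agent.R163

open Finset Filter

variable {q : ℕ} [NeZero q]

namespace FerroH

theorem mom_vtx (k : ℕ) (i : Fin q) :
    mom k ((q : ℝ) • vtx i) = (((q : ℝ) - 1) ^ k + (q - 1) * (-1) ^ k) / q := by
  unfold mom
  congr 1
  rw [← add_sum_erase _ _ (mem_univ i), sum_congr rfl (g := fun _ => (-1 : ℝ) ^ k) fun j hj => by
    simp [vtx, Pi.single_eq_of_ne (ne_of_mem_erase hj)]]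
  simp [vtx, Nat.cast_sub (NeZero.one_le (n := q))]

theorem fx_vtx (i : Fin q) : fx ((q : ℝ) • vtx i) = q - 1 := by
  have hq : (q : ℝ) ≠ 0 := Nat.cast_ne_zero.2 (NeZero.ne q)
  rw [fx, mom_vtx]; field_simp; ring

theorem fm_vtx (i : Fin q) : fm ((q : ℝ) • vtx i) = (q - 1) * (q - 2) := by
  have hq : (q : ℝ) ≠ 0 := Nat.cast_ne_zero.2 (NeZero.ne q)
  rw [fm, mom_vtx]; field_simp; ring

theorem perfect_const {f : Vec q → ℝ} {c : ℝ} (h : ∀ i, f ((q : ℝ) • vtx i) = c) :
    (Law.perfect : Law q).Ex f = c := by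
  have hq : (q : ℝ) ≠ 0 := Nat.cast_ne_zero.2 (NeZero.ne q)
  simp [Law.perfect_Ex, h, hq]

omit [NeZero q] in
theorem fm_le {p : Vec q} (h : Simp p) : fm p ≤ (q - 1) * fx p := by
  unfold fm fx mom
  rw [← mul_div_assoc, mul_sum]
  refine div_le_div_of_nonneg_right (sum_le_sum fun i _ => ?_) (Nat.cast_nonneg _)
  have := le_av h.1 i
  rw [h.2, mul_one] at this
  nlinarith [sq_nonneg (p i - 1)]

theorem pow_mem {C : Law q → Prop} (h1 : C Law.one) (h2 : ∀ L L', C L → C L' → C (L.star L'))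
    {L : Law q} (hL : C L) (k : ℕ) : C (L.pow k) := by
  induction k with
  | zero => exact h1
  | succ k ih => exact h2 _ _ ih hL

theorem X_pow {C : Law q → Prop} {κ : ℝ} (h : FerroLaw q C κ) {L : Law q} (hL : C L) (k : ℕ) :
    (L.pow k).X ≤ k * L.X - if 2 ≤ k then 2 * κ * L.X ^ 3 else 0 := by
  have h1 : (L.pow 1).X = L.X := by
    change L.E (fun Q => hat fx (1 * Q)) = _
    simp only [one_mul]
    rfl
  induction k with
  | zero =>
    have : (L.pow 0).X = 0 := (Law.one_Ex _).trans fx_one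
    simp [this]
  | succ k ih =>
    have h2 := h.sub _ _ (pow_mem h.one h.star hL k) hL
    change (L.pow (k + 1)).X ≤ _ at h2
    rcases k with _ | _ | k
    · simp [h1]
    · rw [zero_add, h1] at h2
      norm_num
      linarith
    · have := (L.pow (k + 1 + 1)).X_nonneg
      have := L.X_nonneg
      have := h.kpos
      have : 0 ≤ κ * ((L.pow (k + 1 + 1)).X * L.X * ((L.pow (k + 1 + 1)).X + L.X)) := by positivity
      rw [if_pos (by omega)] at ih ⊢
      push_cast at ih ⊢
      linarith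

theorem tendsto_zero {x : ℕ → ℝ} (h0 : ∀ n, 0 ≤ x n) {ρ c : ℝ} (hρ : ρ ≤ 1) (hc : 0 ≤ c)
    (hor : ρ = 0 ∨ 0 < c) (h : ∀ n, x (n + 1) ≤ ρ * x n - c * x n ^ 3) :
    Tendsto x atTop (nhds 0) := by
  have ha : Antitone x := antitone_nat_of_succ_le fun n => by
    have := h0 n
    have : 0 ≤ c * x n ^ 3 := by positivity
    nlinarith [h n]
  have hl := tendsto_atTop_ciInf ha ⟨0, by rintro _ ⟨n, rfl⟩; exact h0 n⟩
  set s := ⨅ n, x n
  have hs : 0 ≤ s := ge_of_tendsto' hl h0
  have h1 : s ≤ ρ * s - c * s ^ 3 := le_of_tendsto_of_tendsto' (hl.comp (tendsto_add_atTop_nat 1))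
    ((hl.const_mul ρ).sub ((hl.pow 3).const_mul c)) h
  have h2 : 0 ≤ c * s ^ 3 := by positivity
  have : s = 0 := by
    rcases hor with rfl | hor
    · linarith
    · by_contra hne
      have : 0 < s := lt_of_le_of_ne hs (Ne.symm hne)
      have : 0 < c * s ^ 3 := by positivity
      nlinarith
  rwa [this] at hl

theorem hasSum_mean (d : ℝ) : HasSum (fun k => poisW d k * k) d := by
  rw [← hasSum_nat_add_iff' 1]
  have := (hasSum_poisW d).mul_left d
  simp only [mul_one, sum_range_one, Nat.cast_zero, mul_zero, sub_zero] at this ⊢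
  refine this.congr_fun fun k => ?_
  simp only [poisW, Nat.factorial_succ]
  push_cast
  field_simp
  ring

theorem X_pois {C : Law q → Prop} {κ : ℝ} (h : FerroLaw q C κ) {L : Law q} (hL : C L) {d : ℝ}
    (hd : 0 ≤ d) : (L.pois d hd).X ≤ d * L.X - poisW d 2 * (2 * κ * L.X ^ 3) := by
  have h1 := ((hasSum_mean d).mul_right L.X).sub
    (hasSum_ite_eq 2 (poisW d 2 * (2 * κ * L.X ^ 3)))
  refine hasSum_le (fun k => ?_) (Law.summable_pois hd L.pow (adm_hat bddS_fx)).hasSum h1
  have h2 := mul_le_mul_of_nonneg_left (X_pow h hL k) (poisW_nonneg hd k)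
  refine h2.trans ?_
  rw [mul_sub, ← mul_assoc]
  refine sub_le_sub_left ?_ _
  have := L.X_nonneg
  have := h.kpos
  have := poisW_nonneg hd k
  by_cases hk : k = 2
  · simp [hk]
  · rw [if_neg hk]
    positivity

end FerroH

open FerroH

theorem ferroLaw_of_pt {a b : ℝ} (h : FerroPt q a b) (hq : 2 ≤ q) (hb : 0 ≤ b)
    (hab : 2 * b * ((q : ℝ) - 1) ≤ a) (hv : a * ((q : ℝ) - 1) ≤ (q - 2) * (1 + b * (q - 1))) :
    ∃ κ, FerroLaw q (fun L => 0 ≤ L.Ex (psi a b)) κ := by
  obtain ⟨k, c, hk, hk0, hc, hS⟩ := h.S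
  obtain ⟨k', c', κ, hk', hk0', hc', hκ, hD⟩ := h.D
  have hq' : (2 : ℝ) ≤ q := by exact_mod_cast hq
  have hψ := bddS_psi (q := q) a b
  have h1 : 0 ≤ (Law.one : Law q).Ex (psi a b) := by simp [Law.one_Ex, psi, fx_one, fm_one]
  have h2 : ∀ L L' : Law q, 0 ≤ L.Ex (psi a b) → 0 ≤ L'.Ex (psi a b) →
      0 ≤ (L.star L').Ex (psi a b) := fun L L' hL hL' => by
    have := L.star_ge L' (univ : Finset (Fin 3)) hψ (g := ![psi a b, k, fun p => c * psi a b p])
      (h := ![k, psi a b, psi a b])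
      (fun i _ => by fin_cases i <;> simp [hψ, hk, hψ.smul])
      (fun i _ => by fin_cases i <;> simp [hψ, hk])
      fun p p' hp hp' => by simpa [Fin.sum_univ_three, mul_assoc] using hS p p' hp hp'
    refine le_trans ?_ this
    have := L.Ex_nonneg hk hk0
    have := L'.Ex_nonneg hk hk0
    simp only [Fin.sum_univ_three, Matrix.cons_val, L.Ex_smul c hψ]
    positivity
  refine ⟨κ, hκ, h1, ?_, fun L t ht h0 hL => ?_, h2, fun L d hd hL => ?_, fun L L' hL hL' => ?_⟩
  · rw [perfect_const (c := (q - 1) * ((q - 2) * (1 + b * (q - 1)) - a * (q - 1))) fun i => by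
      rw [psi, fx_vtx, fm_vtx]; ring]
    exact mul_nonneg (by linarith) (by linarith)
  · rw [L.Ex_T hψ]
    refine le_trans (b := L.Ex fun p => t ^ 3 * psi a b p) (by rw [L.Ex_smul _ hψ]; positivity)
      (L.Ex_mono (hψ.smul _) (hψ.comp_Tv ht) fun p hp => ?_)
    have k1 := fx_nonneg p
    have k2 : (1 + t) * b * fm p ≤ a * fx p :=
      calc (1 + t) * b * fm p ≤ (1 + t) * b * ((q - 1) * fx p) :=
            mul_le_mul_of_nonneg_left (fm_le hp) (by positivity)
        _ = (1 + t) * (b * (q - 1)) * fx p := by ring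
        _ ≤ a * fx p := by
            refine mul_le_mul_of_nonneg_right ?_ k1
            nlinarith [ht.1, mul_nonneg hb (show (0 : ℝ) ≤ q - 1 by linarith)]
    have k3 : 0 ≤ t ^ 3 * (1 - t) * fx p * (a * fx p - (1 + t) * b * fm p) :=
      mul_nonneg (mul_nonneg (mul_nonneg (by positivity) (by linarith [ht.1])) k1) (by linarith)
    simp only [psi, fx_Tv t hp, fm_Tv t hp]
    linarith
  · exact tsum_nonneg fun j => mul_nonneg (poisW_nonneg hd j)
      (pow_mem (C := fun L => 0 ≤ L.Ex (psi a b)) h1 h2 hL j)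
  · have hx := bddS_fx (q := q)
    have := L.star_le L' (univ : Finset (Fin 7)) hx
      (g := ![fx, fun _ => 1, fun p => -κ * fx p ^ 2, fun p => -κ * fx p, fun p => -1 * psi a b p,
        fun p => -1 * k' p, fun p => -c' * psi a b p])
      (h := ![fun _ => 1, fx, fx, fun p => fx p ^ 2, k', psi a b, psi a b])
      (fun i _ => by
        fin_cases i
        exacts [hx, bddS_const _, (hx.pow 2).smul _, hx.smul _, hψ.smul _, hk'.smul _, hψ.smul _])
      (fun i _ => by
        fin_cases i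
        exacts [bddS_const _, hx, hx, hx.pow 2, hk', hψ, hψ])
      fun p p' hp hp' => (hD p p' hp hp').trans_eq (by simp [Fin.sum_univ_seven]; ring)
    refine le_trans this ?_
    simp only [Fin.sum_univ_seven, Matrix.cons_val, L.Ex_smul _ hψ, L.Ex_smul _ hk',
      L.Ex_smul _ hx, L.Ex_smul _ (hx.pow 2), Law.Ex_const]
    have k1 := mul_nonneg hL (L'.Ex_nonneg hk' hk0')
    have k2 := mul_nonneg (L.Ex_nonneg hk' hk0') hL'
    have k3 := mul_nonneg hc' (mul_nonneg hL hL')
    have k4 := mul_le_mul_of_nonneg_left L.X_sq_le (mul_nonneg hκ.le L'.X_nonneg)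
    have k5 := mul_le_mul_of_nonneg_left L'.X_sq_le (mul_nonneg hκ.le L.X_nonneg)
    unfold Law.X at *
    linarith

theorem convLaw_of_pt {a b : ℝ} (h : ConvPt) (hb : 0 ≤ b) (hab : 3 * b < a) :
    ∃ c, ConvLaw 4 (fun L => 0 ≤ L.Ex (psi a b)) c := by
  obtain ⟨c₁, hc₁, h1⟩ := h.U1
  obtain ⟨c₂, hc₂, h2⟩ := h.U2
  have hx := bddS_fx (q := 4)
  have hm := bddS_fm (q := 4)
  have hd : 0 < a - 3 * b := by linarith
  have key : ∀ L : Law 4, 0 ≤ L.Ex (psi a b) → L.Ex (fun p => fx p ^ 2) ≤ L.M / (a - 3 * b) := by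
    intro L hL
    have := L.Ex_mono (bddS_psi a b) (hm.sub ((hx.pow 2).smul (a - 3 * b))) fun p hp => by
      have k1 := mul_le_mul_of_nonneg_left (fm_le hp) (mul_nonneg hb (fx_nonneg p))
      unfold psi
      push_cast at k1
      linarith
    rw [L.Ex_sub hm ((hx.pow 2).smul _), L.Ex_smul _ (hx.pow 2)] at this
    rw [le_div_iff₀ hd]
    unfold Law.M
    linarith
  have hM : ∀ L : Law 4, 0 ≤ L.Ex (psi a b) → 0 ≤ L.M := fun L hL => by
    have := ((sq_nonneg _).trans L.X_sq_le).trans (key L hL)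
    rwa [le_div_iff₀ hd, zero_mul] at this
  have he : 0 ≤ c₁ / (a - 3 * b) := by positivity
  refine ⟨c₂ + c₁ / (a - 3 * b) + 6, by positivity, hM, fun L L' _ _ => ?_, fun L L' hL hL' => ?_,
    perfect_const fx_vtx, ?_⟩
  · have := L.star_le L' (univ : Finset (Fin 3)) hm (g := ![fm, fun _ => 1, fun p => c₂ * fx p])
      (h := ![fun _ => 1, fm, fx])
      (fun i _ => by
        fin_cases i
        exacts [hm, bddS_const _, hx.smul _])
      (fun i _ => by
        fin_cases i
        exacts [bddS_const _, hm, hx])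
      fun p p' hp hp' => (h2 p p' hp hp').trans_eq (by simp [Fin.sum_univ_three]; ring)
    refine le_trans this ?_
    simp only [Fin.sum_univ_three, Matrix.cons_val, L.Ex_smul _ hx, Law.Ex_const]
    have k1 := mul_nonneg L.X_nonneg L'.X_nonneg
    have k2 := mul_nonneg he k1
    unfold Law.X Law.M at *
    linarith
  · have hu := (hm.smul (2 / 3)).add ((hx.pow 2).smul c₁)
    have := L.star_ge L' (univ : Finset (Fin 4)) hx
      (g := ![fx, fun _ => 1, fun p => -1 * fx p, fun p => -1 * (2 / 3 * fm p + c₁ * fx p ^ 2)])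
      (h := ![fun _ => 1, fx, fun p => 2 / 3 * fm p + c₁ * fx p ^ 2, fx])
      (fun i _ => by
        fin_cases i
        exacts [hx, bddS_const _, hx.smul _, hu.smul _])
      (fun i _ => by
        fin_cases i
        exacts [bddS_const _, hx, hu, hx])
      fun p p' hp hp' => le_of_eq_of_le (by simp [Fin.sum_univ_four]; ring) (h1 p p' hp hp')
    refine le_trans ?_ this
    have u : ∀ K : Law 4, 0 ≤ K.Ex (psi a b) → K.Ex (fun p => 2 / 3 * fm p + c₁ * fx p ^ 2) ≤
        (c₂ + c₁ / (a - 3 * b) + 6) * K.M := fun K hK => by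
      rw [K.Ex_add (hm.smul _) ((hx.pow 2).smul _), K.Ex_smul _ hm, K.Ex_smul _ (hx.pow 2)]
      have k1 := mul_le_mul_of_nonneg_left (key K hK) hc₁
      have k2 := hM K hK
      have k3 := mul_nonneg hc₂ k2
      rw [← mul_div_assoc, mul_div_right_comm] at k1
      unfold Law.M at *
      linarith
    simp only [Fin.sum_univ_four, Matrix.cons_val, L.Ex_smul _ hx, L.Ex_smul _ hu, Law.Ex_const]
    have k1 := mul_le_mul_of_nonneg_left (u L hL) L'.X_nonneg
    have k2 := mul_le_mul_of_nonneg_left (u L' hL') L.X_nonneg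
    unfold Law.X at *
    linarith
  · have : (Law.perfect : Law 4).M = _ := perfect_const fm_vtx
    rw [this]
    push_cast
    linarith

theorem ferro_reg {C : Law q → Prop} {κ : ℝ} (h : FerroLaw q C κ) {b : ℕ} (hb : 2 ≤ b) {t : ℝ}
    (ht : Tok q t) (h0 : 0 ≤ t) (hc : (b : ℝ) * t ^ 2 ≤ 1) :
    Tendsto (fun n => (regLaw q b t ht n).X) atTop (nhds 0) := by
  have hC : ∀ n, C (regLaw q b t ht n) := fun n => by
    induction n with
    | zero => exact h.perfect
    | succ n ih => exact pow_mem h.one h.star (h.T _ t ht h0 ih) b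
  have hκ := h.kpos
  refine tendsto_zero (fun n => Law.X_nonneg _) hc (c := 2 * κ * t ^ 6) (by positivity) ?_
    fun n => ?_
  · rcases h0.eq_or_lt with rfl | h0
    · simp
    · exact Or.inr (by positivity)
  · have := X_pow h (h.T _ t ht h0 (hC n)) b
    rw [if_pos hb, Law.X_T] at this
    exact this.trans_eq (by ring)

theorem ferro_gw {C : Law q → Prop} {κ : ℝ} (h : FerroLaw q C κ) {d : ℝ} (hd : 0 < d) {t : ℝ}
    (ht : Tok q t) (h0 : 0 ≤ t) (hc : d * t ^ 2 ≤ 1) :
    Tendsto (fun n => (gwL q d hd.le t ht n).X) atTop (nhds 0) := by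
  have hC : ∀ n, C (gwL q d hd.le t ht n) := fun n => by
    induction n with
    | zero => exact h.perfect
    | succ n ih => exact h.pois _ d hd.le (h.T _ t ht h0 ih)
  have hκ := h.kpos
  have hw : 0 < poisW d 2 := by unfold poisW; positivity
  refine tendsto_zero (fun n => Law.X_nonneg _) hc (c := poisW d 2 * (2 * κ * t ^ 6))
    (by positivity) ?_ fun n => ?_
  · rcases h0.eq_or_lt with rfl | h0
    · simp
    · exact Or.inr (by positivity)
  · have := X_pois h (h.T _ t ht h0 (hC n)) hd.le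
    rw [Law.X_T] at this
    exact this.trans_eq (by ring)

end Crest.Agent.R163
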