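import Crest.Agent.R163.PowEq
import Crest.Agent.R163.Order

/-! Row 163: the advantage on the Poisson tree is the `TV` functional of `gwL`. -/

set_option autoImplicit false

namespace Crest.Agent.R163

open Finset Crest.ProbabilityR.Broadcast

namespace IdentGWH

variable {q : ℕ}

/-- the family `P` of likelihood vectors represents the law `L` -/
def Rep {O : Type} (L : Law q) (P : O → Vec q) : Prop :=
  (∀ o, Pos (P o)) ∧ ∀ F : Vec q → ℝ, Adm F → HasSum (fun o => F (P o)) (L.E F)

theorem Rep.equiv {O O' : Type} {L : Law q} {P : O → Vec q} {P' : O' → Vec q} (h : Rep L P)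
    (e : O' ≃ O) (he : ∀ o, P' o = P (e o)) : Rep L P' := by
  refine ⟨fun o => by rw [he]; exact h.1 _, fun F hF => ?_⟩
  have := (e.hasSum_iff (f := fun o => F (P o))).2 (h.2 F hF)
  refine this.congr_fun ?_ |> id
  intro o
  simp [he]

theorem Rep.T [NeZero q] {O : Type} {L : Law q} {P : O → Vec q} (h : Rep L P) {t : ℝ}
    (ht : Tok q t) : Rep (L.T t ht) (fun o => Tv t (P o)) :=
  ⟨fun o => (h.1 o).Tv ht, fun _ hF => h.2 _ (hF.comp_Tv ht)⟩

theorem Rep.star [NeZero q] {O O' : Type} {L L' : Law q} {P : O → Vec q} {P' : O' → Vec q}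
    (h : Rep L P) (h' : Rep L' P') : Rep (L.star L') (fun o : O × O' => P o.1 * P' o.2) := by
  refine ⟨fun o => (h.1 _).mul (h'.1 _), fun F hF => ?_⟩
  obtain ⟨C, hC0, hC⟩ := hF.bdd'
  have s1 : Summable (fun o => av (P o)) := (h.2 _ adm_av).summable
  have s2 : Summable (fun o => av (P' o)) := (h'.2 _ adm_av).summable
  have s3 : Summable (fun o : O × O' => av (P o.1) * av (P' o.2)) :=
    s1.mul_of_nonneg s2 (fun o => av_nonneg (h.1 o)) (fun o => av_nonneg (h'.1 o))
  have s4 : Summable (fun o : O × O' => F (P o.1 * P' o.2)) := by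
    refine Summable.of_norm_bounded (s3.mul_left (C * q)) fun o => ?_
    rw [Real.norm_eq_abs]
    refine (hC _ ((h.1 _).mul (h'.1 _))).trans ?_
    have := mul_le_mul_of_nonneg_left (av_mul_le (h.1 o.1) (h'.1 o.2)) hC0
    linarith
  have h1 : HasSum (fun o => L'.E (fun Q => F (P o * Q))) ((L.star L').E F) :=
    h.2 _ (L'.adm_inner hF)
  have h2 : HasSum (fun o => L'.E (fun Q => F (P o * Q)))
      (∑' o : O × O', F (P o.1 * P' o.2)) :=
    s4.hasSum.prod_fiberwise fun o => h'.2 _ (hF.mul_left (h.1 o))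
  rw [h1.unique h2]
  exact s4.hasSum

theorem Rep.pow [NeZero q] {O : Type} {L : Law q} {P : O → Vec q} (h : Rep L P) (k : ℕ) :
    Rep (L.pow k) (fun v : Fin k → O => ∏ m, P (v m)) := by
  induction k with
  | zero =>
    refine ⟨fun o => by simpa using pos_one, fun F _ => ?_⟩
    simp [Law.pow, Law.one]
  | succ k ih =>
    have h1 := ih.star h
    refine h1.equiv ((Fin.snocEquiv (fun _ => O)).symm.trans (Equiv.prodComm _ _)) fun v => ?_
    rw [Fin.prod_univ_castSucc]
    simp [Fin.snocEquiv, Fin.init]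

theorem Rep.pois [NeZero q] {O : Type} {L : Law q} {P : O → Vec q} (h : Rep L P) {d : ℝ}
    (hd : 0 ≤ d) :
    Rep (L.pois d hd) (fun l : List O => poisW d l.length • (l.map P).prod) := by
  have key : Rep (L.pois d hd)
      (fun s : (Σ k, Fin k → O) => poisW d s.1 • ∏ m, P (s.2 m)) := by
    refine ⟨fun s => ((h.pow s.1).1 s.2).smul (poisW_nonneg hd _), fun F hF => ?_⟩
    have inner : ∀ G : Vec q → ℝ, Adm G → ∀ k : ℕ,
        HasSum (fun v : Fin k → O => G (poisW d k • ∏ m, P (v m))) (poisW d k * (L.pow k).E G) := by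
      intro G hG k
      have := ((h.pow k).2 G hG).mul_left (poisW d k)
      refine this.congr_fun ?_ |> id
      intro v
      exact hG.hom _ (poisW_nonneg hd k) _ ((h.pow k).1 v)
    obtain ⟨C, hC0, hC⟩ := hF.bdd'
    have s1 : Summable (fun s : (Σ k, Fin k → O) => av (poisW d s.1 • ∏ m, P (s.2 m))) := by
      have hn : ∀ s : (Σ k, Fin k → O), 0 ≤ av (poisW d s.1 • ∏ m, P (s.2 m)) :=
        fun s => av_nonneg (((h.pow s.1).1 s.2).smul (poisW_nonneg hd s.1))
      rw [summable_sigma_of_nonneg hn]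
      refine ⟨fun k => (inner _ adm_av k).summable, ?_⟩
      simp only [(inner _ adm_av _).tsum_eq]
      exact Law.summable_pois hd _ adm_av
    have s2 : Summable (fun s : (Σ k, Fin k → O) => F (poisW d s.1 • ∏ m, P (s.2 m))) := by
      refine Summable.of_norm_bounded (s1.mul_left C) fun s => ?_
      rw [Real.norm_eq_abs]
      exact hC _ (((h.pow s.1).1 s.2).smul (poisW_nonneg hd _))
    exact HasSum.sigma_of_hasSum (Law.summable_pois hd _ hF).hasSum (fun k => inner F hF k) s2
  refine key.equiv List.equivSigmaTuple fun l => ?_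
  obtain ⟨⟨k, v⟩, rfl⟩ := List.equivSigmaTuple.symm.surjective l
  rw [Equiv.apply_symm_apply]
  simp [List.equivSigmaTuple, List.map_ofFn, List.prod_ofFn]

theorem sum_channel [NeZero q] (t : ℝ) (P : Vec q) (i : Fin q) :
    ∑ j, channel q t i j * P j = Tv t P i := by
  unfold channel Tv av
  simp only [add_mul, sum_add_distrib, ite_mul, zero_mul, sum_ite_eq, mem_univ, if_true,
    ← mul_sum]
  ring

theorem rep_gw (q : ℕ) [NeZero q] (d : ℝ) (hd : 0 ≤ d) (t : ℝ) (ht : Tok q t) (n : ℕ) :
    Rep (gwL q d hd t ht n) (fun (o : PObs q n) (i : Fin q) => gwLaw q t d n i o) := by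
  induction n with
  | zero =>
    have e : ∀ o : Fin q, (fun i : Fin q => gwLaw q t d 0 i o) = vtx o := by
      intro o; funext i
      simp only [gwLaw, vtx, Pi.single_apply, eq_comm]
    refine ⟨fun o => by have := pos_vtx (q := q) o; rwa [← e o] at this, fun F _ => ?_⟩
    simp only [e]
    exact hasSum_fintype (fun o : Fin q => F (vtx o))
  | succ n ih =>
    have h1 := (ih.T ht).pois hd
    refine h1.equiv (Equiv.refl _) fun l => ?_
    funext i
    simp only [Equiv.refl_apply, Pi.smul_apply, smul_eq_mul, gwLaw, poisW, Pi.list_prod_apply,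
      List.map_map]
    congr 2
    refine List.map_congr_left fun o _ => ?_
    exact sum_channel t (fun j => gwLaw q t d n j o) i

theorem adm_TV' [NeZero q] : Adm (TV : Vec q → ℝ) := by
  have hq : (0 : ℝ) < q := Nat.cast_pos.2 (Nat.pos_of_ne_zero (NeZero.ne q))
  refine ⟨fun c hc P _ => ?_, 1, fun P hP => ?_⟩
  · unfold TV
    simp only [Pi.smul_apply, smul_eq_mul, ← mul_sum]
    have : ∀ i, |c * P i - 1 / q * (c * ∑ j, P j)| = c * |P i - 1 / q * ∑ j, P j| := fun i => by
      rw [← abs_of_nonneg hc, ← abs_mul, abs_of_nonneg hc]; congr 1; ring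
    simp only [this, ← mul_sum]
    ring
  · have hS : 0 ≤ ∑ j, P j := sum_nonneg fun j _ => hP j
    have h1 : ∑ i, |P i - 1 / q * ∑ j, P j| ≤ ∑ i, (P i + 1 / q * ∑ j, P j) :=
      sum_le_sum fun i _ => by
        have : 0 ≤ 1 / (q : ℝ) * ∑ j, P j := by positivity
        have := hP i
        rw [abs_le]; constructor <;> linarith
    rw [sum_add_distrib, sum_const, card_univ, Fintype.card_fin, nsmul_eq_mul, ← mul_assoc,
      mul_one_div_cancel hq.ne', one_mul] at h1
    unfold TV av
    rw [abs_of_nonneg (by positivity), one_mul]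
    calc 1 / (2 * (q : ℝ)) * ∑ i, |P i - 1 / q * ∑ j, P j|
        ≤ 1 / (2 * (q : ℝ)) * (∑ j, P j + ∑ j, P j) := by gcongr
      _ = (∑ j, P j) / q := by field_simp; ring

end IdentGWH

theorem gwAdvantage_eq (q : ℕ) [NeZero q] (d : ℝ) (hd : 0 ≤ d) (t : ℝ) (ht : Tok q t) (n : ℕ) :
    gwAdvantage q t d n = (gwL q d hd t ht n).E TV := by
  have h := ((IdentGWH.rep_gw q d hd t ht n).2 TV IdentGWH.adm_TV').tsum_eq
  rw [← h]
  unfold gwAdvantage TV
  rw [tsum_mul_left]

end Crest.Agent.R163
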