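import Crest.Agent.R163.Order

/-! Row 163: the advantage on the regular tree is the `TV` functional of `regLaw`. -/

set_option autoImplicit false

namespace Crest.Agent.R163

open Finset Crest.ProbabilityR.Broadcast

namespace IdentRegH

variable {q : ℕ}

/-- `L` is the experiment with finitely many outcomes `o` and likelihood vectors `P o` -/
def Rep (L : Law q) {O : Type} [Fintype O] (P : O → Vec q) : Prop :=
  (∀ o, Pos (P o)) ∧ ∀ F, Adm F → L.E F = ∑ o, F (P o)

theorem Rep.equiv {L : Law q} {O O' : Type} [Fintype O] [Fintype O'] {P : O → Vec q}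
    {P' : O' → Vec q} (h : Rep L P) (e : O' ≃ O) (he : ∀ o, P' o = P (e o)) : Rep L P' :=
  ⟨fun o => he o ▸ h.1 _, fun F hF => by
    rw [h.2 F hF, ← Equiv.sum_comp e]
    simp only [he]⟩

variable [NeZero q]

theorem Rep.T {L : Law q} {O : Type} [Fintype O] {P : O → Vec q} (h : Rep L P) {t : ℝ}
    (ht : Tok q t) : Rep (L.T t ht) (fun o => Tv t (P o)) :=
  ⟨fun o => (h.1 o).Tv ht, fun _ hF => h.2 _ (hF.comp_Tv ht)⟩

omit [NeZero q] in
theorem Rep.star {L L' : Law q} {O O' : Type} [Fintype O] [Fintype O'] {P : O → Vec q}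
    {P' : O' → Vec q} (h : Rep L P) (h' : Rep L' P') :
    Rep (L.star L') (fun x : O × O' => P x.1 * P' x.2) :=
  ⟨fun x => (h.1 x.1).mul (h'.1 x.2), fun F hF => by
    change L.E (fun P => L'.E (fun Q => F (P * Q))) = _
    rw [h.2 _ (L'.adm_inner hF), Fintype.sum_prod_type]
    exact sum_congr rfl fun o _ => h'.2 _ (hF.mul_left (h.1 o))⟩

theorem Rep.pow {L : Law q} {O : Type} [Fintype O] {P : O → Vec q} (h : Rep L P) (k : ℕ) :
    Rep (L.pow k) (fun w : Fin k → O => ∏ m, P (w m)) := by
  induction k with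
  | zero =>
    refine ⟨fun w => by simpa using pos_one, fun F _ => ?_⟩
    change F 1 = _
    simp
  | succ k ih =>
    refine (ih.star h).equiv ((Fin.snocEquiv fun _ => O).symm.trans (Equiv.prodComm _ _))
      fun w => ?_
    rw [Fin.prod_univ_castSucc]
    rfl

omit [NeZero q] in
theorem sum_channel (t : ℝ) (P : Vec q) (i : Fin q) :
    ∑ j, channel q t i j * P j = Tv t P i := by
  unfold channel Tv av
  simp only [add_mul, sum_add_distrib, ite_mul, zero_mul, sum_ite_eq, mem_univ, if_true,
    ← mul_sum]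
  ring

theorem rep_reg (b : ℕ) {t : ℝ} (ht : Tok q t) (n : ℕ) :
    Rep (regLaw q b t ht n) (fun (τ : (Fin n → Fin b) → Fin q) i => leafLaw q b t n i τ) := by
  induction n with
  | zero =>
    have h : Rep (Law.perfect : Law q) vtx := ⟨pos_vtx, fun _ _ => rfl⟩
    refine h.equiv (Equiv.funUnique _ _) fun τ => ?_
    funext i
    change (if τ Fin.elim0 = i then 1 else 0) = vtx (τ default) i
    rw [vtx, Pi.single_apply, Subsingleton.elim default Fin.elim0]
    exact if_congr eq_comm rfl rfl
  | succ n ih =>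
    refine ((ih.T ht).pow b).equiv
      ((Equiv.arrowCongr (Fin.consEquiv fun _ => Fin b).symm (Equiv.refl _)).trans
        (Equiv.curry _ _ _)) fun τ => ?_
    funext i
    rw [Finset.prod_apply]
    exact prod_congr rfl fun m _ => sum_channel t _ i

end IdentRegH

theorem advantage_eq (q : ℕ) [NeZero q] (b : ℕ) (t : ℝ) (ht : Tok q t) (n : ℕ) :
    advantage q b t n = (regLaw q b t ht n).E TV := by
  rw [(IdentRegH.rep_reg b ht n).2 TV adm_TV, advantage, mul_sum]
  rfl

end Crest.Agent.R163
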