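import Crest.Agent.R163.Order

/-! Row 163: the advantage on a locally finite tree is the `TV` functional of `treeLaw`. -/

set_option autoImplicit false

namespace Crest.Agent.R163

open Finset Crest.ProbabilityR.Broadcast Crest.ProbabilityR.TreeBroadcast

namespace IdentTreeH

variable {q : ℕ} {V : Type*} [DecidableEq V]

/-- sum over all assignments of the coordinates in `s` -/
noncomputable def sumOn (s : Finset V) (G : (V → Fin q) → ℝ) (τ : V → Fin q) : ℝ :=
  ∑ y : s → Fin q, G (Function.updateFinset τ s y)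

theorem sumOn_union {s s' : Finset V} (h : Disjoint s s') (G : (V → Fin q) → ℝ) (τ : V → Fin q) :
    sumOn (s ∪ s') G τ = sumOn s (sumOn s' G) τ := by
  unfold sumOn
  rw [← Fintype.sum_prod_type' (f := fun (y : s → Fin q) (z : s' → Fin q) =>
    G (Function.updateFinset (Function.updateFinset τ s y) s' z))]
  refine (Fintype.sum_equiv (Equiv.piFinsetUnion (fun _ : V => Fin q) h) _ _ fun x => ?_).symm
  rw [Function.updateFinset_updateFinset h]

/-- the law `L` is represented by the likelihood vectors `P τ`, `τ` an assignment on `s` -/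
structure Rep (L : Law q) (s : Finset V) (P : (V → Fin q) → Vec q) : Prop where
  pos : ∀ τ, Pos (P τ)
  dep : ∀ τ τ', (∀ v ∈ s, τ v = τ' v) → P τ = P τ'
  eq : ∀ F : Vec q → ℝ, Adm F → ∀ τ, L.E F = sumOn s (fun σ => F (P σ)) τ

variable [NeZero q]

theorem rep_one : Rep (Law.one : Law q) (∅ : Finset V) (fun _ => 1) :=
  ⟨fun _ => pos_one, fun _ _ _ => rfl, fun F _ τ => by
    simp [sumOn, Law.one]⟩

theorem rep_perfect (v : V) : Rep (Law.perfect : Law q) {v} (fun τ => vtx (τ v)) :=
  ⟨fun _ => pos_vtx _, fun τ τ' h => by rw [h v (mem_singleton_self v)], fun F _ τ => by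
    unfold sumOn
    change ∑ i, F (vtx i) = _
    refine (Fintype.sum_equiv (Equiv.funUnique ({v} : Finset V) (Fin q)) _ _ fun y => ?_).symm
    simp only [Function.updateFinset, mem_singleton, dite_true, Equiv.funUnique_apply]
    congr 3⟩

theorem Rep.T {L : Law q} {s : Finset V} {P : (V → Fin q) → Vec q} (h : Rep L s P) (t : ℝ)
    (ht : Tok q t) : Rep (L.T t ht) s (fun τ => Tv t (P τ)) :=
  ⟨fun τ => (h.pos τ).Tv ht, fun τ τ' e => by rw [h.dep τ τ' e], fun F hF τ =>
    h.eq _ (hF.comp_Tv ht) τ⟩

theorem Rep.star {L L' : Law q} {s s' : Finset V} {P P' : (V → Fin q) → Vec q} (h : Rep L s P)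
    (h' : Rep L' s' P') (hd : Disjoint s s') :
    Rep (L.star L') (s ∪ s') (fun τ => P τ * P' τ) := by
  refine ⟨fun τ => (h.pos τ).mul (h'.pos τ), fun τ τ' e => ?_, fun F hF τ => ?_⟩
  · rw [h.dep τ τ' fun v hv => e v (mem_union_left _ hv),
      h'.dep τ τ' fun v hv => e v (mem_union_right _ hv)]
  · rw [sumOn_union hd]
    change L.E (fun P => L'.E (fun Q => F (P * Q))) = _
    rw [h.eq _ (L'.adm_inner hF) τ]
    congr 1
    funext σ
    rw [h'.eq _ (hF.mul_left (h.pos σ)) σ]
    unfold sumOn
    refine sum_congr rfl fun y _ => ?_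
    dsimp only
    rw [h.dep (Function.updateFinset σ s' y) σ fun v hv => ?_]
    simp only [Function.updateFinset, dif_neg (disjoint_left.1 hd hv)]

theorem rep_foldl (Lc : V → Law q) (D : V → Finset V) (Pc : V → (V → Fin q) → Vec q) (l : List V)
    (hl : l.Nodup) (hrep : ∀ c ∈ l, Rep (Lc c) (D c) (Pc c))
    (hdis : ∀ c ∈ l, ∀ c' ∈ l, c ≠ c' → Disjoint (D c) (D c'))
    (A : Law q) (s : Finset V) (P : (V → Fin q) → Vec q) (hA : Rep A s P)
    (hs : ∀ c ∈ l, Disjoint s (D c)) :
    Rep ((l.map Lc).foldl Law.star A) (s ∪ l.toFinset.biUnion D)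
      (fun τ => P τ * ∏ c ∈ l.toFinset, Pc c τ) := by
  induction l generalizing A s P with
  | nil => simpa using hA
  | cons a l ih =>
    obtain ⟨ha, hl'⟩ := List.nodup_cons.1 hl
    have h1 := hA.star (hrep a List.mem_cons_self) (hs a List.mem_cons_self)
    have h2 := ih hl' (fun c hc => hrep c (List.mem_cons_of_mem _ hc))
      (fun c hc c' hc' => hdis c (List.mem_cons_of_mem _ hc) c' (List.mem_cons_of_mem _ hc'))
      _ _ _ h1 (fun c hc => disjoint_union_left.2 ⟨hs c (List.mem_cons_of_mem _ hc),
        hdis a List.mem_cons_self c (List.mem_cons_of_mem _ hc) (fun e => ha (e ▸ hc))⟩)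
    have ha' : a ∉ l.toFinset := fun h => ha (List.mem_toFinset.1 h)
    simp only [List.map_cons, List.foldl_cons, List.toFinset_cons, biUnion_insert, prod_insert ha',
      ← union_assoc, ← mul_assoc]
    exact h2

/-- descendants `k` levels below `v` -/
def desc (T : LocFinTree V) : ℕ → V → Finset V
  | 0, v => {v}
  | k + 1, v => (T.children v).biUnion (desc T k)

/-- the likelihood vector at `v` of the vectors `g` placed `k` levels below -/
noncomputable def gsub (T : LocFinTree V) (t : ℝ) (g : V → Vec q) : ℕ → V → Vec q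
  | 0, v => g v
  | k + 1, v => ∏ c ∈ T.children v, Tv t (gsub T t g k c)

omit [NeZero q] in
theorem gsub_succ (T : LocFinTree V) (t : ℝ) (g : V → Vec q) (k : ℕ) (v : V) :
    gsub T t g (k + 1) v = gsub T t (fun u => ∏ c ∈ T.children u, Tv t (g c)) k v := by
  induction k generalizing v with
  | zero => rfl
  | succ k ih =>
    rw [gsub]
    simp only [ih]
    rfl

theorem desc_parent (T : LocFinTree V) (k : ℕ) (v w : V) (h : w ∈ desc T k v) :
    T.parent^[k] w = v ∧ T.depth w = T.depth v + k := by
  induction k generalizing v with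
  | zero =>
    have : w = v := mem_singleton.1 h
    simp [this]
  | succ k ih =>
    obtain ⟨c, hc, hw⟩ := mem_biUnion.1 h
    obtain ⟨h1, h2⟩ := ih c hw
    obtain ⟨h3, h4⟩ := mem_filter.1 hc
    have h5 := (T.mem_level_iff _ _).1 h3
    exact ⟨by rw [Function.iterate_succ_apply', h1, h4], by omega⟩

omit [DecidableEq V] in
theorem depth_iterate (T : LocFinTree V) (k : ℕ) (w : V) (h : k ≤ T.depth w) :
    T.depth (T.parent^[k] w) + k = T.depth w := by
  induction k with
  | zero => simp
  | succ k ih =>
    have h1 := ih (by omega)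
    have h2 : T.parent^[k] w ≠ T.root := fun e => by
      have := (T.depth_eq_zero_iff _).2 e
      omega
    have h3 := T.depth_parent _ h2
    rw [Function.iterate_succ_apply']
    omega

theorem mem_desc (T : LocFinTree V) (k : ℕ) (w : V) (h : k ≤ T.depth w) :
    w ∈ desc T k (T.parent^[k] w) := by
  induction k with
  | zero => simp [desc]
  | succ k ih =>
    refine mem_biUnion.2 ⟨T.parent^[k] w, mem_filter.2 ⟨(T.mem_level_iff _ _).2 ?_, ?_⟩,
      ih (by omega)⟩
    · have h1 := depth_iterate T k w (by omega)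
      have h2 := depth_iterate T (k + 1) w h
      omega
    · rw [Function.iterate_succ_apply']

theorem desc_root (T : LocFinTree V) (n : ℕ) : desc T n T.root = T.level n := by
  have h0 : T.depth T.root = 0 := (T.depth_eq_zero_iff _).2 rfl
  ext w
  rw [T.mem_level_iff]
  constructor
  · intro h
    have := (desc_parent T n _ w h).2
    omega
  · intro h
    have h1 := depth_iterate T n w h.ge
    have h2 : T.parent^[n] w = T.root := (T.depth_eq_zero_iff _).1 (by omega)
    have h3 := mem_desc T n w h.ge
    rwa [h2] at h3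

theorem rep_treeLaw (T : LocFinTree V) (t : ℝ) (ht : Tok q t) (k : ℕ) (v : V) :
    Rep (treeLaw T t ht (fun _ => Law.perfect) k v) (desc T k v)
      (fun τ => gsub T t (fun w => vtx (τ w)) k v) := by
  induction k generalizing v with
  | zero => exact rep_perfect v
  | succ k ih =>
    have h := rep_foldl (fun c => (treeLaw T t ht (fun _ => Law.perfect) k c).T t ht) (desc T k)
      (fun c τ => Tv t (gsub T t (fun w => vtx (τ w)) k c)) (T.children v).toList
      (nodup_toList _) (fun c _ => (ih c).T t ht)
      (fun c _ c' _ hne => disjoint_left.2 fun w h1 h2 =>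
        hne ((desc_parent T k c w h1).1.symm.trans (desc_parent T k c' w h2).1))
      Law.one ∅ (fun _ => 1) rep_one (fun _ _ => disjoint_empty_left _)
    simp only [toList_toFinset, empty_union, one_mul] at h
    exact h

omit [NeZero q] in
theorem sum_channel (t : ℝ) (P : Vec q) (i : Fin q) : ∑ j, channel q t i j * P j = Tv t P i := by
  unfold channel Tv av
  simp only [add_mul, sum_add_distrib, ite_mul, zero_mul, sum_ite_eq, mem_univ, if_true, ← mul_sum]
  ring

theorem sum_levelLaw (T : LocFinTree V) (t : ℝ) (m : ℕ) (g : V → Vec q) (i : Fin q) :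
    ∑ τ : T.level m → Fin q, levelLaw q T t m i τ * ∏ v : T.level m, g v (τ v) =
      gsub T t g m T.root i := by
  induction m generalizing g with
  | zero =>
    have hr : T.root ∈ T.level 0 := (T.mem_level_iff _ _).2 ((T.depth_eq_zero_iff _).2 rfl)
    have : Unique (T.level 0) :=
      ⟨⟨⟨T.root, hr⟩⟩, fun v => Subtype.ext
        ((T.depth_eq_zero_iff _).1 ((T.mem_level_iff _ _).1 v.2))⟩
    have hd : (default : T.level 0) = ⟨T.root, hr⟩ := Subsingleton.elim _ _
    rw [Fintype.sum_equiv (Equiv.funUnique (T.level 0) (Fin q)) _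
      (fun j => (if j = i then (1 : ℝ) else 0) * g T.root j) fun τ => ?_]
    · simp [gsub]
    · simp only [levelLaw, Fintype.prod_unique, Equiv.funUnique_apply, hd]
  | succ m ih =>
    rw [gsub_succ, ← ih]
    simp only [levelLaw, sum_mul]
    rw [sum_comm]
    refine sum_congr rfl fun τ' _ => ?_
    simp only [mul_assoc, ← prod_mul_distrib]
    rw [← mul_sum]
    congr 1
    set σ : V → Fin q := Function.updateFinset (fun _ => i) (T.level m) τ' with hσ
    have hσ' : ∀ (u : V) (hu : u ∈ T.level m), τ' ⟨u, hu⟩ = σ u := fun u hu => by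
      simp only [hσ, Function.updateFinset, dif_pos hu]
    have hσ'' : ∀ u : T.level m, τ' u = σ u := fun u => hσ' u.1 u.2
    simp only [hσ'']
    rw [← Fintype.prod_sum (f := fun (v : T.level (m + 1)) (j : Fin q) =>
      channel q t (σ (T.parent v)) j * g v j)]
    simp only [sum_channel, Finset.prod_apply]
    rw [prod_coe_sort (T.level (m + 1)) (fun v => Tv t (g v) (σ (T.parent v))),
      prod_coe_sort (T.level m) (fun u => ∏ c ∈ T.children u, Tv t (g c) (σ u)),
      ← prod_fiberwise_of_maps_to (t := T.level m) (g := T.parent) (fun v hv => ?_)]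
    · refine prod_congr rfl fun u hu => ?_
      have hu' := (T.mem_level_iff _ _).1 hu
      unfold LocFinTree.children
      rw [hu']
      exact prod_congr rfl fun c hc => by rw [(mem_filter.1 hc).2]
    · have hd : T.depth v = m + 1 := (T.mem_level_iff _ _).1 hv
      have hne : v ≠ T.root := fun h => by
        have := (T.depth_eq_zero_iff v).2 h
        omega
      have := T.depth_parent v hne
      exact (T.mem_level_iff _ _).2 (by omega)

theorem levelLaw_eq (T : LocFinTree V) (t : ℝ) (n : ℕ) (τ0 : V → Fin q) (τ : T.level n → Fin q)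
    (i : Fin q) : levelLaw q T t n i τ =
      gsub T t (fun w => vtx (Function.updateFinset τ0 (T.level n) τ w)) n T.root i := by
  rw [← sum_levelLaw, sum_eq_single τ]
  · rw [prod_eq_one, mul_one]
    intro v _
    simp [Function.updateFinset, vtx]
  · intro τ' _ hne
    obtain ⟨v, hv⟩ := Function.ne_iff.1 hne
    rw [prod_eq_zero (mem_univ v), mul_zero]
    simp [Function.updateFinset, vtx, hv]
  · intro h
    exact absurd (mem_univ _) h

end IdentTreeH

theorem treeAdvantage_eq (q : ℕ) [NeZero q] {V : Type*} [DecidableEq V] (T : LocFinTree V) (t : ℝ)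
    (ht : Tok q t) (n : ℕ) :
    treeAdvantage q T t n = (treeLaw T t ht (fun _ => Law.perfect) n T.root).E TV := by
  rw [(IdentTreeH.rep_treeLaw T t ht n T.root).eq TV adm_TV (fun _ => 0), IdentTreeH.desc_root]
  unfold treeAdvantage IdentTreeH.sumOn TV
  rw [mul_sum]
  refine sum_congr rfl fun τ _ => ?_
  simp only [IdentTreeH.levelLaw_eq T t n (fun _ => 0) τ]

end Crest.Agent.R163
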