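import Crest.Agent.R163.Feat
import Crest.Prelude.Def_TreeBroadcast

/-! Row 163: interface definitions shared by the analysis modules and the certificate modules. -/

set_option autoImplicit false

namespace Crest.Agent.R163

open Finset

variable {q : ℕ}

/-- symmetric, nonnegative, superlinear (= concave 1-homogeneous) test functions -/
structure Sup (H : Vec q → ℝ) : Prop where
  adm : Adm H
  nonneg : ∀ P, Pos P → 0 ≤ H P
  sup : ∀ P Q, Pos P → Pos Q → H P + H Q ≤ H (P + Q)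
  sym : ∀ (σ : Equiv.Perm (Fin q)) P, Pos P → H (perm σ P) = H P

/-- Blackwell order: `L.Le L'` means that `L` is less informative than `L'` -/
def Law.Le (L L' : Law q) : Prop := ∀ H : Vec q → ℝ, Sup H → L'.E H ≤ L.E H

/-- the class functional `m - a x² + b x m` -/
noncomputable def psi (a b : ℝ) (p : Vec q) : ℝ := fm p - a * fx p ^ 2 + b * (fx p * fm p)

theorem bddS_psi (a b : ℝ) : BddS (psi a b : Vec q → ℝ) :=
  (bddS_fm.sub ((bddS_fx.pow 2).smul a)).add ((bddS_fx.mul bddS_fm).smul b)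

/-- the two certified pointwise inequalities of the ferromagnetic case -/
structure FerroPt (q : ℕ) (a b : ℝ) : Prop where
  S : ∃ (k : Vec q → ℝ) (c : ℝ), BddS k ∧ (∀ p, Simp p → 0 ≤ k p) ∧ 0 ≤ c ∧
    ∀ p p', Simp p → Simp p' →
      psi a b p * k p' + k p * psi a b p' + c * (psi a b p * psi a b p') ≤ sAv (psi a b) p p'
  D : ∃ (k : Vec q → ℝ) (c κ : ℝ), BddS k ∧ (∀ p, Simp p → 0 ≤ k p) ∧ 0 ≤ c ∧ 0 < κ ∧
    ∀ p p', Simp p → Simp p' →
      sAv fx p p' ≤ fx p + fx p' - κ * (fx p * fx p' * (fx p + fx p')) -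
        psi a b p * k p' - k p * psi a b p' - c * (psi a b p * psi a b p')

/-- the two certified pointwise inequalities used for the lower bound on trees (`q = 4`) -/
structure ConvPt : Prop where
  U1 : ∃ c : ℝ, 0 ≤ c ∧ ∀ p p' : Vec 4, Simp p → Simp p' →
    fx p + fx p' - fx p * (2 / 3 * fm p' + c * fx p' ^ 2) - fx p' * (2 / 3 * fm p + c * fx p ^ 2) ≤
      sAv fx p p'
  U2 : ∃ c : ℝ, 0 ≤ c ∧ ∀ p p' : Vec 4, Simp p → Simp p' →
    sAv fm p p' ≤ fm p + fm p' + c * (fx p * fx p')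

/-- an invariant class on which chi-square is subadditive with a cubic defect -/
structure FerroLaw (q : ℕ) [NeZero q] (C : Law q → Prop) (κ : ℝ) : Prop where
  kpos : 0 < κ
  one : C Law.one
  perfect : C Law.perfect
  T : ∀ (L : Law q) (t : ℝ) (ht : Tok q t), 0 ≤ t → C L → C (L.T t ht)
  star : ∀ L L' : Law q, C L → C L' → C (L.star L')
  pois : ∀ (L : Law q) (d : ℝ) (hd : 0 ≤ d), C L → C (L.pois d hd)
  sub : ∀ L L' : Law q, C L → C L' →
    (L.star L').X ≤ L.X + L'.X - κ * (L.X * L'.X * (L.X + L'.X))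

/-- lower bounds on the same class -/
structure ConvLaw (q : ℕ) [NeZero q] (C : Law q → Prop) (c : ℝ) : Prop where
  cpos : 0 ≤ c
  M_nonneg : ∀ L : Law q, C L → 0 ≤ L.M
  M_star : ∀ L L' : Law q, C L → C L' → (L.star L').M ≤ L.M + L'.M + c * (L.X * L'.X)
  X_star : ∀ L L' : Law q, C L → C L' →
    L.X + L'.X - c * (L.X * L'.M + L'.X * L.M) ≤ (L.star L').X
  X_perfect : (Law.perfect : Law q).X = q - 1
  M_perfect : (Law.perfect : Law q).M ≤ c

open Crest.ProbabilityR.TreeBroadcast in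
/-- law of the observation `k` levels below `v`, with the experiment `leaf u` at the bottom -/
noncomputable def treeLaw [NeZero q] {V : Type*} [DecidableEq V] (T : LocFinTree V) (t : ℝ)
    (ht : Tok q t) (leaf : V → Law q) : ℕ → V → Law q
  | 0, v => leaf v
  | k + 1, v => ((T.children v).toList.map
      (fun c => (treeLaw T t ht leaf k c).T t ht)).foldl Law.star Law.one

/-- Bellman certificate for the `b`-ary recursion at the level `X = s` -/
def BellReg (ε s : ℝ) (b : ℕ) : Prop :=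
  ∃ U γ : ℕ → Vec 3 → ℝ, (∀ k, BddS (U k)) ∧ (∀ k, BddS (γ k)) ∧ U b 1 < 0 ∧
    ∀ k < b, ∀ w p, Simp w → Simp p →
      sAv (U k) w (Tv (-ε) p) ≤ U (k + 1) w + ε ^ 2 * (U 0 p + (fx p - s) * γ k w)

/-- Bellman certificate for the Poisson recursion at the level `X = s` -/
def BellPoi (ε s : ℝ) : Prop :=
  ∃ (R : ℕ) (u : ℕ → Vec 3 → ℝ) (γ : ℝ → Vec 3 → ℝ) (C : ℝ), (∀ j, BddS (u j)) ∧
    (∀ θ ∈ Set.Icc (0 : ℝ) 1, ∀ w, Simp w → |γ θ w| ≤ C) ∧ ∑ j ∈ range (R + 1), u j 1 < 0 ∧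
    ∀ θ ∈ Set.Icc (0 : ℝ) 1, ∀ w p, Simp w → Simp p →
      sAv (fun r => ∑ j ∈ range (R + 1), θ ^ j * u j r) w (Tv (-ε) p) ≤
        ∑ j ∈ range (R + 1), θ ^ j * u j w +
          ε ^ 2 * (u 0 p + ∑ j ∈ range (R + 1), j * θ ^ (j - 1) * u j w + (fx p - s) * γ θ w)

end Crest.Agent.R163
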