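import Mathlib
import Crest.Prelude.Def_Broadcast

/-! Row 163, base module: symmetric experiments on `q` hypotheses, seen as positive linear
functionals on bounded 1-homogeneous functions of the likelihood vector. -/

set_option autoImplicit false

namespace Crest.Agent.R163

open Finset

abbrev Vec (q : ℕ) := Fin q → ℝ

variable {q : ℕ}

/-- average of the coordinates -/
noncomputable def av (P : Vec q) : ℝ := (∑ i, P i) / q

def Pos (P : Vec q) : Prop := ∀ i, 0 ≤ P i

/-- admissible test functions: positively homogeneous and bounded by a multiple of `av` -/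
structure Adm (F : Vec q → ℝ) : Prop where
  hom : ∀ c : ℝ, 0 ≤ c → ∀ P, Pos P → F (c • P) = c * F P
  bdd : ∃ C : ℝ, ∀ P, Pos P → |F P| ≤ C * av P

def perm (σ : Equiv.Perm (Fin q)) (P : Vec q) : Vec q := fun i => P (σ i)

/-- a symmetric experiment -/
structure Law (q : ℕ) where
  E : (Vec q → ℝ) → ℝ
  add : ∀ {F G : Vec q → ℝ}, Adm F → Adm G → E (fun P => F P + G P) = E F + E G
  smul : ∀ (c : ℝ) {F : Vec q → ℝ}, Adm F → E (fun P => c * F P) = c * E F
  mono : ∀ {F G : Vec q → ℝ}, Adm F → Adm G → (∀ P, Pos P → F P ≤ G P) → E F ≤ E G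
  norm : E av = 1
  sym : ∀ {F : Vec q → ℝ} (σ : Equiv.Perm (Fin q)), Adm F → E (fun P => F (perm σ P)) = E F

theorem av_nonneg {P : Vec q} (h : Pos P) : 0 ≤ av P :=
  div_nonneg (sum_nonneg fun i _ => h i) (Nat.cast_nonneg _)

theorem av_smul (c : ℝ) (P : Vec q) : av (c • P) = c * av P := by
  simp [av, ← mul_sum, mul_div_assoc]

theorem av_add (P Q : Vec q) : av (P + Q) = av P + av Q := by
  simp [av, sum_add_distrib, add_div]

theorem av_perm (σ : Equiv.Perm (Fin q)) (P : Vec q) : av (perm σ P) = av P := by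
  unfold av perm
  rw [Equiv.sum_comp σ P]

theorem le_av {P : Vec q} (h : Pos P) (i : Fin q) : P i ≤ q * av P := by
  have hq : (q : ℝ) ≠ 0 := by
    have := i.pos
    positivity
  unfold av
  rw [mul_div_cancel₀ _ hq]
  exact single_le_sum (fun j _ => h j) (mem_univ i)

theorem av_one [NeZero q] : av (1 : Vec q) = 1 := by
  have hq : (q : ℝ) ≠ 0 := Nat.cast_ne_zero.2 (NeZero.ne q)
  simp [av, hq]

theorem Pos.perm {P : Vec q} (h : Pos P) (σ : Equiv.Perm (Fin q)) : Pos (perm σ P) :=
  fun i => h (σ i)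

theorem Pos.mul {P Q : Vec q} (h : Pos P) (h' : Pos Q) : Pos (P * Q) :=
  fun i => mul_nonneg (h i) (h' i)

theorem Pos.add {P Q : Vec q} (h : Pos P) (h' : Pos Q) : Pos (P + Q) :=
  fun i => add_nonneg (h i) (h' i)

theorem Pos.smul {P : Vec q} (h : Pos P) {c : ℝ} (hc : 0 ≤ c) : Pos (c • P) :=
  fun i => mul_nonneg hc (h i)

theorem pos_one : Pos (1 : Vec q) := fun _ => zero_le_one

theorem av_mul_le {P Q : Vec q} (h : Pos P) (h' : Pos Q) : av (P * Q) ≤ q * av P * av Q := by
  have : ∑ i, (P * Q) i ≤ ∑ i, (q * av P) * Q i :=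
    sum_le_sum fun i _ => mul_le_mul_of_nonneg_right (le_av h i) (h' i)
  rw [← mul_sum] at this
  unfold av at this ⊢
  rw [← mul_div_assoc]
  exact div_le_div_of_nonneg_right this (Nat.cast_nonneg _)

theorem Adm.bdd' {F : Vec q → ℝ} (h : Adm F) : ∃ C : ℝ, 0 ≤ C ∧ ∀ P, Pos P → |F P| ≤ C * av P := by
  obtain ⟨C, hC⟩ := h.bdd
  exact ⟨max C 0, le_max_right _ _, fun P hP =>
    (hC P hP).trans (mul_le_mul_of_nonneg_right (le_max_left _ _) (av_nonneg hP))⟩

theorem adm_av : Adm (av : Vec q → ℝ) :=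
  ⟨fun c _ P _ => av_smul c P, 1, fun P hP => by rw [abs_of_nonneg (av_nonneg hP), one_mul]⟩

theorem Adm.add {F G : Vec q → ℝ} (h : Adm F) (h' : Adm G) : Adm (fun P => F P + G P) := by
  obtain ⟨C, hC⟩ := h.bdd
  obtain ⟨D, hD⟩ := h'.bdd
  refine ⟨fun c hc P hP => by rw [h.hom c hc P hP, h'.hom c hc P hP]; ring, C + D, fun P hP => ?_⟩
  calc |F P + G P| ≤ |F P| + |G P| := abs_add_le _ _
    _ ≤ (C + D) * av P := by linarith [hC P hP, hD P hP]

theorem Adm.smul {F : Vec q → ℝ} (h : Adm F) (a : ℝ) : Adm (fun P => a * F P) := by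
  obtain ⟨C, hC⟩ := h.bdd
  refine ⟨fun c hc P hP => by rw [h.hom c hc P hP]; ring, |a| * C, fun P hP => ?_⟩
  rw [abs_mul, mul_assoc]
  exact mul_le_mul_of_nonneg_left (hC P hP) (abs_nonneg _)

theorem Adm.sub {F G : Vec q → ℝ} (h : Adm F) (h' : Adm G) : Adm (fun P => F P - G P) := by
  have := h.add (h'.smul (-1))
  simpa [sub_eq_add_neg] using this

theorem adm_zero : Adm (fun _ : Vec q => (0 : ℝ)) := ⟨fun _ _ _ _ => by simp, 0, fun _ _ => by simp⟩

theorem Adm.sum {ι : Type*} (s : Finset ι) {F : ι → Vec q → ℝ} (h : ∀ i ∈ s, Adm (F i)) :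
    Adm (fun P => ∑ i ∈ s, F i P) := by
  classical
  induction s using Finset.induction_on with
  | empty => simpa using adm_zero
  | insert a s ha ih =>
    simp only [sum_insert ha]
    exact (h a (mem_insert_self _ _)).add (ih fun i hi => h i (mem_insert_of_mem hi))

theorem Adm.comp_perm {F : Vec q → ℝ} (h : Adm F) (σ : Equiv.Perm (Fin q)) :
    Adm (fun P => F (perm σ P)) := by
  obtain ⟨C, hC⟩ := h.bdd
  exact ⟨fun c hc P hP => h.hom c hc _ (hP.perm σ), C, fun P hP => by
    rw [← av_perm σ P]; exact hC _ (hP.perm σ)⟩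

theorem adm_coord (i : Fin q) : Adm (fun P : Vec q => P i) :=
  ⟨fun _ _ _ _ => rfl, q, fun P hP => by rw [abs_of_nonneg (hP i)]; exact le_av hP i⟩

theorem Adm.mul_left {F : Vec q → ℝ} (h : Adm F) {P : Vec q} (hP : Pos P) :
    Adm (fun Q => F (P * Q)) := by
  obtain ⟨C, hC0, hC⟩ := h.bdd'
  refine ⟨fun c hc Q hQ => ?_, C * (q * av P), fun Q hQ => ?_⟩
  · rw [mul_smul_comm]; exact h.hom c hc _ (hP.mul hQ)
  · refine (hC _ (hP.mul hQ)).trans ?_
    rw [mul_assoc]
    exact mul_le_mul_of_nonneg_left (av_mul_le hP hQ) hC0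

namespace Law

variable (L : Law q)

theorem congr {F G : Vec q → ℝ} (hF : Adm F) (hG : Adm G) (h : ∀ P, Pos P → F P = G P) :
    L.E F = L.E G :=
  le_antisymm (L.mono hF hG fun P hP => (h P hP).le) (L.mono hG hF fun P hP => (h P hP).ge)

theorem zero : L.E (fun _ => 0) = 0 := by
  have := L.smul 0 (adm_av (q := q))
  simpa using this

theorem sub {F G : Vec q → ℝ} (hF : Adm F) (hG : Adm G) :
    L.E (fun P => F P - G P) = L.E F - L.E G := by
  have h1 := L.add hF (hG.smul (-1))
  rw [L.smul (-1) hG] at h1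
  simpa [sub_eq_add_neg] using h1

theorem sum {ι : Type*} (s : Finset ι) {F : ι → Vec q → ℝ} (h : ∀ i ∈ s, Adm (F i)) :
    L.E (fun P => ∑ i ∈ s, F i P) = ∑ i ∈ s, L.E (F i) := by
  classical
  induction s using Finset.induction_on with
  | empty => simpa using L.zero
  | insert a s ha ih =>
    simp only [sum_insert ha]
    rw [L.add (h a (mem_insert_self _ _)) (Adm.sum s fun i hi => h i (mem_insert_of_mem hi)),
      ih fun i hi => h i (mem_insert_of_mem hi)]

theorem smul_av (c : ℝ) : L.E (fun P => c * av P) = c := by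
  rw [L.smul c adm_av, L.norm, mul_one]

theorem nonneg {F : Vec q → ℝ} (hF : Adm F) (h : ∀ P, Pos P → 0 ≤ F P) : 0 ≤ L.E F := by
  rw [← L.zero]; exact L.mono adm_zero hF h

theorem abs_le {F : Vec q → ℝ} (hF : Adm F) {C : ℝ} (h : ∀ P, Pos P → |F P| ≤ C * av P) :
    |L.E F| ≤ C := by
  rw [_root_.abs_le]
  constructor
  · rw [← L.smul_av (-C)]
    exact L.mono (adm_av.smul _) hF fun P hP => by linarith [(_root_.abs_le.1 (h P hP)).1]
  · rw [← L.smul_av C]
    exact L.mono hF (adm_av.smul _) fun P hP => (_root_.abs_le.1 (h P hP)).2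

theorem coord (i : Fin q) : L.E (fun P => P i) = 1 := by
  have hq : (q : ℝ) ≠ 0 := by
    have := i.pos
    positivity
  have h1 : ∀ j : Fin q, L.E (fun P => P j) = L.E (fun P => P i) := fun j => by
    have := L.sym (Equiv.swap i j) (adm_coord i)
    simpa [perm] using this
  have h2 : L.E (fun P => ∑ j, P j) = q * L.E (fun P => P i) := by
    rw [L.sum univ fun j _ => adm_coord j]
    simp [h1]
  have h3 : L.E (fun P => ∑ j, P j) = q := by
    have : (fun P : Vec q => ∑ j, P j) = fun P => q * av P := by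
      funext P; unfold av; field_simp
    rw [this, L.smul_av]
  rw [h3] at h2
  exact (mul_left_cancel₀ hq (by linarith)).symm

theorem av_mul (P : Vec q) : L.E (fun Q => av (P * Q)) = av P := by
  have : (fun Q : Vec q => av (P * Q)) = fun Q => ∑ i, (P i / q) * Q i := by
    funext Q; unfold av; rw [sum_div]; exact sum_congr rfl fun i _ => by simp; ring
  rw [this, L.sum univ fun i _ => (adm_coord i).smul _]
  simp only [L.smul _ (adm_coord _), L.coord, mul_one]
  unfold av; rw [sum_div]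

theorem adm_inner {F : Vec q → ℝ} (h : Adm F) : Adm (fun P => L.E (fun Q => F (P * Q))) := by
  obtain ⟨C, hC0, hC⟩ := h.bdd'
  refine ⟨fun c hc P hP => ?_, C, fun P hP => ?_⟩
  · rw [← L.smul c (h.mul_left hP)]
    refine L.congr (h.mul_left (hP.smul hc)) ((h.mul_left hP).smul c) fun Q hQ => ?_
    rw [smul_mul_assoc]; exact h.hom c hc _ (hP.mul hQ)
  · have a1 : Adm (fun Q : Vec q => av (P * Q)) := adm_av.mul_left hP
    rw [_root_.abs_le]
    constructor
    · have := L.mono (a1.smul (-C)) (h.mul_left hP) fun Q hQ => by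
        linarith [(_root_.abs_le.1 (hC _ (hP.mul hQ))).1]
      rw [L.smul _ a1, L.av_mul] at this
      linarith
    · have := L.mono (h.mul_left hP) (a1.smul C) fun Q hQ => (_root_.abs_le.1 (hC _ (hP.mul hQ))).2
      rwa [L.smul _ a1, L.av_mul] at this

end Law

/-- the symmetric channel acting on likelihood vectors -/
noncomputable def Tv (t : ℝ) (P : Vec q) : Vec q := fun i => t * P i + (1 - t) * av P

/-- admissible channel parameters -/
def Tok (q : ℕ) (t : ℝ) : Prop := t ≤ 1 ∧ 0 ≤ 1 + ((q : ℝ) - 1) * t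

theorem Pos.Tv {P : Vec q} (h : Pos P) {t : ℝ} (ht : Tok q t) : Pos (Tv t P) := fun i => by
  have h1 := le_av h i
  have h2 := av_nonneg h
  have h3 := h i
  unfold R163.Tv
  rcases le_total 0 t with h0 | h0
  · have := ht.1; positivity
  · nlinarith [ht.2, mul_nonneg (neg_nonneg.2 h0) (sub_nonneg.2 h1)]

theorem av_Tv [NeZero q] (t : ℝ) (P : Vec q) : av (Tv t P) = av P := by
  have hq : (q : ℝ) ≠ 0 := Nat.cast_ne_zero.2 (NeZero.ne q)
  have : ∑ i, P i = q * av P := by unfold av; field_simp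
  conv_lhs => unfold av Tv
  rw [sum_add_distrib, ← mul_sum, this]
  simp
  field_simp
  ring

theorem Tv_smul (t c : ℝ) (P : Vec q) : Tv t (c • P) = c • Tv t P := by
  funext i; simp [Tv, av_smul]; ring

theorem Tv_add (t : ℝ) (P Q : Vec q) : Tv t (P + Q) = Tv t P + Tv t Q := by
  funext i; simp [Tv, av_add]; ring

theorem Tv_perm (t : ℝ) (σ : Equiv.Perm (Fin q)) (P : Vec q) :
    Tv t (perm σ P) = perm σ (Tv t P) := by
  funext i; simp only [Tv, av_perm]; rfl

theorem Adm.comp_Tv [NeZero q] {F : Vec q → ℝ} (h : Adm F) {t : ℝ} (ht : Tok q t) :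
    Adm (fun P => F (Tv t P)) := by
  obtain ⟨C, hC⟩ := h.bdd
  exact ⟨fun c hc P hP => by rw [Tv_smul]; exact h.hom c hc _ (hP.Tv ht), C, fun P hP => by
    rw [← av_Tv t P]; exact hC _ (hP.Tv ht)⟩

/-- the vertex (indicator) vector -/
noncomputable def vtx (i : Fin q) : Vec q := Pi.single i 1

theorem pos_vtx (i : Fin q) : Pos (vtx i) := fun j => by
  unfold vtx; rw [Pi.single_apply]; split_ifs <;> norm_num

theorem av_vtx (i : Fin q) : av (vtx i) = 1 / q := by simp [av, vtx]

theorem perm_vtx (σ : Equiv.Perm (Fin q)) (i : Fin q) : perm σ (vtx i) = vtx (σ.symm i) := by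
  funext j
  simp only [perm, vtx, Pi.single_apply, Equiv.eq_symm_apply]

/-- Poisson weights -/
noncomputable def poisW (d : ℝ) (k : ℕ) : ℝ := Real.exp (-d) * d ^ k / k.factorial

theorem poisW_nonneg {d : ℝ} (hd : 0 ≤ d) (k : ℕ) : 0 ≤ poisW d k := by
  unfold poisW; positivity

theorem hasSum_poisW (d : ℝ) : HasSum (poisW d) 1 := by
  have h := NormedSpace.expSeries_div_hasSum_exp d
  rw [← Real.exp_eq_exp_ℝ] at h
  have := h.mul_left (Real.exp (-d))
  rw [← Real.exp_add, neg_add_cancel, Real.exp_zero] at this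
  refine this.congr_fun ?_ |> id
  intro k
  simp [poisW, mul_div_assoc]

theorem summable_poisW_mul {d : ℝ} (hd : 0 ≤ d) {a : ℕ → ℝ} {C : ℝ} (h : ∀ k, |a k| ≤ C) :
    Summable (fun k => poisW d k * a k) := by
  refine Summable.of_norm_bounded ((hasSum_poisW d).summable.mul_right C) fun k => ?_
  rw [Real.norm_eq_abs, abs_mul, abs_of_nonneg (poisW_nonneg hd k)]
  exact mul_le_mul_of_nonneg_left (h k) (poisW_nonneg hd k)

namespace Law

variable [NeZero q]

/-- the trivial experiment -/
noncomputable def one : Law q where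
  E F := F 1
  add _ _ := rfl
  smul _ _ _ := rfl
  mono _ _ h := h 1 pos_one
  norm := av_one
  sym _ _ := rfl

/-- the perfect experiment -/
noncomputable def perfect : Law q where
  E F := ∑ i, F (vtx i)
  add _ _ := sum_add_distrib
  smul c _ _ := (mul_sum _ _ c).symm
  mono _ _ h := sum_le_sum fun i _ => h _ (pos_vtx i)
  norm := by
    have hq : (q : ℝ) ≠ 0 := Nat.cast_ne_zero.2 (NeZero.ne q)
    simp [av_vtx, hq]
  sym {F} σ _ := by
    simp only [perm_vtx]
    exact Equiv.sum_comp σ.symm (fun i => F (vtx i))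

/-- one edge of the broadcast -/
noncomputable def T (L : Law q) (t : ℝ) (ht : Tok q t) : Law q where
  E F := L.E (fun P => F (Tv t P))
  add hF hG := L.add (hF.comp_Tv ht) (hG.comp_Tv ht)
  smul c _ hF := L.smul c (hF.comp_Tv ht)
  mono hF hG h := L.mono (hF.comp_Tv ht) (hG.comp_Tv ht) fun P hP => h _ (hP.Tv ht)
  norm := by simp only [av_Tv]; exact L.norm
  sym σ hF := by
    simp only [← Tv_perm]
    exact L.sym σ (hF.comp_Tv ht)

/-- product of two (conditionally independent) experiments -/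
noncomputable def star (L L' : Law q) : Law q where
  E F := L.E (fun P => L'.E (fun Q => F (P * Q)))
  add {F G} hF hG := by
    rw [← L.add (L'.adm_inner hF) (L'.adm_inner hG)]
    exact L.congr (L'.adm_inner (hF.add hG)) ((L'.adm_inner hF).add (L'.adm_inner hG))
      fun P hP => L'.add (hF.mul_left hP) (hG.mul_left hP)
  smul c {F} hF := by
    rw [← L.smul c (L'.adm_inner hF)]
    exact L.congr (L'.adm_inner (hF.smul c)) ((L'.adm_inner hF).smul c)
      fun P hP => L'.smul c (hF.mul_left hP)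
  mono hF hG h := L.mono (L'.adm_inner hF) (L'.adm_inner hG) fun P hP =>
    L'.mono (hF.mul_left hP) (hG.mul_left hP) fun Q hQ => h _ (hP.mul hQ)
  norm := by simp only [L'.av_mul]; exact L.norm
  sym {F} σ hF := by
    rw [← L.sym σ (L'.adm_inner hF)]
    refine L.congr (L'.adm_inner (hF.comp_perm σ)) ((L'.adm_inner hF).comp_perm σ) fun P hP => ?_
    exact L'.sym σ (hF.mul_left (hP.perm σ))

/-- product of `n` copies -/
noncomputable def pow (L : Law q) : ℕ → Law q
  | 0 => one
  | n + 1 => (pow L n).star L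

omit [NeZero q] in
theorem summable_pois {d : ℝ} (hd : 0 ≤ d) (W : ℕ → Law q) {F : Vec q → ℝ} (hF : Adm F) :
    Summable (fun k => poisW d k * (W k).E F) := by
  obtain ⟨C, hC⟩ := hF.bdd
  exact summable_poisW_mul hd fun k => (W k).abs_le hF hC

/-- product of a Poisson number of copies -/
noncomputable def pois (L : Law q) (d : ℝ) (hd : 0 ≤ d) : Law q where
  E F := ∑' k, poisW d k * (L.pow k).E F
  add hF hG := by
    rw [← (summable_pois hd _ hF).tsum_add (summable_pois hd _ hG)]
    exact tsum_congr fun k => by rw [(L.pow k).add hF hG, mul_add]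
  smul c _ hF := by
    rw [← tsum_mul_left]
    exact tsum_congr fun k => by rw [(L.pow k).smul c hF]; ring
  mono hF hG h := (summable_pois hd _ hF).tsum_le_tsum
    (fun k => mul_le_mul_of_nonneg_left ((L.pow k).mono hF hG h) (poisW_nonneg hd k))
    (summable_pois hd _ hG)
  norm := by simp only [Law.norm, mul_one]; exact (hasSum_poisW d).tsum_eq
  sym σ hF := tsum_congr fun k => by rw [(L.pow k).sym σ hF]

end Law

/-- law of the depth-`n` observation on the `b`-ary tree -/
noncomputable def regLaw (q : ℕ) [NeZero q] (b : ℕ) (t : ℝ) (ht : Tok q t) : ℕ → Law q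
  | 0 => Law.perfect
  | n + 1 => ((regLaw q b t ht n).T t ht).pow b

/-- law of the depth-`n` observation on the Poisson tree -/
noncomputable def gwL (q : ℕ) [NeZero q] (d : ℝ) (hd : 0 ≤ d) (t : ℝ) (ht : Tok q t) : ℕ → Law q
  | 0 => Law.perfect
  | n + 1 => ((gwL q d hd t ht n).T t ht).pois d hd

/-- the total-variation test function of the statements -/
noncomputable def TV (P : Vec q) : ℝ := (1 / (2 * q)) * ∑ i, |P i - (1 / q) * ∑ j, P j|

end Crest.Agent.R163
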