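import Crest.Agent.R163.IdentReg
import Crest.Agent.R163.IdentGW
import Crest.Agent.R163.IdentTree
import Crest.Agent.R163.Ferro
import Crest.Agent.R163.CapFwd
import Crest.Agent.R163.CapBwd
import Crest.Agent.R163.AntiReg
import Crest.Agent.R163.AntiPoi

/-! Row 163: the three statements from the certified inequalities. -/

set_option autoImplicit false

namespace Crest.Agent.R163

open Filter Crest.ProbabilityR

/-- what is certified in the antiferromagnetic case on regular trees -/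
def AntiRegAll : Prop := ∀ (b : ℕ) (ε : ℝ) (ht : Tok 3 (-ε)), 4 ≤ b → 0 < ε → (b : ℝ) * ε ^ 2 = 1 →
  ∃ (s0 : ℝ) (n0 : ℕ), (regLaw 3 b (-ε) ht n0).X ≤ s0 ∧ ∀ s, 0 < s → s ≤ s0 → BellReg ε s b

/-- what is certified in the antiferromagnetic case on Poisson trees -/
def AntiPoiAll : Prop := ∀ (d ε : ℝ) (hd : 0 ≤ d) (ht : Tok 3 (-ε)), 0 < ε → d * ε ^ 2 = 1 →
  ∃ (s0 : ℝ) (n0 : ℕ), (gwL 3 d hd (-ε) ht n0).X ≤ s0 ∧ ∀ s, 0 < s → s ≤ s0 → BellPoi ε s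

namespace MainH

/-- the critical parameter dominating a negative `lam` -/
theorem crit {d lam : ℝ} (h0 : lam < 0) (h1 : -(1 / 2 : ℝ) ≤ lam) (hc : d * lam ^ 2 ≤ 1) :
    ∃ ε c : ℝ, 0 < ε ∧ max d 4 * ε ^ 2 = 1 ∧ Tok 3 (-ε) ∧ 0 ≤ c ∧ c ≤ 1 ∧ lam = c * (-ε) := by
  have h4 : (4 : ℝ) ≤ max d 4 := le_max_right _ _
  have hm : max d 4 * lam ^ 2 ≤ 1 := by
    rcases le_total d 4 with h | h
    · rw [max_eq_right h]; nlinarith
    · rwa [max_eq_left h]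
  generalize max d 4 = D at h4 hm
  have hD : 0 < D := by linarith
  have hε : 0 < Real.sqrt D⁻¹ := Real.sqrt_pos.2 (inv_pos.2 hD)
  have he : D * Real.sqrt D⁻¹ ^ 2 = 1 := by
    rw [Real.sq_sqrt (inv_pos.2 hD).le, mul_inv_cancel₀ hD.ne']
  generalize Real.sqrt D⁻¹ = ε at hε he
  have h2 : ε ≤ 1 / 2 := by
    by_contra h
    have h := not_le.1 h
    nlinarith
  have h3 : -lam ≤ ε := by
    by_contra h
    have h := not_le.1 h
    have : ε ^ 2 < lam ^ 2 := by nlinarith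
    nlinarith
  refine ⟨ε, -lam / ε, hε, he, ⟨by linarith, by push_cast; linarith⟩,
    div_nonneg (by linarith) hε.le, (div_le_one hε).2 h3, by field_simp⟩

theorem law4 (h4 : FerroPt 4 (73 / 100) (9 / 100)) :
    ∃ κ, FerroLaw 4 (fun L => 0 ≤ L.Ex (psi (73 / 100) (9 / 100))) κ :=
  ferroLaw_of_pt h4 (by norm_num) (by norm_num) (by norm_num) (by norm_num)

end MainH

theorem main44 (h3 : FerroPt 3 (3 / 10) 0) (hr : AntiRegAll) (hp : AntiPoiAll) :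
    (∀ b : ℕ, 2 ≤ b → ∀ lam : ℝ, -(1 / 2 : ℝ) ≤ lam → lam ≤ 1 → (b : ℝ) * lam ^ 2 ≤ 1 →
      Filter.Tendsto (Crest.ProbabilityR.Broadcast.advantage 3 b lam) Filter.atTop (nhds 0)) ∧
    (∀ d : ℝ, 1 < d → ∀ lam : ℝ, -(1 / 2 : ℝ) ≤ lam → lam ≤ 1 → d * lam ^ 2 ≤ 1 →
      Filter.Tendsto (Crest.ProbabilityR.Broadcast.gwAdvantage 3 lam d) Filter.atTop (nhds 0)) := by
  obtain ⟨κ, hF⟩ := ferroLaw_of_pt h3 (by norm_num) le_rfl (by norm_num) (by norm_num)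
  refine ⟨fun b hb lam h1 h2 hc => ?_, fun d hd lam h1 h2 hc => ?_⟩
  · have ht : Tok 3 lam := ⟨h2, by push_cast; linarith⟩
    rw [funext (advantage_eq 3 b lam ht)]
    refine tendsto_TV_of_X ?_
    rcases le_or_gt 0 lam with h0 | h0
    · exact ferro_reg hF hb ht h0 hc
    · obtain ⟨ε, c, hε, he, ht', c0, c1, e⟩ := MainH.crit h0 h1 hc
      have he' : ((max b 4 : ℕ) : ℝ) * ε ^ 2 = 1 := by push_cast; exact he
      obtain ⟨s0, n0, hs, hB⟩ := hr (max b 4) ε ht' (le_max_right _ _) hε he'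
      exact squeeze_zero (fun n => Law.X_nonneg _)
        (fun n => (regLaw_mono (le_max_left b 4) ht ht' c0 c1 e n).X) (anti_reg ht' he' hs hB)
  · have ht : Tok 3 lam := ⟨h2, by push_cast; linarith⟩
    have hd0 : 0 < d := by linarith
    rw [funext (gwAdvantage_eq 3 d hd0.le lam ht)]
    refine tendsto_TV_of_X ?_
    rcases le_or_gt 0 lam with h0 | h0
    · exact ferro_gw hF hd0 ht h0 hc
    · obtain ⟨ε, c, hε, he, ht', c0, c1, e⟩ := MainH.crit h0 h1 hc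
      have hd' : 0 ≤ max d 4 := hd0.le.trans (le_max_left _ _)
      obtain ⟨s0, n0, hs, hB⟩ := hp (max d 4) ε hd' ht' hε he
      exact squeeze_zero (fun n => Law.X_nonneg _)
        (fun n => (gwL_mono hd0.le hd' (le_max_left d 4) ht ht' c0 c1 e n).X)
        (anti_poi hd' ht' he hs hB)

theorem main45 (h4 : FerroPt 4 (73 / 100) (9 / 100)) :
    (∀ b : ℕ, 2 ≤ b → ∀ lam : ℝ, 0 ≤ lam → lam ≤ 1 → (b : ℝ) * lam ^ 2 ≤ 1 →
      Filter.Tendsto (Crest.ProbabilityR.Broadcast.advantage 4 b lam) Filter.atTop (nhds 0)) ∧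
    (∀ d : ℝ, 0 < d → ∀ lam : ℝ, 0 ≤ lam → lam ≤ 1 → d * lam ^ 2 ≤ 1 →
      Filter.Tendsto (Crest.ProbabilityR.Broadcast.gwAdvantage 4 lam d) Filter.atTop (nhds 0)) := by
  obtain ⟨κ, hF⟩ := MainH.law4 h4
  refine ⟨fun b hb lam h1 h2 hc => ?_, fun d hd lam h1 h2 hc => ?_⟩
  · have ht : Tok 4 lam := ⟨h2, by push_cast; linarith⟩
    rw [funext (advantage_eq 4 b lam ht)]
    exact tendsto_TV_of_X (ferro_reg hF hb ht h1 hc)
  · have ht : Tok 4 lam := ⟨h2, by push_cast; linarith⟩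
    rw [funext (gwAdvantage_eq 4 d hd.le lam ht)]
    exact tendsto_TV_of_X (ferro_gw hF hd ht h1 hc)

theorem main46 (h4 : FerroPt 4 (73 / 100) (9 / 100)) (hc : ConvPt) (V : Type*) [DecidableEq V]
    (T : Crest.ProbabilityR.TreeBroadcast.LocFinTree V) (lam : ℝ) (h0 : 0 < lam) (h1 : lam < 1) :
    (∃ ε : ℝ, 0 < ε ∧ ∀ n, ε ≤ Crest.ProbabilityR.TreeBroadcast.treeAdvantage 4 T lam n) ↔
    (∃ θ : V → ℝ, Crest.ProbabilityR.TreeBroadcast.IsFlow T θ ∧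
      0 < Crest.ProbabilityR.TreeBroadcast.flowMass T θ ∧
      ∀ ξ : ℕ → V, T.IsRay ξ → Crest.ProbabilityR.TreeBroadcast.rayPotential lam θ ξ ≤ 1) := by
  obtain ⟨κ, hF⟩ := MainH.law4 h4
  obtain ⟨c, hC⟩ := convLaw_of_pt (a := 73 / 100) (b := 9 / 100) hc (by norm_num) (by norm_num)
  have ht : Tok 4 lam := ⟨h1.le, by push_cast; linarith⟩
  simp only [treeAdvantage_eq 4 T lam ht]
  constructor
  · rintro ⟨ε, hε, h⟩
    exact cap_fwd hF T ht h0 h1 (pow_pos hε 2) fun n =>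
      (pow_le_pow_left₀ hε.le (h n) 2).trans (Law.E_TV_sq_le _)
  · rintro ⟨θ, hθ, hm, hp⟩
    obtain ⟨ε, hε, h⟩ := cap_bwd (by norm_num) hF hC T ht h0 h1 hθ hm hp
    refine ⟨ε / 8, by linarith, fun n => ?_⟩
    have h2 := (h n).trans (Law.X_le_TV _)
    push_cast at h2
    linarith

end Crest.Agent.R163
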