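import Crest.Agent.R163.TabK3D

/-! Row 163: control nets, data (generated). -/

set_option autoImplicit false
set_option Elab.async false
set_option maxRecDepth 100000

namespace Crest.Agent.R163.Ck

noncomputable def N3F_sp : L2 := [[.ofNat (nat_lit 1728), .ofNat (nat_lit 864), .negSucc (nat_lit 431), .ofNat (nat_lit 432), .negSucc (nat_lit 215), .ofNat (nat_lit 216), .ofNat (nat_lit 108)],
  [.ofNat (nat_lit 5184), .ofNat (nat_lit 3168), .negSucc (nat_lit 431), .ofNat (nat_lit 1872), .negSucc (nat_lit 359), .ofNat (nat_lit 1080), .negSucc (nat_lit 107)],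
  [.ofNat (nat_lit 5184), .ofNat (nat_lit 3744), .ofNat (nat_lit 432), .ofNat (nat_lit 2640), .ofNat (nat_lit 216), .ofNat (nat_lit 1800), .negSucc (nat_lit 107)],
  [.ofNat (nat_lit 1728), .ofNat (nat_lit 1440), .ofNat (nat_lit 432), .ofNat (nat_lit 1200), .ofNat (nat_lit 360), .ofNat (nat_lit 1000), .ofNat (nat_lit 108)],
  [.ofNat (nat_lit 1728), .ofNat (nat_lit 1440), .ofNat (nat_lit 432), .ofNat (nat_lit 1200), .ofNat (nat_lit 360), .ofNat (nat_lit 1000), .ofNat (nat_lit 108)],
  [.ofNat (nat_lit 5184), .ofNat (nat_lit 5184), .ofNat (nat_lit 2592), .ofNat (nat_lit 5040), .ofNat (nat_lit 2376), .ofNat (nat_lit 4800), .ofNat (nat_lit 972)],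
  [.ofNat (nat_lit 5184), .ofNat (nat_lit 6048), .ofNat (nat_lit 3888), .ofNat (nat_lit 6912), .ofNat (nat_lit 4320), .ofNat (nat_lit 7680), .ofNat (nat_lit 2592)],
  [.ofNat (nat_lit 1728), .ofNat (nat_lit 2304), .ofNat (nat_lit 1728), .ofNat (nat_lit 3072), .ofNat (nat_lit 2304), .ofNat (nat_lit 4096), .ofNat (nat_lit 1728)],
  [.ofNat (nat_lit 1728), .ofNat (nat_lit 2304), .ofNat (nat_lit 1728), .ofNat (nat_lit 3072), .ofNat (nat_lit 2304), .ofNat (nat_lit 4096), .ofNat (nat_lit 1728)],
  [.ofNat (nat_lit 5184), .ofNat (nat_lit 8064), .ofNat (nat_lit 6912), .ofNat (nat_lit 12288), .ofNat (nat_lit 10368), .ofNat (nat_lit 18432), .ofNat (nat_lit 8640)],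
  [.ofNat (nat_lit 5184), .ofNat (nat_lit 9216), .ofNat (nat_lit 8640), .ofNat (nat_lit 16128), .ofNat (nat_lit 14976), .ofNat (nat_lit 27648), .ofNat (nat_lit 13824)],
  [.ofNat (nat_lit 1728), .ofNat (nat_lit 3456), .ofNat (nat_lit 3456), .ofNat (nat_lit 6912), .ofNat (nat_lit 6912), .ofNat (nat_lit 13824), .ofNat (nat_lit 6912)]]

noncomputable def N3F_cols : List (ℕ × ℕ) := [(nat_lit 5184, nat_lit 0x1b00000000000000000000000000000000002880000000000000000000000000000000002880000000000000000000000000000000001b00000000000000000000000000000000001b00000000000000000000000000000000002880000000000000000000000000000000002880000000000000000000000000000000001b00000000000000000000000000000000001b00000000000000000000000000000000002880000000000000000000000000000000002880000000000000000000000000000000001b00),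
  (nat_lit 9216, nat_lit 0x3180000000000000000000000000000000004800000000000000000000000000000000004380000000000000000000000000000000002d00000000000000000000000000000000002d00000000000000000000000000000000003ba00000000000000000000000000000000038400000000000000000000000000000000029a00000000000000000000000000000000029a00000000000000000000000000000000032a0000000000000000000000000000000003060000000000000000000000000000000002760),
  (nat_lit 8640, nat_lit 0x2f40000000000000000000000000000000004380000000000000000000000000000000003cc00000000000000000000000000000000028800000000000000000000000000000000028800000000000000000000000000000000030f0000000000000000000000000000000002be0000000000000000000000000000000002370000000000000000000000000000000002370000000000000000000000000000000002370000000000000000000000000000000002010000000000000000000000000000000002010),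
  (nat_lit 16128, nat_lit 0x5a00000000000000000000000000000000007e00000000000000000000000000000000006f00000000000000000000000000000000004b00000000000000000000000000000000004b00000000000000000000000000000000005a000000000000000000000000000000000052b00000000000000000000000000000000043b00000000000000000000000000000000043b00000000000000000000000000000000049500000000000000000000000000000000046500000000000000000000000000000000040b0),
  (nat_lit 14976, nat_lit 0x5580000000000000000000000000000000007500000000000000000000000000000000006300000000000000000000000000000000004380000000000000000000000000000000004380000000000000000000000000000000004b600000000000000000000000000000000043c8000000000000000000000000000000003be8000000000000000000000000000000003be8000000000000000000000000000000003b580000000000000000000000000000000039180000000000000000000000000000000039a8),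
  (nat_lit 27648, nat_lit 0xa20000000000000000000000000000000000d80000000000000000000000000000000000b400000000000000000000000000000000007c00000000000000000000000000000000007c00000000000000000000000000000000008a00000000000000000000000000000000007ec0000000000000000000000000000000006fe8000000000000000000000000000000006fe8000000000000000000000000000000007308000000000000000000000000000000007038000000000000000000000000000000006cd8),
  (nat_lit 13824, nat_lit 0x5100000000000000000000000000000000006c000000000000000000000000000000000057c0000000000000000000000000000000003cc0000000000000000000000000000000003cc00000000000000000000000000000000040200000000000000000000000000000000039cc00000000000000000000000000000000366c00000000000000000000000000000000366c00000000000000000000000000000000359400000000000000000000000000000000359400000000000000000000000000000000366c)]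

def N3F_degs : List ℕ := [nat_lit 0, nat_lit 2, nat_lit 3, nat_lit 4, nat_lit 5, nat_lit 6, nat_lit 6]

noncomputable def N3F_r : List (List ℕ) := [[nat_lit 262144, nat_lit 0, nat_lit 0, nat_lit 0, nat_lit 0, nat_lit 0, nat_lit 0],
  [nat_lit 1572864, nat_lit 98304, nat_lit 0, nat_lit 0, nat_lit 0, nat_lit 0, nat_lit 0],
  [nat_lit 3932160, nat_lit 491520, nat_lit 36864, nat_lit 0, nat_lit 0, nat_lit 0, nat_lit 0],
  [nat_lit 5242880, nat_lit 983040, nat_lit 147456, nat_lit 13824, nat_lit 0, nat_lit 0, nat_lit 0],
  [nat_lit 3932160, nat_lit 983040, nat_lit 221184, nat_lit 41472, nat_lit 5184, nat_lit 0, nat_lit 0],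
  [nat_lit 1572864, nat_lit 491520, nat_lit 147456, nat_lit 41472, nat_lit 10368, nat_lit 1944, nat_lit 0],
  [nat_lit 262144, nat_lit 98304, nat_lit 36864, nat_lit 13824, nat_lit 5184, nat_lit 1944, nat_lit 729],
  [nat_lit 262144, nat_lit 98304, nat_lit 36864, nat_lit 13824, nat_lit 5184, nat_lit 1944, nat_lit 729],
  [nat_lit 1572864, nat_lit 655360, nat_lit 270336, nat_lit 110592, nat_lit 44928, nat_lit 18144, nat_lit 7290],
  [nat_lit 3932160, nat_lit 1802240, nat_lit 815104, nat_lit 364032, nat_lit 160704, nat_lit 70200, nat_lit 30375],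
  [nat_lit 5242880, nat_lit 2621440, nat_lit 1294336, nat_lit 630784, nat_lit 303360, nat_lit 144000, nat_lit 67500],
  [nat_lit 3932160, nat_lit 2129920, nat_lit 1142784, nat_lit 606720, nat_lit 318400, nat_lit 165000, nat_lit 84375],
  [nat_lit 1572864, nat_lit 917504, nat_lit 532480, nat_lit 307200, nat_lit 176000, nat_lit 100000, nat_lit 56250],
  [nat_lit 262144, nat_lit 163840, nat_lit 102400, nat_lit 64000, nat_lit 40000, nat_lit 25000, nat_lit 15625],
  [nat_lit 262144, nat_lit 163840, nat_lit 102400, nat_lit 64000, nat_lit 40000, nat_lit 25000, nat_lit 15625],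
  [nat_lit 1572864, nat_lit 1048576, nat_lit 696320, nat_lit 460800, nat_lit 304000, nat_lit 200000, nat_lit 131250],
  [nat_lit 3932160, nat_lit 2785280, nat_lit 1961984, nat_lit 1374720, nat_lit 958400, nat_lit 665000, nat_lit 459375],
  [nat_lit 5242880, nat_lit 3932160, nat_lit 2932736, nat_lit 2174976, nat_lit 1603840, nat_lit 1176000, nat_lit 857500],
  [nat_lit 3932160, nat_lit 3112960, nat_lit 2453504, nat_lit 1924608, nat_lit 1502144, nat_lit 1166200, nat_lit 900375],
  [nat_lit 1572864, nat_lit 1310720, nat_lit 1089536, nat_lit 903168, nat_lit 746368, nat_lit 614656, nat_lit 504210],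
  [nat_lit 262144, nat_lit 229376, nat_lit 200704, nat_lit 175616, nat_lit 153664, nat_lit 134456, nat_lit 117649],
  [nat_lit 262144, nat_lit 229376, nat_lit 200704, nat_lit 175616, nat_lit 153664, nat_lit 134456, nat_lit 117649],
  [nat_lit 1572864, nat_lit 1409024, nat_lit 1261568, nat_lit 1128960, nat_lit 1009792, nat_lit 902776, nat_lit 806736],
  [nat_lit 3932160, nat_lit 3604480, nat_lit 3301376, nat_lit 3021312, nat_lit 2762816, nat_lit 2524480, nat_lit 2304960],
  [nat_lit 5242880, nat_lit 4915200, nat_lit 4603904, nat_lit 4308480, nat_lit 4028416, nat_lit 3763200, nat_lit 3512320],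
  [nat_lit 3932160, nat_lit 3768320, nat_lit 3608576, nat_lit 3452928, nat_lit 3301376, nat_lit 3153920, nat_lit 3010560],
  [nat_lit 1572864, nat_lit 1540096, nat_lit 1507328, nat_lit 1474560, nat_lit 1441792, nat_lit 1409024, nat_lit 1376256],
  [nat_lit 262144, nat_lit 262144, nat_lit 262144, nat_lit 262144, nat_lit 262144, nat_lit 262144, nat_lit 262144]]

noncomputable def N3F_rE : List (List ℕ) := [[nat_lit 262144, nat_lit 0, nat_lit 0, nat_lit 0, nat_lit 0, nat_lit 0, nat_lit 0],
  [nat_lit 1572864, nat_lit 65536, nat_lit 0, nat_lit 0, nat_lit 0, nat_lit 0, nat_lit 0],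
  [nat_lit 3932160, nat_lit 327680, nat_lit 16384, nat_lit 0, nat_lit 0, nat_lit 0, nat_lit 0],
  [nat_lit 5242880, nat_lit 655360, nat_lit 65536, nat_lit 4096, nat_lit 0, nat_lit 0, nat_lit 0],
  [nat_lit 3932160, nat_lit 655360, nat_lit 98304, nat_lit 12288, nat_lit 1024, nat_lit 0, nat_lit 0],
  [nat_lit 1572864, nat_lit 327680, nat_lit 65536, nat_lit 12288, nat_lit 2048, nat_lit 256, nat_lit 0],
  [nat_lit 262144, nat_lit 65536, nat_lit 16384, nat_lit 4096, nat_lit 1024, nat_lit 256, nat_lit 64],
  [nat_lit 262144, nat_lit 65536, nat_lit 16384, nat_lit 4096, nat_lit 1024, nat_lit 256, nat_lit 64],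
  [nat_lit 1572864, nat_lit 425984, nat_lit 114688, nat_lit 30720, nat_lit 8192, nat_lit 2176, nat_lit 576],
  [nat_lit 3932160, nat_lit 1146880, nat_lit 331776, nat_lit 95232, nat_lit 27136, nat_lit 7680, nat_lit 2160],
  [nat_lit 5242880, nat_lit 1638400, nat_lit 507904, nat_lit 156160, nat_lit 47616, nat_lit 14400, nat_lit 4320],
  [nat_lit 3932160, nat_lit 1310720, nat_lit 434176, nat_lit 142848, nat_lit 46656, nat_lit 15120, nat_lit 4860],
  [nat_lit 1572864, nat_lit 557056, nat_lit 196608, nat_lit 69120, nat_lit 24192, nat_lit 8424, nat_lit 2916],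
  [nat_lit 262144, nat_lit 98304, nat_lit 36864, nat_lit 13824, nat_lit 5184, nat_lit 1944, nat_lit 729],
  [nat_lit 262144, nat_lit 98304, nat_lit 36864, nat_lit 13824, nat_lit 5184, nat_lit 1944, nat_lit 729],
  [nat_lit 1572864, nat_lit 622592, nat_lit 245760, nat_lit 96768, nat_lit 38016, nat_lit 14904, nat_lit 5832],
  [nat_lit 3932160, nat_lit 1638400, nat_lit 679936, nat_lit 281088, nat_lit 115776, nat_lit 47520, nat_lit 19440],
  [nat_lit 5242880, nat_lit 2293760, nat_lit 999424, nat_lit 433664, nat_lit 187392, nat_lit 80640, nat_lit 34560],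
  [nat_lit 3932160, nat_lit 1802240, nat_lit 823296, nat_lit 374784, nat_lit 169984, nat_lit 76800, nat_lit 34560],
  [nat_lit 1572864, nat_lit 753664, nat_lit 360448, nat_lit 172032, nat_lit 81920, nat_lit 38912, nat_lit 18432],
  [nat_lit 262144, nat_lit 131072, nat_lit 65536, nat_lit 32768, nat_lit 16384, nat_lit 8192, nat_lit 4096],
  [nat_lit 262144, nat_lit 131072, nat_lit 65536, nat_lit 32768, nat_lit 16384, nat_lit 8192, nat_lit 4096],
  [nat_lit 1572864, nat_lit 819200, nat_lit 425984, nat_lit 221184, nat_lit 114688, nat_lit 59392, nat_lit 30720],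
  [nat_lit 3932160, nat_lit 2129920, nat_lit 1150976, nat_lit 620544, nat_lit 333824, nat_lit 179200, nat_lit 96000],
  [nat_lit 5242880, nat_lit 2949120, nat_lit 1654784, nat_lit 926208, nat_lit 517120, nat_lit 288000, nat_lit 160000],
  [nat_lit 3932160, nat_lit 2293760, nat_lit 1335296, nat_lit 775680, nat_lit 449600, nat_lit 260000, nat_lit 150000],
  [nat_lit 1572864, nat_lit 950272, nat_lit 573440, nat_lit 345600, nat_lit 208000, nat_lit 125000, nat_lit 75000],
  [nat_lit 262144, nat_lit 163840, nat_lit 102400, nat_lit 64000, nat_lit 40000, nat_lit 25000, nat_lit 15625],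
  [nat_lit 262144, nat_lit 163840, nat_lit 102400, nat_lit 64000, nat_lit 40000, nat_lit 25000, nat_lit 15625],
  [nat_lit 1572864, nat_lit 1048576, nat_lit 696320, nat_lit 460800, nat_lit 304000, nat_lit 200000, nat_lit 131250],
  [nat_lit 3932160, nat_lit 2785280, nat_lit 1961984, nat_lit 1374720, nat_lit 958400, nat_lit 665000, nat_lit 459375],
  [nat_lit 5242880, nat_lit 3932160, nat_lit 2932736, nat_lit 2174976, nat_lit 1603840, nat_lit 1176000, nat_lit 857500],
  [nat_lit 3932160, nat_lit 3112960, nat_lit 2453504, nat_lit 1924608, nat_lit 1502144, nat_lit 1166200, nat_lit 900375],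
  [nat_lit 1572864, nat_lit 1310720, nat_lit 1089536, nat_lit 903168, nat_lit 746368, nat_lit 614656, nat_lit 504210],
  [nat_lit 262144, nat_lit 229376, nat_lit 200704, nat_lit 175616, nat_lit 153664, nat_lit 134456, nat_lit 117649],
  [nat_lit 262144, nat_lit 229376, nat_lit 200704, nat_lit 175616, nat_lit 153664, nat_lit 134456, nat_lit 117649],
  [nat_lit 1572864, nat_lit 1409024, nat_lit 1261568, nat_lit 1128960, nat_lit 1009792, nat_lit 902776, nat_lit 806736],
  [nat_lit 3932160, nat_lit 3604480, nat_lit 3301376, nat_lit 3021312, nat_lit 2762816, nat_lit 2524480, nat_lit 2304960],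
  [nat_lit 5242880, nat_lit 4915200, nat_lit 4603904, nat_lit 4308480, nat_lit 4028416, nat_lit 3763200, nat_lit 3512320],
  [nat_lit 3932160, nat_lit 3768320, nat_lit 3608576, nat_lit 3452928, nat_lit 3301376, nat_lit 3153920, nat_lit 3010560],
  [nat_lit 1572864, nat_lit 1540096, nat_lit 1507328, nat_lit 1474560, nat_lit 1441792, nat_lit 1409024, nat_lit 1376256],
  [nat_lit 262144, nat_lit 262144, nat_lit 262144, nat_lit 262144, nat_lit 262144, nat_lit 262144, nat_lit 262144]]

noncomputable def N3F_z : List (List ℕ) := [[nat_lit 4096, nat_lit 0, nat_lit 0, nat_lit 0, nat_lit 0, nat_lit 0, nat_lit 0],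
  [nat_lit 24576, nat_lit 2048, nat_lit 0, nat_lit 0, nat_lit 0, nat_lit 0, nat_lit 0],
  [nat_lit 61440, nat_lit 10240, nat_lit 1024, nat_lit 0, nat_lit 0, nat_lit 0, nat_lit 0],
  [nat_lit 81920, nat_lit 20480, nat_lit 4096, nat_lit 512, nat_lit 0, nat_lit 0, nat_lit 0],
  [nat_lit 61440, nat_lit 20480, nat_lit 6144, nat_lit 1536, nat_lit 256, nat_lit 0, nat_lit 0],
  [nat_lit 24576, nat_lit 10240, nat_lit 4096, nat_lit 1536, nat_lit 512, nat_lit 128, nat_lit 0],
  [nat_lit 4096, nat_lit 2048, nat_lit 1024, nat_lit 512, nat_lit 256, nat_lit 128, nat_lit 64],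
  [nat_lit 4096, nat_lit 2048, nat_lit 1024, nat_lit 512, nat_lit 256, nat_lit 128, nat_lit 64],
  [nat_lit 24576, nat_lit 14336, nat_lit 8192, nat_lit 4608, nat_lit 2560, nat_lit 1408, nat_lit 768],
  [nat_lit 61440, nat_lit 40960, nat_lit 26624, nat_lit 16896, nat_lit 10496, nat_lit 6400, nat_lit 3840],
  [nat_lit 81920, nat_lit 61440, nat_lit 45056, nat_lit 32256, nat_lit 22528, nat_lit 15360, nat_lit 10240],
  [nat_lit 61440, nat_lit 51200, nat_lit 41984, nat_lit 33792, nat_lit 26624, nat_lit 20480, nat_lit 15360],
  [nat_lit 24576, nat_lit 22528, nat_lit 20480, nat_lit 18432, nat_lit 16384, nat_lit 14336, nat_lit 12288],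
  [nat_lit 4096, nat_lit 4096, nat_lit 4096, nat_lit 4096, nat_lit 4096, nat_lit 4096, nat_lit 4096],
  [nat_lit 4096, nat_lit 4096, nat_lit 4096, nat_lit 4096, nat_lit 4096, nat_lit 4096, nat_lit 4096],
  [nat_lit 24576, nat_lit 26624, nat_lit 28672, nat_lit 30720, nat_lit 32768, nat_lit 34816, nat_lit 36864],
  [nat_lit 61440, nat_lit 71680, nat_lit 82944, nat_lit 95232, nat_lit 108544, nat_lit 122880, nat_lit 138240],
  [nat_lit 81920, nat_lit 102400, nat_lit 126976, nat_lit 156160, nat_lit 190464, nat_lit 230400, nat_lit 276480],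
  [nat_lit 61440, nat_lit 81920, nat_lit 108544, nat_lit 142848, nat_lit 186624, nat_lit 241920, nat_lit 311040],
  [nat_lit 24576, nat_lit 34816, nat_lit 49152, nat_lit 69120, nat_lit 96768, nat_lit 134784, nat_lit 186624],
  [nat_lit 4096, nat_lit 6144, nat_lit 9216, nat_lit 13824, nat_lit 20736, nat_lit 31104, nat_lit 46656],
  [nat_lit 4096, nat_lit 6144, nat_lit 9216, nat_lit 13824, nat_lit 20736, nat_lit 31104, nat_lit 46656],
  [nat_lit 24576, nat_lit 38912, nat_lit 61440, nat_lit 96768, nat_lit 152064, nat_lit 238464, nat_lit 373248],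
  [nat_lit 61440, nat_lit 102400, nat_lit 169984, nat_lit 281088, nat_lit 463104, nat_lit 760320, nat_lit 1244160],
  [nat_lit 81920, nat_lit 143360, nat_lit 249856, nat_lit 433664, nat_lit 749568, nat_lit 1290240, nat_lit 2211840],
  [nat_lit 61440, nat_lit 112640, nat_lit 205824, nat_lit 374784, nat_lit 679936, nat_lit 1228800, nat_lit 2211840],
  [nat_lit 24576, nat_lit 47104, nat_lit 90112, nat_lit 172032, nat_lit 327680, nat_lit 622592, nat_lit 1179648],
  [nat_lit 4096, nat_lit 8192, nat_lit 16384, nat_lit 32768, nat_lit 65536, nat_lit 131072, nat_lit 262144],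
  [nat_lit 4096, nat_lit 8192, nat_lit 16384, nat_lit 32768, nat_lit 65536, nat_lit 131072, nat_lit 262144],
  [nat_lit 24576, nat_lit 51200, nat_lit 106496, nat_lit 221184, nat_lit 458752, nat_lit 950272, nat_lit 1966080],
  [nat_lit 61440, nat_lit 133120, nat_lit 287744, nat_lit 620544, nat_lit 1335296, nat_lit 2867200, nat_lit 6144000],
  [nat_lit 81920, nat_lit 184320, nat_lit 413696, nat_lit 926208, nat_lit 2068480, nat_lit 4608000, nat_lit 10240000],
  [nat_lit 61440, nat_lit 143360, nat_lit 333824, nat_lit 775680, nat_lit 1798400, nat_lit 4160000, nat_lit 9600000],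
  [nat_lit 24576, nat_lit 59392, nat_lit 143360, nat_lit 345600, nat_lit 832000, nat_lit 2000000, nat_lit 4800000],
  [nat_lit 4096, nat_lit 10240, nat_lit 25600, nat_lit 64000, nat_lit 160000, nat_lit 400000, nat_lit 1000000],
  [nat_lit 4096, nat_lit 10240, nat_lit 25600, nat_lit 64000, nat_lit 160000, nat_lit 400000, nat_lit 1000000],
  [nat_lit 24576, nat_lit 63488, nat_lit 163840, nat_lit 422400, nat_lit 1088000, nat_lit 2800000, nat_lit 7200000],
  [nat_lit 61440, nat_lit 163840, nat_lit 436224, nat_lit 1159680, nat_lit 3078400, nat_lit 8160000, nat_lit 21600000],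
  [nat_lit 81920, nat_lit 225280, nat_lit 618496, nat_lit 1695232, nat_lit 4638720, nat_lit 12672000, nat_lit 34560000],
  [nat_lit 61440, nat_lit 174080, nat_lit 492544, nat_lit 1391616, nat_lit 3926016, nat_lit 11059200, nat_lit 31104000],
  [nat_lit 24576, nat_lit 71680, nat_lit 208896, nat_lit 608256, nat_lit 1769472, nat_lit 5142528, nat_lit 14929920],
  [nat_lit 4096, nat_lit 12288, nat_lit 36864, nat_lit 110592, nat_lit 331776, nat_lit 995328, nat_lit 2985984]]


end Crest.Agent.R163.Ck
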