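import Crest.Agent.R163.Iface

/-! Row 163: the Blackwell order on symmetric experiments. -/

set_option autoImplicit false

namespace Crest.Agent.R163

open Finset Filter

variable {q : ℕ} [NeZero q]

omit [NeZero q] in
theorem Law.Le.refl (L : Law q) : L.Le L := fun _ _ => le_rfl

omit [NeZero q] in
theorem Law.Le.trans {L L' L'' : Law q} (h : L.Le L') (h' : L'.Le L'') : L.Le L'' :=
  fun H hH => (h' H hH).trans (h H hH)

namespace OrderAH

omit [NeZero q] in
theorem pos_sum {ι : Type*} (s : Finset ι) (P : ι → Vec q) (hP : ∀ i ∈ s, Pos (P i)) :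
    Pos (∑ i ∈ s, P i) := fun j => by
  rw [Finset.sum_apply]
  exact sum_nonneg fun i hi => hP i hi j

theorem sum_eq (P : Vec q) : ∑ i, P i = q * av P := by
  have hq : (q : ℝ) ≠ 0 := Nat.cast_ne_zero.2 (NeZero.ne q)
  unfold av; field_simp

omit [NeZero q] in
theorem vtx_eq {H : Vec q → ℝ} (h : Sup H) (i j : Fin q) : H (vtx j) = H (vtx i) := by
  rw [← h.sym (Equiv.swap i j) _ (pos_vtx i), perm_vtx]
  simp

omit [NeZero q] in
theorem perm_mul (σ : Equiv.Perm (Fin q)) (P Q : Vec q) :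
    perm σ P * Q = perm σ (P * perm σ.symm Q) := by
  funext i; simp [perm]

end OrderAH

open OrderAH

theorem Sup.sum_le {H : Vec q → ℝ} (h : Sup H) {ι : Type*} (s : Finset ι) (P : ι → Vec q)
    (hP : ∀ i ∈ s, Pos (P i)) : ∑ i ∈ s, H (P i) ≤ H (∑ i ∈ s, P i) := by
  classical
  induction s using Finset.induction_on with
  | empty =>
    simp only [sum_empty]
    exact h.nonneg _ fun _ => le_rfl
  | insert a s ha ih =>
    simp only [sum_insert ha]
    have h1 := ih fun i hi => hP i (mem_insert_of_mem hi)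
    have h2 := h.sup _ _ (hP a (mem_insert_self _ _))
      (pos_sum s P fun i hi => hP i (mem_insert_of_mem hi))
    linarith

/-- the centre maximises -/
theorem Sup.le_center {H : Vec q → ℝ} (h : Sup H) {P : Vec q} (hP : Pos P) :
    H P ≤ H 1 * av P := by
  have hq : (0 : ℝ) < q := Nat.cast_pos.2 (Nat.pos_of_ne_zero (NeZero.ne q))
  have h1 := h.sum_le univ (fun k : Fin q => perm (Equiv.addRight k) P) fun k _ => hP.perm _
  have h2 : ∑ k : Fin q, perm (Equiv.addRight k) P = (q * av P) • (1 : Vec q) := by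
    funext i
    rw [Finset.sum_apply, ← sum_eq]
    simp only [perm, Equiv.coe_addRight, Pi.smul_apply, Pi.one_apply, smul_eq_mul, mul_one]
    exact Equiv.sum_comp (Equiv.addLeft i) P
  rw [h2, h.adm.hom _ (mul_nonneg hq.le (av_nonneg hP)) _ pos_one] at h1
  simp only [h.sym _ _ hP, sum_const, card_univ, Fintype.card_fin, nsmul_eq_mul] at h1
  refine le_of_mul_le_mul_left ?_ hq
  linarith

/-- the vertices minimise -/
theorem Sup.vtx_le {H : Vec q → ℝ} (h : Sup H) (i : Fin q) {P : Vec q} (hP : Pos P) :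
    q * H (vtx i) * av P ≤ H P := by
  have h1 := h.sum_le univ (fun j : Fin q => P j • vtx j) fun j _ => (pos_vtx j).smul (hP j)
  have h2 : ∑ j : Fin q, P j • vtx j = P := by
    funext k
    simp [vtx, Finset.sum_apply, Pi.single_apply]
  rw [h2] at h1
  simp only [fun j => h.adm.hom _ (hP j) _ (pos_vtx j), vtx_eq h i, ← sum_mul, sum_eq] at h1
  linarith

theorem Sup.sub_vtx {H : Vec q → ℝ} (h : Sup H) (i : Fin q) :
    Sup (fun P => H P - q * H (vtx i) * av P) where
  adm := h.adm.sub (adm_av.smul _)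
  nonneg P hP := sub_nonneg.2 (h.vtx_le i hP)
  sup P Q hP hQ := by
    have := h.sup P Q hP hQ
    rw [av_add]
    linarith
  sym σ P hP := by rw [h.sym σ P hP, av_perm]

theorem Sup.comp_Tv {H : Vec q → ℝ} (h : Sup H) {t : ℝ} (ht : Tok q t) :
    Sup (fun P => H (Tv t P)) where
  adm := h.adm.comp_Tv ht
  nonneg P hP := h.nonneg _ (hP.Tv ht)
  sup P Q hP hQ := by rw [Tv_add]; exact h.sup _ _ (hP.Tv ht) (hQ.Tv ht)
  sym σ P hP := by rw [Tv_perm]; exact h.sym σ _ (hP.Tv ht)

theorem Sup.inner {H : Vec q → ℝ} (h : Sup H) (L : Law q) :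
    Sup (fun P => L.E (fun Q => H (P * Q))) where
  adm := L.adm_inner h.adm
  nonneg P hP := L.nonneg (h.adm.mul_left hP) fun Q hQ => h.nonneg _ (hP.mul hQ)
  sup P P' hP hP' := by
    rw [← L.add (h.adm.mul_left hP) (h.adm.mul_left hP')]
    refine L.mono ((h.adm.mul_left hP).add (h.adm.mul_left hP')) (h.adm.mul_left (hP.add hP'))
      fun Q hQ => ?_
    rw [add_mul]
    exact h.sup _ _ (hP.mul hQ) (hP'.mul hQ)
  sym σ P hP := by
    rw [← L.sym σ.symm (h.adm.mul_left hP)]
    refine L.congr (h.adm.mul_left (hP.perm σ)) ((h.adm.mul_left hP).comp_perm σ.symm)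
      fun Q hQ => ?_
    rw [perm_mul]
    exact h.sym σ _ (hP.mul (hQ.perm _))

theorem Sup.avg {H : Vec q → ℝ} (h : Sup H) {P : Vec q} (hP : Pos P) :
    Sup (fun Q => (∑ σ : Equiv.Perm (Fin q), H (P * perm σ Q)) / q.factorial) where
  adm := by
    have := (Adm.sum univ fun (σ : Equiv.Perm (Fin q)) _ =>
      (h.adm.mul_left hP).comp_perm σ).smul ((q.factorial : ℝ))⁻¹
    simpa only [div_eq_inv_mul] using this
  nonneg Q hQ := div_nonneg (sum_nonneg fun σ _ => h.nonneg _ (hP.mul (hQ.perm σ)))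
    (Nat.cast_nonneg _)
  sup Q Q' hQ hQ' := by
    rw [← add_div, ← sum_add_distrib]
    refine div_le_div_of_nonneg_right (sum_le_sum fun σ _ => ?_) (Nat.cast_nonneg _)
    have : P * perm σ (Q + Q') = P * perm σ Q + P * perm σ Q' := by
      rw [← mul_add]; rfl
    rw [this]
    exact h.sup _ _ (hP.mul (hQ.perm σ)) (hP.mul (hQ'.perm σ))
  sym τ Q hQ := by
    congr 1
    exact Equiv.sum_comp (Equiv.mulLeft τ) (fun σ => H (P * perm σ Q))

theorem Law.le_perfect (L : Law q) : L.Le Law.perfect := by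
  intro H hH
  change ∑ i, H (vtx i) ≤ _
  simp only [vtx_eq hH 0, sum_const, card_univ, Fintype.card_fin, nsmul_eq_mul]
  rw [← L.smul_av (q * H (vtx 0))]
  exact L.mono (adm_av.smul _) hH.adm fun P hP => hH.vtx_le 0 hP

theorem Law.one_le (L : Law q) : (Law.one : Law q).Le L := by
  intro H hH
  change _ ≤ H 1
  rw [← L.smul_av (H 1)]
  exact L.mono hH.adm (adm_av.smul _) fun P hP => hH.le_center hP

theorem Law.Le.T {L L' : Law q} (h : L.Le L') (t : ℝ) (ht : Tok q t) :
    (L.T t ht).Le (L'.T t ht) := fun _ hH => h _ (hH.comp_Tv ht)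

theorem Law.T_le_T (L : Law q) {t t' c : ℝ} (ht : Tok q t) (ht' : Tok q t') (hc0 : 0 ≤ c)
    (hc1 : c ≤ 1) (e : t = c * t') : (L.T t ht).Le (L.T t' ht') := by
  intro H hH
  refine L.mono (hH.adm.comp_Tv ht') (hH.adm.comp_Tv ht) fun P hP => ?_
  have e1 : Tv t P = c • Tv t' P + ((1 - c) * av P) • (1 : Vec q) := by
    funext i
    simp only [Tv, e, Pi.add_apply, Pi.smul_apply, Pi.one_apply, smul_eq_mul]
    ring
  have hc : 0 ≤ 1 - c := sub_nonneg.2 hc1
  have ha : 0 ≤ (1 - c) * av P := mul_nonneg hc (av_nonneg hP)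
  have h1 := hH.sup _ _ ((hP.Tv ht').smul hc0) (pos_one.smul ha)
  rw [← e1, hH.adm.hom _ hc0 _ (hP.Tv ht'), hH.adm.hom _ ha _ pos_one] at h1
  have h2 := hH.le_center (hP.Tv ht')
  rw [av_Tv] at h2
  have h3 := mul_le_mul_of_nonneg_left h2 hc
  linarith

theorem Law.T_le (L : Law q) {t : ℝ} (ht : Tok q t) (h0 : 0 ≤ t) : (L.T t ht).Le L := by
  have h1 : Tok q 1 := ⟨le_rfl, by simp⟩
  intro H hH
  have h2 := L.T_le_T ht h1 h0 ht.1 (mul_one t).symm H hH
  have h3 : (L.T 1 h1).E H = L.E H := by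
    change L.E (fun P => H (Tv 1 P)) = _
    congr 1
    funext P
    congr 1
    funext i
    simp [Tv]
  rwa [h3] at h2

theorem Law.Le.star {L₁ L₂ L₁' L₂' : Law q} (h₁ : L₁.Le L₁') (h₂ : L₂.Le L₂') :
    (L₁.star L₂).Le (L₁'.star L₂') := by
  intro H hH
  refine (h₁ _ (hH.inner L₂')).trans ?_
  refine L₁.mono (L₂'.adm_inner hH.adm) (L₂.adm_inner hH.adm) fun P hP => ?_
  rw [L₂.E_mul_avg hH.adm hP, L₂'.E_mul_avg hH.adm hP]
  exact h₂ _ (hH.avg hP)

theorem Law.le_star (L L' : Law q) : L.Le (L.star L') := by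
  intro H hH
  have h1 := (Law.Le.refl L).star L'.one_le H hH
  have h2 : (L.star Law.one).E H = L.E H := by
    change L.E (fun P => H (P * 1)) = _
    simp only [mul_one]
  rwa [h2] at h1

theorem Law.Le.pow {L L' : Law q} (h : L.Le L') (n : ℕ) : (L.pow n).Le (L'.pow n) := by
  induction n with
  | zero => exact Law.Le.refl _
  | succ n ih => exact ih.star h

theorem Law.pow_le_pow (L : Law q) {m n : ℕ} (h : m ≤ n) : (L.pow m).Le (L.pow n) := by
  induction n, h using Nat.le_induction with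
  | base => exact Law.Le.refl _
  | succ n _ ih => exact ih.trans (Law.le_star _ _)

end Crest.Agent.R163
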