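import Crest.Agent.R163.OrderA

/-! Row 163: the Blackwell order on symmetric experiments. -/

set_option autoImplicit false

namespace Crest.Agent.R163

open Finset Filter

variable {q : ℕ} [NeZero q]

namespace OrderBH

theorem poisW_add (a b : ℝ) (n : ℕ) :
    poisW (a + b) n = ∑ x ∈ antidiagonal n, poisW a x.1 * poisW b x.2 := by
  unfold poisW
  rw [(Commute.all a b).add_pow', mul_sum, sum_div]
  refine sum_congr rfl fun x hx => ?_
  rw [← mem_antidiagonal.1 hx, nsmul_eq_mul, Nat.cast_add_choose, neg_add, Real.exp_add]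
  have h1 : ((x.1 + x.2).factorial : ℝ) ≠ 0 := by positivity
  have h2 : (x.1.factorial : ℝ) ≠ 0 := by positivity
  have h3 : (x.2.factorial : ℝ) ≠ 0 := by positivity
  field_simp

theorem pois_anti {a : ℕ → ℝ} {C : ℝ} (ha : Antitone a) (hC : ∀ k, |a k| ≤ C) {d e : ℝ}
    (hd : 0 ≤ d) (he : 0 ≤ e) : ∑' k, poisW (d + e) k * a k ≤ ∑' k, poisW d k * a k := by
  have h1 : Summable fun k => ‖poisW d k * a k‖ := (summable_poisW_mul hd hC).norm
  have h2 : Summable fun k => ‖poisW e k‖ := (hasSum_poisW e).summable.norm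
  rw [← mul_one (∑' k, poisW d k * a k), ← (hasSum_poisW e).tsum_eq,
    tsum_mul_tsum_eq_tsum_sum_antidiagonal_of_summable_norm h1 h2]
  refine (summable_poisW_mul (add_nonneg hd he) hC).tsum_le_tsum (fun n => ?_)
    (summable_norm_sum_mul_antidiagonal_of_summable_norm h1 h2).of_norm
  rw [poisW_add, sum_mul]
  refine sum_le_sum fun x hx => ?_
  rw [mul_right_comm]
  refine mul_le_mul_of_nonneg_right (mul_le_mul_of_nonneg_left (ha ?_) (poisW_nonneg hd _))
    (poisW_nonneg he _)
  have := mem_antidiagonal.1 hx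
  omega

theorem titu {a b c d : ℝ} (hb : 0 ≤ b) (hd : 0 ≤ d) (ha : b = 0 → a = 0) (hc : d = 0 → c = 0) :
    (a + c) ^ 2 / (b + d) ≤ a ^ 2 / b + c ^ 2 / d := by
  rcases hb.eq_or_lt with rfl | hb
  · simp [ha rfl]
  rcases hd.eq_or_lt with rfl | hd
  · simp [hc rfl]
  rw [div_add_div _ _ hb.ne' hd.ne', div_le_div_iff₀ (by positivity) (by positivity)]
  nlinarith [sq_nonneg (a * d - c * b)]

omit [NeZero q] in
theorem hat_fx (P : Vec q) : hat fx P = (∑ i, (P i - av P) ^ 2 / av P) / q := by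
  unfold hat fx mom
  rw [← mul_div_assoc, mul_sum]
  congr 1
  refine sum_congr rfl fun i _ => ?_
  by_cases h : av P = 0
  · simp [h]
  · field_simp

omit [NeZero q] in
theorem sub_av_eq_zero {P : Vec q} (hP : Pos P) (i : Fin q) (h : av P = 0) : P i - av P = 0 := by
  have h1 := le_av hP i
  have h2 := hP i
  rw [h, mul_zero] at h1
  rw [h]
  linarith

theorem foldl_mono {V : Type*} (l : List V) {f g : V → Law q} (h : ∀ v, (f v).Le (g v))
    {A B : Law q} (hA : A.Le B) :
    ((l.map f).foldl Law.star A).Le ((l.map g).foldl Law.star B) := by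
  induction l generalizing A B with
  | nil => exact hA
  | cons v l ih => exact ih (hA.star (h v))

end OrderBH

open OrderBH

theorem Law.Le.pois {L L' : Law q} (h : L.Le L') (d : ℝ) (hd : 0 ≤ d) :
    (L.pois d hd).Le (L'.pois d hd) := fun H hH =>
  (Law.summable_pois hd _ hH.adm).tsum_le_tsum
    (fun k => mul_le_mul_of_nonneg_left (h.pow k H hH) (poisW_nonneg hd k))
    (Law.summable_pois hd _ hH.adm)

theorem Law.pois_le_pois (L : Law q) {d d' : ℝ} (hd : 0 ≤ d) (hd' : 0 ≤ d') (h : d ≤ d') :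
    (L.pois d hd).Le (L.pois d' hd') := by
  intro H hH
  obtain ⟨C, hC⟩ := hH.adm.bdd
  obtain ⟨e, he, rfl⟩ : ∃ e, 0 ≤ e ∧ d' = d + e := ⟨d' - d, by linarith, by ring⟩
  exact pois_anti (a := fun k => (L.pow k).E H) (fun m n hmn => L.pow_le_pow hmn H hH)
    (fun k => (L.pow k).abs_le hH.adm hC) hd he

theorem sup_defx : Sup (fun P : Vec q => ((q : ℝ) - 1) * av P - hat fx P) where
  adm := (adm_av.smul _).sub (adm_hat bddS_fx)
  nonneg P hP := by
    have := hat_mono (g := fun _ => (q : ℝ) - 1) (fun p hp => fx_le hp) hP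
    rw [sub_nonneg, mul_comm]
    exact this
  sup P Q hP hQ := by
    have h : hat fx (P + Q) ≤ hat fx P + hat fx Q := by
      rw [hat_fx, hat_fx, hat_fx, ← add_div, ← sum_add_distrib, av_add]
      refine div_le_div_of_nonneg_right (sum_le_sum fun i _ => ?_) (Nat.cast_nonneg _)
      rw [Pi.add_apply, add_sub_add_comm]
      exact titu (av_nonneg hP) (av_nonneg hQ) (sub_av_eq_zero hP i) (sub_av_eq_zero hQ i)
    rw [av_add]
    linarith
  sym σ P hP := by
    rw [hat_fx, hat_fx, av_perm]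
    congr 2
    exact Equiv.sum_comp σ (fun i => (P i - av P) ^ 2 / av P)

theorem Law.Le.X {L L' : Law q} (h : L.Le L') : L.X ≤ L'.X := by
  have h1 := h _ sup_defx
  rw [L.sub (adm_av.smul _) (adm_hat bddS_fx), L'.sub (adm_av.smul _) (adm_hat bddS_fx),
    L.smul_av, L'.smul_av] at h1
  unfold Law.X Law.Ex
  linarith

theorem regLaw_succ_le (b : ℕ) (t : ℝ) (ht : Tok q t) (n : ℕ) :
    (regLaw q b t ht (n + 1)).Le (regLaw q b t ht n) := by
  induction n with
  | zero => exact Law.le_perfect _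
  | succ n ih => exact (ih.T t ht).pow b

theorem gwL_succ_le (d : ℝ) (hd : 0 ≤ d) (t : ℝ) (ht : Tok q t) (n : ℕ) :
    (gwL q d hd t ht (n + 1)).Le (gwL q d hd t ht n) := by
  induction n with
  | zero => exact Law.le_perfect _
  | succ n ih => exact (ih.T t ht).pois d hd

theorem regLaw_mono {b b' : ℕ} (hb : b ≤ b') {t t' c : ℝ} (ht : Tok q t) (ht' : Tok q t')
    (hc0 : 0 ≤ c) (hc1 : c ≤ 1) (e : t = c * t') (n : ℕ) :
    (regLaw q b t ht n).Le (regLaw q b' t' ht' n) := by
  induction n with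
  | zero => exact Law.Le.refl _
  | succ n ih =>
    exact (((ih.T t ht).trans (Law.T_le_T _ ht ht' hc0 hc1 e)).pow b).trans (Law.pow_le_pow _ hb)

theorem gwL_mono {d d' : ℝ} (hd : 0 ≤ d) (hd' : 0 ≤ d') (h : d ≤ d') {t t' c : ℝ} (ht : Tok q t)
    (ht' : Tok q t') (hc0 : 0 ≤ c) (hc1 : c ≤ 1) (e : t = c * t') (n : ℕ) :
    (gwL q d hd t ht n).Le (gwL q d' hd' t' ht' n) := by
  induction n with
  | zero => exact Law.Le.refl _
  | succ n ih =>
    exact (((ih.T t ht).trans (Law.T_le_T _ ht ht' hc0 hc1 e)).pois d hd).trans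
      (Law.pois_le_pois _ hd hd' h)

open Crest.ProbabilityR.TreeBroadcast in
theorem treeLaw_mono {V : Type*} [DecidableEq V] (T : LocFinTree V) (t : ℝ) (ht : Tok q t)
    {leaf leaf' : V → Law q} (h : ∀ v, (leaf v).Le (leaf' v)) (k : ℕ) (v : V) :
    (treeLaw T t ht leaf k v).Le (treeLaw T t ht leaf' k v) := by
  induction k generalizing v with
  | zero => exact h v
  | succ k ih => exact foldl_mono _ (fun c => (ih c).T t ht) (Law.Le.refl _)

end Crest.Agent.R163
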