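import Crest.Agent.R163.CkCert

/-! Row 163: from control rows to real points; gluing of chunks. -/

set_option autoImplicit false

namespace Crest.Agent.R163.PVRealH

open Finset Ck

/-- linear functionals of the first `N` coordinates -/
def Lin (N : ℕ) (Φ : (ℕ → ℝ) → ℝ) : Prop := ∃ a : ℕ → ℝ, ∀ z, Φ z = ∑ k ∈ range N, z k * a k

theorem Lin.sum {N : ℕ} {s : Finset ℕ} {Φ : ℕ → (ℕ → ℝ) → ℝ} (h : ∀ i ∈ s, Lin N (Φ i)) :
    Lin N fun z => ∑ i ∈ s, Φ i z := by
  choose! a ha using h
  refine ⟨fun k => ∑ i ∈ s, a i k, fun z => ?_⟩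
  simp only [mul_sum]
  rw [sum_comm]
  exact sum_congr rfl fun i hi => ha i hi z

theorem Lin.basic {N k : ℕ} (hk : k ∈ range N) (w : ℝ) {Φ : (ℕ → ℝ) → ℝ}
    (h : ∀ z, Φ z = z k * w) : Lin N Φ :=
  ⟨fun l => if l = k then w else 0, fun z => by
    simp only [h, mul_ite, mul_zero, sum_ite_eq', if_pos hk]⟩

theorem dom {net : L2} {N : ℕ} {z : ℕ → ℝ} (h : Dom net N z) {Φ : (ℕ → ℝ) → ℝ} (hΦ : Lin N Φ)
    (hc : ∀ c ∈ net, c.length ≤ N → 0 ≤ Φ fun k => (c.getD k 0 : ℝ)) : 0 ≤ Φ z := by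
  obtain ⟨a, ha⟩ := hΦ
  rw [ha]
  exact h.2 a fun c hc' => (hc c hc' (h.1 c hc')).trans_eq (ha _)

theorem domN {net : List (List ℕ)} {N : ℕ} {z : ℕ → ℝ} (h : DomN net N z) {Φ : (ℕ → ℝ) → ℝ}
    (hΦ : Lin N Φ) (hc : ∀ c ∈ net, c.length ≤ N → 0 ≤ Φ fun k => (c.getD k 0 : ℝ)) :
    0 ≤ Φ z := by
  obtain ⟨a, ha⟩ := hΦ
  rw [ha]
  exact h.2 a fun c hc' => (hc c hc' (h.1 c hc')).trans_eq (ha _)

theorem domT {rnet : List (List ℕ)} {snet : L2} {degs : List ℕ} {z : ℕ → ℝ}
    (h : DomT rnet snet degs z) {Φ : (ℕ → ℝ) → ℝ} (hΦ : Lin degs.length Φ)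
    (hc : ∀ r ∈ rnet, ∀ c ∈ snet,
      0 ≤ Φ fun k => (r.getD (degs.getD k 0) 0 : ℝ) * (c.getD k 0 : ℝ)) : 0 ≤ Φ z := by
  obtain ⟨a, ha⟩ := hΦ
  rw [ha]
  exact h a fun r hr c hc' => (hc r hr c hc').trans_eq (ha _)

theorem ext_range {M : Type} [AddCommMonoid M] {m N : ℕ} (h : m ≤ N) {F G : ℕ → M}
    (h1 : ∀ k, F k = G k) (h2 : ∀ k, m ≤ k → G k = 0) :
    ∑ k ∈ range m, F k = ∑ k ∈ range N, G k := by
  rw [sum_congr rfl fun k _ => h1 k]
  exact sum_subset (range_subset_range.2 h) fun k _ hk => h2 k (by simpa using hk)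

theorem allL_cons {α : Type} (p : α → Bool) (a : α) (l : List α) :
    allL p (a :: l) = Bool.rec false (allL p l) (p a) := rfl

theorem allL_true {α : Type} {p : α → Bool} {l : List α} (h : allL p l = true) :
    ∀ a ∈ l, p a = true := by
  induction l with
  | nil => simp
  | cons a l ih =>
    rw [allL_cons] at h
    cases hp : p a with
    | false => rw [hp] at h; exact absurd h (by simp)
    | true =>
      rw [hp] at h
      intro b hb
      rcases List.mem_cons.1 hb with rfl | hb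
      · exact hp
      · exact ih h b hb

theorem mapL_eq {α β : Type} (f : α → β) (l : List α) : mapL f l = l.map f := by
  induction l with
  | nil => rfl
  | cons a l ih => exact congrArg (f a :: ·) ih

theorem dotZN_eq (c : List ℕ) (v : List ℤ) {n : ℕ} (h : c.length ≤ n) :
    dotZN c v = ∑ t ∈ range n, (c.getD t 0 : ℤ) * v.getD t 0 := by
  induction c generalizing v n with
  | nil => simp [dotZN]
  | cons x c ih =>
    cases v with
    | nil => simp [dotZN]
    | cons y v =>
      obtain ⟨n, rfl⟩ : ∃ m, n = m + 1 := ⟨n - 1, by rw [List.length_cons] at h; omega⟩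
      rw [sum_range_succ', show dotZN (x :: c) (y :: v) = (x : ℤ) * y + dotZN c v from rfl,
        ih v (n := n) (by rw [List.length_cons] at h; omega), add_comm]
      simp only [List.getD_cons_succ, List.getD_cons_zero]

end Crest.Agent.R163.PVRealH

namespace Crest.Agent.R163.Ck

open Finset PVRealH

theorem mem_chunk {α : Type} {m n : ℕ} {l : List α} (h : l.length ≤ n * m) {x : α} (hx : x ∈ l) :
    ∃ i < n, x ∈ chunk m i l := by
  obtain ⟨k, hk, rfl⟩ := List.mem_iff_getElem.1 hx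
  have hm : 0 < m := Nat.pos_of_ne_zero fun h0 => by
    rw [h0, mul_zero] at h
    omega
  refine ⟨k / m, (Nat.div_lt_iff_lt_mul hm).2 (hk.trans_le h), ?_⟩
  have h1 := Nat.div_add_mod k m
  have h2 := Nat.mod_lt k hm
  have h3 : k / m * m + k % m = k := by rw [mul_comm]; exact h1
  refine List.mem_iff_getElem.2 ⟨k % m, ?_, ?_⟩
  · rw [chunk, List.length_take, List.length_drop]
    omega
  · simp only [chunk, List.getElem_take, List.getElem_drop, h3]

section glue

variable {A : L6} {A' : L5} {degs : List ℕ} {rp rnet tnet enet snet znet : List (List ℕ)}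
  {sp sub : L2} {m n : ℕ}

theorem PairOK.of_sub (h : AllLt n fun i => PairOK A degs rp sp rnet tnet (chunk m i sub) enet snet)
    (hl : sub.length ≤ n * m) : PairOK A degs rp sp rnet tnet sub enet snet := by
  intro cs hs ce he c hc r hr t ht r' hr' c' hc'
  obtain ⟨i, hi, hx⟩ := mem_chunk hl hc
  exact h i hi cs hs ce he c hx r hr t ht r' hr' c' hc'

theorem PairOK.of_enet (h : AllLt n fun i => PairOK A degs rp sp rnet tnet sub (chunk m i enet) snet)
    (hl : enet.length ≤ n * m) : PairOK A degs rp sp rnet tnet sub enet snet := by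
  intro cs hs ce he c hc r hr t ht r' hr' c' hc'
  obtain ⟨i, hi, hx⟩ := mem_chunk hl he
  exact h i hi cs hs ce hx c hc r hr t ht r' hr' c' hc'

theorem PairOK.of_snet (h : AllLt n fun i => PairOK A degs rp sp rnet tnet sub enet (chunk m i snet))
    (hl : snet.length ≤ n * m) : PairOK A degs rp sp rnet tnet sub enet snet := by
  intro cs hs ce he c hc r hr t ht r' hr' c' hc'
  obtain ⟨i, hi, hx⟩ := mem_chunk hl hs
  exact h i hi cs hx ce he c hc r hr t ht r' hr' c' hc'

theorem PairOK.of_rnet (h : AllLt n fun i => PairOK A degs rp sp (chunk m i rnet) tnet sub enet snet)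
    (hl : rnet.length ≤ n * m) : PairOK A degs rp sp rnet tnet sub enet snet := by
  intro cs hs ce he c hc r hr t ht r' hr' c' hc'
  obtain ⟨i, hi, hx⟩ := mem_chunk hl hr
  exact h i hi cs hs ce he c hc r hx t ht r' hr' c' hc'

theorem PairOK.of_rp (h : AllLt n fun i => PairOK A degs (chunk m i rp) sp rnet tnet sub enet snet)
    (hl : rp.length ≤ n * m) : PairOK A degs rp sp rnet tnet sub enet snet := by
  intro cs hs ce he c hc r hr t ht r' hr' c' hc'
  obtain ⟨i, hi, hx⟩ := mem_chunk hl hr'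
  exact h i hi cs hs ce he c hc r hr t ht r' hx c' hc'

theorem OneOK.of_znet (h : AllLt n fun i => OneOK A' degs rp sp (chunk m i znet) tnet enet snet)
    (hl : znet.length ≤ n * m) : OneOK A' degs rp sp znet tnet enet snet := by
  intro cs hs ce he ct ht cz hz r' hr' c' hc'
  obtain ⟨i, hi, hx⟩ := mem_chunk hl hz
  exact h i hi cs hs ce he ct ht cz hx r' hr' c' hc'

theorem OneOK.of_tnet (h : AllLt n fun i => OneOK A' degs rp sp znet (chunk m i tnet) enet snet)
    (hl : tnet.length ≤ n * m) : OneOK A' degs rp sp znet tnet enet snet := by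
  intro cs hs ce he ct ht cz hz r' hr' c' hc'
  obtain ⟨i, hi, hx⟩ := mem_chunk hl ht
  exact h i hi cs hs ce he ct hx cz hz r' hr' c' hc'

theorem OneOK.of_snet (h : AllLt n fun i => OneOK A' degs rp sp znet tnet enet (chunk m i snet))
    (hl : snet.length ≤ n * m) : OneOK A' degs rp sp znet tnet enet snet := by
  intro cs hs ce he ct ht cz hz r' hr' c' hc'
  obtain ⟨i, hi, hx⟩ := mem_chunk hl hs
  exact h i hi cs hx ce he ct ht cz hz r' hr' c' hc'

theorem OneOK.of_rp (h : AllLt n fun i => OneOK A' degs (chunk m i rp) sp znet tnet enet snet)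
    (hl : rp.length ≤ n * m) : OneOK A' degs rp sp znet tnet enet snet := by
  intro cs hs ce he ct ht cz hz r' hr' c' hc'
  obtain ⟨i, hi, hx⟩ := mem_chunk hl hr'
  exact h i hi cs hs ce he ct ht cz hz r' hx c' hc'

end glue

theorem domT_of {rnet : List (List ℕ)} {snet : L2} {degs : List ℕ} {N : ℕ} {r φ : ℕ → ℝ}
    (hr : DomN rnet N r) (hs : Dom snet degs.length φ) (hd : ∀ d ∈ degs, d < N) :
    DomT rnet snet degs (fun k => r (degs.getD k 0) * φ k) := by
  intro a ha
  refine domN hr (Φ := fun r => ∑ k ∈ range degs.length, r (degs.getD k 0) * φ k * a k)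
    (Lin.sum fun k hk => Lin.basic (k := degs.getD k 0) ?_ (φ k * a k) fun z => by ring)
    fun r' hr' _ => ?_
  · rw [mem_range] at hk ⊢
    rw [List.getD_eq_getElem _ _ hk]
    exact hd _ (List.getElem_mem hk)
  · exact dom hs (Φ := fun φ => ∑ k ∈ range degs.length,
      (r'.getD (degs.getD k 0) 0 : ℝ) * φ k * a k)
      (Lin.sum fun k hk => Lin.basic hk ((r'.getD (degs.getD k 0) 0 : ℝ) * a k) fun z => by ring)
      fun c hc _ => ha r' hr' c hc

theorem domN_one : DomN [[1]] 1 (fun _ => 1) :=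
  ⟨by simp, fun a ha => by simpa using ha [1] (by simp)⟩

theorem PairOK.real {A : L6} {degs : List ℕ} {rp rnet tnet enet snet : List (List ℕ)} {sp sub : L2}
    (h : PairOK A degs rp sp rnet tnet sub enet snet) {NJ NK NB NE NS : ℕ}
    {f r t c ce cs : ℕ → ℝ} (hf : DomT rp sp degs f) (hr : DomN rnet NK r) (ht : DomN tnet NJ t)
    (hc : Dom sub NB c) (he : DomN enet NE ce) (hs : DomN snet NS cs) :
    0 ≤ ∑ j ∈ range NJ, ∑ k ∈ range NK, ∑ b ∈ range NB, ∑ a ∈ range degs.length,
      ∑ e ∈ range NE, ∑ s ∈ range NS,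
        t j * r k * c b * f a * ce e * cs s * (g6 A j k b a e s : ℝ) := by
  refine domN hs (Φ := fun z => ∑ j ∈ range NJ, ∑ k ∈ range NK, ∑ b ∈ range NB,
      ∑ a ∈ range degs.length, ∑ e ∈ range NE, ∑ s ∈ range NS,
        t j * r k * c b * f a * ce e * z s * (g6 A j k b a e s : ℝ))
    (Lin.sum fun j hj => Lin.sum fun k hk => Lin.sum fun b hb => Lin.sum fun a ha => Lin.sum fun e he => Lin.sum fun s hs => 
      Lin.basic hs (t j * r k * c b * f a * ce e * (g6 A j k b a e s : ℝ)) fun z => by ring)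
    fun cs' hcs ls => ?_
  refine domN he (Φ := fun z => ∑ j ∈ range NJ, ∑ k ∈ range NK, ∑ b ∈ range NB,
      ∑ a ∈ range degs.length, ∑ e ∈ range NE, ∑ s ∈ range NS,
        t j * r k * c b * f a * z e * (cs'.getD s 0 : ℝ) * (g6 A j k b a e s : ℝ))
    (Lin.sum fun j hj => Lin.sum fun k hk => Lin.sum fun b hb => Lin.sum fun a ha => Lin.sum fun e he => Lin.sum fun s hs => 
      Lin.basic he (t j * r k * c b * f a * (cs'.getD s 0 : ℝ) * (g6 A j k b a e s : ℝ)) fun z => by ring)
    fun ce' hce le => ?_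
  refine dom hc (Φ := fun z => ∑ j ∈ range NJ, ∑ k ∈ range NK, ∑ b ∈ range NB,
      ∑ a ∈ range degs.length, ∑ e ∈ range NE, ∑ s ∈ range NS,
        t j * r k * z b * f a * (ce'.getD e 0 : ℝ) * (cs'.getD s 0 : ℝ) * (g6 A j k b a e s : ℝ))
    (Lin.sum fun j hj => Lin.sum fun k hk => Lin.sum fun b hb => Lin.sum fun a ha => Lin.sum fun e he => Lin.sum fun s hs => 
      Lin.basic hb (t j * r k * f a * (ce'.getD e 0 : ℝ) * (cs'.getD s 0 : ℝ) * (g6 A j k b a e s : ℝ)) fun z => by ring)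
    fun c' hc' lc => ?_
  refine domN hr (Φ := fun z => ∑ j ∈ range NJ, ∑ k ∈ range NK, ∑ b ∈ range NB,
      ∑ a ∈ range degs.length, ∑ e ∈ range NE, ∑ s ∈ range NS,
        t j * z k * (c'.getD b 0 : ℝ) * f a * (ce'.getD e 0 : ℝ) * (cs'.getD s 0 : ℝ) * (g6 A j k b a e s : ℝ))
    (Lin.sum fun j hj => Lin.sum fun k hk => Lin.sum fun b hb => Lin.sum fun a ha => Lin.sum fun e he => Lin.sum fun s hs => 
      Lin.basic hk (t j * (c'.getD b 0 : ℝ) * f a * (ce'.getD e 0 : ℝ) * (cs'.getD s 0 : ℝ) * (g6 A j k b a e s : ℝ)) fun z => by ring)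
    fun r' hr' lr => ?_
  refine domN ht (Φ := fun z => ∑ j ∈ range NJ, ∑ k ∈ range NK, ∑ b ∈ range NB,
      ∑ a ∈ range degs.length, ∑ e ∈ range NE, ∑ s ∈ range NS,
        z j * (r'.getD k 0 : ℝ) * (c'.getD b 0 : ℝ) * f a * (ce'.getD e 0 : ℝ) * (cs'.getD s 0 : ℝ) * (g6 A j k b a e s : ℝ))
    (Lin.sum fun j hj => Lin.sum fun k hk => Lin.sum fun b hb => Lin.sum fun a ha => Lin.sum fun e he => Lin.sum fun s hs => 
      Lin.basic hj ((r'.getD k 0 : ℝ) * (c'.getD b 0 : ℝ) * f a * (ce'.getD e 0 : ℝ) * (cs'.getD s 0 : ℝ) * (g6 A j k b a e s : ℝ)) fun z => by ring)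
    fun t' ht' lt => ?_
  refine domT hf (Φ := fun z => ∑ j ∈ range NJ, ∑ k ∈ range NK, ∑ b ∈ range NB,
      ∑ a ∈ range degs.length, ∑ e ∈ range NE, ∑ s ∈ range NS,
        (t'.getD j 0 : ℝ) * (r'.getD k 0 : ℝ) * (c'.getD b 0 : ℝ) * z a * (ce'.getD e 0 : ℝ) * (cs'.getD s 0 : ℝ) * (g6 A j k b a e s : ℝ))
    (Lin.sum fun j hj => Lin.sum fun k hk => Lin.sum fun b hb => Lin.sum fun a ha => Lin.sum fun e he => Lin.sum fun s hs => 
      Lin.basic ha ((t'.getD j 0 : ℝ) * (r'.getD k 0 : ℝ) * (c'.getD b 0 : ℝ) * (ce'.getD e 0 : ℝ) * (cs'.getD s 0 : ℝ) * (g6 A j k b a e s : ℝ)) fun z => by ring)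
    fun p hp q hq => ?_
  have key := (Int.cast_nonneg (R := ℝ) (h cs' hcs ce' hce c' hc' r' hr' t' ht' p hp q hq))
  push_cast at key
  refine key.trans_eq ?_
  refine ext_range lt (fun j => ?_) fun j hj => by
    simp [List.getElem?_eq_none hj]
  refine ext_range lr (fun k => ?_) fun k hk => by
    simp [List.getElem?_eq_none hk]
  refine ext_range lc (fun b => ?_) fun b hb => by
    simp [List.getElem?_eq_none hb]
  refine sum_congr rfl fun a _ => ?_
  refine ext_range le (fun e => ?_) fun e he => by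
    simp [List.getElem?_eq_none he]
  exact ext_range ls (fun s => rfl) fun s hs => by
    simp [List.getElem?_eq_none hs]

theorem OneOK.real {A : L5} {degs : List ℕ} {rp znet tnet enet snet : List (List ℕ)} {sp : L2}
    (h : OneOK A degs rp sp znet tnet enet snet) {NZ NJ NE NS : ℕ}
    {f cz ct ce cs : ℕ → ℝ} (hf : DomT rp sp degs f) (hz : DomN znet NZ cz)
    (ht : DomN tnet NJ ct) (he : DomN enet NE ce) (hs : DomN snet NS cs) :
    0 ≤ ∑ a ∈ range degs.length, ∑ z ∈ range NZ, ∑ t ∈ range NJ, ∑ e ∈ range NE,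
      ∑ s ∈ range NS, f a * cz z * ct t * ce e * cs s * (g5 A a z t e s : ℝ) := by
  refine domN hs (Φ := fun y => ∑ a ∈ range degs.length, ∑ z ∈ range NZ, ∑ t ∈ range NJ,
      ∑ e ∈ range NE, ∑ s ∈ range NS,
        f a * cz z * ct t * ce e * y s * (g5 A a z t e s : ℝ))
    (Lin.sum fun a ha => Lin.sum fun z hz => Lin.sum fun t ht => Lin.sum fun e he => Lin.sum fun s hs => 
      Lin.basic hs (f a * cz z * ct t * ce e * (g5 A a z t e s : ℝ)) fun y => by ring)
    fun cs' hcs ls => ?_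
  refine domN he (Φ := fun y => ∑ a ∈ range degs.length, ∑ z ∈ range NZ, ∑ t ∈ range NJ,
      ∑ e ∈ range NE, ∑ s ∈ range NS,
        f a * cz z * ct t * y e * (cs'.getD s 0 : ℝ) * (g5 A a z t e s : ℝ))
    (Lin.sum fun a ha => Lin.sum fun z hz => Lin.sum fun t ht => Lin.sum fun e he => Lin.sum fun s hs => 
      Lin.basic he (f a * cz z * ct t * (cs'.getD s 0 : ℝ) * (g5 A a z t e s : ℝ)) fun y => by ring)
    fun ce' hce le => ?_
  refine domN ht (Φ := fun y => ∑ a ∈ range degs.length, ∑ z ∈ range NZ, ∑ t ∈ range NJ,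
      ∑ e ∈ range NE, ∑ s ∈ range NS,
        f a * cz z * y t * (ce'.getD e 0 : ℝ) * (cs'.getD s 0 : ℝ) * (g5 A a z t e s : ℝ))
    (Lin.sum fun a ha => Lin.sum fun z hz => Lin.sum fun t ht => Lin.sum fun e he => Lin.sum fun s hs => 
      Lin.basic ht (f a * cz z * (ce'.getD e 0 : ℝ) * (cs'.getD s 0 : ℝ) * (g5 A a z t e s : ℝ)) fun y => by ring)
    fun ct' hct lt => ?_
  refine domN hz (Φ := fun y => ∑ a ∈ range degs.length, ∑ z ∈ range NZ, ∑ t ∈ range NJ,
      ∑ e ∈ range NE, ∑ s ∈ range NS,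
        f a * y z * (ct'.getD t 0 : ℝ) * (ce'.getD e 0 : ℝ) * (cs'.getD s 0 : ℝ) * (g5 A a z t e s : ℝ))
    (Lin.sum fun a ha => Lin.sum fun z hz => Lin.sum fun t ht => Lin.sum fun e he => Lin.sum fun s hs => 
      Lin.basic hz (f a * (ct'.getD t 0 : ℝ) * (ce'.getD e 0 : ℝ) * (cs'.getD s 0 : ℝ) * (g5 A a z t e s : ℝ)) fun y => by ring)
    fun cz' hcz lz => ?_
  refine domT hf (Φ := fun y => ∑ a ∈ range degs.length, ∑ z ∈ range NZ, ∑ t ∈ range NJ,
      ∑ e ∈ range NE, ∑ s ∈ range NS,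
        y a * (cz'.getD z 0 : ℝ) * (ct'.getD t 0 : ℝ) * (ce'.getD e 0 : ℝ) * (cs'.getD s 0 : ℝ) * (g5 A a z t e s : ℝ))
    (Lin.sum fun a ha => Lin.sum fun z hz => Lin.sum fun t ht => Lin.sum fun e he => Lin.sum fun s hs => 
      Lin.basic ha ((cz'.getD z 0 : ℝ) * (ct'.getD t 0 : ℝ) * (ce'.getD e 0 : ℝ) * (cs'.getD s 0 : ℝ) * (g5 A a z t e s : ℝ)) fun y => by ring)
    fun p hp q hq => ?_
  have key := (Int.cast_nonneg (R := ℝ) (h cs' hcs ce' hce ct' hct cz' hcz p hp q hq))
  push_cast at key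
  refine key.trans_eq ?_
  refine sum_congr rfl fun a _ => ?_
  refine ext_range lz (fun z => ?_) fun z hz => by
    simp [List.getElem?_eq_none hz]
  refine ext_range lt (fun t => ?_) fun t ht => by
    simp [List.getElem?_eq_none ht]
  refine ext_range le (fun e => ?_) fun e he => by
    simp [List.getElem?_eq_none he]
  exact ext_range ls (fun s => rfl) fun s hs => by
    simp [List.getElem?_eq_none hs]

theorem sc_real {A : L2} {enet snet : List (List ℕ)} (h : sc A enet snet = true) {NE NS : ℕ}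
    {ce cs : ℕ → ℝ} (he : DomN enet NE ce) (hs : DomN snet NS cs) :
    0 ≤ ∑ e ∈ range NE, ∑ s ∈ range NS, ce e * cs s * (g2 A e s : ℝ) := by
  refine domN hs (Φ := fun y => ∑ e ∈ range NE, ∑ s ∈ range NS, ce e * y s * (g2 A e s : ℝ))
    (Lin.sum fun e _ => Lin.sum fun s hs => Lin.basic hs (ce e * (g2 A e s : ℝ)) fun y => by ring)
    fun cs' hcs ls => ?_
  refine domN he (Φ := fun y => ∑ e ∈ range NE, ∑ s ∈ range NS,
      y e * (cs'.getD s 0 : ℝ) * (g2 A e s : ℝ))
    (Lin.sum fun e he => Lin.sum fun s _ =>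
      Lin.basic he ((cs'.getD s 0 : ℝ) * (g2 A e s : ℝ)) fun y => by ring)
    fun ce' hce le => ?_
  have h1 := of_decide_eq_true (allL_true (allL_true h cs' hcs) ce' hce)
  have h2 : ∀ e, (A.map (dotZN cs')).getD e 0 = dotZN cs' (A.getD e []) := fun e => by
    have h3 : dotZN cs' [] = 0 := by cases cs' <;> rfl
    rw [← h3, List.getD_map]
  rw [dotZN_eq _ _ le, mapL_eq] at h1
  simp only [h2, dotZN_eq _ _ ls, mul_sum] at h1
  have key := Int.cast_nonneg (R := ℝ) h1
  push_cast at key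
  refine key.trans_eq (sum_congr rfl fun e _ => sum_congr rfl fun s _ => ?_)
  rw [g2, mul_assoc]

theorem trimZ_getD (l : List ℤ) (i : ℕ) : (trimZ l).getD i 0 = l.getD i 0 := by
  unfold trimZ
  cases h : allL (fun x => decide (x = 0)) l with
  | false => rfl
  | true =>
    change ([] : List ℤ).getD i 0 = _
    rcases lt_or_ge i l.length with hi | hi
    · rw [List.getD_eq_getElem _ _ hi, of_decide_eq_true (allL_true h _ (List.getElem_mem hi))]
      rfl
    · rw [List.getD_eq_default _ _ hi]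
      rfl

theorem dotZ_eq (a b : List ℤ) {n : ℕ} (h : b.length ≤ n) :
    dotZ a b = ∑ t ∈ range n, a.getD t 0 * b.getD t 0 := by
  induction a generalizing b n with
  | nil => simp [dotZ]
  | cons x a ih =>
    cases b with
    | nil => simp [dotZ]
    | cons y b =>
      obtain ⟨n, rfl⟩ : ∃ m, n = m + 1 := ⟨n - 1, by rw [List.length_cons] at h; omega⟩
      rw [sum_range_succ', show dotZ (x :: a) (y :: b) = x * y + dotZ a b from rfl,
        ih b (n := n) (by rw [List.length_cons] at h; omega), add_comm]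
      simp only [List.getD_cons_succ, List.getD_cons_zero]

theorem dot3_eq (a b c : List ℤ) {n : ℕ} (h : b.length ≤ n) :
    dot3 a b c = ∑ t ∈ range n, a.getD t 0 * (b.getD t 0 * c.getD t 0) := by
  induction a generalizing b c n with
  | nil => simp [dot3]
  | cons x a ih =>
    cases b with
    | nil => simp [dot3]
    | cons y b =>
      cases c with
      | nil => simp [dot3]
      | cons z c =>
        obtain ⟨n, rfl⟩ : ∃ m, n = m + 1 := ⟨n - 1, by rw [List.length_cons] at h; omega⟩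
        rw [sum_range_succ',
          show dot3 (x :: a) (y :: b) (z :: c) = x * (y * z) + dot3 a b c from rfl,
          ih b c (n := n) (by rw [List.length_cons] at h; omega), add_comm]
        simp only [List.getD_cons_succ, List.getD_cons_zero]

theorem dotDeg_eq (z : ℕ) (a b : List ℤ) (d : List ℕ) (h : b.length ≤ d.length) :
    dotDeg z a b d =
      ∑ t ∈ range d.length, if d.getD t 0 = z then a.getD t 0 * b.getD t 0 else 0 := by
  induction a generalizing b d with
  | nil => simp [dotDeg]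
  | cons x a ih =>
    cases b with
    | nil => simp [dotDeg]
    | cons y b =>
      cases d with
      | nil => simp at h
      | cons e d =>
        rw [List.length_cons, sum_range_succ', show dotDeg z (x :: a) (y :: b) (e :: d) =
          Bool.rec (dotDeg z a b d) (x * y + dotDeg z a b d) (Nat.beq e z) from rfl,
          ih b d (by simpa using h)]
        simp only [List.getD_cons_succ, List.getD_cons_zero]
        cases he : Nat.beq e z with
        | false => rw [if_neg (Nat.ne_of_beq_eq_false he), add_zero]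
        | true => rw [if_pos (Nat.eq_of_beq_eq_true he), add_comm]

end Crest.Agent.R163.Ck
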