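import Crest.Agent.R163.Law

/-! Row 163: the unfolding lemmas of `Law.pow`, generated once. -/

namespace Crest.Agent.R163

theorem pow_eq_anchor : True := by
  have := @Law.pow.eq_def
  have := @Law.pow.eq_1
  have := @Law.pow.eq_2
  trivial

end Crest.Agent.R163
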