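import Crest.Agent.R163.NetUni

/-! Row 163: shape nets for four states: one trapezoid. -/

set_option autoImplicit false

namespace Crest.Agent.R163.Ck

open Finset

/-- bilinear interpolation -/
noncomputable def bil (f00 f10 f01 f11 : ℤ) (b c : ℝ) : ℝ :=
  (1 - c) * (f00 * (1 - b) + f10 * b) + c * (f01 * (1 - b) + f11 * b)

namespace Shape4H

theorem getD_addL : ∀ (u v : List ℤ) (i : ℕ), (addL u v).getD i 0 = u.getD i 0 + v.getD i 0
  | [], v, i => by simp [addL]
  | a :: u, [], i => by simp [addL]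
  | a :: u, b :: v, 0 => by simp [addL]
  | a :: u, b :: v, i + 1 => by
      have := getD_addL u v i
      simpa [addL] using this

theorem length_addL : ∀ (u v : List ℤ) (n : ℕ), u.length ≤ n → v.length ≤ n →
    (addL u v).length ≤ n
  | [], v, n, _, h => by simpa [addL] using h
  | a :: u, [], n, h, _ => by simpa [addL] using h
  | a :: u, b :: v, 0, h, _ => by simp at h
  | a :: u, b :: v, n + 1, h, h' => by
      have := length_addL u v n (by simpa using h) (by simpa using h')
      simpa [addL] using this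

theorem evB_nil (n : ℕ) (b : ℝ) : evB n [] b = 0 := by simp [evB]

theorem evB_addL (n : ℕ) (u v : List ℤ) (b : ℝ) :
    evB n (addL u v) b = evB n u b + evB n v b := by
  unfold evB
  rw [← sum_add_distrib]
  refine sum_congr rfl fun i _ => ?_
  rw [getD_addL]; push_cast; ring

theorem length_outGo (f g : List ℤ → List ℤ) : ∀ (P : List (List ℤ)) (prev : List ℤ),
    (outGo f g prev P).length = P.length + 1
  | [], prev => by simp [outGo]
  | r :: rs, prev => by simp [outGo, length_outGo f g rs r]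

theorem rows_outGo {f g : List ℤ → List ℤ} {n n' : ℕ}
    (hf : ∀ r : List ℤ, r.length ≤ n → (f r).length ≤ n')
    (hg : ∀ r : List ℤ, r.length ≤ n → (g r).length ≤ n') :
    ∀ (P : List (List ℤ)) (prev : List ℤ), (∀ r ∈ P, r.length ≤ n) → prev.length ≤ n →
      ∀ r ∈ outGo f g prev P, r.length ≤ n'
  | [], prev, _, hp => by
      intro r hr
      simp only [outGo, List.mem_singleton] at hr
      subst hr; exact hg _ hp
  | r0 :: rs, prev, hP, hp => by
      intro r hr
      simp only [outGo, List.mem_cons] at hr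
      rcases hr with rfl | hr
      · exact length_addL _ _ _ (hf _ (hP _ (by simp))) (hg _ hp)
      · exact rows_outGo hf hg rs r0 (fun x hx => hP x (by simp [hx])) (hP _ (by simp)) r hr

theorem ev_outGo {f g : List ℤ → List ℤ} {n n' : ℕ} {b α β : ℝ}
    (hf : ∀ r : List ℤ, r.length ≤ n + 1 → evB n' (f r) b = α * evB n r b)
    (hg : ∀ r : List ℤ, r.length ≤ n + 1 → evB n' (g r) b = β * evB n r b) :
    ∀ (P : List (List ℤ)) (prev : List ℤ), (∀ r ∈ P, r.length ≤ n + 1) → prev.length ≤ n + 1 →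
      ∀ l : ℕ, evB n' ((outGo f g prev P).getD l []) b =
        α * evB n (P.getD l []) b + β * evB n ((prev :: P).getD l []) b
  | [], prev, _, hp, 0 => by simp [outGo, hg _ hp, evB_nil]
  | [], prev, _, _, l + 1 => by simp [outGo, evB_nil]
  | r0 :: rs, prev, hP, hp, 0 => by
      simp [outGo, evB_addL, hg _ hp, hf _ (hP r0 (by simp))]
  | r0 :: rs, prev, hP, _, l + 1 => by
      have := ev_outGo hf hg rs r0 (fun x hx => hP x (by simp [hx])) (hP _ (by simp)) l
      simpa [outGo] using this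

/-- value of a biform -/
noncomputable def evBi (n m : ℕ) (P : List (List ℤ)) (b c : ℝ) : ℝ :=
  ∑ l ∈ range (m + 1), evB n (P.getD l []) b * (c ^ l * (1 - c) ^ (m - l))

/-- `P` is a biform of bidegree `(n, m)` with value `v` -/
def Rep (b c : ℝ) (n m : ℕ) (P : List (List ℤ)) (v : ℝ) : Prop :=
  P.length ≤ m + 1 ∧ (∀ r ∈ P, r.length ≤ n + 1) ∧ evBi n m P b c = v

theorem getD_len {n : ℕ} {P : List (List ℤ)} (h : ∀ r ∈ P, r.length ≤ n) (l : ℕ) :
    (P.getD l []).length ≤ n := by
  rcases lt_or_ge l P.length with hl | hl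
  · rw [List.getD_eq_getElem _ _ hl]; exact h _ (List.getElem_mem hl)
  · rw [List.getD_eq_default _ _ hl]; simp

theorem rep_outGo {f g : List ℤ → List ℤ} {n n' m : ℕ} {b c α β v : ℝ} {P : List (List ℤ)}
    (hf' : ∀ r : List ℤ, r.length ≤ n + 1 → (f r).length ≤ n' + 1)
    (hg' : ∀ r : List ℤ, r.length ≤ n + 1 → (g r).length ≤ n' + 1)
    (hf : ∀ r : List ℤ, r.length ≤ n + 1 → evB n' (f r) b = α * evB n r b)
    (hg : ∀ r : List ℤ, r.length ≤ n + 1 → evB n' (g r) b = β * evB n r b)
    (h : Rep b c n m P v) :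
    Rep b c n' (m + 1) (outGo f g [] P) (((1 - c) * α + c * β) * v) := by
  obtain ⟨h1, h2, h3⟩ := h
  refine ⟨by rw [length_outGo]; omega, rows_outGo hf' hg' P [] h2 (by simp), ?_⟩
  subst h3
  unfold evBi
  simp only [ev_outGo hf hg P [] h2 (by simp), add_mul, sum_add_distrib]
  congr 1
  · rw [sum_range_succ, List.getD_eq_default _ _ h1, evB_nil, mul_sum]
    simp only [mul_zero, zero_mul, add_zero]
    refine sum_congr rfl fun l hl => ?_
    have : m + 1 - l = (m - l) + 1 := by have := mem_range.1 hl; omega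
    rw [this]; ring
  · rw [sum_range_succ', mul_sum]
    simp only [List.getD_cons_succ, List.getD_cons_zero, evB_nil, mul_zero, zero_mul, add_zero]
    refine sum_congr rfl fun l _ => ?_
    have : m + 1 - (l + 1) = m - l := by omega
    rw [this]; ring

theorem rep_map (lo hi : ℤ) {n m : ℕ} {b c v : ℝ} {P : List (List ℤ)} (h : Rep b c n m P v) :
    Rep b c (n + 1) m (P.map (mulLin lo hi)) ((lo * (1 - b) + hi * b) * v) := by
  obtain ⟨h1, h2, h3⟩ := h
  refine ⟨by simpa using h1, ?_, ?_⟩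
  · intro r hr
    obtain ⟨r', hr', rfl⟩ := List.mem_map.1 hr
    rw [length_mulLin]; have := h2 r' hr'; omega
  · subst h3
    unfold evBi
    rw [mul_sum]
    refine sum_congr rfl fun l _ => ?_
    rw [← mul_assoc ((lo : ℝ) * (1 - b) + hi * b)]
    congr 1
    rcases lt_or_ge l P.length with hl | hl
    · rw [List.getD_eq_getElem _ _ (by simpa using hl), List.getElem_map,
        List.getD_eq_getElem _ _ hl, evB_mulLin _ _ (h2 _ (List.getElem_mem hl))]
    · rw [List.getD_eq_default _ _ (by simpa using hl), List.getD_eq_default _ _ hl, evB_nil,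
        evB_nil, mul_zero]

theorem rep_mulBi (f00 f10 f01 f11 : ℤ) {n m : ℕ} {b c v : ℝ} {P : List (List ℤ)}
    (h : Rep b c n m P v) :
    Rep b c (n + 1) (m + 1) (mulBi f00 f10 f01 f11 P) (bil f00 f10 f01 f11 b c * v) :=
  rep_outGo (fun r hr => by rw [length_mulLin]; omega) (fun r hr => by rw [length_mulLin]; omega)
    (fun _ hr => evB_mulLin _ _ hr b) (fun _ hr => evB_mulLin _ _ hr b) h

theorem rep_id {n m : ℕ} {b c v : ℝ} {P : List (List ℤ)} (h : Rep b c n m P v) :
    Rep b c n (m + 1) (outGo id id [] P) v := by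
  have := rep_outGo (f := id) (g := id) (n' := n) (α := 1) (β := 1) (fun _ hr => hr)
    (fun _ hr => hr) (fun _ _ => by simp) (fun _ _ => by simp) h
  convert this using 1; ring

theorem rep_iter {b c w : ℝ} {F : List (List ℤ) → List (List ℤ)} {dn dm : ℕ}
    (hF : ∀ n m P v, Rep b c n m P v → Rep b c (n + dn) (m + dm) (F P) (w * v)) (k : ℕ)
    {n m : ℕ} {P : List (List ℤ)} {v : ℝ} (h : Rep b c n m P v) :
    Rep b c (n + k * dn) (m + k * dm) (F^[k] P) (w ^ k * v) := by
  induction k with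
  | zero => simpa using h
  | succ k ih =>
    rw [Function.iterate_succ_apply']
    have := hF _ _ _ _ ih
    convert this using 1 <;> ring

theorem rep_one (b c : ℝ) : Rep b c 0 0 [[1]] 1 := by
  refine ⟨by simp, by simp, ?_⟩
  simp [evBi, evB]

theorem rep_col (DY DG : ℕ) (a : ℕ × ℕ × ℕ) (h1 : a.1 + a.2.1 + a.2.2 ≤ DY)
    (h2 : a.2.1 + a.2.2 ≤ DG) (x0 x1 m00 m10 m01 m11 e00 e10 e01 e11 : ℤ) (b c : ℝ) :
    Rep b c DY DG ((List.map (mulLin x0 x1))^[a.1] ((mulBi m00 m10 m01 m11)^[a.2.1]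
      ((mulBi e00 e10 e01 e11)^[a.2.2]
      ((List.map (mulLin 13824 13824))^[DY - a.1 - a.2.1 - a.2.2]
      ((outGo id id [])^[DG - a.2.1 - a.2.2] [[1]])))))
      (13824 ^ DY * (((x0 * (1 - b) + x1 * b) / 13824) ^ a.1 *
        (bil m00 m10 m01 m11 b c / 13824) ^ a.2.1 * (bil e00 e10 e01 e11 b c / 13824) ^ a.2.2)) := by
  have s1 := rep_iter (b := b) (c := c) (w := 1) (F := outGo id id []) (dn := 0) (dm := 1)
    (fun n m P v h => by simpa using rep_id h) (DG - a.2.1 - a.2.2) (rep_one b c)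
  have s2 := rep_iter (dn := 1) (dm := 0) (fun n m P v h => rep_map 13824 13824 h)
    (DY - a.1 - a.2.1 - a.2.2) s1
  have s3 := rep_iter (dn := 1) (dm := 1) (fun n m P v h => rep_mulBi e00 e10 e01 e11 h) a.2.2 s2
  have s4 := rep_iter (dn := 1) (dm := 1) (fun n m P v h => rep_mulBi m00 m10 m01 m11 h) a.2.1 s3
  have s5 := rep_iter (dn := 1) (dm := 0) (fun n m P v h => rep_map x0 x1 h) a.1 s4
  convert s5 using 1
  · omega
  · omega
  · obtain ⟨k, rfl⟩ := Nat.exists_eq_add_of_le h1
    have e1 : a.1 + a.2.1 + a.2.2 + k - a.1 - a.2.1 - a.2.2 = k := by omega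
    have e2 : (((13824 : ℤ) : ℝ) * (1 - b) + ((13824 : ℤ) : ℝ) * b) = 13824 := by
      push_cast; ring
    rw [e1, e2]
    simp only [div_pow, pow_add, one_pow, mul_one]
    field_simp

theorem dom_cols (DY DG : ℕ) (cols : List (List (List ℤ))) {b c : ℝ} (hb0 : 0 ≤ b) (hb1 : b ≤ 1)
    (hc0 : 0 ≤ c) (hc1 : c ≤ 1) {K : ℝ} (hK : 0 < K) (z : ℕ → ℝ)
    (h : ∀ k < cols.length, evBi DY DG (cols.getD k []) b c = K * z k) :
    Dom ((List.range (DG + 1)).flatMap fun l => (List.range (DY + 1)).map fun i =>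
      cols.map fun col => (col.getD l []).getD i 0) cols.length z := by
  constructor
  · intro r hr
    simp only [List.mem_flatMap, List.mem_map] at hr
    obtain ⟨l, -, i, -, rfl⟩ := hr
    simp
  · intro a ha
    have key : K * ∑ k ∈ range cols.length, z k * a k =
        ∑ l ∈ range (DG + 1), ∑ i ∈ range (DY + 1),
          (b ^ i * (1 - b) ^ (DY - i)) * (c ^ l * (1 - c) ^ (DG - l)) *
          ∑ k ∈ range cols.length,
            (((cols.map fun col => (col.getD l []).getD i 0).getD k 0 : ℤ) : ℝ) * a k := by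
      simp only [mul_sum]
      rw [sum_congr rfl fun l _ => sum_comm, sum_comm]
      refine sum_congr rfl fun k hk => ?_
      have hk' := mem_range.1 hk
      rw [← mul_assoc, ← h k hk']
      unfold evBi evB
      simp only [sum_mul]
      refine sum_congr rfl fun l _ => sum_congr rfl fun i _ => ?_
      rw [List.getD_eq_getElem (cols.map _) _ (by simpa using hk'), List.getElem_map,
        List.getD_eq_getElem cols _ hk']
      ring
    have hnn : 0 ≤ K * ∑ k ∈ range cols.length, z k * a k := by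
      rw [key]
      refine sum_nonneg fun l hl => sum_nonneg fun i hi => mul_nonneg ?_ (ha _ ?_)
      · have := sub_nonneg.2 hb1
        have := sub_nonneg.2 hc1
        positivity
      · simp only [List.mem_flatMap, List.mem_map, List.mem_range]
        exact ⟨l, mem_range.1 hl, i, mem_range.1 hi, rfl⟩
    exact nonneg_of_mul_nonneg_right hnn hK

end Shape4H

theorem dom_shape4 (DY DG : ℕ) {fs : List (ℕ × ℕ × ℕ)}
    (hfs : ∀ a ∈ fs, a.1 + a.2.1 + a.2.2 ≤ DY ∧ a.2.1 + a.2.2 ≤ DG) (s0 s1 t0 t1 : ℕ) {b c : ℝ}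
    (hb0 : 0 ≤ b) (hb1 : b ≤ 1) (hc0 : 0 ≤ c) (hc1 : c ≤ 1) :
    Dom (shape4 DY DG fs s0 s1 t0 t1) fs.length (fun k =>
      ((xval s0 * (1 - b) + xval s1 * b) / 13824) ^ (fs.getD k (0, 0, 0)).1 *
      (bil (mval (decide (8 ≤ s0)) s0 t0) (mval (decide (8 ≤ s0)) s1 t0)
        (mval (decide (8 ≤ s0)) s0 t1) (mval (decide (8 ≤ s0)) s1 t1) b c / 13824) ^
          (fs.getD k (0, 0, 0)).2.1 *
      (bil (eval4 (decide (8 ≤ s0)) s0 t0) (eval4 (decide (8 ≤ s0)) s1 t0)
        (eval4 (decide (8 ≤ s0)) s0 t1) (eval4 (decide (8 ≤ s0)) s1 t1) b c / 13824) ^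
          (fs.getD k (0, 0, 0)).2.2) := by
  unfold shape4
  beta_reduce
  generalize decide (8 ≤ s0) = up
  have hl : ∀ F : ℕ × ℕ × ℕ → List (List ℤ), fs.length = (fs.map F).length := fun F => by simp
  rw [hl]
  refine Shape4H.dom_cols DY DG _ hb0 hb1 hc0 hc1 (K := 13824 ^ DY) (by positivity) _ ?_
  intro k hk
  have hk' : k < fs.length := by simpa using hk
  rw [List.getD_eq_getElem (fs.map _) _ hk, List.getElem_map, List.getD_eq_getElem fs _ hk']
  obtain ⟨h1, h2⟩ := hfs _ (List.getElem_mem hk')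
  exact (Shape4H.rep_col DY DG _ h1 h2 _ _ _ _ _ _ _ _ _ _ b c).2.2

end Crest.Agent.R163.Ck
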