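import Crest.Agent.R163.CkCert

/-! Row 163: restricted tables, data (generated). -/

set_option autoImplicit false
set_option Elab.async false
set_option maxRecDepth 100000

namespace Crest.Agent.R163.Ck

def fs3_6 : Fs := [(0, 0, 0), (1, 0, 0), (0, 1, 0), (2, 0, 0), (1, 1, 0), (3, 0, 0), (0, 2, 0)]

def lams3_6 : List (List ℕ) := [[1, 0, 0], [2, 0, 0], [1, 1, 0], [3, 0, 0], [2, 1, 0], [1, 1, 1], [4, 0, 0], [3, 1, 0], [2, 2, 0], [2, 1, 1], [5, 0, 0], [4, 1, 0], [3, 2, 0], [3, 1, 1], [2, 2, 1], [6, 0, 0], [5, 1, 0], [4, 2, 0], [4, 1, 1], [3, 3, 0], [3, 2, 1], [2, 2, 2]]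

noncomputable def TT3_6 : L2 := [[.ofNat (nat_lit 32), .ofNat (nat_lit 32), .ofNat (nat_lit 32), .ofNat (nat_lit 32), .ofNat (nat_lit 32), .ofNat (nat_lit 32), .ofNat (nat_lit 32), .ofNat (nat_lit 32), .ofNat (nat_lit 32), .ofNat (nat_lit 32), .ofNat (nat_lit 32), .ofNat (nat_lit 32), .ofNat (nat_lit 32), .ofNat (nat_lit 32), .ofNat (nat_lit 32), .ofNat (nat_lit 32), .ofNat (nat_lit 32), .ofNat (nat_lit 32), .ofNat (nat_lit 32), .ofNat (nat_lit 32), .ofNat (nat_lit 32), .ofNat (nat_lit 32)],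
  [.ofNat (nat_lit 0), .ofNat (nat_lit 32), .negSucc (nat_lit 15), .ofNat (nat_lit 96), .ofNat (nat_lit 0), .negSucc (nat_lit 47), .ofNat (nat_lit 192), .ofNat (nat_lit 48), .ofNat (nat_lit 0), .negSucc (nat_lit 47), .ofNat (nat_lit 320), .ofNat (nat_lit 128), .ofNat (nat_lit 32), .negSucc (nat_lit 15), .negSucc (nat_lit 63), .ofNat (nat_lit 480), .ofNat (nat_lit 240), .ofNat (nat_lit 96), .ofNat (nat_lit 48), .ofNat (nat_lit 48), .negSucc (nat_lit 47), .negSucc (nat_lit 95)],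
  [.ofNat (nat_lit 0), .ofNat (nat_lit 0), .ofNat (nat_lit 0), .ofNat (nat_lit 32), .negSucc (nat_lit 15), .ofNat (nat_lit 32), .ofNat (nat_lit 128), .negSucc (nat_lit 15), .negSucc (nat_lit 63), .ofNat (nat_lit 32), .ofNat (nat_lit 320), .ofNat (nat_lit 32), .negSucc (nat_lit 111), .ofNat (nat_lit 32), .ofNat (nat_lit 32), .ofNat (nat_lit 640), .ofNat (nat_lit 160), .negSucc (nat_lit 127), .ofNat (nat_lit 64), .negSucc (nat_lit 223), .ofNat (nat_lit 16), .ofNat (nat_lit 64)],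
  [.ofNat (nat_lit 0), .ofNat (nat_lit 0), .ofNat (nat_lit 0), .ofNat (nat_lit 0), .ofNat (nat_lit 0), .ofNat (nat_lit 0), .ofNat (nat_lit 48), .negSucc (nat_lit 23), .ofNat (nat_lit 24), .ofNat (nat_lit 0), .ofNat (nat_lit 240), .negSucc (nat_lit 47), .ofNat (nat_lit 24), .negSucc (nat_lit 47), .ofNat (nat_lit 24), .ofNat (nat_lit 720), .ofNat (nat_lit 0), .ofNat (nat_lit 0), .negSucc (nat_lit 143), .ofNat (nat_lit 72), .ofNat (nat_lit 0), .ofNat (nat_lit 72)],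
  [.ofNat (nat_lit 0), .ofNat (nat_lit 0), .ofNat (nat_lit 0), .ofNat (nat_lit 0), .ofNat (nat_lit 0), .ofNat (nat_lit 0), .ofNat (nat_lit 0), .ofNat (nat_lit 0), .ofNat (nat_lit 0), .ofNat (nat_lit 0), .ofNat (nat_lit 80), .negSucc (nat_lit 39), .ofNat (nat_lit 8), .ofNat (nat_lit 32), .negSucc (nat_lit 15), .ofNat (nat_lit 480), .negSucc (nat_lit 119), .negSucc (nat_lit 47), .ofNat (nat_lit 48), .ofNat (nat_lit 48), .ofNat (nat_lit 24), .negSucc (nat_lit 95)],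
  [.ofNat (nat_lit 0), .ofNat (nat_lit 0), .ofNat (nat_lit 0), .ofNat (nat_lit 0), .ofNat (nat_lit 0), .ofNat (nat_lit 0), .ofNat (nat_lit 0), .ofNat (nat_lit 0), .ofNat (nat_lit 0), .ofNat (nat_lit 0), .ofNat (nat_lit 0), .ofNat (nat_lit 0), .ofNat (nat_lit 0), .ofNat (nat_lit 0), .ofNat (nat_lit 0), .ofNat (nat_lit 72), .negSucc (nat_lit 35), .ofNat (nat_lit 36), .ofNat (nat_lit 0), .negSucc (nat_lit 35), .ofNat (nat_lit 0), .ofNat (nat_lit 0)],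
  [.ofNat (nat_lit 0), .ofNat (nat_lit 0), .ofNat (nat_lit 0), .ofNat (nat_lit 0), .ofNat (nat_lit 0), .ofNat (nat_lit 0), .ofNat (nat_lit 0), .ofNat (nat_lit 0), .ofNat (nat_lit 0), .ofNat (nat_lit 0), .ofNat (nat_lit 0), .ofNat (nat_lit 0), .ofNat (nat_lit 0), .ofNat (nat_lit 0), .ofNat (nat_lit 0), .ofNat (nat_lit 32), .negSucc (nat_lit 15), .negSucc (nat_lit 15), .ofNat (nat_lit 32), .ofNat (nat_lit 32), .negSucc (nat_lit 15), .ofNat (nat_lit 32)]]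

def fs3_7 : Fs := [(0, 0, 0), (1, 0, 0), (0, 1, 0), (2, 0, 0), (1, 1, 0), (3, 0, 0), (0, 2, 0), (2, 1, 0)]

def lams3_7 : List (List ℕ) := [[1, 0, 0], [2, 0, 0], [1, 1, 0], [3, 0, 0], [2, 1, 0], [1, 1, 1], [4, 0, 0], [3, 1, 0], [2, 2, 0], [2, 1, 1], [5, 0, 0], [4, 1, 0], [3, 2, 0], [3, 1, 1], [2, 2, 1], [6, 0, 0], [5, 1, 0], [4, 2, 0], [4, 1, 1], [3, 3, 0], [3, 2, 1], [2, 2, 2], [7, 0, 0], [6, 1, 0], [5, 2, 0], [5, 1, 1], [4, 3, 0], [4, 2, 1], [3, 3, 1], [3, 2, 2]]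

noncomputable def TT3_7 : L2 := [[.ofNat (nat_lit 32), .ofNat (nat_lit 32), .ofNat (nat_lit 32), .ofNat (nat_lit 32), .ofNat (nat_lit 32), .ofNat (nat_lit 32), .ofNat (nat_lit 32), .ofNat (nat_lit 32), .ofNat (nat_lit 32), .ofNat (nat_lit 32), .ofNat (nat_lit 32), .ofNat (nat_lit 32), .ofNat (nat_lit 32), .ofNat (nat_lit 32), .ofNat (nat_lit 32), .ofNat (nat_lit 32), .ofNat (nat_lit 32), .ofNat (nat_lit 32), .ofNat (nat_lit 32), .ofNat (nat_lit 32), .ofNat (nat_lit 32), .ofNat (nat_lit 32), .ofNat (nat_lit 32), .ofNat (nat_lit 32), .ofNat (nat_lit 32), .ofNat (nat_lit 32), .ofNat (nat_lit 32), .ofNat (nat_lit 32), .ofNat (nat_lit 32), .ofNat (nat_lit 32)],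
  [.ofNat (nat_lit 0), .ofNat (nat_lit 32), .negSucc (nat_lit 15), .ofNat (nat_lit 96), .ofNat (nat_lit 0), .negSucc (nat_lit 47), .ofNat (nat_lit 192), .ofNat (nat_lit 48), .ofNat (nat_lit 0), .negSucc (nat_lit 47), .ofNat (nat_lit 320), .ofNat (nat_lit 128), .ofNat (nat_lit 32), .negSucc (nat_lit 15), .negSucc (nat_lit 63), .ofNat (nat_lit 480), .ofNat (nat_lit 240), .ofNat (nat_lit 96), .ofNat (nat_lit 48), .ofNat (nat_lit 48), .negSucc (nat_lit 47), .negSucc (nat_lit 95), .ofNat (nat_lit 672), .ofNat (nat_lit 384), .ofNat (nat_lit 192), .ofNat (nat_lit 144), .ofNat (nat_lit 96), .ofNat (nat_lit 0), .negSucc (nat_lit 47), .negSucc (nat_lit 95)],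
  [.ofNat (nat_lit 0), .ofNat (nat_lit 0), .ofNat (nat_lit 0), .ofNat (nat_lit 32), .negSucc (nat_lit 15), .ofNat (nat_lit 32), .ofNat (nat_lit 128), .negSucc (nat_lit 15), .negSucc (nat_lit 63), .ofNat (nat_lit 32), .ofNat (nat_lit 320), .ofNat (nat_lit 32), .negSucc (nat_lit 111), .ofNat (nat_lit 32), .ofNat (nat_lit 32), .ofNat (nat_lit 640), .ofNat (nat_lit 160), .negSucc (nat_lit 127), .ofNat (nat_lit 64), .negSucc (nat_lit 223), .ofNat (nat_lit 16), .ofNat (nat_lit 64), .ofNat (nat_lit 1120), .ofNat (nat_lit 400), .negSucc (nat_lit 79), .ofNat (nat_lit 160), .negSucc (nat_lit 319), .ofNat (nat_lit 16), .negSucc (nat_lit 31), .ofNat (nat_lit 64)],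
  [.ofNat (nat_lit 0), .ofNat (nat_lit 0), .ofNat (nat_lit 0), .ofNat (nat_lit 0), .ofNat (nat_lit 0), .ofNat (nat_lit 0), .ofNat (nat_lit 48), .negSucc (nat_lit 23), .ofNat (nat_lit 24), .ofNat (nat_lit 0), .ofNat (nat_lit 240), .negSucc (nat_lit 47), .ofNat (nat_lit 24), .negSucc (nat_lit 47), .ofNat (nat_lit 24), .ofNat (nat_lit 720), .ofNat (nat_lit 0), .ofNat (nat_lit 0), .negSucc (nat_lit 143), .ofNat (nat_lit 72), .ofNat (nat_lit 0), .ofNat (nat_lit 72), .ofNat (nat_lit 1680), .ofNat (nat_lit 240), .ofNat (nat_lit 0), .negSucc (nat_lit 239), .ofNat (nat_lit 96), .negSucc (nat_lit 95), .ofNat (nat_lit 24), .ofNat (nat_lit 72)],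
  [.ofNat (nat_lit 0), .ofNat (nat_lit 0), .ofNat (nat_lit 0), .ofNat (nat_lit 0), .ofNat (nat_lit 0), .ofNat (nat_lit 0), .ofNat (nat_lit 0), .ofNat (nat_lit 0), .ofNat (nat_lit 0), .ofNat (nat_lit 0), .ofNat (nat_lit 80), .negSucc (nat_lit 39), .ofNat (nat_lit 8), .ofNat (nat_lit 32), .negSucc (nat_lit 15), .ofNat (nat_lit 480), .negSucc (nat_lit 119), .negSucc (nat_lit 47), .ofNat (nat_lit 48), .ofNat (nat_lit 48), .ofNat (nat_lit 24), .negSucc (nat_lit 95), .ofNat (nat_lit 1680), .negSucc (nat_lit 119), .negSucc (nat_lit 239), .ofNat (nat_lit 0), .ofNat (nat_lit 24), .ofNat (nat_lit 72), .ofNat (nat_lit 96), .negSucc (nat_lit 95)],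
  [.ofNat (nat_lit 0), .ofNat (nat_lit 0), .ofNat (nat_lit 0), .ofNat (nat_lit 0), .ofNat (nat_lit 0), .ofNat (nat_lit 0), .ofNat (nat_lit 0), .ofNat (nat_lit 0), .ofNat (nat_lit 0), .ofNat (nat_lit 0), .ofNat (nat_lit 0), .ofNat (nat_lit 0), .ofNat (nat_lit 0), .ofNat (nat_lit 0), .ofNat (nat_lit 0), .ofNat (nat_lit 72), .negSucc (nat_lit 35), .ofNat (nat_lit 36), .ofNat (nat_lit 0), .negSucc (nat_lit 35), .ofNat (nat_lit 0), .ofNat (nat_lit 0), .ofNat (nat_lit 504), .negSucc (nat_lit 143), .ofNat (nat_lit 108), .negSucc (nat_lit 71), .negSucc (nat_lit 35), .ofNat (nat_lit 36), .negSucc (nat_lit 35), .ofNat (nat_lit 0)],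
  [.ofNat (nat_lit 0), .ofNat (nat_lit 0), .ofNat (nat_lit 0), .ofNat (nat_lit 0), .ofNat (nat_lit 0), .ofNat (nat_lit 0), .ofNat (nat_lit 0), .ofNat (nat_lit 0), .ofNat (nat_lit 0), .ofNat (nat_lit 0), .ofNat (nat_lit 0), .ofNat (nat_lit 0), .ofNat (nat_lit 0), .ofNat (nat_lit 0), .ofNat (nat_lit 0), .ofNat (nat_lit 32), .negSucc (nat_lit 15), .negSucc (nat_lit 15), .ofNat (nat_lit 32), .ofNat (nat_lit 32), .negSucc (nat_lit 15), .ofNat (nat_lit 32), .ofNat (nat_lit 224), .negSucc (nat_lit 63), .negSucc (nat_lit 111), .ofNat (nat_lit 128), .ofNat (nat_lit 80), .negSucc (nat_lit 15), .negSucc (nat_lit 63), .ofNat (nat_lit 32)],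
  [.ofNat (nat_lit 0), .ofNat (nat_lit 0), .ofNat (nat_lit 0), .ofNat (nat_lit 0), .ofNat (nat_lit 0), .ofNat (nat_lit 0), .ofNat (nat_lit 0), .ofNat (nat_lit 0), .ofNat (nat_lit 0), .ofNat (nat_lit 0), .ofNat (nat_lit 0), .ofNat (nat_lit 0), .ofNat (nat_lit 0), .ofNat (nat_lit 0), .ofNat (nat_lit 0), .ofNat (nat_lit 0), .ofNat (nat_lit 0), .ofNat (nat_lit 0), .ofNat (nat_lit 0), .ofNat (nat_lit 0), .ofNat (nat_lit 0), .ofNat (nat_lit 0), .ofNat (nat_lit 168), .negSucc (nat_lit 83), .ofNat (nat_lit 36), .ofNat (nat_lit 48), .negSucc (nat_lit 11), .negSucc (nat_lit 23), .ofNat (nat_lit 24), .ofNat (nat_lit 0)]]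

def fs3_8 : Fs := [(0, 0, 0), (1, 0, 0), (0, 1, 0), (2, 0, 0), (1, 1, 0), (3, 0, 0), (0, 2, 0), (2, 1, 0), (4, 0, 0), (1, 2, 0)]

def lams3_8 : List (List ℕ) := [[1, 0, 0], [2, 0, 0], [1, 1, 0], [3, 0, 0], [2, 1, 0], [1, 1, 1], [4, 0, 0], [3, 1, 0], [2, 2, 0], [2, 1, 1], [5, 0, 0], [4, 1, 0], [3, 2, 0], [3, 1, 1], [2, 2, 1], [6, 0, 0], [5, 1, 0], [4, 2, 0], [4, 1, 1], [3, 3, 0], [3, 2, 1], [2, 2, 2], [7, 0, 0], [6, 1, 0], [5, 2, 0], [5, 1, 1], [4, 3, 0], [4, 2, 1], [3, 3, 1], [3, 2, 2], [8, 0, 0], [7, 1, 0], [6, 2, 0], [6, 1, 1], [5, 3, 0], [5, 2, 1], [4, 4, 0], [4, 3, 1], [4, 2, 2], [3, 3, 2]]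

noncomputable def TT3_8 : L2 := [[.ofNat (nat_lit 32), .ofNat (nat_lit 32), .ofNat (nat_lit 32), .ofNat (nat_lit 32), .ofNat (nat_lit 32), .ofNat (nat_lit 32), .ofNat (nat_lit 32), .ofNat (nat_lit 32), .ofNat (nat_lit 32), .ofNat (nat_lit 32), .ofNat (nat_lit 32), .ofNat (nat_lit 32), .ofNat (nat_lit 32), .ofNat (nat_lit 32), .ofNat (nat_lit 32), .ofNat (nat_lit 32), .ofNat (nat_lit 32), .ofNat (nat_lit 32), .ofNat (nat_lit 32), .ofNat (nat_lit 32), .ofNat (nat_lit 32), .ofNat (nat_lit 32), .ofNat (nat_lit 32), .ofNat (nat_lit 32), .ofNat (nat_lit 32), .ofNat (nat_lit 32), .ofNat (nat_lit 32), .ofNat (nat_lit 32), .ofNat (nat_lit 32), .ofNat (nat_lit 32), .ofNat (nat_lit 32), .ofNat (nat_lit 32), .ofNat (nat_lit 32), .ofNat (nat_lit 32), .ofNat (nat_lit 32), .ofNat (nat_lit 32), .ofNat (nat_lit 32), .ofNat (nat_lit 32), .ofNat (nat_lit 32), .ofNat (nat_lit 32)],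
  [.ofNat (nat_lit 0), .ofNat (nat_lit 32), .negSucc (nat_lit 15), .ofNat (nat_lit 96), .ofNat (nat_lit 0), .negSucc (nat_lit 47), .ofNat (nat_lit 192), .ofNat (nat_lit 48), .ofNat (nat_lit 0), .negSucc (nat_lit 47), .ofNat (nat_lit 320), .ofNat (nat_lit 128), .ofNat (nat_lit 32), .negSucc (nat_lit 15), .negSucc (nat_lit 63), .ofNat (nat_lit 480), .ofNat (nat_lit 240), .ofNat (nat_lit 96), .ofNat (nat_lit 48), .ofNat (nat_lit 48), .negSucc (nat_lit 47), .negSucc (nat_lit 95), .ofNat (nat_lit 672), .ofNat (nat_lit 384), .ofNat (nat_lit 192), .ofNat (nat_lit 144), .ofNat (nat_lit 96), .ofNat (nat_lit 0), .negSucc (nat_lit 47), .negSucc (nat_lit 95), .ofNat (nat_lit 896), .ofNat (nat_lit 560), .ofNat (nat_lit 320), .ofNat (nat_lit 272), .ofNat (nat_lit 176), .ofNat (nat_lit 80), .ofNat (nat_lit 128), .negSucc (nat_lit 15), .negSucc (nat_lit 63), .negSucc (nat_lit 111)],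
  [.ofNat (nat_lit 0), .ofNat (nat_lit 0), .ofNat (nat_lit 0), .ofNat (nat_lit 32), .negSucc (nat_lit 15), .ofNat (nat_lit 32), .ofNat (nat_lit 128), .negSucc (nat_lit 15), .negSucc (nat_lit 63), .ofNat (nat_lit 32), .ofNat (nat_lit 320), .ofNat (nat_lit 32), .negSucc (nat_lit 111), .ofNat (nat_lit 32), .ofNat (nat_lit 32), .ofNat (nat_lit 640), .ofNat (nat_lit 160), .negSucc (nat_lit 127), .ofNat (nat_lit 64), .negSucc (nat_lit 223), .ofNat (nat_lit 16), .ofNat (nat_lit 64), .ofNat (nat_lit 1120), .ofNat (nat_lit 400), .negSucc (nat_lit 79), .ofNat (nat_lit 160), .negSucc (nat_lit 319), .ofNat (nat_lit 16), .negSucc (nat_lit 31), .ofNat (nat_lit 64), .ofNat (nat_lit 1792), .ofNat (nat_lit 784), .ofNat (nat_lit 64), .ofNat (nat_lit 352), .negSucc (nat_lit 367), .ofNat (nat_lit 64), .negSucc (nat_lit 511), .negSucc (nat_lit 79), .ofNat (nat_lit 64), .ofNat (nat_lit 64)],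
  [.ofNat (nat_lit 0), .ofNat (nat_lit 0), .ofNat (nat_lit 0), .ofNat (nat_lit 0), .ofNat (nat_lit 0), .ofNat (nat_lit 0), .ofNat (nat_lit 48), .negSucc (nat_lit 23), .ofNat (nat_lit 24), .ofNat (nat_lit 0), .ofNat (nat_lit 240), .negSucc (nat_lit 47), .ofNat (nat_lit 24), .negSucc (nat_lit 47), .ofNat (nat_lit 24), .ofNat (nat_lit 720), .ofNat (nat_lit 0), .ofNat (nat_lit 0), .negSucc (nat_lit 143), .ofNat (nat_lit 72), .ofNat (nat_lit 0), .ofNat (nat_lit 72), .ofNat (nat_lit 1680), .ofNat (nat_lit 240), .ofNat (nat_lit 0), .negSucc (nat_lit 239), .ofNat (nat_lit 96), .negSucc (nat_lit 95), .ofNat (nat_lit 24), .ofNat (nat_lit 72), .ofNat (nat_lit 3360), .ofNat (nat_lit 840), .ofNat (nat_lit 120), .negSucc (nat_lit 239), .ofNat (nat_lit 120), .negSucc (nat_lit 239), .ofNat (nat_lit 192), .negSucc (nat_lit 23), .negSucc (nat_lit 23), .ofNat (nat_lit 120)],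
  [.ofNat (nat_lit 0), .ofNat (nat_lit 0), .ofNat (nat_lit 0), .ofNat (nat_lit 0), .ofNat (nat_lit 0), .ofNat (nat_lit 0), .ofNat (nat_lit 0), .ofNat (nat_lit 0), .ofNat (nat_lit 0), .ofNat (nat_lit 0), .ofNat (nat_lit 80), .negSucc (nat_lit 39), .ofNat (nat_lit 8), .ofNat (nat_lit 32), .negSucc (nat_lit 15), .ofNat (nat_lit 480), .negSucc (nat_lit 119), .negSucc (nat_lit 47), .ofNat (nat_lit 48), .ofNat (nat_lit 48), .ofNat (nat_lit 24), .negSucc (nat_lit 95), .ofNat (nat_lit 1680), .negSucc (nat_lit 119), .negSucc (nat_lit 239), .ofNat (nat_lit 0), .ofNat (nat_lit 24), .ofNat (nat_lit 72), .ofNat (nat_lit 96), .negSucc (nat_lit 95), .ofNat (nat_lit 4480), .ofNat (nat_lit 280), .negSucc (nat_lit 559), .negSucc (nat_lit 79), .negSucc (nat_lit 199), .ofNat (nat_lit 40), .ofNat (nat_lit 64), .ofNat (nat_lit 208), .negSucc (nat_lit 31), .negSucc (nat_lit 127)],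
  [.ofNat (nat_lit 0), .ofNat (nat_lit 0), .ofNat (nat_lit 0), .ofNat (nat_lit 0), .ofNat (nat_lit 0), .ofNat (nat_lit 0), .ofNat (nat_lit 0), .ofNat (nat_lit 0), .ofNat (nat_lit 0), .ofNat (nat_lit 0), .ofNat (nat_lit 0), .ofNat (nat_lit 0), .ofNat (nat_lit 0), .ofNat (nat_lit 0), .ofNat (nat_lit 0), .ofNat (nat_lit 72), .negSucc (nat_lit 35), .ofNat (nat_lit 36), .ofNat (nat_lit 0), .negSucc (nat_lit 35), .ofNat (nat_lit 0), .ofNat (nat_lit 0), .ofNat (nat_lit 504), .negSucc (nat_lit 143), .ofNat (nat_lit 108), .negSucc (nat_lit 71), .negSucc (nat_lit 35), .ofNat (nat_lit 36), .negSucc (nat_lit 35), .ofNat (nat_lit 0), .ofNat (nat_lit 2016), .negSucc (nat_lit 251), .ofNat (nat_lit 180), .negSucc (nat_lit 359), .ofNat (nat_lit 72), .ofNat (nat_lit 72), .negSucc (nat_lit 143), .negSucc (nat_lit 35), .ofNat (nat_lit 72), .negSucc (nat_lit 35)],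
  [.ofNat (nat_lit 0), .ofNat (nat_lit 0), .ofNat (nat_lit 0), .ofNat (nat_lit 0), .ofNat (nat_lit 0), .ofNat (nat_lit 0), .ofNat (nat_lit 0), .ofNat (nat_lit 0), .ofNat (nat_lit 0), .ofNat (nat_lit 0), .ofNat (nat_lit 0), .ofNat (nat_lit 0), .ofNat (nat_lit 0), .ofNat (nat_lit 0), .ofNat (nat_lit 0), .ofNat (nat_lit 32), .negSucc (nat_lit 15), .negSucc (nat_lit 15), .ofNat (nat_lit 32), .ofNat (nat_lit 32), .negSucc (nat_lit 15), .ofNat (nat_lit 32), .ofNat (nat_lit 224), .negSucc (nat_lit 63), .negSucc (nat_lit 111), .ofNat (nat_lit 128), .ofNat (nat_lit 80), .negSucc (nat_lit 15), .negSucc (nat_lit 63), .ofNat (nat_lit 32), .ofNat (nat_lit 896), .negSucc (nat_lit 111), .negSucc (nat_lit 399), .ofNat (nat_lit 320), .ofNat (nat_lit 32), .ofNat (nat_lit 32), .ofNat (nat_lit 320), .negSucc (nat_lit 111), .ofNat (nat_lit 32), .ofNat (nat_lit 32)],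
  [.ofNat (nat_lit 0), .ofNat (nat_lit 0), .ofNat (nat_lit 0), .ofNat (nat_lit 0), .ofNat (nat_lit 0), .ofNat (nat_lit 0), .ofNat (nat_lit 0), .ofNat (nat_lit 0), .ofNat (nat_lit 0), .ofNat (nat_lit 0), .ofNat (nat_lit 0), .ofNat (nat_lit 0), .ofNat (nat_lit 0), .ofNat (nat_lit 0), .ofNat (nat_lit 0), .ofNat (nat_lit 0), .ofNat (nat_lit 0), .ofNat (nat_lit 0), .ofNat (nat_lit 0), .ofNat (nat_lit 0), .ofNat (nat_lit 0), .ofNat (nat_lit 0), .ofNat (nat_lit 168), .negSucc (nat_lit 83), .ofNat (nat_lit 36), .ofNat (nat_lit 48), .negSucc (nat_lit 11), .negSucc (nat_lit 23), .ofNat (nat_lit 24), .ofNat (nat_lit 0), .ofNat (nat_lit 1344), .negSucc (nat_lit 419), .ofNat (nat_lit 48), .ofNat (nat_lit 120), .ofNat (nat_lit 48), .ofNat (nat_lit 12), .negSucc (nat_lit 95), .ofNat (nat_lit 12), .negSucc (nat_lit 95), .ofNat (nat_lit 48)],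
  [.ofNat (nat_lit 0), .ofNat (nat_lit 0), .ofNat (nat_lit 0), .ofNat (nat_lit 0), .ofNat (nat_lit 0), .ofNat (nat_lit 0), .ofNat (nat_lit 0), .ofNat (nat_lit 0), .ofNat (nat_lit 0), .ofNat (nat_lit 0), .ofNat (nat_lit 0), .ofNat (nat_lit 0), .ofNat (nat_lit 0), .ofNat (nat_lit 0), .ofNat (nat_lit 0), .ofNat (nat_lit 0), .ofNat (nat_lit 0), .ofNat (nat_lit 0), .ofNat (nat_lit 0), .ofNat (nat_lit 0), .ofNat (nat_lit 0), .ofNat (nat_lit 0), .ofNat (nat_lit 0), .ofNat (nat_lit 0), .ofNat (nat_lit 0), .ofNat (nat_lit 0), .ofNat (nat_lit 0), .ofNat (nat_lit 0), .ofNat (nat_lit 0), .ofNat (nat_lit 0), .ofNat (nat_lit 108), .negSucc (nat_lit 53), .ofNat (nat_lit 54), .ofNat (nat_lit 0), .negSucc (nat_lit 53), .ofNat (nat_lit 0), .ofNat (nat_lit 54), .ofNat (nat_lit 0), .ofNat (nat_lit 0), .ofNat (nat_lit 0)],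
  [.ofNat (nat_lit 0), .ofNat (nat_lit 0), .ofNat (nat_lit 0), .ofNat (nat_lit 0), .ofNat (nat_lit 0), .ofNat (nat_lit 0), .ofNat (nat_lit 0), .ofNat (nat_lit 0), .ofNat (nat_lit 0), .ofNat (nat_lit 0), .ofNat (nat_lit 0), .ofNat (nat_lit 0), .ofNat (nat_lit 0), .ofNat (nat_lit 0), .ofNat (nat_lit 0), .ofNat (nat_lit 0), .ofNat (nat_lit 0), .ofNat (nat_lit 0), .ofNat (nat_lit 0), .ofNat (nat_lit 0), .ofNat (nat_lit 0), .ofNat (nat_lit 0), .ofNat (nat_lit 0), .ofNat (nat_lit 0), .ofNat (nat_lit 0), .ofNat (nat_lit 0), .ofNat (nat_lit 0), .ofNat (nat_lit 0), .ofNat (nat_lit 0), .ofNat (nat_lit 0), .ofNat (nat_lit 128), .negSucc (nat_lit 63), .negSucc (nat_lit 15), .ofNat (nat_lit 80), .ofNat (nat_lit 56), .negSucc (nat_lit 39), .negSucc (nat_lit 63), .ofNat (nat_lit 8), .ofNat (nat_lit 32), .negSucc (nat_lit 15)]]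

def fs3_9 : Fs := [(0, 0, 0), (1, 0, 0), (0, 1, 0), (2, 0, 0), (1, 1, 0), (3, 0, 0), (0, 2, 0), (2, 1, 0), (4, 0, 0), (1, 2, 0), (3, 1, 0), (0, 3, 0)]

def lams3_9 : List (List ℕ) := [[1, 0, 0], [2, 0, 0], [1, 1, 0], [3, 0, 0], [2, 1, 0], [1, 1, 1], [4, 0, 0], [3, 1, 0], [2, 2, 0], [2, 1, 1], [5, 0, 0], [4, 1, 0], [3, 2, 0], [3, 1, 1], [2, 2, 1], [6, 0, 0], [5, 1, 0], [4, 2, 0], [4, 1, 1], [3, 3, 0], [3, 2, 1], [2, 2, 2], [7, 0, 0], [6, 1, 0], [5, 2, 0], [5, 1, 1], [4, 3, 0], [4, 2, 1], [3, 3, 1], [3, 2, 2], [8, 0, 0], [7, 1, 0], [6, 2, 0], [6, 1, 1], [5, 3, 0], [5, 2, 1], [4, 4, 0], [4, 3, 1], [4, 2, 2], [3, 3, 2], [9, 0, 0], [8, 1, 0], [7, 2, 0], [7, 1, 1], [6, 3, 0], [6, 2, 1], [5, 4, 0], [5, 3, 1], [5, 2, 2], [4, 4, 1], [4, 3, 2], [3, 3, 3]]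

noncomputable def TT3_9 : L2 := [[.ofNat (nat_lit 32), .ofNat (nat_lit 32), .ofNat (nat_lit 32), .ofNat (nat_lit 32), .ofNat (nat_lit 32), .ofNat (nat_lit 32), .ofNat (nat_lit 32), .ofNat (nat_lit 32), .ofNat (nat_lit 32), .ofNat (nat_lit 32), .ofNat (nat_lit 32), .ofNat (nat_lit 32), .ofNat (nat_lit 32), .ofNat (nat_lit 32), .ofNat (nat_lit 32), .ofNat (nat_lit 32), .ofNat (nat_lit 32), .ofNat (nat_lit 32), .ofNat (nat_lit 32), .ofNat (nat_lit 32), .ofNat (nat_lit 32), .ofNat (nat_lit 32), .ofNat (nat_lit 32), .ofNat (nat_lit 32), .ofNat (nat_lit 32), .ofNat (nat_lit 32), .ofNat (nat_lit 32), .ofNat (nat_lit 32), .ofNat (nat_lit 32), .ofNat (nat_lit 32), .ofNat (nat_lit 32), .ofNat (nat_lit 32), .ofNat (nat_lit 32), .ofNat (nat_lit 32), .ofNat (nat_lit 32), .ofNat (nat_lit 32), .ofNat (nat_lit 32), .ofNat (nat_lit 32), .ofNat (nat_lit 32), .ofNat (nat_lit 32), .ofNat (nat_lit 32), .ofNat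 (nat_lit 32), .ofNat (nat_lit 32), .ofNat (nat_lit 32), .ofNat (nat_lit 32), .ofNat (nat_lit 32), .ofNat (nat_lit 32), .ofNat (nat_lit 32), .ofNat (nat_lit 32), .ofNat (nat_lit 32), .ofNat (nat_lit 32), .ofNat (nat_lit 32)],
  [.ofNat (nat_lit 0), .ofNat (nat_lit 32), .negSucc (nat_lit 15), .ofNat (nat_lit 96), .ofNat (nat_lit 0), .negSucc (nat_lit 47), .ofNat (nat_lit 192), .ofNat (nat_lit 48), .ofNat (nat_lit 0), .negSucc (nat_lit 47), .ofNat (nat_lit 320), .ofNat (nat_lit 128), .ofNat (nat_lit 32), .negSucc (nat_lit 15), .negSucc (nat_lit 63), .ofNat (nat_lit 480), .ofNat (nat_lit 240), .ofNat (nat_lit 96), .ofNat (nat_lit 48), .ofNat (nat_lit 48), .negSucc (nat_lit 47), .negSucc (nat_lit 95), .ofNat (nat_lit 672), .ofNat (nat_lit 384), .ofNat (nat_lit 192), .ofNat (nat_lit 144), .ofNat (nat_lit 96), .ofNat (nat_lit 0), .negSucc (nat_lit 47), .negSucc (nat_lit 95), .ofNat (nat_lit 896),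 .ofNat (nat_lit 560), .ofNat (nat_lit 320), .ofNat (nat_lit 272), .ofNat (nat_lit 176), .ofNat (nat_lit 80), .ofNat (nat_lit 128), .negSucc (nat_lit 15), .negSucc (nat_lit 63), .negSucc (nat_lit 111), .ofNat (nat_lit 1152), .ofNat (nat_lit 768), .ofNat (nat_lit 480), .ofNat (nat_lit 432), .ofNat (nat_lit 288), .ofNat (nat_lit 192), .ofNat (nat_lit 192), .ofNat (nat_lit 48), .ofNat (nat_lit 0), .ofNat (nat_lit 0), .negSucc (nat_lit 95), .negSucc (nat_lit 143)],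
  [.ofNat (nat_lit 0), .ofNat (nat_lit 0), .ofNat (nat_lit 0), .ofNat (nat_lit 32), .negSucc (nat_lit 15), .ofNat (nat_lit 32), .ofNat (nat_lit 128), .negSucc (nat_lit 15), .negSucc (nat_lit 63), .ofNat (nat_lit 32), .ofNat (nat_lit 320), .ofNat (nat_lit 32), .negSucc (nat_lit 111), .ofNat (nat_lit 32), .ofNat (nat_lit 32), .ofNat (nat_lit 640), .ofNat (nat_lit 160), .negSucc (nat_lit 127), .ofNat (nat_lit 64), .negSucc (nat_lit 223), .ofNat (nat_lit 16), .ofNat (nat_lit 64), .ofNat (nat_lit 1120), .ofNat (nat_lit 400), .negSucc (nat_lit 79), .ofNat (nat_lit 160), .negSucc (nat_lit 319), .ofNat (nat_lit 16), .negSucc (nat_lit 31), .ofNat (nat_lit 64), .ofNat (nat_lit 1792), .ofNat (nat_lit 784), .ofNat (nat_lit 64), .ofNat (nat_lit 352), .negSucc (nat_lit 367), .ofNat (nat_lit 64), .negSucc (nat_lit 511), .negSucc (nat_lit 79), .ofNat (nat_lit 64), .ofNat (nat_lit 64), .ofNat (nat_lit 2688),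 .ofNat (nat_lit 1344), .ofNat (nat_lit 336), .ofNat (nat_lit 672), .negSucc (nat_lit 335), .ofNat (nat_lit 192), .negSucc (nat_lit 671), .negSucc (nat_lit 95), .ofNat (nat_lit 96), .negSucc (nat_lit 191), .ofNat (nat_lit 48), .ofNat (nat_lit 96)],
  [.ofNat (nat_lit 0), .ofNat (nat_lit 0), .ofNat (nat_lit 0), .ofNat (nat_lit 0), .ofNat (nat_lit 0), .ofNat (nat_lit 0), .ofNat (nat_lit 48), .negSucc (nat_lit 23), .ofNat (nat_lit 24), .ofNat (nat_lit 0), .ofNat (nat_lit 240), .negSucc (nat_lit 47), .ofNat (nat_lit 24), .negSucc (nat_lit 47), .ofNat (nat_lit 24), .ofNat (nat_lit 720), .ofNat (nat_lit 0), .ofNat (nat_lit 0), .negSucc (nat_lit 143), .ofNat (nat_lit 72), .ofNat (nat_lit 0), .ofNat (nat_lit 72), .ofNat (nat_lit 1680), .ofNat (nat_lit 240), .ofNat (nat_lit 0), .negSucc (nat_lit 239), .ofNat (nat_lit 96), .negSucc (nat_lit 95), .ofNat (nat_lit 24), .ofNat (nat_lit 72), .ofNat (nat_lit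 3360), .ofNat (nat_lit 840), .ofNat (nat_lit 120), .negSucc (nat_lit 239), .ofNat (nat_lit 120), .negSucc (nat_lit 239), .ofNat (nat_lit 192), .negSucc (nat_lit 23), .negSucc (nat_lit 23), .ofNat (nat_lit 120), .ofNat (nat_lit 6048), .ofNat (nat_lit 2016), .ofNat (nat_lit 504), .ofNat (nat_lit 0), .ofNat (nat_lit 216), .negSucc (nat_lit 359), .ofNat (nat_lit 288), .negSucc (nat_lit 143), .negSucc (nat_lit 215), .ofNat (nat_lit 0), .ofNat (nat_lit 72), .ofNat (nat_lit 216)],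
  [.ofNat (nat_lit 0), .ofNat (nat_lit 0), .ofNat (nat_lit 0), .ofNat (nat_lit 0), .ofNat (nat_lit 0), .ofNat (nat_lit 0), .ofNat (nat_lit 0), .ofNat (nat_lit 0), .ofNat (nat_lit 0), .ofNat (nat_lit 0), .ofNat (nat_lit 80), .negSucc (nat_lit 39), .ofNat (nat_lit 8), .ofNat (nat_lit 32), .negSucc (nat_lit 15), .ofNat (nat_lit 480), .negSucc (nat_lit 119), .negSucc (nat_lit 47), .ofNat (nat_lit 48), .ofNat (nat_lit 48), .ofNat (nat_lit 24), .negSucc (nat_lit 95), .ofNat (nat_lit 1680), .negSucc (nat_lit 119), .negSucc (nat_lit 239), .ofNat (nat_lit 0), .ofNat (nat_lit 24), .ofNat (nat_lit 72), .ofNat (nat_lit 96), .negSucc (nat_lit 95), .ofNat (nat_lit 4480), .ofNat (nat_lit 280), .negSucc (nat_lit 559), .negSucc (nat_lit 79), .negSucc (nat_lit 199), .ofNat (nat_lit 40), .ofNat (nat_lit 64), .ofNat (nat_lit 208), .negSucc (nat_lit 31), .negSucc (nat_lit 127), .ofNat (nat_lit 10080), .ofNat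 (nat_lit 1680), .negSucc (nat_lit 839), .ofNat (nat_lit 0), .negSucc (nat_lit 719), .negSucc (nat_lit 119), .negSucc (nat_lit 119), .ofNat (nat_lit 240), .ofNat (nat_lit 0), .ofNat (nat_lit 432), .negSucc (nat_lit 47), .negSucc (nat_lit 287)],
  [.ofNat (nat_lit 0), .ofNat (nat_lit 0), .ofNat (nat_lit 0), .ofNat (nat_lit 0), .ofNat (nat_lit 0), .ofNat (nat_lit 0), .ofNat (nat_lit 0), .ofNat (nat_lit 0), .ofNat (nat_lit 0), .ofNat (nat_lit 0), .ofNat (nat_lit 0), .ofNat (nat_lit 0), .ofNat (nat_lit 0), .ofNat (nat_lit 0), .ofNat (nat_lit 0), .ofNat (nat_lit 72), .negSucc (nat_lit 35), .ofNat (nat_lit 36), .ofNat (nat_lit 0), .negSucc (nat_lit 35), .ofNat (nat_lit 0), .ofNat (nat_lit 0), .ofNat (nat_lit 504), .negSucc (nat_lit 143), .ofNat (nat_lit 108), .negSucc (nat_lit 71), .negSucc (nat_lit 35), .ofNat (nat_lit 36), .negSucc (nat_lit 35), .ofNat (nat_lit 0), .ofNat (nat_lit 2016), .negSucc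 (nat_lit 251), .ofNat (nat_lit 180), .negSucc (nat_lit 359), .ofNat (nat_lit 72), .ofNat (nat_lit 72), .negSucc (nat_lit 143), .negSucc (nat_lit 35), .ofNat (nat_lit 72), .negSucc (nat_lit 35), .ofNat (nat_lit 6048), .ofNat (nat_lit 0), .ofNat (nat_lit 252), .negSucc (nat_lit 1007), .ofNat (nat_lit 324), .negSucc (nat_lit 35), .negSucc (nat_lit 143), .ofNat (nat_lit 36), .ofNat (nat_lit 216), .negSucc (nat_lit 143), .ofNat (nat_lit 0), .negSucc (nat_lit 107)],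
  [.ofNat (nat_lit 0), .ofNat (nat_lit 0), .ofNat (nat_lit 0), .ofNat (nat_lit 0), .ofNat (nat_lit 0), .ofNat (nat_lit 0), .ofNat (nat_lit 0), .ofNat (nat_lit 0), .ofNat (nat_lit 0), .ofNat (nat_lit 0), .ofNat (nat_lit 0), .ofNat (nat_lit 0), .ofNat (nat_lit 0), .ofNat (nat_lit 0), .ofNat (nat_lit 0), .ofNat (nat_lit 32), .negSucc (nat_lit 15), .negSucc (nat_lit 15), .ofNat (nat_lit 32), .ofNat (nat_lit 32), .negSucc (nat_lit 15), .ofNat (nat_lit 32), .ofNat (nat_lit 224), .negSucc (nat_lit 63), .negSucc (nat_lit 111), .ofNat (nat_lit 128), .ofNat (nat_lit 80), .negSucc (nat_lit 15), .negSucc (nat_lit 63), .ofNat (nat_lit 32), .ofNat (nat_lit 896), .negSucc (nat_lit 111), .negSucc (nat_lit 399), .ofNat (nat_lit 320), .ofNat (nat_lit 32), .ofNat (nat_lit 32), .ofNat (nat_lit 320), .negSucc (nat_lit 111), .ofNat (nat_lit 32), .ofNat (nat_lit 32), .ofNat (nat_lit 2688), .ofNat (nat_lit 0),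 .negSucc (nat_lit 1007), .ofNat (nat_lit 672), .negSucc (nat_lit 335), .ofNat (nat_lit 144), .ofNat (nat_lit 576), .negSucc (nat_lit 143), .ofNat (nat_lit 96), .negSucc (nat_lit 191), .ofNat (nat_lit 0), .ofNat (nat_lit 96)],
  [.ofNat (nat_lit 0), .ofNat (nat_lit 0), .ofNat (nat_lit 0), .ofNat (nat_lit 0), .ofNat (nat_lit 0), .ofNat (nat_lit 0), .ofNat (nat_lit 0), .ofNat (nat_lit 0), .ofNat (nat_lit 0), .ofNat (nat_lit 0), .ofNat (nat_lit 0), .ofNat (nat_lit 0), .ofNat (nat_lit 0), .ofNat (nat_lit 0), .ofNat (nat_lit 0), .ofNat (nat_lit 0), .ofNat (nat_lit 0), .ofNat (nat_lit 0), .ofNat (nat_lit 0), .ofNat (nat_lit 0), .ofNat (nat_lit 0), .ofNat (nat_lit 0), .ofNat (nat_lit 168), .negSucc (nat_lit 83), .ofNat (nat_lit 36), .ofNat (nat_lit 48), .negSucc (nat_lit 11), .negSucc (nat_lit 23), .ofNat (nat_lit 24), .ofNat (nat_lit 0), .ofNat (nat_lit 1344), .negSucc (nat_lit 419), .ofNat (nat_lit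 48), .ofNat (nat_lit 120), .ofNat (nat_lit 48), .ofNat (nat_lit 12), .negSucc (nat_lit 95), .ofNat (nat_lit 12), .negSucc (nat_lit 95), .ofNat (nat_lit 48), .ofNat (nat_lit 6048), .negSucc (nat_lit 1007), .negSucc (nat_lit 251), .ofNat (nat_lit 0), .ofNat (nat_lit 216), .ofNat (nat_lit 180), .negSucc (nat_lit 143), .ofNat (nat_lit 72), .negSucc (nat_lit 215), .ofNat (nat_lit 0), .negSucc (nat_lit 35), .ofNat (nat_lit 216)],
  [.ofNat (nat_lit 0), .ofNat (nat_lit 0), .ofNat (nat_lit 0), .ofNat (nat_lit 0), .ofNat (nat_lit 0), .ofNat (nat_lit 0), .ofNat (nat_lit 0), .ofNat (nat_lit 0), .ofNat (nat_lit 0), .ofNat (nat_lit 0), .ofNat (nat_lit 0), .ofNat (nat_lit 0), .ofNat (nat_lit 0), .ofNat (nat_lit 0), .ofNat (nat_lit 0), .ofNat (nat_lit 0), .ofNat (nat_lit 0), .ofNat (nat_lit 0), .ofNat (nat_lit 0), .ofNat (nat_lit 0), .ofNat (nat_lit 0), .ofNat (nat_lit 0), .ofNat (nat_lit 0), .ofNat (nat_lit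 0), .ofNat (nat_lit 0), .ofNat (nat_lit 0), .ofNat (nat_lit 0), .ofNat (nat_lit 0), .ofNat (nat_lit 0), .ofNat (nat_lit 0), .ofNat (nat_lit 108), .negSucc (nat_lit 53), .ofNat (nat_lit 54), .ofNat (nat_lit 0), .negSucc (nat_lit 53), .ofNat (nat_lit 0), .ofNat (nat_lit 54), .ofNat (nat_lit 0), .ofNat (nat_lit 0), .ofNat (nat_lit 0), .ofNat (nat_lit 972), .negSucc (nat_lit 323), .ofNat (nat_lit 270), .negSucc (nat_lit 107), .negSucc (nat_lit 161), .ofNat (nat_lit 54), .ofNat (nat_lit 54), .negSucc (nat_lit 53), .ofNat (nat_lit 0), .ofNat (nat_lit 54), .ofNat (nat_lit 0), .ofNat (nat_lit 0)],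
  [.ofNat (nat_lit 0), .ofNat (nat_lit 0), .ofNat (nat_lit 0), .ofNat (nat_lit 0), .ofNat (nat_lit 0), .ofNat (nat_lit 0), .ofNat (nat_lit 0), .ofNat (nat_lit 0), .ofNat (nat_lit 0), .ofNat (nat_lit 0), .ofNat (nat_lit 0), .ofNat (nat_lit 0), .ofNat (nat_lit 0), .ofNat (nat_lit 0), .ofNat (nat_lit 0), .ofNat (nat_lit 0), .ofNat (nat_lit 0), .ofNat (nat_lit 0), .ofNat (nat_lit 0), .ofNat (nat_lit 0), .ofNat (nat_lit 0), .ofNat (nat_lit 0), .ofNat (nat_lit 0), .ofNat (nat_lit 0), .ofNat (nat_lit 0), .ofNat (nat_lit 0), .ofNat (nat_lit 0), .ofNat (nat_lit 0), .ofNat (nat_lit 0), .ofNat (nat_lit 0), .ofNat (nat_lit 128), .negSucc (nat_lit 63), .negSucc (nat_lit 15), .ofNat (nat_lit 80), .ofNat (nat_lit 56), .negSucc (nat_lit 39), .negSucc (nat_lit 63), .ofNat (nat_lit 8), .ofNat (nat_lit 32), .negSucc (nat_lit 15), .ofNat (nat_lit 1152), .negSucc (nat_lit 383), .negSucc (nat_lit 239), .ofNat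 (nat_lit 432), .ofNat (nat_lit 288), .negSucc (nat_lit 95), .negSucc (nat_lit 95), .negSucc (nat_lit 23), .ofNat (nat_lit 0), .ofNat (nat_lit 0), .ofNat (nat_lit 48), .negSucc (nat_lit 143)],
  [.ofNat (nat_lit 0), .ofNat (nat_lit 0), .ofNat (nat_lit 0), .ofNat (nat_lit 0), .ofNat (nat_lit 0), .ofNat (nat_lit 0), .ofNat (nat_lit 0), .ofNat (nat_lit 0), .ofNat (nat_lit 0), .ofNat (nat_lit 0), .ofNat (nat_lit 0), .ofNat (nat_lit 0), .ofNat (nat_lit 0), .ofNat (nat_lit 0), .ofNat (nat_lit 0), .ofNat (nat_lit 0), .ofNat (nat_lit 0), .ofNat (nat_lit 0), .ofNat (nat_lit 0), .ofNat (nat_lit 0), .ofNat (nat_lit 0), .ofNat (nat_lit 0), .ofNat (nat_lit 0), .ofNat (nat_lit 0), .ofNat (nat_lit 0), .ofNat (nat_lit 0), .ofNat (nat_lit 0), .ofNat (nat_lit 0), .ofNat (nat_lit 0), .ofNat (nat_lit 0), .ofNat (nat_lit 0), .ofNat (nat_lit 0), .ofNat (nat_lit 0), .ofNat (nat_lit 0), .ofNat (nat_lit 0), .ofNat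 (nat_lit 0), .ofNat (nat_lit 0), .ofNat (nat_lit 0), .ofNat (nat_lit 0), .ofNat (nat_lit 0), .ofNat (nat_lit 324), .negSucc (nat_lit 161), .ofNat (nat_lit 90), .ofNat (nat_lit 72), .negSucc (nat_lit 53), .negSucc (nat_lit 35), .ofNat (nat_lit 18), .ofNat (nat_lit 36), .ofNat (nat_lit 0), .negSucc (nat_lit 35), .ofNat (nat_lit 0), .ofNat (nat_lit 0)],
  [.ofNat (nat_lit 0), .ofNat (nat_lit 0), .ofNat (nat_lit 0), .ofNat (nat_lit 0), .ofNat (nat_lit 0), .ofNat (nat_lit 0), .ofNat (nat_lit 0), .ofNat (nat_lit 0), .ofNat (nat_lit 0), .ofNat (nat_lit 0), .ofNat (nat_lit 0), .ofNat (nat_lit 0), .ofNat (nat_lit 0), .ofNat (nat_lit 0), .ofNat (nat_lit 0), .ofNat (nat_lit 0), .ofNat (nat_lit 0), .ofNat (nat_lit 0), .ofNat (nat_lit 0), .ofNat (nat_lit 0), .ofNat (nat_lit 0), .ofNat (nat_lit 0), .ofNat (nat_lit 0), .ofNat (nat_lit 0), .ofNat (nat_lit 0), .ofNat (nat_lit 0), .ofNat (nat_lit 0), .ofNat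 (nat_lit 0), .ofNat (nat_lit 0), .ofNat (nat_lit 0), .ofNat (nat_lit 0), .ofNat (nat_lit 0), .ofNat (nat_lit 0), .ofNat (nat_lit 0), .ofNat (nat_lit 0), .ofNat (nat_lit 0), .ofNat (nat_lit 0), .ofNat (nat_lit 0), .ofNat (nat_lit 0), .ofNat (nat_lit 0), .ofNat (nat_lit 32), .negSucc (nat_lit 15), .negSucc (nat_lit 15), .ofNat (nat_lit 32), .ofNat (nat_lit 32), .negSucc (nat_lit 15), .negSucc (nat_lit 15), .negSucc (nat_lit 15), .ofNat (nat_lit 32), .ofNat (nat_lit 32), .negSucc (nat_lit 15), .ofNat (nat_lit 32)]]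

def fs3_10 : Fs := [(0, 0, 0), (1, 0, 0), (0, 1, 0), (2, 0, 0), (1, 1, 0), (3, 0, 0), (0, 2, 0), (2, 1, 0), (4, 0, 0), (1, 2, 0), (3, 1, 0), (0, 3, 0), (5, 0, 0), (2, 2, 0)]

def lams3_10 : List (List ℕ) := [[1, 0, 0], [2, 0, 0], [1, 1, 0], [3, 0, 0], [2, 1, 0], [1, 1, 1], [4, 0, 0], [3, 1, 0], [2, 2, 0], [2, 1, 1], [5, 0, 0], [4, 1, 0], [3, 2, 0], [3, 1, 1], [2, 2, 1], [6, 0, 0], [5, 1, 0], [4, 2, 0], [4, 1, 1], [3, 3, 0], [3, 2, 1], [2, 2, 2], [7, 0, 0], [6, 1, 0], [5, 2, 0], [5, 1, 1], [4, 3, 0], [4, 2, 1], [3, 3, 1], [3, 2, 2], [8, 0, 0], [7, 1, 0], [6, 2, 0], [6, 1, 1], [5, 3, 0], [5, 2, 1], [4, 4, 0], [4, 3, 1], [4, 2, 2], [3, 3, 2], [9, 0, 0], [8, 1, 0], [7, 2, 0], [7, 1, 1], [6, 3, 0], [6, 2, 1], [5, 4, 0], [5, 3, 1], [5, 2, 2], [4, 4, 1], [4, 3, 2], [3, 3, 3], [10, 0, 0], [9, 1, 0], [8, 2, 0], [8, 1, 1], [7, 3, 0], [7, 2, 1], [6, 4, 0], [6, 3, 1], [6, 2, 2], [5, 5, 0], [5, 4,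 1], [5, 3, 2], [4, 4, 2], [4, 3, 3]]

noncomputable def TT3_10 : L2 := [[.ofNat (nat_lit 32), .ofNat (nat_lit 32), .ofNat (nat_lit 32), .ofNat (nat_lit 32), .ofNat (nat_lit 32), .ofNat (nat_lit 32), .ofNat (nat_lit 32), .ofNat (nat_lit 32), .ofNat (nat_lit 32), .ofNat (nat_lit 32), .ofNat (nat_lit 32), .ofNat (nat_lit 32), .ofNat (nat_lit 32), .ofNat (nat_lit 32), .ofNat (nat_lit 32), .ofNat (nat_lit 32), .ofNat (nat_lit 32), .ofNat (nat_lit 32), .ofNat (nat_lit 32), .ofNat (nat_lit 32), .ofNat (nat_lit 32), .ofNat (nat_lit 32), .ofNat (nat_lit 32), .ofNat (nat_lit 32), .ofNat (nat_lit 32), .ofNat (nat_lit 32), .ofNat (nat_lit 32), .ofNat (nat_lit 32), .ofNat (nat_lit 32), .ofNat (nat_lit 32), .ofNat (nat_lit 32), .ofNat (nat_lit 32), .ofNat (nat_lit 32), .ofNat (nat_lit 32), .ofNat (nat_lit 32), .ofNat (nat_lit 32), .ofNat (nat_lit 32), .ofNat (nat_lit 32), .ofNat (nat_lit 32), .ofNat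 (nat_lit 32), .ofNat (nat_lit 32), .ofNat (nat_lit 32), .ofNat (nat_lit 32), .ofNat (nat_lit 32), .ofNat (nat_lit 32), .ofNat (nat_lit 32), .ofNat (nat_lit 32), .ofNat (nat_lit 32), .ofNat (nat_lit 32), .ofNat (nat_lit 32), .ofNat (nat_lit 32), .ofNat (nat_lit 32), .ofNat (nat_lit 32), .ofNat (nat_lit 32), .ofNat (nat_lit 32), .ofNat (nat_lit 32), .ofNat (nat_lit 32), .ofNat (nat_lit 32), .ofNat (nat_lit 32), .ofNat (nat_lit 32), .ofNat (nat_lit 32), .ofNat (nat_lit 32), .ofNat (nat_lit 32), .ofNat (nat_lit 32), .ofNat (nat_lit 32), .ofNat (nat_lit 32)],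
  [.ofNat (nat_lit 0), .ofNat (nat_lit 32), .negSucc (nat_lit 15), .ofNat (nat_lit 96), .ofNat (nat_lit 0), .negSucc (nat_lit 47), .ofNat (nat_lit 192), .ofNat (nat_lit 48), .ofNat (nat_lit 0), .negSucc (nat_lit 47), .ofNat (nat_lit 320), .ofNat (nat_lit 128), .ofNat (nat_lit 32), .negSucc (nat_lit 15), .negSucc (nat_lit 63), .ofNat (nat_lit 480), .ofNat (nat_lit 240), .ofNat (nat_lit 96), .ofNat (nat_lit 48), .ofNat (nat_lit 48), .negSucc (nat_lit 47), .negSucc (nat_lit 95), .ofNat (nat_lit 672), .ofNat (nat_lit 384), .ofNat (nat_lit 192), .ofNat (nat_lit 144), .ofNat (nat_lit 96), .ofNat (nat_lit 0), .negSucc (nat_lit 47), .negSucc (nat_lit 95), .ofNat (nat_lit 896), .ofNat (nat_lit 560), .ofNat (nat_lit 320), .ofNat (nat_lit 272), .ofNat (nat_lit 176), .ofNat (nat_lit 80), .ofNat (nat_lit 128), .negSucc (nat_lit 15), .negSucc (nat_lit 63), .negSucc (nat_lit 111), .ofNat (nat_lit 1152),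 .ofNat (nat_lit 768), .ofNat (nat_lit 480), .ofNat (nat_lit 432), .ofNat (nat_lit 288), .ofNat (nat_lit 192), .ofNat (nat_lit 192), .ofNat (nat_lit 48), .ofNat (nat_lit 0), .ofNat (nat_lit 0), .negSucc (nat_lit 95), .negSucc (nat_lit 143), .ofNat (nat_lit 1440), .ofNat (nat_lit 1008), .ofNat (nat_lit 672), .ofNat (nat_lit 624), .ofNat (nat_lit 432), .ofNat (nat_lit 336), .ofNat (nat_lit 288), .ofNat (nat_lit 144), .ofNat (nat_lit 96), .ofNat (nat_lit 240), .ofNat (nat_lit 48), .negSucc (nat_lit 47), .negSucc (nat_lit 95), .negSucc (nat_lit 143)],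
  [.ofNat (nat_lit 0), .ofNat (nat_lit 0), .ofNat (nat_lit 0), .ofNat (nat_lit 32), .negSucc (nat_lit 15), .ofNat (nat_lit 32), .ofNat (nat_lit 128), .negSucc (nat_lit 15), .negSucc (nat_lit 63), .ofNat (nat_lit 32), .ofNat (nat_lit 320), .ofNat (nat_lit 32), .negSucc (nat_lit 111), .ofNat (nat_lit 32), .ofNat (nat_lit 32), .ofNat (nat_lit 640), .ofNat (nat_lit 160), .negSucc (nat_lit 127), .ofNat (nat_lit 64), .negSucc (nat_lit 223), .ofNat (nat_lit 16), .ofNat (nat_lit 64), .ofNat (nat_lit 1120), .ofNat (nat_lit 400), .negSucc (nat_lit 79), .ofNat (nat_lit 160), .negSucc (nat_lit 319), .ofNat (nat_lit 16), .negSucc (nat_lit 31), .ofNat (nat_lit 64), .ofNat (nat_lit 1792), .ofNat (nat_lit 784), .ofNat (nat_lit 64), .ofNat (nat_lit 352), .negSucc (nat_lit 367), .ofNat (nat_lit 64), .negSucc (nat_lit 511), .negSucc (nat_lit 79), .ofNat (nat_lit 64), .ofNat (nat_lit 64), .ofNat (nat_lit 2688),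 .ofNat (nat_lit 1344), .ofNat (nat_lit 336), .ofNat (nat_lit 672), .negSucc (nat_lit 335), .ofNat (nat_lit 192), .negSucc (nat_lit 671), .negSucc (nat_lit 95), .ofNat (nat_lit 96), .negSucc (nat_lit 191), .ofNat (nat_lit 48), .ofNat (nat_lit 96), .ofNat (nat_lit 3840), .ofNat (nat_lit 2112), .ofNat (nat_lit 768), .ofNat (nat_lit 1152), .negSucc (nat_lit 191), .ofNat (nat_lit 432), .negSucc (nat_lit 767), .negSucc (nat_lit 47), .ofNat (nat_lit 192), .negSucc (nat_lit 959), .negSucc (nat_lit 287), .ofNat (nat_lit 48), .ofNat (nat_lit 0), .ofNat (nat_lit 96)],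
  [.ofNat (nat_lit 0), .ofNat (nat_lit 0), .ofNat (nat_lit 0), .ofNat (nat_lit 0), .ofNat (nat_lit 0), .ofNat (nat_lit 0), .ofNat (nat_lit 48), .negSucc (nat_lit 23), .ofNat (nat_lit 24), .ofNat (nat_lit 0), .ofNat (nat_lit 240), .negSucc (nat_lit 47), .ofNat (nat_lit 24), .negSucc (nat_lit 47), .ofNat (nat_lit 24), .ofNat (nat_lit 720), .ofNat (nat_lit 0), .ofNat (nat_lit 0), .negSucc (nat_lit 143), .ofNat (nat_lit 72), .ofNat (nat_lit 0), .ofNat (nat_lit 72), .ofNat (nat_lit 1680), .ofNat (nat_lit 240), .ofNat (nat_lit 0), .negSucc (nat_lit 239), .ofNat (nat_lit 96), .negSucc (nat_lit 95), .ofNat (nat_lit 24), .ofNat (nat_lit 72), .ofNat (nat_lit 3360), .ofNat (nat_lit 840), .ofNat (nat_lit 120), .negSucc (nat_lit 239), .ofNat (nat_lit 120), .negSucc (nat_lit 239), .ofNat (nat_lit 192), .negSucc (nat_lit 23), .negSucc (nat_lit 23), .ofNat (nat_lit 120), .ofNat (nat_lit 6048), .ofNat (nat_lit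 2016), .ofNat (nat_lit 504), .ofNat (nat_lit 0), .ofNat (nat_lit 216), .negSucc (nat_lit 359), .ofNat (nat_lit 288), .negSucc (nat_lit 143), .negSucc (nat_lit 215), .ofNat (nat_lit 0), .ofNat (nat_lit 72), .ofNat (nat_lit 216), .ofNat (nat_lit 10080), .ofNat (nat_lit 4032), .ofNat (nat_lit 1344), .ofNat (nat_lit 672), .ofNat (nat_lit 504), .negSucc (nat_lit 335), .ofNat (nat_lit 432), .negSucc (nat_lit 287), .negSucc (nat_lit 455), .ofNat (nat_lit 480), .negSucc (nat_lit 47), .negSucc (nat_lit 95), .ofNat (nat_lit 96), .ofNat (nat_lit 216)],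
  [.ofNat (nat_lit 0), .ofNat (nat_lit 0), .ofNat (nat_lit 0), .ofNat (nat_lit 0), .ofNat (nat_lit 0), .ofNat (nat_lit 0), .ofNat (nat_lit 0), .ofNat (nat_lit 0), .ofNat (nat_lit 0), .ofNat (nat_lit 0), .ofNat (nat_lit 80), .negSucc (nat_lit 39), .ofNat (nat_lit 8), .ofNat (nat_lit 32), .negSucc (nat_lit 15), .ofNat (nat_lit 480), .negSucc (nat_lit 119), .negSucc (nat_lit 47), .ofNat (nat_lit 48), .ofNat (nat_lit 48), .ofNat (nat_lit 24), .negSucc (nat_lit 95), .ofNat (nat_lit 1680), .negSucc (nat_lit 119), .negSucc (nat_lit 239), .ofNat (nat_lit 0), .ofNat (nat_lit 24), .ofNat (nat_lit 72), .ofNat (nat_lit 96), .negSucc (nat_lit 95), .ofNat (nat_lit 4480), .ofNat (nat_lit 280), .negSucc (nat_lit 559), .negSucc (nat_lit 79), .negSucc (nat_lit 199), .ofNat (nat_lit 40), .ofNat (nat_lit 64), .ofNat (nat_lit 208), .negSucc (nat_lit 31), .negSucc (nat_lit 127), .ofNat (nat_lit 10080), .ofNat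 (nat_lit 1680), .negSucc (nat_lit 839), .ofNat (nat_lit 0), .negSucc (nat_lit 719), .negSucc (nat_lit 119), .negSucc (nat_lit 119), .ofNat (nat_lit 240), .ofNat (nat_lit 0), .ofNat (nat_lit 432), .negSucc (nat_lit 47), .negSucc (nat_lit 287), .ofNat (nat_lit 20160), .ofNat (nat_lit 5040), .negSucc (nat_lit 671), .ofNat (nat_lit 672), .negSucc (nat_lit 1511), .negSucc (nat_lit 335), .negSucc (nat_lit 719), .ofNat (nat_lit 72), .negSucc (nat_lit 95), .negSucc (nat_lit 239), .ofNat (nat_lit 600), .ofNat (nat_lit 48), .ofNat (nat_lit 96), .negSucc (nat_lit 287)],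
  [.ofNat (nat_lit 0), .ofNat (nat_lit 0), .ofNat (nat_lit 0), .ofNat (nat_lit 0), .ofNat (nat_lit 0), .ofNat (nat_lit 0), .ofNat (nat_lit 0), .ofNat (nat_lit 0), .ofNat (nat_lit 0), .ofNat (nat_lit 0), .ofNat (nat_lit 0), .ofNat (nat_lit 0), .ofNat (nat_lit 0), .ofNat (nat_lit 0), .ofNat (nat_lit 0), .ofNat (nat_lit 72), .negSucc (nat_lit 35), .ofNat (nat_lit 36), .ofNat (nat_lit 0), .negSucc (nat_lit 35), .ofNat (nat_lit 0), .ofNat (nat_lit 0), .ofNat (nat_lit 504), .negSucc (nat_lit 143), .ofNat (nat_lit 108), .negSucc (nat_lit 71), .negSucc (nat_lit 35), .ofNat (nat_lit 36), .negSucc (nat_lit 35), .ofNat (nat_lit 0), .ofNat (nat_lit 2016), .negSucc (nat_lit 251), .ofNat (nat_lit 180), .negSucc (nat_lit 359), .ofNat (nat_lit 72), .ofNat (nat_lit 72), .negSucc (nat_lit 143), .negSucc (nat_lit 35), .ofNat (nat_lit 72), .negSucc (nat_lit 35), .ofNat (nat_lit 6048), .ofNat (nat_lit 0), .ofNat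 (nat_lit 252), .negSucc (nat_lit 1007), .ofNat (nat_lit 324), .negSucc (nat_lit 35), .negSucc (nat_lit 143), .ofNat (nat_lit 36), .ofNat (nat_lit 216), .negSucc (nat_lit 143), .ofNat (nat_lit 0), .negSucc (nat_lit 107), .ofNat (nat_lit 15120), .ofNat (nat_lit 1512), .ofNat (nat_lit 504), .negSucc (nat_lit 2015), .ofNat (nat_lit 756), .negSucc (nat_lit 503), .ofNat (nat_lit 108), .ofNat (nat_lit 108), .ofNat (nat_lit 288), .negSucc (nat_lit 359), .negSucc (nat_lit 179), .ofNat (nat_lit 180), .negSucc (nat_lit 71), .negSucc (nat_lit 107)],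
  [.ofNat (nat_lit 0), .ofNat (nat_lit 0), .ofNat (nat_lit 0), .ofNat (nat_lit 0), .ofNat (nat_lit 0), .ofNat (nat_lit 0), .ofNat (nat_lit 0), .ofNat (nat_lit 0), .ofNat (nat_lit 0), .ofNat (nat_lit 0), .ofNat (nat_lit 0), .ofNat (nat_lit 0), .ofNat (nat_lit 0), .ofNat (nat_lit 0), .ofNat (nat_lit 0), .ofNat (nat_lit 32), .negSucc (nat_lit 15), .negSucc (nat_lit 15), .ofNat (nat_lit 32), .ofNat (nat_lit 32), .negSucc (nat_lit 15), .ofNat (nat_lit 32), .ofNat (nat_lit 224), .negSucc (nat_lit 63), .negSucc (nat_lit 111), .ofNat (nat_lit 128), .ofNat (nat_lit 80), .negSucc (nat_lit 15), .negSucc (nat_lit 63), .ofNat (nat_lit 32), .ofNat (nat_lit 896), .negSucc (nat_lit 111), .negSucc (nat_lit 399), .ofNat (nat_lit 320), .ofNat (nat_lit 32), .ofNat (nat_lit 32), .ofNat (nat_lit 320), .negSucc (nat_lit 111), .ofNat (nat_lit 32), .ofNat (nat_lit 32), .ofNat (nat_lit 2688), .ofNat (nat_lit 0),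 .negSucc (nat_lit 1007), .ofNat (nat_lit 672), .negSucc (nat_lit 335), .ofNat (nat_lit 144), .ofNat (nat_lit 576), .negSucc (nat_lit 143), .ofNat (nat_lit 96), .negSucc (nat_lit 191), .ofNat (nat_lit 0), .ofNat (nat_lit 96), .ofNat (nat_lit 6720), .ofNat (nat_lit 672), .negSucc (nat_lit 2015), .ofNat (nat_lit 1344), .negSucc (nat_lit 1343), .ofNat (nat_lit 336), .ofNat (nat_lit 528), .negSucc (nat_lit 191), .ofNat (nat_lit 288), .ofNat (nat_lit 1440), .negSucc (nat_lit 239), .ofNat (nat_lit 0), .negSucc (nat_lit 95), .ofNat (nat_lit 96)],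
  [.ofNat (nat_lit 0), .ofNat (nat_lit 0), .ofNat (nat_lit 0), .ofNat (nat_lit 0), .ofNat (nat_lit 0), .ofNat (nat_lit 0), .ofNat (nat_lit 0), .ofNat (nat_lit 0), .ofNat (nat_lit 0), .ofNat (nat_lit 0), .ofNat (nat_lit 0), .ofNat (nat_lit 0), .ofNat (nat_lit 0), .ofNat (nat_lit 0), .ofNat (nat_lit 0), .ofNat (nat_lit 0), .ofNat (nat_lit 0), .ofNat (nat_lit 0), .ofNat (nat_lit 0), .ofNat (nat_lit 0), .ofNat (nat_lit 0), .ofNat (nat_lit 0), .ofNat (nat_lit 168), .negSucc (nat_lit 83), .ofNat (nat_lit 36), .ofNat (nat_lit 48), .negSucc (nat_lit 11), .negSucc (nat_lit 23), .ofNat (nat_lit 24), .ofNat (nat_lit 0), .ofNat (nat_lit 1344), .negSucc (nat_lit 419), .ofNat (nat_lit 48), .ofNat (nat_lit 120), .ofNat (nat_lit 48), .ofNat (nat_lit 12), .negSucc (nat_lit 95), .ofNat (nat_lit 12), .negSucc (nat_lit 95), .ofNat (nat_lit 48), .ofNat (nat_lit 6048), .negSucc (nat_lit 1007), .negSucc (nat_lit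 251), .ofNat (nat_lit 0), .ofNat (nat_lit 216), .ofNat (nat_lit 180), .negSucc (nat_lit 143), .ofNat (nat_lit 72), .negSucc (nat_lit 215), .ofNat (nat_lit 0), .negSucc (nat_lit 35), .ofNat (nat_lit 216), .ofNat (nat_lit 20160), .negSucc (nat_lit 1007), .negSucc (nat_lit 1343), .negSucc (nat_lit 671), .ofNat (nat_lit 252), .ofNat (nat_lit 336), .ofNat (nat_lit 0), .ofNat (nat_lit 396), .negSucc (nat_lit 191), .negSucc (nat_lit 479), .ofNat (nat_lit 48), .negSucc (nat_lit 227), .negSucc (nat_lit 95), .ofNat (nat_lit 216)],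
  [.ofNat (nat_lit 0), .ofNat (nat_lit 0), .ofNat (nat_lit 0), .ofNat (nat_lit 0), .ofNat (nat_lit 0), .ofNat (nat_lit 0), .ofNat (nat_lit 0), .ofNat (nat_lit 0), .ofNat (nat_lit 0), .ofNat (nat_lit 0), .ofNat (nat_lit 0), .ofNat (nat_lit 0), .ofNat (nat_lit 0), .ofNat (nat_lit 0), .ofNat (nat_lit 0), .ofNat (nat_lit 0), .ofNat (nat_lit 0), .ofNat (nat_lit 0), .ofNat (nat_lit 0), .ofNat (nat_lit 0), .ofNat (nat_lit 0), .ofNat (nat_lit 0), .ofNat (nat_lit 0), .ofNat (nat_lit 0), .ofNat (nat_lit 0), .ofNat (nat_lit 0), .ofNat (nat_lit 0), .ofNat (nat_lit 0), .ofNat (nat_lit 0), .ofNat (nat_lit 0), .ofNat (nat_lit 108), .negSucc (nat_lit 53), .ofNat (nat_lit 54), .ofNat (nat_lit 0), .negSucc (nat_lit 53), .ofNat (nat_lit 0), .ofNat (nat_lit 54), .ofNat (nat_lit 0), .ofNat (nat_lit 0), .ofNat (nat_lit 0), .ofNat (nat_lit 972), .negSucc (nat_lit 323), .ofNat (nat_lit 270), .negSucc (nat_lit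 107), .negSucc (nat_lit 161), .ofNat (nat_lit 54), .ofNat (nat_lit 54), .negSucc (nat_lit 53), .ofNat (nat_lit 0), .ofNat (nat_lit 54), .ofNat (nat_lit 0), .ofNat (nat_lit 0), .ofNat (nat_lit 4860), .negSucc (nat_lit 971), .ofNat (nat_lit 756), .negSucc (nat_lit 755), .negSucc (nat_lit 161), .ofNat (nat_lit 216), .negSucc (nat_lit 161), .negSucc (nat_lit 161), .ofNat (nat_lit 108), .ofNat (nat_lit 270), .ofNat (nat_lit 54), .negSucc (nat_lit 53), .ofNat (nat_lit 54), .ofNat (nat_lit 0)],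
  [.ofNat (nat_lit 0), .ofNat (nat_lit 0), .ofNat (nat_lit 0), .ofNat (nat_lit 0), .ofNat (nat_lit 0), .ofNat (nat_lit 0), .ofNat (nat_lit 0), .ofNat (nat_lit 0), .ofNat (nat_lit 0), .ofNat (nat_lit 0), .ofNat (nat_lit 0), .ofNat (nat_lit 0), .ofNat (nat_lit 0), .ofNat (nat_lit 0), .ofNat (nat_lit 0), .ofNat (nat_lit 0), .ofNat (nat_lit 0), .ofNat (nat_lit 0), .ofNat (nat_lit 0), .ofNat (nat_lit 0), .ofNat (nat_lit 0), .ofNat (nat_lit 0), .ofNat (nat_lit 0), .ofNat (nat_lit 0), .ofNat (nat_lit 0), .ofNat (nat_lit 0), .ofNat (nat_lit 0), .ofNat (nat_lit 0), .ofNat (nat_lit 0), .ofNat (nat_lit 0), .ofNat (nat_lit 128), .negSucc (nat_lit 63), .negSucc (nat_lit 15), .ofNat (nat_lit 80), .ofNat (nat_lit 56), .negSucc (nat_lit 39), .negSucc (nat_lit 63), .ofNat (nat_lit 8), .ofNat (nat_lit 32), .negSucc (nat_lit 15), .ofNat (nat_lit 1152), .negSucc (nat_lit 383), .negSucc (nat_lit 239), .ofNat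 (nat_lit 432), .ofNat (nat_lit 288), .negSucc (nat_lit 95), .negSucc (nat_lit 95), .negSucc (nat_lit 23), .ofNat (nat_lit 0), .ofNat (nat_lit 0), .ofNat (nat_lit 48), .negSucc (nat_lit 143), .ofNat (nat_lit 5760), .negSucc (nat_lit 1151), .negSucc (nat_lit 1343), .ofNat (nat_lit 1344), .ofNat (nat_lit 648), .negSucc (nat_lit 23), .ofNat (nat_lit 288), .negSucc (nat_lit 71), .negSucc (nat_lit 191), .negSucc (nat_lit 479), .negSucc (nat_lit 95), .ofNat (nat_lit 96), .ofNat (nat_lit 192), .negSucc (nat_lit 143)],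
  [.ofNat (nat_lit 0), .ofNat (nat_lit 0), .ofNat (nat_lit 0), .ofNat (nat_lit 0), .ofNat (nat_lit 0), .ofNat (nat_lit 0), .ofNat (nat_lit 0), .ofNat (nat_lit 0), .ofNat (nat_lit 0), .ofNat (nat_lit 0), .ofNat (nat_lit 0), .ofNat (nat_lit 0), .ofNat (nat_lit 0), .ofNat (nat_lit 0), .ofNat (nat_lit 0), .ofNat (nat_lit 0), .ofNat (nat_lit 0), .ofNat (nat_lit 0), .ofNat (nat_lit 0), .ofNat (nat_lit 0), .ofNat (nat_lit 0), .ofNat (nat_lit 0), .ofNat (nat_lit 0), .ofNat (nat_lit 0), .ofNat (nat_lit 0), .ofNat (nat_lit 0), .ofNat (nat_lit 0), .ofNat (nat_lit 0), .ofNat (nat_lit 0), .ofNat (nat_lit 0), .ofNat (nat_lit 0), .ofNat (nat_lit 0), .ofNat (nat_lit 0), .ofNat (nat_lit 0), .ofNat (nat_lit 0), .ofNat (nat_lit 0), .ofNat (nat_lit 0), .ofNat (nat_lit 0), .ofNat (nat_lit 0), .ofNat (nat_lit 0), .ofNat (nat_lit 324), .negSucc (nat_lit 161), .ofNat (nat_lit 90), .ofNat (nat_lit 72), .negSucc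 (nat_lit 53), .negSucc (nat_lit 35), .ofNat (nat_lit 18), .ofNat (nat_lit 36), .ofNat (nat_lit 0), .negSucc (nat_lit 35), .ofNat (nat_lit 0), .ofNat (nat_lit 0), .ofNat (nat_lit 3240), .negSucc (nat_lit 1133), .ofNat (nat_lit 396), .ofNat (nat_lit 252), .negSucc (nat_lit 107), .negSucc (nat_lit 17), .negSucc (nat_lit 107), .ofNat (nat_lit 54), .negSucc (nat_lit 143), .ofNat (nat_lit 180), .negSucc (nat_lit 17), .ofNat (nat_lit 72), .negSucc (nat_lit 71), .ofNat (nat_lit 0)],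
  [.ofNat (nat_lit 0), .ofNat (nat_lit 0), .ofNat (nat_lit 0), .ofNat (nat_lit 0), .ofNat (nat_lit 0), .ofNat (nat_lit 0), .ofNat (nat_lit 0), .ofNat (nat_lit 0), .ofNat (nat_lit 0), .ofNat (nat_lit 0), .ofNat (nat_lit 0), .ofNat (nat_lit 0), .ofNat (nat_lit 0), .ofNat (nat_lit 0), .ofNat (nat_lit 0), .ofNat (nat_lit 0), .ofNat (nat_lit 0), .ofNat (nat_lit 0), .ofNat (nat_lit 0), .ofNat (nat_lit 0), .ofNat (nat_lit 0), .ofNat (nat_lit 0), .ofNat (nat_lit 0), .ofNat (nat_lit 0), .ofNat (nat_lit 0), .ofNat (nat_lit 0), .ofNat (nat_lit 0), .ofNat (nat_lit 0), .ofNat (nat_lit 0), .ofNat (nat_lit 0), .ofNat (nat_lit 0), .ofNat (nat_lit 0), .ofNat (nat_lit 0), .ofNat (nat_lit 0), .ofNat (nat_lit 0), .ofNat (nat_lit 0), .ofNat (nat_lit 0), .ofNat (nat_lit 0), .ofNat (nat_lit 0), .ofNat (nat_lit 0), .ofNat (nat_lit 32), .negSucc (nat_lit 15), .negSucc (nat_lit 15), .ofNat (nat_lit 32), .ofNat (nat_lit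 32), .negSucc (nat_lit 15), .negSucc (nat_lit 15), .negSucc (nat_lit 15), .ofNat (nat_lit 32), .ofNat (nat_lit 32), .negSucc (nat_lit 15), .ofNat (nat_lit 32), .ofNat (nat_lit 320), .negSucc (nat_lit 111), .negSucc (nat_lit 159), .ofNat (nat_lit 224), .ofNat (nat_lit 176), .negSucc (nat_lit 63), .ofNat (nat_lit 32), .negSucc (nat_lit 111), .ofNat (nat_lit 128), .negSucc (nat_lit 159), .ofNat (nat_lit 80), .negSucc (nat_lit 15), .negSucc (nat_lit 63), .ofNat (nat_lit 32)],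
  [.ofNat (nat_lit 0), .ofNat (nat_lit 0), .ofNat (nat_lit 0), .ofNat (nat_lit 0), .ofNat (nat_lit 0), .ofNat (nat_lit 0), .ofNat (nat_lit 0), .ofNat (nat_lit 0), .ofNat (nat_lit 0), .ofNat (nat_lit 0), .ofNat (nat_lit 0), .ofNat (nat_lit 0), .ofNat (nat_lit 0), .ofNat (nat_lit 0), .ofNat (nat_lit 0), .ofNat (nat_lit 0), .ofNat (nat_lit 0), .ofNat (nat_lit 0), .ofNat (nat_lit 0), .ofNat (nat_lit 0), .ofNat (nat_lit 0), .ofNat (nat_lit 0), .ofNat (nat_lit 0), .ofNat (nat_lit 0), .ofNat (nat_lit 0), .ofNat (nat_lit 0), .ofNat (nat_lit 0), .ofNat (nat_lit 0), .ofNat (nat_lit 0), .ofNat (nat_lit 0), .ofNat (nat_lit 0), .ofNat (nat_lit 0), .ofNat (nat_lit 0), .ofNat (nat_lit 0), .ofNat (nat_lit 0), .ofNat (nat_lit 0), .ofNat (nat_lit 0), .ofNat (nat_lit 0), .ofNat (nat_lit 0), .ofNat (nat_lit 0), .ofNat (nat_lit 0), .ofNat (nat_lit 0), .ofNat (nat_lit 0), .ofNat (nat_lit 0), .ofNat (nat_lit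 0), .ofNat (nat_lit 0), .ofNat (nat_lit 0), .ofNat (nat_lit 0), .ofNat (nat_lit 0), .ofNat (nat_lit 0), .ofNat (nat_lit 0), .ofNat (nat_lit 0), .ofNat (nat_lit 162), .negSucc (nat_lit 80), .ofNat (nat_lit 81), .ofNat (nat_lit 0), .negSucc (nat_lit 80), .ofNat (nat_lit 0), .ofNat (nat_lit 81), .ofNat (nat_lit 0), .ofNat (nat_lit 0), .negSucc (nat_lit 80), .ofNat (nat_lit 0), .ofNat (nat_lit 0), .ofNat (nat_lit 0), .ofNat (nat_lit 0)],
  [.ofNat (nat_lit 0), .ofNat (nat_lit 0), .ofNat (nat_lit 0), .ofNat (nat_lit 0), .ofNat (nat_lit 0), .ofNat (nat_lit 0), .ofNat (nat_lit 0), .ofNat (nat_lit 0), .ofNat (nat_lit 0), .ofNat (nat_lit 0), .ofNat (nat_lit 0), .ofNat (nat_lit 0), .ofNat (nat_lit 0), .ofNat (nat_lit 0), .ofNat (nat_lit 0), .ofNat (nat_lit 0), .ofNat (nat_lit 0), .ofNat (nat_lit 0), .ofNat (nat_lit 0), .ofNat (nat_lit 0), .ofNat (nat_lit 0), .ofNat (nat_lit 0), .ofNat (nat_lit 0),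 .ofNat (nat_lit 0), .ofNat (nat_lit 0), .ofNat (nat_lit 0), .ofNat (nat_lit 0), .ofNat (nat_lit 0), .ofNat (nat_lit 0), .ofNat (nat_lit 0), .ofNat (nat_lit 0), .ofNat (nat_lit 0), .ofNat (nat_lit 0), .ofNat (nat_lit 0), .ofNat (nat_lit 0), .ofNat (nat_lit 0), .ofNat (nat_lit 0), .ofNat (nat_lit 0), .ofNat (nat_lit 0), .ofNat (nat_lit 0), .ofNat (nat_lit 0), .ofNat (nat_lit 0), .ofNat (nat_lit 0), .ofNat (nat_lit 0), .ofNat (nat_lit 0), .ofNat (nat_lit 0), .ofNat (nat_lit 0), .ofNat (nat_lit 0), .ofNat (nat_lit 0), .ofNat (nat_lit 0), .ofNat (nat_lit 0), .ofNat (nat_lit 0), .ofNat (nat_lit 360), .negSucc (nat_lit 179), .ofNat (nat_lit 12), .ofNat (nat_lit 168), .ofNat (nat_lit 72), .negSucc (nat_lit 83), .negSucc (nat_lit 107), .ofNat (nat_lit 36), .ofNat (nat_lit 48), .ofNat (nat_lit 120), .negSucc (nat_lit 11), .negSucc (nat_lit 23), .ofNat (nat_lit 24), .ofNat (nat_lit 0)]]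


end Crest.Agent.R163.Ck
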