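import Crest.Agent.R163.CkCert

/-! Row 163: restricted tables, data (generated). -/

set_option autoImplicit false
set_option Elab.async false
set_option maxRecDepth 100000

namespace Crest.Agent.R163.Ck

def fs4_6 : Fs := [(0, 0, 0), (1, 0, 0), (0, 1, 0), (2, 0, 0), (0, 0, 1), (1, 1, 0), (3, 0, 0), (0, 2, 0), (1, 0, 1)]

def lams4_6 : List (List ℕ) := [[1, 0, 0, 0], [2, 0, 0, 0], [1, 1, 0, 0], [3, 0, 0, 0], [2, 1, 0, 0], [1, 1, 1, 0], [4, 0, 0, 0], [3, 1, 0, 0], [2, 2, 0, 0], [2, 1, 1, 0], [1, 1, 1, 1], [5, 0, 0, 0], [4, 1, 0, 0], [3, 2, 0, 0], [3, 1, 1, 0], [2, 2, 1, 0], [2, 1, 1, 1], [6, 0, 0, 0], [5, 1, 0, 0], [4, 2, 0, 0], [4, 1, 1, 0], [3, 3, 0, 0], [3, 2, 1, 0], [3, 1, 1, 1], [2, 2, 2, 0], [2, 2, 1, 1]]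

noncomputable def TT4_6 : L2 := [[.ofNat (nat_lit 27), .ofNat (nat_lit 27), .ofNat (nat_lit 27), .ofNat (nat_lit 27), .ofNat (nat_lit 27), .ofNat (nat_lit 27), .ofNat (nat_lit 27), .ofNat (nat_lit 27), .ofNat (nat_lit 27), .ofNat (nat_lit 27), .ofNat (nat_lit 27), .ofNat (nat_lit 27), .ofNat (nat_lit 27), .ofNat (nat_lit 27), .ofNat (nat_lit 27), .ofNat (nat_lit 27), .ofNat (nat_lit 27), .ofNat (nat_lit 27), .ofNat (nat_lit 27), .ofNat (nat_lit 27), .ofNat (nat_lit 27), .ofNat (nat_lit 27), .ofNat (nat_lit 27), .ofNat (nat_lit 27), .ofNat (nat_lit 27), .ofNat (nat_lit 27)],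
  [.ofNat (nat_lit 0), .ofNat (nat_lit 27), .negSucc (nat_lit 8), .ofNat (nat_lit 81), .ofNat (nat_lit 9), .negSucc (nat_lit 26), .ofNat (nat_lit 162), .ofNat (nat_lit 54), .ofNat (nat_lit 18), .negSucc (nat_lit 17), .negSucc (nat_lit 53), .ofNat (nat_lit 270), .ofNat (nat_lit 126), .ofNat (nat_lit 54), .ofNat (nat_lit 18), .negSucc (nat_lit 17), .negSucc (nat_lit 53), .ofNat (nat_lit 405), .ofNat (nat_lit 225), .ofNat (nat_lit 117), .ofNat (nat_lit 81), .ofNat (nat_lit 81), .ofNat (nat_lit 9), .negSucc (nat_lit 26), .negSucc (nat_lit 26), .negSucc (nat_lit 62)],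
  [.ofNat (nat_lit 0), .ofNat (nat_lit 0), .ofNat (nat_lit 0), .ofNat (nat_lit 27), .negSucc (nat_lit 8), .ofNat (nat_lit 9), .ofNat (nat_lit 108), .ofNat (nat_lit 0), .negSucc (nat_lit 35), .ofNat (nat_lit 0), .ofNat (nat_lit 36), .ofNat (nat_lit 270), .ofNat (nat_lit 54), .negSucc (nat_lit 53), .ofNat (nat_lit 0), .negSucc (nat_lit 17), .ofNat (nat_lit 36), .ofNat (nat_lit 540), .ofNat (nat_lit 180), .negSucc (nat_lit 35), .ofNat (nat_lit 36), .negSucc (nat_lit 107), .negSucc (nat_lit 35), .ofNat (nat_lit 36), .negSucc (nat_lit 35), .ofNat (nat_lit 36)],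
  [.ofNat (nat_lit 0), .ofNat (nat_lit 0), .ofNat (nat_lit 0), .ofNat (nat_lit 0), .ofNat (nat_lit 0), .ofNat (nat_lit 0), .ofNat (nat_lit 54), .negSucc (nat_lit 17), .ofNat (nat_lit 18), .ofNat (nat_lit 0), .ofNat (nat_lit 0), .ofNat (nat_lit 270), .negSucc (nat_lit 17), .ofNat (nat_lit 18), .negSucc (nat_lit 35), .ofNat (nat_lit 18), .ofNat (nat_lit 0), .ofNat (nat_lit 810), .ofNat (nat_lit 90), .ofNat (nat_lit 18), .negSucc (nat_lit 89), .ofNat (nat_lit 54), .ofNat (nat_lit 0), .negSucc (nat_lit 53), .ofNat (nat_lit 54), .ofNat (nat_lit 18)],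
  [.ofNat (nat_lit 0), .ofNat (nat_lit 0), .ofNat (nat_lit 0), .ofNat (nat_lit 0), .ofNat (nat_lit 0), .ofNat (nat_lit 0), .negSucc (nat_lit 26), .ofNat (nat_lit 9), .ofNat (nat_lit 9), .negSucc (nat_lit 8), .ofNat (nat_lit 27), .negSucc (nat_lit 134), .ofNat (nat_lit 9), .ofNat (nat_lit 45), .negSucc (nat_lit 8), .negSucc (nat_lit 26), .ofNat (nat_lit 27), .negSucc (nat_lit 404), .negSucc (nat_lit 44), .ofNat (nat_lit 99), .negSucc (nat_lit 8), .ofNat (nat_lit 135), .negSucc (nat_lit 26), .ofNat (nat_lit 27), .negSucc (nat_lit 80), .ofNat (nat_lit 27)],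
  [.ofNat (nat_lit 0), .ofNat (nat_lit 0), .ofNat (nat_lit 0), .ofNat (nat_lit 0), .ofNat (nat_lit 0), .ofNat (nat_lit 0), .ofNat (nat_lit 0), .ofNat (nat_lit 0), .ofNat (nat_lit 0), .ofNat (nat_lit 0), .ofNat (nat_lit 0), .ofNat (nat_lit 90), .negSucc (nat_lit 29), .ofNat (nat_lit 6), .ofNat (nat_lit 12), .negSucc (nat_lit 5), .ofNat (nat_lit 0), .ofNat (nat_lit 540), .negSucc (nat_lit 59), .negSucc (nat_lit 35), .negSucc (nat_lit 11), .ofNat (nat_lit 36), .ofNat (nat_lit 12), .ofNat (nat_lit 36), .negSucc (nat_lit 35), .negSucc (nat_lit 11)],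
  [.ofNat (nat_lit 0), .ofNat (nat_lit 0), .ofNat (nat_lit 0), .ofNat (nat_lit 0), .ofNat (nat_lit 0), .ofNat (nat_lit 0), .ofNat (nat_lit 0), .ofNat (nat_lit 0), .ofNat (nat_lit 0), .ofNat (nat_lit 0), .ofNat (nat_lit 0), .ofNat (nat_lit 0), .ofNat (nat_lit 0), .ofNat (nat_lit 0), .ofNat (nat_lit 0), .ofNat (nat_lit 0), .ofNat (nat_lit 0), .ofNat (nat_lit 108), .negSucc (nat_lit 35), .ofNat (nat_lit 36), .ofNat (nat_lit 0), .negSucc (nat_lit 35), .ofNat (nat_lit 0), .ofNat (nat_lit 0), .ofNat (nat_lit 0), .ofNat (nat_lit 0)],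
  [.ofNat (nat_lit 0), .ofNat (nat_lit 0), .ofNat (nat_lit 0), .ofNat (nat_lit 0), .ofNat (nat_lit 0), .ofNat (nat_lit 0), .ofNat (nat_lit 0), .ofNat (nat_lit 0), .ofNat (nat_lit 0), .ofNat (nat_lit 0), .ofNat (nat_lit 0), .ofNat (nat_lit 0), .ofNat (nat_lit 0), .ofNat (nat_lit 0), .ofNat (nat_lit 0), .ofNat (nat_lit 0), .ofNat (nat_lit 0), .ofNat (nat_lit 36), .negSucc (nat_lit 11), .negSucc (nat_lit 11), .ofNat (nat_lit 12), .ofNat (nat_lit 24), .negSucc (nat_lit 5), .ofNat (nat_lit 0), .ofNat (nat_lit 12), .ofNat (nat_lit 0)],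
  [.ofNat (nat_lit 0), .ofNat (nat_lit 0), .ofNat (nat_lit 0), .ofNat (nat_lit 0), .ofNat (nat_lit 0), .ofNat (nat_lit 0), .ofNat (nat_lit 0), .ofNat (nat_lit 0), .ofNat (nat_lit 0), .ofNat (nat_lit 0), .ofNat (nat_lit 0), .ofNat (nat_lit 0), .ofNat (nat_lit 0), .ofNat (nat_lit 0), .ofNat (nat_lit 0), .ofNat (nat_lit 0), .ofNat (nat_lit 0), .negSucc (nat_lit 80), .ofNat (nat_lit 27), .negSucc (nat_lit 8), .negSucc (nat_lit 8), .ofNat (nat_lit 27), .negSucc (nat_lit 8), .ofNat (nat_lit 27), .ofNat (nat_lit 27), .negSucc (nat_lit 8)]]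

def fs4_8 : Fs := [(0, 0, 0), (1, 0, 0), (0, 1, 0), (2, 0, 0), (0, 0, 1), (1, 1, 0), (3, 0, 0), (0, 2, 0), (1, 0, 1), (2, 1, 0), (0, 1, 1), (4, 0, 0), (1, 2, 0), (2, 0, 1), (0, 0, 2)]

def lams4_8 : List (List ℕ) := [[1, 0, 0, 0], [2, 0, 0, 0], [1, 1, 0, 0], [3, 0, 0, 0], [2, 1, 0, 0], [1, 1, 1, 0], [4, 0, 0, 0], [3, 1, 0, 0], [2, 2, 0, 0], [2, 1, 1, 0], [1, 1, 1, 1], [5, 0, 0, 0], [4, 1, 0, 0], [3, 2, 0, 0], [3, 1, 1, 0], [2, 2, 1, 0], [2, 1, 1, 1], [6, 0, 0, 0], [5, 1, 0, 0], [4, 2, 0, 0], [4, 1, 1, 0], [3, 3, 0, 0], [3, 2, 1, 0], [3, 1, 1, 1], [2, 2, 2, 0], [2, 2, 1, 1], [7, 0, 0, 0], [6, 1, 0, 0], [5, 2, 0, 0], [5, 1, 1, 0], [4, 3, 0, 0], [4, 2, 1, 0], [4, 1, 1, 1], [3, 3, 1, 0], [3, 2, 2, 0], [3, 2, 1, 1], [2, 2, 2, 1], [8, 0, 0, 0], [7, 1, 0, 0], [6, 2, 0, 0], [6, 1, 1, 0], [5, 3, 0, 0], [5, 2, 1, 0], [5, 1, 1, 1], [4, 4, 0, 0], [4, 3, 1, 0], [4, 2, 2, 0], [4, 2, 1, 1], [3,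 3, 2, 0], [3, 3, 1, 1], [3, 2, 2, 1], [2, 2, 2, 2]]

noncomputable def TT4_8 : L2 := [[.ofNat (nat_lit 27), .ofNat (nat_lit 27), .ofNat (nat_lit 27), .ofNat (nat_lit 27), .ofNat (nat_lit 27), .ofNat (nat_lit 27), .ofNat (nat_lit 27), .ofNat (nat_lit 27), .ofNat (nat_lit 27), .ofNat (nat_lit 27), .ofNat (nat_lit 27), .ofNat (nat_lit 27), .ofNat (nat_lit 27), .ofNat (nat_lit 27), .ofNat (nat_lit 27), .ofNat (nat_lit 27), .ofNat (nat_lit 27), .ofNat (nat_lit 27), .ofNat (nat_lit 27), .ofNat (nat_lit 27), .ofNat (nat_lit 27), .ofNat (nat_lit 27), .ofNat (nat_lit 27), .ofNat (nat_lit 27), .ofNat (nat_lit 27), .ofNat (nat_lit 27), .ofNat (nat_lit 27), .ofNat (nat_lit 27), .ofNat (nat_lit 27), .ofNat (nat_lit 27), .ofNat (nat_lit 27), .ofNat (nat_lit 27), .ofNat (nat_lit 27), .ofNat (nat_lit 27), .ofNat (nat_lit 27), .ofNat (nat_lit 27), .ofNat (nat_lit 27), .ofNat (nat_lit 27), .ofNat (nat_lit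 27), .ofNat (nat_lit 27), .ofNat (nat_lit 27), .ofNat (nat_lit 27), .ofNat (nat_lit 27), .ofNat (nat_lit 27), .ofNat (nat_lit 27), .ofNat (nat_lit 27), .ofNat (nat_lit 27), .ofNat (nat_lit 27), .ofNat (nat_lit 27), .ofNat (nat_lit 27), .ofNat (nat_lit 27), .ofNat (nat_lit 27)],
  [.ofNat (nat_lit 0), .ofNat (nat_lit 27), .negSucc (nat_lit 8), .ofNat (nat_lit 81), .ofNat (nat_lit 9), .negSucc (nat_lit 26), .ofNat (nat_lit 162), .ofNat (nat_lit 54), .ofNat (nat_lit 18), .negSucc (nat_lit 17), .negSucc (nat_lit 53), .ofNat (nat_lit 270), .ofNat (nat_lit 126), .ofNat (nat_lit 54), .ofNat (nat_lit 18), .negSucc (nat_lit 17), .negSucc (nat_lit 53), .ofNat (nat_lit 405), .ofNat (nat_lit 225), .ofNat (nat_lit 117), .ofNat (nat_lit 81), .ofNat (nat_lit 81), .ofNat (nat_lit 9), .negSucc (nat_lit 26), .negSucc (nat_lit 26), .negSucc (nat_lit 62), .ofNat (nat_lit 567), .ofNat (nat_lit 351), .ofNat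 (nat_lit 207), .ofNat (nat_lit 171), .ofNat (nat_lit 135), .ofNat (nat_lit 63), .ofNat (nat_lit 27), .ofNat (nat_lit 27), .negSucc (nat_lit 8), .negSucc (nat_lit 44), .negSucc (nat_lit 80), .ofNat (nat_lit 756), .ofNat (nat_lit 504), .ofNat (nat_lit 324), .ofNat (nat_lit 288), .ofNat (nat_lit 216), .ofNat (nat_lit 144), .ofNat (nat_lit 108), .ofNat (nat_lit 180), .ofNat (nat_lit 72), .ofNat (nat_lit 36), .ofNat (nat_lit 0), .ofNat (nat_lit 0), .negSucc (nat_lit 35), .negSucc (nat_lit 71), .negSucc (nat_lit 107)],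
  [.ofNat (nat_lit 0), .ofNat (nat_lit 0), .ofNat (nat_lit 0), .ofNat (nat_lit 27), .negSucc (nat_lit 8), .ofNat (nat_lit 9), .ofNat (nat_lit 108), .ofNat (nat_lit 0), .negSucc (nat_lit 35), .ofNat (nat_lit 0), .ofNat (nat_lit 36), .ofNat (nat_lit 270), .ofNat (nat_lit 54), .negSucc (nat_lit 53), .ofNat (nat_lit 0), .negSucc (nat_lit 17), .ofNat (nat_lit 36), .ofNat (nat_lit 540), .ofNat (nat_lit 180), .negSucc (nat_lit 35), .ofNat (nat_lit 36), .negSucc (nat_lit 107), .negSucc (nat_lit 35), .ofNat (nat_lit 36), .negSucc (nat_lit 35), .ofNat (nat_lit 36), .ofNat (nat_lit 945), .ofNat (nat_lit 405), .ofNat (nat_lit 45), .ofNat (nat_lit 135), .negSucc (nat_lit 134), .negSucc (nat_lit 26), .ofNat (nat_lit 63), .negSucc (nat_lit 80), .negSucc (nat_lit 62), .ofNat (nat_lit 27), .ofNat (nat_lit 45), .ofNat (nat_lit 1512), .ofNat (nat_lit 756), .ofNat (nat_lit 216), .ofNat (nat_lit 324),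 .negSucc (nat_lit 107), .ofNat (nat_lit 36), .ofNat (nat_lit 144), .negSucc (nat_lit 215), .negSucc (nat_lit 107), .negSucc (nat_lit 71), .ofNat (nat_lit 36), .negSucc (nat_lit 107), .ofNat (nat_lit 0), .ofNat (nat_lit 36), .ofNat (nat_lit 72)],
  [.ofNat (nat_lit 0), .ofNat (nat_lit 0), .ofNat (nat_lit 0), .ofNat (nat_lit 0), .ofNat (nat_lit 0), .ofNat (nat_lit 0), .ofNat (nat_lit 54), .negSucc (nat_lit 17), .ofNat (nat_lit 18), .ofNat (nat_lit 0), .ofNat (nat_lit 0), .ofNat (nat_lit 270), .negSucc (nat_lit 17), .ofNat (nat_lit 18), .negSucc (nat_lit 35), .ofNat (nat_lit 18), .ofNat (nat_lit 0), .ofNat (nat_lit 810), .ofNat (nat_lit 90), .ofNat (nat_lit 18), .negSucc (nat_lit 89), .ofNat (nat_lit 54), .ofNat (nat_lit 0), .negSucc (nat_lit 53), .ofNat (nat_lit 54), .ofNat (nat_lit 18), .ofNat (nat_lit 1890), .ofNat (nat_lit 450), .ofNat (nat_lit 90), .negSucc (nat_lit 89), .ofNat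 (nat_lit 90), .negSucc (nat_lit 53), .negSucc (nat_lit 161), .ofNat (nat_lit 18), .ofNat (nat_lit 54), .negSucc (nat_lit 17), .ofNat (nat_lit 54), .ofNat (nat_lit 3780), .ofNat (nat_lit 1260), .ofNat (nat_lit 360), .ofNat (nat_lit 90), .ofNat (nat_lit 180), .negSucc (nat_lit 89), .negSucc (nat_lit 269), .ofNat (nat_lit 180), .ofNat (nat_lit 0), .ofNat (nat_lit 0), .negSucc (nat_lit 125), .ofNat (nat_lit 90), .negSucc (nat_lit 17), .ofNat (nat_lit 36), .ofNat (nat_lit 108)],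
  [.ofNat (nat_lit 0), .ofNat (nat_lit 0), .ofNat (nat_lit 0), .ofNat (nat_lit 0), .ofNat (nat_lit 0), .ofNat (nat_lit 0), .negSucc (nat_lit 26), .ofNat (nat_lit 9), .ofNat (nat_lit 9), .negSucc (nat_lit 8), .ofNat (nat_lit 27), .negSucc (nat_lit 134), .ofNat (nat_lit 9), .ofNat (nat_lit 45), .negSucc (nat_lit 8), .negSucc (nat_lit 26), .ofNat (nat_lit 27), .negSucc (nat_lit 404), .negSucc (nat_lit 44), .ofNat (nat_lit 99), .negSucc (nat_lit 8), .ofNat (nat_lit 135), .negSucc (nat_lit 26), .ofNat (nat_lit 27), .negSucc (nat_lit 80), .ofNat (nat_lit 27), .negSucc (nat_lit 944), .negSucc (nat_lit 224), .ofNat (nat_lit 135), .negSucc (nat_lit 44), .ofNat (nat_lit 279), .negSucc (nat_lit 8), .ofNat (nat_lit 27), .negSucc (nat_lit 8), .negSucc (nat_lit 116), .ofNat (nat_lit 27), .ofNat (nat_lit 27), .negSucc (nat_lit 1889), .negSucc (nat_lit 629), .ofNat (nat_lit 90), .negSucc (nat_lit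 179), .ofNat (nat_lit 450), .ofNat (nat_lit 0), .ofNat (nat_lit 0), .ofNat (nat_lit 558), .ofNat (nat_lit 54), .negSucc (nat_lit 125), .ofNat (nat_lit 36), .negSucc (nat_lit 179), .ofNat (nat_lit 36), .ofNat (nat_lit 18), .ofNat (nat_lit 54)],
  [.ofNat (nat_lit 0), .ofNat (nat_lit 0), .ofNat (nat_lit 0), .ofNat (nat_lit 0), .ofNat (nat_lit 0), .ofNat (nat_lit 0), .ofNat (nat_lit 0), .ofNat (nat_lit 0), .ofNat (nat_lit 0), .ofNat (nat_lit 0), .ofNat (nat_lit 0), .ofNat (nat_lit 90), .negSucc (nat_lit 29), .ofNat (nat_lit 6), .ofNat (nat_lit 12), .negSucc (nat_lit 5), .ofNat (nat_lit 0), .ofNat (nat_lit 540), .negSucc (nat_lit 59), .negSucc (nat_lit 35), .negSucc (nat_lit 11), .ofNat (nat_lit 36), .ofNat (nat_lit 12), .ofNat (nat_lit 36), .negSucc (nat_lit 35), .negSucc (nat_lit 11), .ofNat (nat_lit 1890), .ofNat (nat_lit 90), .negSucc (nat_lit 149), .negSucc (nat_lit 89), .ofNat (nat_lit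 18), .negSucc (nat_lit 5), .ofNat (nat_lit 54), .ofNat (nat_lit 54), .negSucc (nat_lit 29), .ofNat (nat_lit 30), .negSucc (nat_lit 53), .ofNat (nat_lit 5040), .ofNat (nat_lit 840), .negSucc (nat_lit 239), .negSucc (nat_lit 119), .negSucc (nat_lit 119), .negSucc (nat_lit 119), .ofNat (nat_lit 0), .ofNat (nat_lit 48), .ofNat (nat_lit 72), .negSucc (nat_lit 47), .ofNat (nat_lit 72), .negSucc (nat_lit 23), .ofNat (nat_lit 96), .negSucc (nat_lit 23), .negSucc (nat_lit 143)],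
  [.ofNat (nat_lit 0), .ofNat (nat_lit 0), .ofNat (nat_lit 0), .ofNat (nat_lit 0), .ofNat (nat_lit 0), .ofNat (nat_lit 0), .ofNat (nat_lit 0), .ofNat (nat_lit 0), .ofNat (nat_lit 0), .ofNat (nat_lit 0), .ofNat (nat_lit 0), .ofNat (nat_lit 0), .ofNat (nat_lit 0), .ofNat (nat_lit 0), .ofNat (nat_lit 0), .ofNat (nat_lit 0), .ofNat (nat_lit 0), .ofNat (nat_lit 108), .negSucc (nat_lit 35), .ofNat (nat_lit 36), .ofNat (nat_lit 0), .negSucc (nat_lit 35), .ofNat (nat_lit 0), .ofNat (nat_lit 0), .ofNat (nat_lit 0), .ofNat (nat_lit 0), .ofNat (nat_lit 756), .negSucc (nat_lit 107), .ofNat (nat_lit 108), .negSucc (nat_lit 71), .negSucc (nat_lit 35), .ofNat (nat_lit 36), .ofNat (nat_lit 0), .negSucc (nat_lit 35), .ofNat (nat_lit 0), .ofNat (nat_lit 0), .ofNat (nat_lit 0), .ofNat (nat_lit 3024), .ofNat (nat_lit 0), .ofNat (nat_lit 216), .negSucc (nat_lit 323), .ofNat (nat_lit 72), .ofNat (nat_lit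 72), .negSucc (nat_lit 107), .negSucc (nat_lit 143), .negSucc (nat_lit 35), .ofNat (nat_lit 72), .ofNat (nat_lit 36), .negSucc (nat_lit 35), .negSucc (nat_lit 35), .ofNat (nat_lit 0), .ofNat (nat_lit 0)],
  [.ofNat (nat_lit 0), .ofNat (nat_lit 0), .ofNat (nat_lit 0), .ofNat (nat_lit 0), .ofNat (nat_lit 0), .ofNat (nat_lit 0), .ofNat (nat_lit 0), .ofNat (nat_lit 0), .ofNat (nat_lit 0), .ofNat (nat_lit 0), .ofNat (nat_lit 0), .ofNat (nat_lit 0), .ofNat (nat_lit 0), .ofNat (nat_lit 0), .ofNat (nat_lit 0), .ofNat (nat_lit 0), .ofNat (nat_lit 0), .ofNat (nat_lit 36), .negSucc (nat_lit 11), .negSucc (nat_lit 11), .ofNat (nat_lit 12), .ofNat (nat_lit 24), .negSucc (nat_lit 5), .ofNat (nat_lit 0), .ofNat (nat_lit 12), .ofNat (nat_lit 0), .ofNat (nat_lit 252), .negSucc (nat_lit 35), .negSucc (nat_lit 83), .ofNat (nat_lit 36), .ofNat (nat_lit 60), .negSucc (nat_lit 11), .ofNat (nat_lit 36),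 .negSucc (nat_lit 11), .ofNat (nat_lit 12), .negSucc (nat_lit 11), .ofNat (nat_lit 12), .ofNat (nat_lit 1008), .ofNat (nat_lit 0), .negSucc (nat_lit 287), .ofNat (nat_lit 72), .ofNat (nat_lit 24), .negSucc (nat_lit 35), .ofNat (nat_lit 144), .ofNat (nat_lit 240), .negSucc (nat_lit 11), .ofNat (nat_lit 0), .ofNat (nat_lit 0), .ofNat (nat_lit 24), .negSucc (nat_lit 47), .ofNat (nat_lit 0), .ofNat (nat_lit 48)],
  [.ofNat (nat_lit 0), .ofNat (nat_lit 0), .ofNat (nat_lit 0), .ofNat (nat_lit 0), .ofNat (nat_lit 0), .ofNat (nat_lit 0), .ofNat (nat_lit 0), .ofNat (nat_lit 0), .ofNat (nat_lit 0), .ofNat (nat_lit 0), .ofNat (nat_lit 0), .ofNat (nat_lit 0), .ofNat (nat_lit 0), .ofNat (nat_lit 0), .ofNat (nat_lit 0), .ofNat (nat_lit 0), .ofNat (nat_lit 0), .negSucc (nat_lit 80), .ofNat (nat_lit 27), .negSucc (nat_lit 8), .negSucc (nat_lit 8), .ofNat (nat_lit 27), .negSucc (nat_lit 8), .ofNat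 (nat_lit 27), .ofNat (nat_lit 27), .negSucc (nat_lit 8), .negSucc (nat_lit 566), .ofNat (nat_lit 81), .ofNat (nat_lit 9), .ofNat (nat_lit 9), .ofNat (nat_lit 81), .negSucc (nat_lit 62), .ofNat (nat_lit 81), .negSucc (nat_lit 26), .ofNat (nat_lit 45), .ofNat (nat_lit 9), .negSucc (nat_lit 26), .negSucc (nat_lit 2267), .ofNat (nat_lit 0), .ofNat (nat_lit 108), .ofNat (nat_lit 108), .ofNat (nat_lit 216), .negSucc (nat_lit 143), .ofNat (nat_lit 216), .ofNat (nat_lit 324), .negSucc (nat_lit 107), .negSucc (nat_lit 35), .ofNat (nat_lit 36), .ofNat (nat_lit 108), .ofNat (nat_lit 0), .ofNat (nat_lit 0), .negSucc (nat_lit 107)],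
  [.ofNat (nat_lit 0), .ofNat (nat_lit 0), .ofNat (nat_lit 0), .ofNat (nat_lit 0), .ofNat (nat_lit 0), .ofNat (nat_lit 0), .ofNat (nat_lit 0), .ofNat (nat_lit 0), .ofNat (nat_lit 0), .ofNat (nat_lit 0), .ofNat (nat_lit 0), .ofNat (nat_lit 0), .ofNat (nat_lit 0), .ofNat (nat_lit 0), .ofNat (nat_lit 0), .ofNat (nat_lit 0), .ofNat (nat_lit 0), .ofNat (nat_lit 0), .ofNat (nat_lit 0), .ofNat (nat_lit 0), .ofNat (nat_lit 0), .ofNat (nat_lit 0), .ofNat (nat_lit 0), .ofNat (nat_lit 0), .ofNat (nat_lit 0), .ofNat (nat_lit 0), .ofNat (nat_lit 252), .negSucc (nat_lit 83), .ofNat (nat_lit 36), .ofNat (nat_lit 24), .negSucc (nat_lit 11), .negSucc (nat_lit 11), .ofNat (nat_lit 0), .ofNat (nat_lit 12), .ofNat (nat_lit 0), .ofNat (nat_lit 0), .ofNat (nat_lit 0), .ofNat (nat_lit 2016), .negSucc (nat_lit 335), .ofNat (nat_lit 48), .negSucc (nat_lit 23), .ofNat (nat_lit 48), .ofNat (nat_lit 24), .ofNat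 (nat_lit 72), .negSucc (nat_lit 95), .ofNat (nat_lit 0), .negSucc (nat_lit 47), .negSucc (nat_lit 23), .ofNat (nat_lit 24), .ofNat (nat_lit 24), .ofNat (nat_lit 0), .ofNat (nat_lit 0)],
  [.ofNat (nat_lit 0), .ofNat (nat_lit 0), .ofNat (nat_lit 0), .ofNat (nat_lit 0), .ofNat (nat_lit 0), .ofNat (nat_lit 0), .ofNat (nat_lit 0), .ofNat (nat_lit 0), .ofNat (nat_lit 0), .ofNat (nat_lit 0), .ofNat (nat_lit 0), .ofNat (nat_lit 0), .ofNat (nat_lit 0), .ofNat (nat_lit 0), .ofNat (nat_lit 0), .ofNat (nat_lit 0), .ofNat (nat_lit 0), .ofNat (nat_lit 0), .ofNat (nat_lit 0), .ofNat (nat_lit 0), .ofNat (nat_lit 0), .ofNat (nat_lit 0), .ofNat (nat_lit 0), .ofNat (nat_lit 0), .ofNat (nat_lit 0), .ofNat (nat_lit 0), .negSucc (nat_lit 62), .ofNat (nat_lit 21), .ofNat (nat_lit 21), .negSucc (nat_lit 20), .negSucc (nat_lit 14), .negSucc (nat_lit 2), .ofNat (nat_lit 27), .ofNat (nat_lit 15), .negSucc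 (nat_lit 2), .negSucc (nat_lit 8), .ofNat (nat_lit 9), .negSucc (nat_lit 503), .ofNat (nat_lit 84), .ofNat (nat_lit 168), .negSucc (nat_lit 83), .negSucc (nat_lit 11), .negSucc (nat_lit 35), .ofNat (nat_lit 72), .negSucc (nat_lit 119), .ofNat (nat_lit 36), .negSucc (nat_lit 23), .ofNat (nat_lit 12), .ofNat (nat_lit 12), .negSucc (nat_lit 23), .negSucc (nat_lit 11), .ofNat (nat_lit 72)],
  [.ofNat (nat_lit 0), .ofNat (nat_lit 0), .ofNat (nat_lit 0), .ofNat (nat_lit 0), .ofNat (nat_lit 0), .ofNat (nat_lit 0), .ofNat (nat_lit 0), .ofNat (nat_lit 0), .ofNat (nat_lit 0), .ofNat (nat_lit 0), .ofNat (nat_lit 0), .ofNat (nat_lit 0), .ofNat (nat_lit 0), .ofNat (nat_lit 0), .ofNat (nat_lit 0), .ofNat (nat_lit 0), .ofNat (nat_lit 0), .ofNat (nat_lit 0), .ofNat (nat_lit 0), .ofNat (nat_lit 0), .ofNat (nat_lit 0), .ofNat (nat_lit 0), .ofNat (nat_lit 0), .ofNat (nat_lit 0), .ofNat (nat_lit 0),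 .ofNat (nat_lit 0), .ofNat (nat_lit 0), .ofNat (nat_lit 0), .ofNat (nat_lit 0), .ofNat (nat_lit 0), .ofNat (nat_lit 0), .ofNat (nat_lit 0), .ofNat (nat_lit 0), .ofNat (nat_lit 0), .ofNat (nat_lit 0), .ofNat (nat_lit 0), .ofNat (nat_lit 0), .ofNat (nat_lit 216), .negSucc (nat_lit 71), .ofNat (nat_lit 72), .ofNat (nat_lit 0), .negSucc (nat_lit 71), .ofNat (nat_lit 0), .ofNat (nat_lit 0), .ofNat (nat_lit 72), .ofNat (nat_lit 0), .ofNat (nat_lit 0), .ofNat (nat_lit 0), .ofNat (nat_lit 0), .ofNat (nat_lit 0), .ofNat (nat_lit 0), .ofNat (nat_lit 0)],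
  [.ofNat (nat_lit 0), .ofNat (nat_lit 0), .ofNat (nat_lit 0), .ofNat (nat_lit 0), .ofNat (nat_lit 0), .ofNat (nat_lit 0), .ofNat (nat_lit 0), .ofNat (nat_lit 0), .ofNat (nat_lit 0), .ofNat (nat_lit 0), .ofNat (nat_lit 0), .ofNat (nat_lit 0), .ofNat (nat_lit 0), .ofNat (nat_lit 0), .ofNat (nat_lit 0), .ofNat (nat_lit 0), .ofNat (nat_lit 0), .ofNat (nat_lit 0), .ofNat (nat_lit 0), .ofNat (nat_lit 0), .ofNat (nat_lit 0), .ofNat (nat_lit 0), .ofNat (nat_lit 0), .ofNat (nat_lit 0), .ofNat (nat_lit 0), .ofNat (nat_lit 0), .ofNat (nat_lit 0), .ofNat (nat_lit 0), .ofNat (nat_lit 0), .ofNat (nat_lit 0), .ofNat (nat_lit 0), .ofNat (nat_lit 0), .ofNat (nat_lit 0), .ofNat (nat_lit 0), .ofNat (nat_lit 0), .ofNat (nat_lit 0), .ofNat (nat_lit 0), .ofNat (nat_lit 192), .negSucc (nat_lit 63), .negSucc (nat_lit 15), .ofNat (nat_lit 40), .ofNat (nat_lit 56), .negSucc (nat_lit 19), .ofNat (nat_lit 0),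 .negSucc (nat_lit 63), .ofNat (nat_lit 4), .ofNat (nat_lit 16), .ofNat (nat_lit 0), .negSucc (nat_lit 7), .ofNat (nat_lit 0), .ofNat (nat_lit 0), .ofNat (nat_lit 0)],
  [.ofNat (nat_lit 0), .ofNat (nat_lit 0), .ofNat (nat_lit 0), .ofNat (nat_lit 0), .ofNat (nat_lit 0), .ofNat (nat_lit 0), .ofNat (nat_lit 0), .ofNat (nat_lit 0), .ofNat (nat_lit 0), .ofNat (nat_lit 0), .ofNat (nat_lit 0), .ofNat (nat_lit 0), .ofNat (nat_lit 0), .ofNat (nat_lit 0), .ofNat (nat_lit 0), .ofNat (nat_lit 0), .ofNat (nat_lit 0), .ofNat (nat_lit 0), .ofNat (nat_lit 0), .ofNat (nat_lit 0), .ofNat (nat_lit 0), .ofNat (nat_lit 0), .ofNat (nat_lit 0), .ofNat (nat_lit 0), .ofNat (nat_lit 0), .ofNat (nat_lit 0), .ofNat (nat_lit 0), .ofNat (nat_lit 0), .ofNat (nat_lit 0), .ofNat (nat_lit 0), .ofNat (nat_lit 0), .ofNat (nat_lit 0), .ofNat (nat_lit 0), .ofNat (nat_lit 0), .ofNat (nat_lit 0), .ofNat (nat_lit 0), .ofNat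 (nat_lit 0), .negSucc (nat_lit 215), .ofNat (nat_lit 72), .negSucc (nat_lit 35), .negSucc (nat_lit 17), .ofNat (nat_lit 72), .negSucc (nat_lit 17), .ofNat (nat_lit 54), .negSucc (nat_lit 71), .ofNat (nat_lit 0), .ofNat (nat_lit 36), .negSucc (nat_lit 17), .negSucc (nat_lit 17), .ofNat (nat_lit 18), .ofNat (nat_lit 0), .ofNat (nat_lit 0)],
  [.ofNat (nat_lit 0), .ofNat (nat_lit 0), .ofNat (nat_lit 0), .ofNat (nat_lit 0), .ofNat (nat_lit 0), .ofNat (nat_lit 0), .ofNat (nat_lit 0), .ofNat (nat_lit 0), .ofNat (nat_lit 0), .ofNat (nat_lit 0), .ofNat (nat_lit 0), .ofNat (nat_lit 0), .ofNat (nat_lit 0), .ofNat (nat_lit 0), .ofNat (nat_lit 0), .ofNat (nat_lit 0), .ofNat (nat_lit 0), .ofNat (nat_lit 0), .ofNat (nat_lit 0), .ofNat (nat_lit 0), .ofNat (nat_lit 0), .ofNat (nat_lit 0), .ofNat (nat_lit 0), .ofNat (nat_lit 0), .ofNat (nat_lit 0), .ofNat (nat_lit 0), .ofNat (nat_lit 0), .ofNat (nat_lit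 0), .ofNat (nat_lit 0), .ofNat (nat_lit 0), .ofNat (nat_lit 0), .ofNat (nat_lit 0), .ofNat (nat_lit 0), .ofNat (nat_lit 0), .ofNat (nat_lit 0), .ofNat (nat_lit 0), .ofNat (nat_lit 0), .ofNat (nat_lit 27), .negSucc (nat_lit 8), .negSucc (nat_lit 8), .ofNat (nat_lit 9), .negSucc (nat_lit 8), .ofNat (nat_lit 9), .negSucc (nat_lit 26), .ofNat (nat_lit 27), .negSucc (nat_lit 8), .negSucc (nat_lit 8), .ofNat (nat_lit 9), .ofNat (nat_lit 9), .ofNat (nat_lit 9), .negSucc (nat_lit 8), .ofNat (nat_lit 27)]]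

def fs4_9 : Fs := [(0, 0, 0), (1, 0, 0), (0, 1, 0), (2, 0, 0), (0, 0, 1), (1, 1, 0), (3, 0, 0), (0, 2, 0), (1, 0, 1), (2, 1, 0), (0, 1, 1), (4, 0, 0), (1, 2, 0), (2, 0, 1), (0, 0, 2), (3, 1, 0), (0, 3, 0), (1, 1, 1)]

def lams4_9 : List (List ℕ) := [[1, 0, 0, 0], [2, 0, 0, 0], [1, 1, 0, 0], [3, 0, 0, 0], [2, 1, 0, 0], [1, 1, 1, 0], [4, 0, 0, 0], [3, 1, 0, 0], [2, 2, 0, 0], [2, 1, 1, 0], [1, 1, 1, 1], [5, 0, 0, 0], [4, 1, 0, 0], [3, 2, 0, 0], [3, 1, 1, 0], [2, 2, 1, 0], [2, 1, 1, 1], [6, 0, 0, 0], [5, 1, 0, 0], [4, 2, 0, 0], [4, 1, 1, 0], [3, 3, 0, 0], [3, 2, 1, 0], [3, 1, 1, 1], [2, 2, 2, 0], [2, 2, 1, 1], [7, 0, 0, 0], [6, 1, 0, 0], [5, 2, 0, 0], [5, 1, 1, 0], [4, 3, 0, 0], [4, 2, 1, 0], [4, 1, 1, 1], [3, 3, 1, 0], [3, 2, 2, 0], [3, 2, 1, 1], [2, 2, 2, 1], [8, 0, 0, 0], [7, 1, 0, 0], [6, 2, 0, 0], [6, 1, 1, 0], [5, 3, 0, 0], [5, 2, 1, 0], [5, 1, 1, 1], [4, 4, 0, 0], [4, 3, 1, 0],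 [4, 2, 2, 0], [4, 2, 1, 1], [3, 3, 2, 0], [3, 3, 1, 1], [3, 2, 2, 1], [2, 2, 2, 2], [9, 0, 0, 0], [8, 1, 0, 0], [7, 2, 0, 0], [7, 1, 1, 0], [6, 3, 0, 0], [6, 2, 1, 0], [6, 1, 1, 1], [5, 4, 0, 0], [5, 3, 1, 0], [5, 2, 2, 0], [5, 2, 1, 1], [4, 4, 1, 0], [4, 3, 2, 0], [4, 3, 1, 1], [4, 2, 2, 1], [3, 3, 3, 0], [3, 3, 2, 1], [3, 2, 2, 2]]

noncomputable def TT4_9 : L2 := [[.ofNat (nat_lit 27), .ofNat (nat_lit 27), .ofNat (nat_lit 27), .ofNat (nat_lit 27), .ofNat (nat_lit 27), .ofNat (nat_lit 27), .ofNat (nat_lit 27), .ofNat (nat_lit 27), .ofNat (nat_lit 27), .ofNat (nat_lit 27), .ofNat (nat_lit 27), .ofNat (nat_lit 27), .ofNat (nat_lit 27), .ofNat (nat_lit 27), .ofNat (nat_lit 27), .ofNat (nat_lit 27), .ofNat (nat_lit 27), .ofNat (nat_lit 27), .ofNat (nat_lit 27), .ofNat (nat_lit 27), .ofNat (nat_lit 27), .ofNat (nat_lit 27), .ofNat (nat_lit 27), .ofNat (nat_lit 27), .ofNat (nat_lit 27),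 .ofNat (nat_lit 27), .ofNat (nat_lit 27), .ofNat (nat_lit 27), .ofNat (nat_lit 27), .ofNat (nat_lit 27), .ofNat (nat_lit 27), .ofNat (nat_lit 27), .ofNat (nat_lit 27), .ofNat (nat_lit 27), .ofNat (nat_lit 27), .ofNat (nat_lit 27), .ofNat (nat_lit 27), .ofNat (nat_lit 27), .ofNat (nat_lit 27), .ofNat (nat_lit 27), .ofNat (nat_lit 27), .ofNat (nat_lit 27), .ofNat (nat_lit 27), .ofNat (nat_lit 27), .ofNat (nat_lit 27), .ofNat (nat_lit 27), .ofNat (nat_lit 27), .ofNat (nat_lit 27), .ofNat (nat_lit 27), .ofNat (nat_lit 27), .ofNat (nat_lit 27), .ofNat (nat_lit 27), .ofNat (nat_lit 27), .ofNat (nat_lit 27), .ofNat (nat_lit 27), .ofNat (nat_lit 27), .ofNat (nat_lit 27), .ofNat (nat_lit 27), .ofNat (nat_lit 27), .ofNat (nat_lit 27), .ofNat (nat_lit 27), .ofNat (nat_lit 27), .ofNat (nat_lit 27), .ofNat (nat_lit 27), .ofNat (nat_lit 27), .ofNat (nat_lit 27), .ofNat (nat_lit 27), .ofNat (nat_lit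 27), .ofNat (nat_lit 27), .ofNat (nat_lit 27)],
  [.ofNat (nat_lit 0), .ofNat (nat_lit 27), .negSucc (nat_lit 8), .ofNat (nat_lit 81), .ofNat (nat_lit 9), .negSucc (nat_lit 26), .ofNat (nat_lit 162), .ofNat (nat_lit 54), .ofNat (nat_lit 18), .negSucc (nat_lit 17), .negSucc (nat_lit 53), .ofNat (nat_lit 270), .ofNat (nat_lit 126), .ofNat (nat_lit 54), .ofNat (nat_lit 18), .negSucc (nat_lit 17), .negSucc (nat_lit 53), .ofNat (nat_lit 405), .ofNat (nat_lit 225), .ofNat (nat_lit 117), .ofNat (nat_lit 81), .ofNat (nat_lit 81), .ofNat (nat_lit 9), .negSucc (nat_lit 26), .negSucc (nat_lit 26), .negSucc (nat_lit 62), .ofNat (nat_lit 567), .ofNat (nat_lit 351), .ofNat (nat_lit 207), .ofNat (nat_lit 171), .ofNat (nat_lit 135), .ofNat (nat_lit 63), .ofNat (nat_lit 27), .ofNat (nat_lit 27), .negSucc (nat_lit 8), .negSucc (nat_lit 44), .negSucc (nat_lit 80), .ofNat (nat_lit 756), .ofNat (nat_lit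 504), .ofNat (nat_lit 324), .ofNat (nat_lit 288), .ofNat (nat_lit 216), .ofNat (nat_lit 144), .ofNat (nat_lit 108), .ofNat (nat_lit 180), .ofNat (nat_lit 72), .ofNat (nat_lit 36), .ofNat (nat_lit 0), .ofNat (nat_lit 0), .negSucc (nat_lit 35), .negSucc (nat_lit 71), .negSucc (nat_lit 107), .ofNat (nat_lit 972), .ofNat (nat_lit 684), .ofNat (nat_lit 468), .ofNat (nat_lit 432), .ofNat (nat_lit 324), .ofNat (nat_lit 252), .ofNat (nat_lit 216), .ofNat (nat_lit 252), .ofNat (nat_lit 144), .ofNat (nat_lit 108), .ofNat (nat_lit 72), .ofNat (nat_lit 108), .ofNat (nat_lit 36), .ofNat (nat_lit 0), .negSucc (nat_lit 35), .ofNat (nat_lit 0), .negSucc (nat_lit 71), .negSucc (nat_lit 107)],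
  [.ofNat (nat_lit 0), .ofNat (nat_lit 0), .ofNat (nat_lit 0), .ofNat (nat_lit 27), .negSucc (nat_lit 8), .ofNat (nat_lit 9), .ofNat (nat_lit 108), .ofNat (nat_lit 0), .negSucc (nat_lit 35), .ofNat (nat_lit 0), .ofNat (nat_lit 36), .ofNat (nat_lit 270), .ofNat (nat_lit 54), .negSucc (nat_lit 53), .ofNat (nat_lit 0), .negSucc (nat_lit 17), .ofNat (nat_lit 36), .ofNat (nat_lit 540), .ofNat (nat_lit 180), .negSucc (nat_lit 35), .ofNat (nat_lit 36), .negSucc (nat_lit 107), .negSucc (nat_lit 35), .ofNat (nat_lit 36), .negSucc (nat_lit 35), .ofNat (nat_lit 36), .ofNat (nat_lit 945), .ofNat (nat_lit 405), .ofNat (nat_lit 45), .ofNat (nat_lit 135), .negSucc (nat_lit 134), .negSucc (nat_lit 26), .ofNat (nat_lit 63), .negSucc (nat_lit 80), .negSucc (nat_lit 62), .ofNat (nat_lit 27), .ofNat (nat_lit 45), .ofNat (nat_lit 1512), .ofNat (nat_lit 756), .ofNat (nat_lit 216), .ofNat (nat_lit 324),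 .negSucc (nat_lit 107), .ofNat (nat_lit 36), .ofNat (nat_lit 144), .negSucc (nat_lit 215), .negSucc (nat_lit 107), .negSucc (nat_lit 71), .ofNat (nat_lit 36), .negSucc (nat_lit 107), .ofNat (nat_lit 0), .ofNat (nat_lit 36), .ofNat (nat_lit 72), .ofNat (nat_lit 2268), .ofNat (nat_lit 1260), .ofNat (nat_lit 504), .ofNat (nat_lit 630), .ofNat (nat_lit 0), .ofNat (nat_lit 180), .ofNat (nat_lit 306), .negSucc (nat_lit 251), .negSucc (nat_lit 89), .negSucc (nat_lit 35), .ofNat (nat_lit 90), .negSucc (nat_lit 179), .negSucc (nat_lit 143), .negSucc (nat_lit 17), .ofNat (nat_lit 36), .negSucc (nat_lit 161), .ofNat (nat_lit 18), .ofNat (nat_lit 72)],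
  [.ofNat (nat_lit 0), .ofNat (nat_lit 0), .ofNat (nat_lit 0), .ofNat (nat_lit 0), .ofNat (nat_lit 0), .ofNat (nat_lit 0), .ofNat (nat_lit 54), .negSucc (nat_lit 17), .ofNat (nat_lit 18), .ofNat (nat_lit 0), .ofNat (nat_lit 0), .ofNat (nat_lit 270), .negSucc (nat_lit 17), .ofNat (nat_lit 18), .negSucc (nat_lit 35), .ofNat (nat_lit 18), .ofNat (nat_lit 0), .ofNat (nat_lit 810), .ofNat (nat_lit 90), .ofNat (nat_lit 18), .negSucc (nat_lit 89), .ofNat (nat_lit 54), .ofNat (nat_lit 0), .negSucc (nat_lit 53), .ofNat (nat_lit 54), .ofNat (nat_lit 18), .ofNat (nat_lit 1890), .ofNat (nat_lit 450), .ofNat (nat_lit 90), .negSucc (nat_lit 89), .ofNat (nat_lit 90), .negSucc (nat_lit 53), .negSucc (nat_lit 161), .ofNat (nat_lit 18), .ofNat (nat_lit 54), .negSucc (nat_lit 17), .ofNat (nat_lit 54), .ofNat (nat_lit 3780), .ofNat (nat_lit 1260), .ofNat (nat_lit 360), .ofNat (nat_lit 90), .ofNat (nat_lit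 180), .negSucc (nat_lit 89), .negSucc (nat_lit 269), .ofNat (nat_lit 180), .ofNat (nat_lit 0), .ofNat (nat_lit 0), .negSucc (nat_lit 125), .ofNat (nat_lit 90), .negSucc (nat_lit 17), .ofNat (nat_lit 36), .ofNat (nat_lit 108), .ofNat (nat_lit 6804), .ofNat (nat_lit 2772), .ofNat (nat_lit 1008), .ofNat (nat_lit 630), .ofNat (nat_lit 432), .ofNat (nat_lit 0), .negSucc (nat_lit 269), .ofNat (nat_lit 324), .negSucc (nat_lit 17), .negSucc (nat_lit 71), .negSucc (nat_lit 269), .ofNat (nat_lit 36), .ofNat (nat_lit 72), .negSucc (nat_lit 89), .negSucc (nat_lit 71), .ofNat (nat_lit 162), .ofNat (nat_lit 54), .ofNat (nat_lit 108)],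
  [.ofNat (nat_lit 0), .ofNat (nat_lit 0), .ofNat (nat_lit 0), .ofNat (nat_lit 0), .ofNat (nat_lit 0), .ofNat (nat_lit 0), .negSucc (nat_lit 26), .ofNat (nat_lit 9), .ofNat (nat_lit 9), .negSucc (nat_lit 8), .ofNat (nat_lit 27), .negSucc (nat_lit 134), .ofNat (nat_lit 9), .ofNat (nat_lit 45), .negSucc (nat_lit 8), .negSucc (nat_lit 26), .ofNat (nat_lit 27), .negSucc (nat_lit 404), .negSucc (nat_lit 44), .ofNat (nat_lit 99), .negSucc (nat_lit 8), .ofNat (nat_lit 135), .negSucc (nat_lit 26), .ofNat (nat_lit 27), .negSucc (nat_lit 80), .ofNat (nat_lit 27), .negSucc (nat_lit 944), .negSucc (nat_lit 224), .ofNat (nat_lit 135), .negSucc (nat_lit 44), .ofNat (nat_lit 279), .negSucc (nat_lit 8), .ofNat (nat_lit 27), .negSucc (nat_lit 8), .negSucc (nat_lit 116), .ofNat (nat_lit 27), .ofNat (nat_lit 27), .negSucc (nat_lit 1889), .negSucc (nat_lit 629), .ofNat (nat_lit 90), .negSucc (nat_lit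 179), .ofNat (nat_lit 450), .ofNat (nat_lit 0), .ofNat (nat_lit 0), .ofNat (nat_lit 558), .ofNat (nat_lit 54), .negSucc (nat_lit 125), .ofNat (nat_lit 36), .negSucc (nat_lit 179), .ofNat (nat_lit 36), .ofNat (nat_lit 18), .ofNat (nat_lit 54), .negSucc (nat_lit 3401), .negSucc (nat_lit 1385), .negSucc (nat_lit 125), .negSucc (nat_lit 503), .ofNat (nat_lit 594), .negSucc (nat_lit 53), .negSucc (nat_lit 107), .ofNat (nat_lit 918), .ofNat (nat_lit 144), .negSucc (nat_lit 125), .ofNat (nat_lit 36), .ofNat (nat_lit 198), .negSucc (nat_lit 197), .ofNat (nat_lit 72), .ofNat (nat_lit 18), .negSucc (nat_lit 323), .ofNat (nat_lit 0), .ofNat (nat_lit 54)],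
  [.ofNat (nat_lit 0), .ofNat (nat_lit 0), .ofNat (nat_lit 0), .ofNat (nat_lit 0), .ofNat (nat_lit 0), .ofNat (nat_lit 0), .ofNat (nat_lit 0), .ofNat (nat_lit 0), .ofNat (nat_lit 0), .ofNat (nat_lit 0), .ofNat (nat_lit 0), .ofNat (nat_lit 90), .negSucc (nat_lit 29), .ofNat (nat_lit 6), .ofNat (nat_lit 12), .negSucc (nat_lit 5), .ofNat (nat_lit 0), .ofNat (nat_lit 540), .negSucc (nat_lit 59), .negSucc (nat_lit 35), .negSucc (nat_lit 11), .ofNat (nat_lit 36), .ofNat (nat_lit 12), .ofNat (nat_lit 36), .negSucc (nat_lit 35), .negSucc (nat_lit 11), .ofNat (nat_lit 1890), .ofNat (nat_lit 90), .negSucc (nat_lit 149), .negSucc (nat_lit 89), .ofNat (nat_lit 18), .negSucc (nat_lit 5), .ofNat (nat_lit 54), .ofNat (nat_lit 54), .negSucc (nat_lit 29), .ofNat (nat_lit 30), .negSucc (nat_lit 53), .ofNat (nat_lit 5040), .ofNat (nat_lit 840), .negSucc (nat_lit 239), .negSucc (nat_lit 119), .negSucc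 (nat_lit 119), .negSucc (nat_lit 119), .ofNat (nat_lit 0), .ofNat (nat_lit 48), .ofNat (nat_lit 72), .negSucc (nat_lit 47), .ofNat (nat_lit 72), .negSucc (nat_lit 23), .ofNat (nat_lit 96), .negSucc (nat_lit 23), .negSucc (nat_lit 143), .ofNat (nat_lit 11340), .ofNat (nat_lit 2940), .ofNat (nat_lit 0), .ofNat (nat_lit 210), .negSucc (nat_lit 359), .negSucc (nat_lit 299), .negSucc (nat_lit 89), .negSucc (nat_lit 59), .negSucc (nat_lit 29), .negSucc (nat_lit 179), .ofNat (nat_lit 30), .ofNat (nat_lit 156), .negSucc (nat_lit 23), .ofNat (nat_lit 186), .ofNat (nat_lit 36), .negSucc (nat_lit 53), .ofNat (nat_lit 6), .negSucc (nat_lit 143)],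
  [.ofNat (nat_lit 0), .ofNat (nat_lit 0), .ofNat (nat_lit 0), .ofNat (nat_lit 0), .ofNat (nat_lit 0), .ofNat (nat_lit 0), .ofNat (nat_lit 0), .ofNat (nat_lit 0), .ofNat (nat_lit 0), .ofNat (nat_lit 0), .ofNat (nat_lit 0), .ofNat (nat_lit 0), .ofNat (nat_lit 0), .ofNat (nat_lit 0), .ofNat (nat_lit 0), .ofNat (nat_lit 0), .ofNat (nat_lit 0), .ofNat (nat_lit 108), .negSucc (nat_lit 35), .ofNat (nat_lit 36), .ofNat (nat_lit 0), .negSucc (nat_lit 35), .ofNat (nat_lit 0), .ofNat (nat_lit 0), .ofNat (nat_lit 0), .ofNat (nat_lit 0), .ofNat (nat_lit 756), .negSucc (nat_lit 107), .ofNat (nat_lit 108), .negSucc (nat_lit 71), .negSucc (nat_lit 35), .ofNat (nat_lit 36), .ofNat (nat_lit 0), .negSucc (nat_lit 35), .ofNat (nat_lit 0), .ofNat (nat_lit 0), .ofNat (nat_lit 0), .ofNat (nat_lit 3024), .ofNat (nat_lit 0), .ofNat (nat_lit 216), .negSucc (nat_lit 323), .ofNat (nat_lit 72), .ofNat (nat_lit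 72), .negSucc (nat_lit 107), .negSucc (nat_lit 143), .negSucc (nat_lit 35), .ofNat (nat_lit 72), .ofNat (nat_lit 36), .negSucc (nat_lit 35), .negSucc (nat_lit 35), .ofNat (nat_lit 0), .ofNat (nat_lit 0), .ofNat (nat_lit 9072), .ofNat (nat_lit 1008), .ofNat (nat_lit 504), .negSucc (nat_lit 755), .ofNat (nat_lit 360), .ofNat (nat_lit 0), .negSucc (nat_lit 539), .negSucc (nat_lit 143), .ofNat (nat_lit 36), .ofNat (nat_lit 216), .ofNat (nat_lit 36), .negSucc (nat_lit 143), .ofNat (nat_lit 0), .negSucc (nat_lit 35), .ofNat (nat_lit 72), .negSucc (nat_lit 107), .negSucc (nat_lit 35), .ofNat (nat_lit 0)],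
  [.ofNat (nat_lit 0), .ofNat (nat_lit 0), .ofNat (nat_lit 0), .ofNat (nat_lit 0), .ofNat (nat_lit 0), .ofNat (nat_lit 0), .ofNat (nat_lit 0), .ofNat (nat_lit 0), .ofNat (nat_lit 0), .ofNat (nat_lit 0), .ofNat (nat_lit 0), .ofNat (nat_lit 0), .ofNat (nat_lit 0), .ofNat (nat_lit 0), .ofNat (nat_lit 0), .ofNat (nat_lit 0), .ofNat (nat_lit 0), .ofNat (nat_lit 36), .negSucc (nat_lit 11), .negSucc (nat_lit 11), .ofNat (nat_lit 12), .ofNat (nat_lit 24), .negSucc (nat_lit 5), .ofNat (nat_lit 0), .ofNat (nat_lit 12), .ofNat (nat_lit 0), .ofNat (nat_lit 252), .negSucc (nat_lit 35), .negSucc (nat_lit 83), .ofNat (nat_lit 36), .ofNat (nat_lit 60), .negSucc (nat_lit 11), .ofNat (nat_lit 36), .negSucc (nat_lit 11), .ofNat (nat_lit 12), .negSucc (nat_lit 11), .ofNat (nat_lit 12), .ofNat (nat_lit 1008), .ofNat (nat_lit 0), .negSucc (nat_lit 287), .ofNat (nat_lit 72), .ofNat (nat_lit 24), .negSucc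 (nat_lit 35), .ofNat (nat_lit 144), .ofNat (nat_lit 240), .negSucc (nat_lit 11), .ofNat (nat_lit 0), .ofNat (nat_lit 0), .ofNat (nat_lit 24), .negSucc (nat_lit 47), .ofNat (nat_lit 0), .ofNat (nat_lit 48), .ofNat (nat_lit 3024), .ofNat (nat_lit 336), .negSucc (nat_lit 671), .ofNat (nat_lit 168), .negSucc (nat_lit 239), .negSucc (nat_lit 119), .ofNat (nat_lit 360), .ofNat (nat_lit 432), .negSucc (nat_lit 47), .negSucc (nat_lit 47), .ofNat (nat_lit 72), .ofNat (nat_lit 48), .ofNat (nat_lit 24), .negSucc (nat_lit 71), .ofNat (nat_lit 0), .ofNat (nat_lit 72), .negSucc (nat_lit 23), .ofNat (nat_lit 48)],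
  [.ofNat (nat_lit 0), .ofNat (nat_lit 0), .ofNat (nat_lit 0), .ofNat (nat_lit 0), .ofNat (nat_lit 0), .ofNat (nat_lit 0), .ofNat (nat_lit 0), .ofNat (nat_lit 0), .ofNat (nat_lit 0), .ofNat (nat_lit 0), .ofNat (nat_lit 0), .ofNat (nat_lit 0), .ofNat (nat_lit 0), .ofNat (nat_lit 0), .ofNat (nat_lit 0), .ofNat (nat_lit 0), .ofNat (nat_lit 0), .negSucc (nat_lit 80), .ofNat (nat_lit 27), .negSucc (nat_lit 8), .negSucc (nat_lit 8), .ofNat (nat_lit 27), .negSucc (nat_lit 8), .ofNat (nat_lit 27), .ofNat (nat_lit 27), .negSucc (nat_lit 8), .negSucc (nat_lit 566), .ofNat (nat_lit 81), .ofNat (nat_lit 9), .ofNat (nat_lit 9), .ofNat (nat_lit 81), .negSucc (nat_lit 62), .ofNat (nat_lit 81), .negSucc (nat_lit 26), .ofNat (nat_lit 45), .ofNat (nat_lit 9), .negSucc (nat_lit 26), .negSucc (nat_lit 2267), .ofNat (nat_lit 0), .ofNat (nat_lit 108), .ofNat (nat_lit 108), .ofNat (nat_lit 216), .negSucc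 (nat_lit 143), .ofNat (nat_lit 216), .ofNat (nat_lit 324), .negSucc (nat_lit 107), .negSucc (nat_lit 35), .ofNat (nat_lit 36), .ofNat (nat_lit 108), .ofNat (nat_lit 0), .ofNat (nat_lit 0), .negSucc (nat_lit 107), .negSucc (nat_lit 6803), .negSucc (nat_lit 755), .ofNat (nat_lit 252), .ofNat (nat_lit 252), .ofNat (nat_lit 540), .negSucc (nat_lit 179), .ofNat (nat_lit 540), .ofNat (nat_lit 828), .negSucc (nat_lit 251), .negSucc (nat_lit 251), .ofNat (nat_lit 108), .negSucc (nat_lit 179), .ofNat (nat_lit 36), .negSucc (nat_lit 35), .ofNat (nat_lit 36), .ofNat (nat_lit 324), .ofNat (nat_lit 36), .negSucc (nat_lit 107)],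
  [.ofNat (nat_lit 0), .ofNat (nat_lit 0), .ofNat (nat_lit 0), .ofNat (nat_lit 0), .ofNat (nat_lit 0), .ofNat (nat_lit 0), .ofNat (nat_lit 0), .ofNat (nat_lit 0), .ofNat (nat_lit 0), .ofNat (nat_lit 0), .ofNat (nat_lit 0), .ofNat (nat_lit 0), .ofNat (nat_lit 0), .ofNat (nat_lit 0), .ofNat (nat_lit 0), .ofNat (nat_lit 0), .ofNat (nat_lit 0), .ofNat (nat_lit 0), .ofNat (nat_lit 0), .ofNat (nat_lit 0), .ofNat (nat_lit 0), .ofNat (nat_lit 0), .ofNat (nat_lit 0), .ofNat (nat_lit 0), .ofNat (nat_lit 0), .ofNat (nat_lit 0), .ofNat (nat_lit 252), .negSucc (nat_lit 83), .ofNat (nat_lit 36), .ofNat (nat_lit 24), .negSucc (nat_lit 11), .negSucc (nat_lit 11), .ofNat (nat_lit 0), .ofNat (nat_lit 12), .ofNat (nat_lit 0), .ofNat (nat_lit 0), .ofNat (nat_lit 0), .ofNat (nat_lit 2016), .negSucc (nat_lit 335), .ofNat (nat_lit 48), .negSucc (nat_lit 23), .ofNat (nat_lit 48), .ofNat (nat_lit 24), .ofNat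 (nat_lit 72), .negSucc (nat_lit 95), .ofNat (nat_lit 0), .negSucc (nat_lit 47), .negSucc (nat_lit 23), .ofNat (nat_lit 24), .ofNat (nat_lit 24), .ofNat (nat_lit 0), .ofNat (nat_lit 0), .ofNat (nat_lit 9072), .negSucc (nat_lit 335), .negSucc (nat_lit 167), .negSucc (nat_lit 419), .ofNat (nat_lit 216), .ofNat (nat_lit 72), .ofNat (nat_lit 180), .negSucc (nat_lit 143), .ofNat (nat_lit 60), .negSucc (nat_lit 71), .ofNat (nat_lit 36), .negSucc (nat_lit 47), .negSucc (nat_lit 23), .ofNat (nat_lit 12), .negSucc (nat_lit 71), .ofNat (nat_lit 108), .ofNat (nat_lit 36), .ofNat (nat_lit 0)],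
  [.ofNat (nat_lit 0), .ofNat (nat_lit 0), .ofNat (nat_lit 0), .ofNat (nat_lit 0), .ofNat (nat_lit 0), .ofNat (nat_lit 0), .ofNat (nat_lit 0), .ofNat (nat_lit 0), .ofNat (nat_lit 0), .ofNat (nat_lit 0), .ofNat (nat_lit 0), .ofNat (nat_lit 0), .ofNat (nat_lit 0), .ofNat (nat_lit 0), .ofNat (nat_lit 0), .ofNat (nat_lit 0), .ofNat (nat_lit 0), .ofNat (nat_lit 0), .ofNat (nat_lit 0), .ofNat (nat_lit 0), .ofNat (nat_lit 0), .ofNat (nat_lit 0), .ofNat (nat_lit 0), .ofNat (nat_lit 0), .ofNat (nat_lit 0), .ofNat (nat_lit 0), .negSucc (nat_lit 62), .ofNat (nat_lit 21), .ofNat (nat_lit 21), .negSucc (nat_lit 20), .negSucc (nat_lit 14), .negSucc (nat_lit 2), .ofNat (nat_lit 27), .ofNat (nat_lit 15), .negSucc (nat_lit 2), .negSucc (nat_lit 8), .ofNat (nat_lit 9), .negSucc (nat_lit 503), .ofNat (nat_lit 84), .ofNat (nat_lit 168), .negSucc (nat_lit 83), .negSucc (nat_lit 11), .negSucc (nat_lit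 35), .ofNat (nat_lit 72), .negSucc (nat_lit 119), .ofNat (nat_lit 36), .negSucc (nat_lit 23), .ofNat (nat_lit 12), .ofNat (nat_lit 12), .negSucc (nat_lit 23), .negSucc (nat_lit 11), .ofNat (nat_lit 72), .negSucc (nat_lit 2267), .ofNat (nat_lit 84), .ofNat (nat_lit 672), .negSucc (nat_lit 209), .ofNat (nat_lit 216), .negSucc (nat_lit 107), .ofNat (nat_lit 90), .negSucc (nat_lit 323), .ofNat (nat_lit 30), .negSucc (nat_lit 131), .ofNat (nat_lit 66), .ofNat (nat_lit 84), .ofNat (nat_lit 24), .ofNat (nat_lit 6), .negSucc (nat_lit 11), .ofNat (nat_lit 54), .negSucc (nat_lit 53), .ofNat (nat_lit 72)],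
  [.ofNat (nat_lit 0), .ofNat (nat_lit 0), .ofNat (nat_lit 0), .ofNat (nat_lit 0), .ofNat (nat_lit 0), .ofNat (nat_lit 0), .ofNat (nat_lit 0), .ofNat (nat_lit 0), .ofNat (nat_lit 0), .ofNat (nat_lit 0), .ofNat (nat_lit 0), .ofNat (nat_lit 0), .ofNat (nat_lit 0), .ofNat (nat_lit 0), .ofNat (nat_lit 0), .ofNat (nat_lit 0), .ofNat (nat_lit 0), .ofNat (nat_lit 0), .ofNat (nat_lit 0), .ofNat (nat_lit 0), .ofNat (nat_lit 0), .ofNat (nat_lit 0), .ofNat (nat_lit 0), .ofNat (nat_lit 0), .ofNat (nat_lit 0), .ofNat (nat_lit 0), .ofNat (nat_lit 0), .ofNat (nat_lit 0), .ofNat (nat_lit 0), .ofNat (nat_lit 0), .ofNat (nat_lit 0), .ofNat (nat_lit 0), .ofNat (nat_lit 0), .ofNat (nat_lit 0), .ofNat (nat_lit 0), .ofNat (nat_lit 0), .ofNat (nat_lit 0), .ofNat (nat_lit 216), .negSucc (nat_lit 71), .ofNat (nat_lit 72), .ofNat (nat_lit 0), .negSucc (nat_lit 71), .ofNat (nat_lit 0), .ofNat (nat_lit 0), .ofNat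 (nat_lit 72), .ofNat (nat_lit 0), .ofNat (nat_lit 0), .ofNat (nat_lit 0), .ofNat (nat_lit 0), .ofNat (nat_lit 0), .ofNat (nat_lit 0), .ofNat (nat_lit 0), .ofNat (nat_lit 1944), .negSucc (nat_lit 359), .ofNat (nat_lit 360), .negSucc (nat_lit 143), .negSucc (nat_lit 215), .ofNat (nat_lit 72), .ofNat (nat_lit 0), .ofNat (nat_lit 72), .negSucc (nat_lit 71), .ofNat (nat_lit 0), .ofNat (nat_lit 0), .ofNat (nat_lit 72), .ofNat (nat_lit 0), .ofNat (nat_lit 0), .ofNat (nat_lit 0), .ofNat (nat_lit 0), .ofNat (nat_lit 0), .ofNat (nat_lit 0)],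
  [.ofNat (nat_lit 0), .ofNat (nat_lit 0), .ofNat (nat_lit 0), .ofNat (nat_lit 0), .ofNat (nat_lit 0), .ofNat (nat_lit 0), .ofNat (nat_lit 0), .ofNat (nat_lit 0), .ofNat (nat_lit 0), .ofNat (nat_lit 0), .ofNat (nat_lit 0), .ofNat (nat_lit 0), .ofNat (nat_lit 0), .ofNat (nat_lit 0), .ofNat (nat_lit 0), .ofNat (nat_lit 0), .ofNat (nat_lit 0), .ofNat (nat_lit 0), .ofNat (nat_lit 0), .ofNat (nat_lit 0), .ofNat (nat_lit 0), .ofNat (nat_lit 0), .ofNat (nat_lit 0), .ofNat (nat_lit 0), .ofNat (nat_lit 0), .ofNat (nat_lit 0), .ofNat (nat_lit 0), .ofNat (nat_lit 0), .ofNat (nat_lit 0), .ofNat (nat_lit 0), .ofNat (nat_lit 0), .ofNat (nat_lit 0), .ofNat (nat_lit 0), .ofNat (nat_lit 0), .ofNat (nat_lit 0), .ofNat (nat_lit 0), .ofNat (nat_lit 0), .ofNat (nat_lit 192), .negSucc (nat_lit 63), .negSucc (nat_lit 15), .ofNat (nat_lit 40), .ofNat (nat_lit 56), .negSucc (nat_lit 19), .ofNat (nat_lit 0),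 .negSucc (nat_lit 63), .ofNat (nat_lit 4), .ofNat (nat_lit 16), .ofNat (nat_lit 0), .negSucc (nat_lit 7), .ofNat (nat_lit 0), .ofNat (nat_lit 0), .ofNat (nat_lit 0), .ofNat (nat_lit 1728), .negSucc (nat_lit 319), .negSucc (nat_lit 239), .ofNat (nat_lit 152), .ofNat (nat_lit 288), .negSucc (nat_lit 55), .ofNat (nat_lit 120), .negSucc (nat_lit 95), .ofNat (nat_lit 16), .ofNat (nat_lit 0), .negSucc (nat_lit 39), .negSucc (nat_lit 31), .ofNat (nat_lit 24), .ofNat (nat_lit 8), .ofNat (nat_lit 16), .negSucc (nat_lit 71), .negSucc (nat_lit 7), .ofNat (nat_lit 0)],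
  [.ofNat (nat_lit 0), .ofNat (nat_lit 0), .ofNat (nat_lit 0), .ofNat (nat_lit 0), .ofNat (nat_lit 0), .ofNat (nat_lit 0), .ofNat (nat_lit 0), .ofNat (nat_lit 0), .ofNat (nat_lit 0), .ofNat (nat_lit 0), .ofNat (nat_lit 0), .ofNat (nat_lit 0), .ofNat (nat_lit 0), .ofNat (nat_lit 0), .ofNat (nat_lit 0), .ofNat (nat_lit 0), .ofNat (nat_lit 0), .ofNat (nat_lit 0), .ofNat (nat_lit 0), .ofNat (nat_lit 0), .ofNat (nat_lit 0), .ofNat (nat_lit 0), .ofNat (nat_lit 0), .ofNat (nat_lit 0), .ofNat (nat_lit 0), .ofNat (nat_lit 0), .ofNat (nat_lit 0), .ofNat (nat_lit 0), .ofNat (nat_lit 0), .ofNat (nat_lit 0), .ofNat (nat_lit 0), .ofNat (nat_lit 0), .ofNat (nat_lit 0), .ofNat (nat_lit 0), .ofNat (nat_lit 0), .ofNat (nat_lit 0), .ofNat (nat_lit 0), .negSucc (nat_lit 215), .ofNat (nat_lit 72), .negSucc (nat_lit 35), .negSucc (nat_lit 17), .ofNat (nat_lit 72), .negSucc (nat_lit 17), .ofNat (nat_lit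 54), .negSucc (nat_lit 71), .ofNat (nat_lit 0), .ofNat (nat_lit 36), .negSucc (nat_lit 17), .negSucc (nat_lit 17), .ofNat (nat_lit 18), .ofNat (nat_lit 0), .ofNat (nat_lit 0), .negSucc (nat_lit 1943), .ofNat (nat_lit 360), .negSucc (nat_lit 107), .ofNat (nat_lit 18), .ofNat (nat_lit 324), .negSucc (nat_lit 179), .ofNat (nat_lit 270), .negSucc (nat_lit 71), .ofNat (nat_lit 18), .ofNat (nat_lit 108), .negSucc (nat_lit 17), .negSucc (nat_lit 71), .ofNat (nat_lit 36), .ofNat (nat_lit 18), .negSucc (nat_lit 35), .negSucc (nat_lit 161), .ofNat (nat_lit 18), .ofNat (nat_lit 0)],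
  [.ofNat (nat_lit 0), .ofNat (nat_lit 0), .ofNat (nat_lit 0), .ofNat (nat_lit 0), .ofNat (nat_lit 0), .ofNat (nat_lit 0), .ofNat (nat_lit 0), .ofNat (nat_lit 0), .ofNat (nat_lit 0), .ofNat (nat_lit 0), .ofNat (nat_lit 0), .ofNat (nat_lit 0), .ofNat (nat_lit 0), .ofNat (nat_lit 0), .ofNat (nat_lit 0), .ofNat (nat_lit 0), .ofNat (nat_lit 0), .ofNat (nat_lit 0), .ofNat (nat_lit 0), .ofNat (nat_lit 0), .ofNat (nat_lit 0), .ofNat (nat_lit 0), .ofNat (nat_lit 0), .ofNat (nat_lit 0), .ofNat (nat_lit 0), .ofNat (nat_lit 0), .ofNat (nat_lit 0), .ofNat (nat_lit 0), .ofNat (nat_lit 0), .ofNat (nat_lit 0), .ofNat (nat_lit 0), .ofNat (nat_lit 0), .ofNat (nat_lit 0), .ofNat (nat_lit 0), .ofNat (nat_lit 0), .ofNat (nat_lit 0), .ofNat (nat_lit 0), .ofNat (nat_lit 27), .negSucc (nat_lit 8), .negSucc (nat_lit 8), .ofNat (nat_lit 9), .negSucc (nat_lit 8), .ofNat (nat_lit 9), .negSucc (nat_lit 26),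 .ofNat (nat_lit 27), .negSucc (nat_lit 8), .negSucc (nat_lit 8), .ofNat (nat_lit 9), .ofNat (nat_lit 9), .ofNat (nat_lit 9), .negSucc (nat_lit 8), .ofNat (nat_lit 27), .ofNat (nat_lit 243), .negSucc (nat_lit 44), .negSucc (nat_lit 80), .ofNat (nat_lit 45), .negSucc (nat_lit 80), .ofNat (nat_lit 63), .negSucc (nat_lit 134), .ofNat (nat_lit 99), .negSucc (nat_lit 26), .negSucc (nat_lit 8), .ofNat (nat_lit 9), .negSucc (nat_lit 44), .negSucc (nat_lit 8), .ofNat (nat_lit 45), .negSucc (nat_lit 8), .ofNat (nat_lit 81), .negSucc (nat_lit 26), .ofNat (nat_lit 27)],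
  [.ofNat (nat_lit 0), .ofNat (nat_lit 0), .ofNat (nat_lit 0), .ofNat (nat_lit 0), .ofNat (nat_lit 0), .ofNat (nat_lit 0), .ofNat (nat_lit 0), .ofNat (nat_lit 0), .ofNat (nat_lit 0), .ofNat (nat_lit 0), .ofNat (nat_lit 0), .ofNat (nat_lit 0), .ofNat (nat_lit 0), .ofNat (nat_lit 0), .ofNat (nat_lit 0), .ofNat (nat_lit 0), .ofNat (nat_lit 0), .ofNat (nat_lit 0), .ofNat (nat_lit 0), .ofNat (nat_lit 0), .ofNat (nat_lit 0), .ofNat (nat_lit 0), .ofNat (nat_lit 0), .ofNat (nat_lit 0), .ofNat (nat_lit 0), .ofNat (nat_lit 0), .ofNat (nat_lit 0), .ofNat (nat_lit 0), .ofNat (nat_lit 0), .ofNat (nat_lit 0), .ofNat (nat_lit 0), .ofNat (nat_lit 0), .ofNat (nat_lit 0), .ofNat (nat_lit 0), .ofNat (nat_lit 0), .ofNat (nat_lit 0), .ofNat (nat_lit 0), .ofNat (nat_lit 0), .ofNat (nat_lit 0), .ofNat (nat_lit 0), .ofNat (nat_lit 0), .ofNat (nat_lit 0), .ofNat (nat_lit 0), .ofNat (nat_lit 0), .ofNat (nat_lit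 0), .ofNat (nat_lit 0), .ofNat (nat_lit 0), .ofNat (nat_lit 0), .ofNat (nat_lit 0), .ofNat (nat_lit 0), .ofNat (nat_lit 0), .ofNat (nat_lit 0), .ofNat (nat_lit 648), .negSucc (nat_lit 215), .ofNat (nat_lit 120), .ofNat (nat_lit 48), .negSucc (nat_lit 71), .negSucc (nat_lit 23), .ofNat (nat_lit 0), .ofNat (nat_lit 24), .ofNat (nat_lit 24), .ofNat (nat_lit 0), .ofNat (nat_lit 0), .negSucc (nat_lit 23), .ofNat (nat_lit 0), .ofNat (nat_lit 0), .ofNat (nat_lit 0), .ofNat (nat_lit 0), .ofNat (nat_lit 0), .ofNat (nat_lit 0)],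
  [.ofNat (nat_lit 0), .ofNat (nat_lit 0), .ofNat (nat_lit 0), .ofNat (nat_lit 0), .ofNat (nat_lit 0), .ofNat (nat_lit 0), .ofNat (nat_lit 0), .ofNat (nat_lit 0), .ofNat (nat_lit 0), .ofNat (nat_lit 0), .ofNat (nat_lit 0), .ofNat (nat_lit 0), .ofNat (nat_lit 0), .ofNat (nat_lit 0), .ofNat (nat_lit 0), .ofNat (nat_lit 0), .ofNat (nat_lit 0), .ofNat (nat_lit 0), .ofNat (nat_lit 0), .ofNat (nat_lit 0), .ofNat (nat_lit 0), .ofNat (nat_lit 0), .ofNat (nat_lit 0), .ofNat (nat_lit 0), .ofNat (nat_lit 0), .ofNat (nat_lit 0), .ofNat (nat_lit 0), .ofNat (nat_lit 0), .ofNat (nat_lit 0), .ofNat (nat_lit 0), .ofNat (nat_lit 0), .ofNat (nat_lit 0), .ofNat (nat_lit 0), .ofNat (nat_lit 0), .ofNat (nat_lit 0), .ofNat (nat_lit 0), .ofNat (nat_lit 0), .ofNat (nat_lit 0), .ofNat (nat_lit 0), .ofNat (nat_lit 0), .ofNat (nat_lit 0), .ofNat (nat_lit 0), .ofNat (nat_lit 0), .ofNat (nat_lit 0), .ofNat (nat_lit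 0), .ofNat (nat_lit 0), .ofNat (nat_lit 0), .ofNat (nat_lit 0), .ofNat (nat_lit 0), .ofNat (nat_lit 0), .ofNat (nat_lit 0), .ofNat (nat_lit 0), .ofNat (nat_lit 48), .negSucc (nat_lit 15), .negSucc (nat_lit 15), .ofNat (nat_lit 16), .ofNat (nat_lit 32), .negSucc (nat_lit 7), .ofNat (nat_lit 0), .negSucc (nat_lit 15), .negSucc (nat_lit 7), .ofNat (nat_lit 16), .ofNat (nat_lit 0), .ofNat (nat_lit 16), .negSucc (nat_lit 7), .ofNat (nat_lit 0), .ofNat (nat_lit 0), .ofNat (nat_lit 16), .ofNat (nat_lit 0), .ofNat (nat_lit 0)],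
  [.ofNat (nat_lit 0), .ofNat (nat_lit 0), .ofNat (nat_lit 0), .ofNat (nat_lit 0), .ofNat (nat_lit 0), .ofNat (nat_lit 0), .ofNat (nat_lit 0), .ofNat (nat_lit 0), .ofNat (nat_lit 0), .ofNat (nat_lit 0), .ofNat (nat_lit 0), .ofNat (nat_lit 0), .ofNat (nat_lit 0), .ofNat (nat_lit 0), .ofNat (nat_lit 0), .ofNat (nat_lit 0), .ofNat (nat_lit 0), .ofNat (nat_lit 0), .ofNat (nat_lit 0), .ofNat (nat_lit 0), .ofNat (nat_lit 0), .ofNat (nat_lit 0), .ofNat (nat_lit 0), .ofNat (nat_lit 0), .ofNat (nat_lit 0), .ofNat (nat_lit 0), .ofNat (nat_lit 0), .ofNat (nat_lit 0), .ofNat (nat_lit 0), .ofNat (nat_lit 0), .ofNat (nat_lit 0), .ofNat (nat_lit 0), .ofNat (nat_lit 0), .ofNat (nat_lit 0), .ofNat (nat_lit 0), .ofNat (nat_lit 0), .ofNat (nat_lit 0), .ofNat (nat_lit 0), .ofNat (nat_lit 0), .ofNat (nat_lit 0), .ofNat (nat_lit 0), .ofNat (nat_lit 0), .ofNat (nat_lit 0), .ofNat (nat_lit 0), .ofNat (nat_lit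 0), .ofNat (nat_lit 0), .ofNat (nat_lit 0), .ofNat (nat_lit 0), .ofNat (nat_lit 0), .ofNat (nat_lit 0), .ofNat (nat_lit 0), .ofNat (nat_lit 0), .negSucc (nat_lit 323), .ofNat (nat_lit 108), .ofNat (nat_lit 24), .negSucc (nat_lit 65), .ofNat (nat_lit 0), .negSucc (nat_lit 11), .ofNat (nat_lit 90), .negSucc (nat_lit 11), .ofNat (nat_lit 6), .ofNat (nat_lit 36), .negSucc (nat_lit 29), .ofNat (nat_lit 12), .negSucc (nat_lit 23), .ofNat (nat_lit 6), .ofNat (nat_lit 12), .ofNat (nat_lit 54), .negSucc (nat_lit 5), .ofNat (nat_lit 0)]]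


end Crest.Agent.R163.Ck
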